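import Mathlib

/-!
# Row 98: the analytic linear algebra lemma (AL) of the ending (helper587)

`v g` (`g : G`) and `P n` (`n : N`, `N` countable) are vector functions analytic on `|s| < r0`, real on
the reals.  If `v g (s_j) · t_j` is flat along `s_j → 0`, `s_j ≠ 0`, `t_j → t`, and `P n 0 · t ≠ 0` for
all `n`, then for all real `s` near `0` outside a countable set there is a real `τ` with
`v g s · τ = 0` for all `g` and `P n s · τ ≠ 0` for all `n`.
-/

set_option autoImplicit false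

open Filter Topology Set Metric

namespace Crest.Agent.R98.AL

section Zeros

/-- zeros of an analytic function on a ball which is not identically zero: countable -/
theorem countable_zeros {f : ℂ → ℂ} {r0 : ℝ} (hf : AnalyticOnNhd ℂ f (ball 0 r0))
    {s0 : ℂ} (hs0 : s0 ∈ ball (0 : ℂ) r0) (hne : f s0 ≠ 0) :
    {s : ℂ | s ∈ ball (0 : ℂ) r0 ∧ f s = 0}.Countable := by
  set Z : Set ℂ := {s : ℂ | s ∈ ball (0 : ℂ) r0 ∧ f s = 0} with hZ
  have hpre : IsPreconnected (ball (0 : ℂ) r0) := (convex_ball _ _).isPreconnected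
  have hiso : ∀ z ∈ Z, ({z} : Set ℂ) ∈ 𝓝[Z] z := by
    intro z hz
    rcases (hf z hz.1).eventually_eq_zero_or_eventually_ne_zero with h | h
    · exfalso
      have := hf.eqOn_zero_of_preconnected_of_eventuallyEq_zero hpre hz.1 h
      exact hne (this hs0)
    · rw [eventually_nhdsWithin_iff] at h
      rw [mem_nhdsWithin_iff_eventually]
      filter_upwards [h] with x hx hxZ
      by_contra hne'
      exact hx hne' hxZ.2
  obtain ⟨t, htZ, htc, hcov⟩ := TopologicalSpace.countable_cover_nhdsWithin hiso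
  refine htc.mono fun x hx => ?_
  obtain ⟨y, hy, hxy⟩ := mem_iUnion₂.mp (hcov hx)
  rw [mem_singleton_iff] at hxy
  rwa [hxy]

end Zeros

section Border

variable {κ : Type*}

/-- bordered matrix: rows `M a` (`a < ρ`) and a last row `y`, columns `f b` and `c` -/
def bmat {ρ : ℕ} (M : Fin ρ → κ → ℂ) (f : Fin ρ → κ) (c : κ) (y : κ → ℂ) :
    Matrix (Fin ρ ⊕ Unit) (Fin ρ ⊕ Unit) ℂ :=
  Matrix.of fun i j => (Sum.elim M (fun _ => y) i) (Sum.elim f (fun _ => c) j)

theorem bmat_eq_fromBlocks {ρ : ℕ} (M : Fin ρ → κ → ℂ) (f : Fin ρ → κ) (c : κ) (y : κ → ℂ) :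
    bmat M f c y = Matrix.fromBlocks (Matrix.of fun a b => M a (f b)) (Matrix.of fun a (_ : Unit) => M a c)
      (Matrix.of fun (_ : Unit) b => y (f b)) (Matrix.of fun (_ : Unit) (_ : Unit) => y c) := by
  ext i j
  rcases i with i | i <;> rcases j with j | j <;> rfl

/-- the bordered determinant as a linear functional of the last row -/
noncomputable def bordL {ρ : ℕ} (M : Fin ρ → κ → ℂ) (f : Fin ρ → κ) (c : κ) : (κ → ℂ) →ₗ[ℂ] ℂ :=
  ((Matrix.detRowAlternating (R := ℂ) (n := Fin ρ ⊕ Unit)).toMultilinearMap.toLinearMap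
    (fun i j => (Sum.elim M (fun _ => 0) i) (Sum.elim f (fun _ => c) j)) (Sum.inr ())) ∘ₗ
    (LinearMap.funLeft ℂ ℂ (Sum.elim f (fun _ => c)))

theorem bordL_apply {ρ : ℕ} (M : Fin ρ → κ → ℂ) (f : Fin ρ → κ) (c : κ) (y : κ → ℂ) :
    bordL M f c y = (bmat M f c y).det := by
  unfold bordL
  rw [LinearMap.comp_apply, MultilinearMap.toLinearMap_apply]
  have : (Function.update (fun (i : Fin ρ ⊕ Unit) (j : Fin ρ ⊕ Unit) =>
      (Sum.elim M (fun _ => (0 : κ → ℂ)) i) (Sum.elim f (fun _ => c) j)) (Sum.inr ())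
      (LinearMap.funLeft ℂ ℂ (Sum.elim f (fun _ => c)) y)) = (bmat M f c y) := by
    ext i j
    rcases i with i | i
    · rw [Function.update_of_ne (by simp)]
      rfl
    · rw [show Sum.inr i = (Sum.inr () : Fin ρ ⊕ Unit) from rfl, Function.update_self]
      rfl
  rw [this]
  rfl

/-- Schur complement formula -/
theorem bmat_det_eq {ρ : ℕ} (M : Fin ρ → κ → ℂ) (f : Fin ρ → κ) (c : κ) (y : κ → ℂ)
    (hM : (Matrix.of fun a b => M a (f b) : Matrix (Fin ρ) (Fin ρ) ℂ).det ≠ 0) :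
    (bmat M f c y).det = (Matrix.of fun a b => M a (f b) : Matrix (Fin ρ) (Fin ρ) ℂ).det *
      (y c - ∑ a, (∑ b, y (f b) * (Matrix.of fun a b => M a (f b) : Matrix (Fin ρ) (Fin ρ) ℂ)⁻¹ b a) * M a c) := by
  classical
  set A : Matrix (Fin ρ) (Fin ρ) ℂ := Matrix.of fun a b => M a (f b) with hA
  let _ : Invertible A := A.invertibleOfIsUnitDet (isUnit_iff_ne_zero.mpr hM)
  rw [bmat_eq_fromBlocks, ← hA, Matrix.det_fromBlocks₁₁, Matrix.invOf_eq_nonsing_inv]
  congr 1
  rw [Matrix.det_unique]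
  simp only [Matrix.sub_apply, Matrix.of_apply, Matrix.mul_apply]

end Border

section Main

variable {κ G N : Type*} [Fintype κ] [Countable N]

/-- countable unions of proper subspaces of a real finite dimensional space are proper -/
theorem exists_notMem_iUnion_submodule {K : Type*} [AddCommGroup K] [Module ℝ K] [FiniteDimensional ℝ K]
    {ι : Type*} [Countable ι] (S : ι → Submodule ℝ K) (hS : ∀ i, S i ≠ ⊤) : ∃ x : K, ∀ i, x ∉ S i := by
  classical
  -- transport to `Fin d → ℝ`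
  set d := Module.finrank ℝ K
  let e : K ≃ₗ[ℝ] (Fin d → ℝ) := (Module.finBasis ℝ K).equivFun
  let μ : MeasureTheory.Measure (Fin d → ℝ) := MeasureTheory.volume
  have h0 : ∀ i, μ ((S i).map (e : K →ₗ[ℝ] (Fin d → ℝ)) : Set (Fin d → ℝ)) = 0 := by
    intro i
    apply MeasureTheory.Measure.addHaar_submodule
    intro htop
    apply hS i
    rw [eq_top_iff]
    intro x _
    have hx : e x ∈ (S i).map (e : K →ₗ[ℝ] (Fin d → ℝ)) := by
      rw [htop]; trivial
    obtain ⟨y, hy, hxy⟩ := hx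
    have : y = x := e.injective hxy
    rwa [← this]
  have hU : μ (⋃ i, ((S i).map (e : K →ₗ[ℝ] (Fin d → ℝ)) : Set (Fin d → ℝ))) = 0 :=
    MeasureTheory.measure_iUnion_null h0
  have hne : (⋃ i, ((S i).map (e : K →ₗ[ℝ] (Fin d → ℝ)) : Set (Fin d → ℝ))) ≠ Set.univ := by
    intro h
    rw [h] at hU
    exact (MeasureTheory.Measure.measure_univ_ne_zero.mpr (NeZero.ne μ)) hU
  obtain ⟨x, hx⟩ := (Set.ne_univ_iff_exists_notMem _).mp hne
  refine ⟨e.symm x, fun i hi => hx ?_⟩
  exact mem_iUnion.mpr ⟨i, ⟨e.symm x, hi, by simp⟩⟩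

theorem analyticAt_det {n : Type*} [Fintype n] [DecidableEq n] {A : ℂ → Matrix n n ℂ} {s : ℂ}
    (h : ∀ i j, AnalyticAt ℂ (fun s => A s i j) s) : AnalyticAt ℂ (fun s => (A s).det) s := by
  simp only [Matrix.det_apply']
  exact Finset.analyticAt_fun_sum _ fun σ _ =>
    analyticAt_const.fun_mul (Finset.analyticAt_fun_prod _ fun i _ => h _ _)

theorem analyticAt_adjugate {n : Type*} [Fintype n] [DecidableEq n] {A : ℂ → Matrix n n ℂ} {s : ℂ}
    (h : ∀ i j, AnalyticAt ℂ (fun s => A s i j) s) (i j : n) :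
    AnalyticAt ℂ (fun s => (A s).adjugate i j) s := by
  simp only [Matrix.adjugate_apply]
  refine analyticAt_det fun k l => ?_
  simp only [Matrix.updateRow_apply]
  by_cases hk : k = j
  · simp only [hk, if_true]
    exact analyticAt_const
  · simp only [hk, if_false]
    exact h k l

/-- identities at a point where the maximal minor does not vanish -/
theorem cramer_identity {ρ : ℕ} (M : Fin ρ → κ → ℂ) (f : Fin ρ → κ) (y t : κ → ℂ)
    (hM : (Matrix.of fun a b => M a (f b) : Matrix (Fin ρ) (Fin ρ) ℂ).det ≠ 0)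
    (hy : ∀ c, (bmat M f c y).det = 0) :
    (Matrix.of fun a b => M a (f b) : Matrix (Fin ρ) (Fin ρ) ℂ).det * ∑ i, y i * t i =
      ∑ a, (∑ b, y (f b) * (Matrix.of fun a b => M a (f b) : Matrix (Fin ρ) (Fin ρ) ℂ).adjugate b a) *
        ∑ i, M a i * t i := by
  classical
  set A : Matrix (Fin ρ) (Fin ρ) ℂ := Matrix.of fun a b => M a (f b) with hA
  have h1 : ∀ c, y c = ∑ a, (∑ b, y (f b) * A⁻¹ b a) * M a c := by
    intro c
    have h2 := hy c
    rw [bmat_det_eq M f c y hM, mul_eq_zero] at h2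
    exact sub_eq_zero.mp (h2.resolve_left hM)
  have h3 : ∀ a, A.det * (∑ b, y (f b) * A⁻¹ b a) = ∑ b, y (f b) * A.adjugate b a := by
    intro a
    rw [Finset.mul_sum]
    refine Finset.sum_congr rfl fun b _ => ?_
    rw [Matrix.inv_def, Matrix.smul_apply, smul_eq_mul, Ring.inverse_eq_inv']
    field_simp
  have h4 : ∑ i, y i * t i = ∑ a, (∑ b, y (f b) * A⁻¹ b a) * ∑ i, M a i * t i := by
    calc ∑ i, y i * t i = ∑ i, (∑ a, (∑ b, y (f b) * A⁻¹ b a) * M a i) * t i :=
          Finset.sum_congr rfl fun i _ => by rw [← h1 i]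
      _ = _ := by
          simp only [Finset.sum_mul, Finset.mul_sum]
          rw [Finset.sum_comm]
          refine Finset.sum_congr rfl fun a _ => Finset.sum_congr rfl fun i _ =>
            Finset.sum_congr rfl fun b _ => by ring
  rw [h4, Finset.mul_sum]
  refine Finset.sum_congr rfl fun a _ => ?_
  rw [← h3 a]
  ring

/-- **(AL)** -/
theorem analytic_linear {r0 : ℝ} (hr0 : 0 < r0) (v : G → ℂ → κ → ℂ) (P : N → ℂ → κ → ℂ)
    (hv : ∀ g i, AnalyticOnNhd ℂ (fun s => v g s i) (ball 0 r0))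
    (hvr : ∀ g i (s : ℝ), |s| < r0 → (v g s i).im = 0)
    (hP : ∀ n i, AnalyticOnNhd ℂ (fun s => P n s i) (ball 0 r0))
    (hPr : ∀ n i (s : ℝ), |s| < r0 → (P n s i).im = 0)
    (sj : ℕ → ℂ) (hs0 : Tendsto sj atTop (𝓝 0)) (hsne : ∃ᶠ j in atTop, sj j ≠ 0)
    (tj : ℕ → κ → ℂ) (t : κ → ℝ) (ht : Tendsto tj atTop (𝓝 fun i => (t i : ℂ)))
    (hflat : ∀ g (J : ℕ), ∃ C : ℝ, ∀ᶠ j in atTop, ‖∑ i, v g (sj j) i * tj j i‖ ≤ C * ‖sj j‖ ^ J)
    (hP0 : ∀ n, ∑ i, P n 0 i * (t i : ℂ) ≠ 0) :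
    ∃ Z : Set ℝ, Z.Countable ∧ ∀ s : ℝ, |s| < r0 → s ∉ Z →
      ∃ τ : κ → ℝ, (∀ g, ∑ i, v g s i * (τ i : ℂ) = 0) ∧ ∀ n, ∑ i, P n s i * (τ i : ℂ) ≠ 0 := by
  classical
  have h0mem : (0 : ℂ) ∈ ball (0 : ℂ) r0 := mem_ball_self hr0
  have hpre : IsPreconnected (ball (0 : ℂ) r0) := (convex_ball _ _).isPreconnected
  -- maximal rank
  let NZ : ℕ → Prop := fun ρ => ∃ (a : Fin ρ → G) (f : Fin ρ → κ) (s : ℂ), s ∈ ball (0 : ℂ) r0 ∧
    (Matrix.of fun x y => v (a x) s (f y) : Matrix (Fin ρ) (Fin ρ) ℂ).det ≠ 0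
  have hNZ0 : NZ 0 := ⟨Fin.elim0, Fin.elim0, 0, h0mem, by simp⟩
  have hNZle : ∀ ρ, NZ ρ → ρ ≤ Fintype.card κ := by
    rintro ρ ⟨a, f, s, _, hdet⟩
    have hinj : Function.Injective f := by
      intro i j hij
      by_contra hne
      exact hdet (Matrix.det_zero_of_column_eq hne fun k => by simp [hij])
    simpa using Fintype.card_le_of_injective f hinj
  obtain ⟨ρ, hρ, hρmax⟩ : ∃ ρ, NZ ρ ∧ ¬ NZ (ρ + 1) := by
    by_contra hcon
    push Not at hcon
    have hall : ∀ ρ, NZ ρ := fun ρ => Nat.rec hNZ0 (fun n ih => hcon n ih) ρ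
    have := hNZle _ (hall (Fintype.card κ + 1))
    omega
  obtain ⟨a, f, s0, hs0mem, hdet0⟩ := hρ
  have hmax : ∀ (s : ℂ), s ∈ ball (0 : ℂ) r0 → ∀ (c : κ) (g : G),
      (bmat (fun x => v (a x) s) f c (v g s)).det = 0 := by
    intro s hs c g
    by_contra hne
    apply hρmax
    let e : Fin (ρ + 1) ≃ Fin ρ ⊕ Unit :=
      (finCongr (by simp)).trans (Fintype.equivFin (Fin ρ ⊕ Unit)).symm
    refine ⟨fun x => Sum.elim a (fun _ => g) (e x), fun y => Sum.elim f (fun _ => c) (e y), s, hs, ?_⟩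
    have h1 : (Matrix.of fun x y => v (Sum.elim a (fun _ => g) (e x)) s (Sum.elim f (fun _ => c) (e y)) :
        Matrix (Fin (ρ + 1)) (Fin (ρ + 1)) ℂ) = (bmat (fun x => v (a x) s) f c (v g s)).submatrix e e := by
      ext x y
      simp only [Matrix.of_apply, Matrix.submatrix_apply, bmat]
      rcases e x with i | i <;> rfl
    rw [h1, Matrix.det_submatrix_equiv_self]
    exact hne
  -- analyticity of the bordered determinants
  have hA : ∀ s ∈ ball (0 : ℂ) r0, ∀ x y : Fin ρ, AnalyticAt ℂ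
      (fun s => (Matrix.of fun x y => v (a x) s (f y) : Matrix (Fin ρ) (Fin ρ) ℂ) x y) s :=
    fun s hs x y => hv (a x) (f y) s hs
  have hβan : ∀ (n : N) (c : κ), AnalyticOnNhd ℂ
      (fun s => (bmat (fun x => v (a x) s) f c (P n s)).det) (ball 0 r0) := by
    intro n c s hs
    refine analyticAt_det fun i j => ?_
    rcases i with i | i
    · exact hv (a i) _ s hs
    · exact hP n _ s hs
  -- Step 2
  have hstep : ∀ n : N, ∃ c : κ, ∃ s ∈ ball (0 : ℂ) r0,
      (bmat (fun x => v (a x) s) f c (P n s)).det ≠ 0 := by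
    intro n
    by_contra hcon
    push Not at hcon
    set Δ : ℂ → ℂ := fun s => (Matrix.of fun x y => v (a x) s (f y) : Matrix (Fin ρ) (Fin ρ) ℂ).det with hΔ
    have hΔan : AnalyticOnNhd ℂ Δ (ball 0 r0) := fun s hs => analyticAt_det (hA s hs)
    have hΔne : ¬ ∀ᶠ s in 𝓝 (0 : ℂ), Δ s = 0 := fun h =>
      hdet0 (hΔan.eqOn_zero_of_preconnected_of_eventuallyEq_zero hpre h0mem h hs0mem)
    obtain ⟨n0, g0, hg0, hg00, hg0eq⟩ :=
      ((hΔan 0 h0mem).exists_eventuallyEq_pow_smul_nonzero_iff).mpr hΔne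
    have hg0pos : 0 < ‖g0 0‖ := norm_pos_iff.mpr hg00
    have hlow : ∀ᶠ s in 𝓝 (0 : ℂ), ‖g0 0‖ / 2 * ‖s‖ ^ n0 ≤ ‖Δ s‖ := by
      have h1 : ∀ᶠ s in 𝓝 (0 : ℂ), ‖g0 0‖ / 2 < ‖g0 s‖ :=
        hg0.continuousAt.norm.eventually_const_lt (by linarith)
      filter_upwards [h1, hg0eq] with s h2 h3
      rw [h3, sub_zero, smul_eq_mul, norm_mul, norm_pow, mul_comm]
      exact mul_le_mul_of_nonneg_left h2.le (by positivity)
    -- bounded cofactors
    set Kx : Fin ρ → ℂ → ℂ := fun x s =>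
      ∑ b, P n s (f b) * (Matrix.of fun x y => v (a x) s (f y) : Matrix (Fin ρ) (Fin ρ) ℂ).adjugate b x with hKx
    have hKan : ∀ x, AnalyticAt ℂ (Kx x) 0 := fun x =>
      Finset.analyticAt_fun_sum _ fun b _ => (hP n (f b) 0 h0mem).fun_mul (analyticAt_adjugate (hA 0 h0mem) b x)
    have hKb : ∀ x, ∀ᶠ s in 𝓝 (0 : ℂ), ‖Kx x s‖ ≤ ‖Kx x 0‖ + 1 := fun x => by
      have := (hKan x).continuousAt.norm.eventually_lt_const (show ‖Kx x 0‖ < ‖Kx x 0‖ + 1 by linarith)
      exact this.mono fun s hs => hs.le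
    choose C hC using fun x : Fin ρ => hflat (a x) (n0 + 1)
    -- the limit of `P(s_j)·t_j`
    have hlim : Tendsto (fun j => ∑ i, P n (sj j) i * tj j i) atTop (𝓝 (∑ i, P n 0 i * (t i : ℂ))) := by
      refine tendsto_finsetSum _ fun i _ => ?_
      refine Tendsto.mul ((hP n i 0 h0mem).continuousAt.tendsto.comp hs0) ?_
      exact (tendsto_pi_nhds.mp ht) i
    set ε : ℝ := ‖∑ i, P n 0 i * (t i : ℂ)‖ / 2 with hε
    have hεpos : 0 < ε := half_pos (norm_pos_iff.mpr (hP0 n))
    have hlim2 : ∀ᶠ j in atTop, ε < ‖∑ i, P n (sj j) i * tj j i‖ :=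
      hlim.norm.eventually_const_lt (by rw [hε]; linarith [norm_pos_iff.mpr (hP0 n)])
    set Kt : ℝ := ∑ x : Fin ρ, (‖Kx x 0‖ + 1) * |C x| with hKt
    have hKt0 : 0 ≤ Kt := Finset.sum_nonneg fun x _ => by positivity
    have hsmall : ∀ᶠ j in atTop, Kt * ‖sj j‖ < ‖g0 0‖ / 2 * ε := by
      have h1 : Tendsto (fun j => Kt * ‖sj j‖) atTop (𝓝 (Kt * 0)) := by
        refine Tendsto.const_mul _ ?_
        simpa using hs0.norm
      rw [mul_zero] at h1
      exact h1.eventually_lt_const (by positivity)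
    have hball : ∀ᶠ j in atTop, sj j ∈ ball (0 : ℂ) r0 := hs0.eventually (ball_mem_nhds _ hr0)
    have hCall := eventually_all.mpr hC
    have hKall := hs0.eventually (eventually_all.mpr hKb)
    have hlowj := hs0.eventually hlow
    obtain ⟨j, hjne, hj⟩ := (hsne.and_eventually
      (((((hlim2.and hsmall).and hball).and hCall).and hKall).and hlowj)).exists
    obtain ⟨⟨⟨⟨⟨h1, h2⟩, h3⟩, h4⟩, h5⟩, h6⟩ := hj
    have hnpos : 0 < ‖sj j‖ := norm_pos_iff.mpr hjne
    have hΔpos : 0 < ‖Δ (sj j)‖ := lt_of_lt_of_le (by positivity) h6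
    have hid := cramer_identity (fun x => v (a x) (sj j)) f (P n (sj j)) (tj j)
      (norm_pos_iff.mp hΔpos) (fun c => hcon c (sj j) h3)
    have hle : ‖Δ (sj j)‖ * ‖∑ i, P n (sj j) i * tj j i‖ ≤ Kt * ‖sj j‖ ^ (n0 + 1) := by
      rw [← norm_mul]
      change ‖(Matrix.of fun x y => v (a x) (sj j) (f y) : Matrix (Fin ρ) (Fin ρ) ℂ).det *
        ∑ i, P n (sj j) i * tj j i‖ ≤ _
      rw [hid]
      refine (norm_sum_le _ _).trans ?_
      rw [hKt, Finset.sum_mul]
      refine Finset.sum_le_sum fun x _ => ?_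
      rw [norm_mul]
      calc ‖∑ b, P n (sj j) (f b) * (Matrix.of fun x y => v (a x) (sj j) (f y) :
              Matrix (Fin ρ) (Fin ρ) ℂ).adjugate b x‖ * ‖∑ i, v (a x) (sj j) i * tj j i‖
          ≤ (‖Kx x 0‖ + 1) * (C x * ‖sj j‖ ^ (n0 + 1)) := by
            refine mul_le_mul (h5 x) (h4 x) (norm_nonneg _) (by positivity)
        _ ≤ (‖Kx x 0‖ + 1) * |C x| * ‖sj j‖ ^ (n0 + 1) := by
            rw [mul_assoc]
            refine mul_le_mul_of_nonneg_left ?_ (by positivity)
            exact mul_le_mul_of_nonneg_right (le_abs_self _) (by positivity)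
    have h7 : ‖g0 0‖ / 2 * ‖sj j‖ ^ n0 * ε ≤ Kt * ‖sj j‖ ^ (n0 + 1) :=
      (mul_le_mul h6 h1.le hεpos.le (norm_nonneg _)).trans hle
    have h8 : (‖g0 0‖ / 2 * ε) * ‖sj j‖ ^ n0 ≤ (Kt * ‖sj j‖) * ‖sj j‖ ^ n0 := by
      calc (‖g0 0‖ / 2 * ε) * ‖sj j‖ ^ n0 = ‖g0 0‖ / 2 * ‖sj j‖ ^ n0 * ε := by ring
        _ ≤ Kt * ‖sj j‖ ^ (n0 + 1) := h7
        _ = _ := by ring
    have h9 := le_of_mul_le_mul_right h8 (by positivity)
    linarith
  choose c s1 hs1 hβ using hstep
  -- the countable exceptional set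
  refine ⟨⋃ n, (fun s : ℝ => (s : ℂ)) ⁻¹' {s : ℂ | s ∈ ball (0 : ℂ) r0 ∧
    (bmat (fun x => v (a x) s) f (c n) (P n s)).det = 0}, ?_, ?_⟩
  · refine countable_iUnion fun n => ?_
    exact (countable_zeros (hβan n (c n)) (hs1 n) (hβ n)).preimage Complex.ofReal_injective
  · intro s hs hsZ
    have hsball : (s : ℂ) ∈ ball (0 : ℂ) r0 := by
      rw [mem_ball_zero_iff, Complex.norm_real, Real.norm_eq_abs]
      exact hs
    have hβs : ∀ n, (bmat (fun x => v (a x) (s : ℂ)) f (c n) (P n s)).det ≠ 0 := by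
      intro n h
      exact hsZ (mem_iUnion.mpr ⟨n, hsball, h⟩)
    -- real span
    let toC : (κ → ℝ) →ₗ[ℝ] (κ → ℂ) := LinearMap.pi fun i =>
      (Complex.ofRealCLM : ℝ →L[ℝ] ℂ).toLinearMap ∘ₗ LinearMap.proj i
    have htoC : ∀ (x : κ → ℝ) i, toC x i = (x i : ℂ) := fun x i => rfl
    have hvR : ∀ g, toC (fun i => (v g s i).re) = v g s := by
      intro g
      funext i
      rw [htoC]
      apply Complex.ext
      · simp
      · rw [Complex.ofReal_im, hvr g i s hs]
    have hPR : ∀ n, toC (fun i => (P n s i).re) = P n s := by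
      intro n
      funext i
      rw [htoC]
      apply Complex.ext
      · simp
      · rw [Complex.ofReal_im, hPr n i s hs]
    set VR : Submodule ℝ (κ → ℝ) := Submodule.span ℝ (Set.range fun g => fun i => (v g s i).re) with hVR
    have hnot : ∀ n, (fun i => (P n s i).re) ∉ VR := by
      intro n hn
      set ψ : (κ → ℝ) →ₗ[ℝ] ℂ :=
        ((bordL (fun x => v (a x) (s : ℂ)) f (c n)).restrictScalars ℝ) ∘ₗ toC with hψ
      have hle : VR ≤ LinearMap.ker ψ := by
        rw [hVR, Submodule.span_le]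
        rintro _ ⟨g, rfl⟩
        rw [SetLike.mem_coe, LinearMap.mem_ker, hψ, LinearMap.comp_apply, hvR g]
        rw [LinearMap.restrictScalars_apply, bordL_apply]
        exact hmax s hsball (c n) g
      have h1 := hle hn
      rw [LinearMap.mem_ker, hψ, LinearMap.comp_apply, hPR n, LinearMap.restrictScalars_apply,
        bordL_apply] at h1
      exact hβs n h1
    -- the orthogonal space
    let K : Submodule ℝ (κ → ℝ) :=
      { carrier := {τ | ∀ x ∈ VR, ∑ i, x i * τ i = 0}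
        add_mem' := by
          intro τ τ' h h' x hx
          have := h x hx
          have := h' x hx
          simp only [Pi.add_apply, mul_add, Finset.sum_add_distrib]
          linarith
        zero_mem' := by
          intro x _
          simp
        smul_mem' := by
          intro r τ h x hx
          have h1 := h x hx
          simp only [Pi.smul_apply, smul_eq_mul]
          have : ∑ i, x i * (r * τ i) = r * ∑ i, x i * τ i := by
            rw [Finset.mul_sum]
            exact Finset.sum_congr rfl fun i _ => by ring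
          rw [this, h1, mul_zero] }
    let S : N → Submodule ℝ K := fun n =>
      { carrier := {τ | ∑ i, (P n s i).re * (τ : κ → ℝ) i = 0}
        add_mem' := by
          intro τ τ' h h'
          simp only [mem_ofPred_eq] at h h' ⊢
          simp only [Submodule.coe_add, Pi.add_apply, mul_add, Finset.sum_add_distrib]
          linarith
        zero_mem' := by simp
        smul_mem' := by
          intro r τ h
          simp only [mem_ofPred_eq] at h ⊢
          simp only [Submodule.coe_smul, Pi.smul_apply, smul_eq_mul]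
          have : ∑ i, (P n s i).re * (r * (τ : κ → ℝ) i) = r * ∑ i, (P n s i).re * (τ : κ → ℝ) i := by
            rw [Finset.mul_sum]
            exact Finset.sum_congr rfl fun i _ => by ring
          rw [this, h, mul_zero] }
    have hS : ∀ n, S n ≠ ⊤ := by
      intro n htop
      obtain ⟨φ, hφ1, hφ2⟩ := Submodule.exists_le_ker_of_notMem (hnot n)
      have hφ : ∀ x : κ → ℝ, φ x = ∑ i, x i * φ (Pi.single i 1) := by
        intro x
        conv_lhs => rw [← Finset.univ_sum_single x]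
        rw [map_sum]
        refine Finset.sum_congr rfl fun i _ => ?_
        have : (Pi.single i (x i) : κ → ℝ) = x i • Pi.single i (1 : ℝ) := by
          ext j
          simp [Pi.single_apply]
        rw [this, map_smul, smul_eq_mul]
      set τ : κ → ℝ := fun i => φ (Pi.single i 1) with hτ
      have hτK : τ ∈ K := by
        intro x hx
        rw [← hφ]
        exact hφ2 hx
      have : (⟨τ, hτK⟩ : K) ∈ S n := by rw [htop]; trivial
      apply hφ1
      rw [hφ]
      exact this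
    obtain ⟨τ, hτ⟩ := exists_notMem_iUnion_submodule S hS
    refine ⟨τ, ?_, ?_⟩
    · intro g
      have h1 := τ.2 (fun i => (v g s i).re) (Submodule.subset_span ⟨g, rfl⟩)
      have h2 : ∑ i, v g s i * ((τ : κ → ℝ) i : ℂ) = ((∑ i, (v g s i).re * (τ : κ → ℝ) i : ℝ) : ℂ) := by
        push_cast
        refine Finset.sum_congr rfl fun i _ => ?_
        congr 1
        exact (congrFun (hvR g) i).symm
      rw [h2, h1]
      simp
    · intro n hn
      apply hτ n
      have h2 : ∑ i, P n s i * ((τ : κ → ℝ) i : ℂ) = ((∑ i, (P n s i).re * (τ : κ → ℝ) i : ℝ) : ℂ) := by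
        push_cast
        refine Finset.sum_congr rfl fun i _ => ?_
        congr 1
        exact (congrFun (hPR n) i).symm
      rw [h2] at hn
      exact_mod_cast hn

end Main

end Crest.Agent.R98.AL
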