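import Mathlib

/-!
# Row 98: Borel–Cantelli genericity lemmas (helper587)
-/

set_option autoImplicit false

open MeasureTheory Set Filter Topology
open scoped ENNReal

namespace Crest.Agent.R98

section Slab

variable {E : Type*} [NormedAddCommGroup E] [NormedSpace ℝ E] [MeasurableSpace E] [BorelSpace E]
  (ν : Measure E) [ν.IsAddLeftInvariant]

/-- measure of a slab inside a ball, any translation invariant measure -/
theorem slab_measure_le (ℓ : E →L[ℝ] ℝ) (hℓ : ℓ ≠ 0) (R : ℝ) {ε : ℝ} (hε : 0 < ε) (hε1 : ε ≤ 1 / 8) :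
    ν {t : E | ‖t‖ ≤ R ∧ |ℓ t| < ε * ‖ℓ‖} ≤ ENNReal.ofReal (8 * ε) * ν (Metric.closedBall 0 (R + 1)) := by
  classical
  have hn : 0 < ‖ℓ‖ := norm_pos_iff.mpr hℓ
  obtain ⟨v, hv1, hv2⟩ : ∃ v : E, ‖v‖ ≤ 1 ∧ ‖ℓ‖ / 2 < ℓ v := by
    obtain ⟨v, hv1, hv2⟩ := ℓ.exists_lt_apply_of_lt_opNorm (r := ‖ℓ‖ / 2) (by linarith)
    rcases le_total 0 (ℓ v) with h | h
    · exact ⟨v, hv1.le, by rwa [Real.norm_of_nonneg h] at hv2⟩
    · refine ⟨-v, by rw [norm_neg]; exact hv1.le, ?_⟩
      rw [Real.norm_of_nonpos h] at hv2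
      simpa using hv2
  set S : Set E := {t : E | ‖t‖ ≤ R ∧ |ℓ t| < ε * ‖ℓ‖} with hS
  have hSm : MeasurableSet S := by
    have hc1 : IsClosed {t : E | ‖t‖ ≤ R} := isClosed_le continuous_norm continuous_const
    have hc2 : IsOpen {t : E | |ℓ t| < ε * ‖ℓ‖} := isOpen_lt ℓ.continuous.abs continuous_const
    exact hc1.measurableSet.inter hc2.measurableSet
  set K : ℕ := ⌊1 / (4 * ε)⌋₊ with hK
  have hK1 : (K : ℝ) ≤ 1 / (4 * ε) := Nat.floor_le (by positivity)
  have hK2 : 1 / (8 * ε) ≤ (K : ℝ) := by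
    have h1 : 1 / (4 * ε) < (K : ℝ) + 1 := Nat.lt_floor_add_one _
    have h2 : (1 : ℝ) ≤ 1 / (8 * ε) := by
      rw [le_div_iff₀ (by positivity)]
      linarith
    have h3 : 1 / (4 * ε) = 2 * (1 / (8 * ε)) := by
      field_simp
      norm_num
    linarith
  -- translates
  set T : ℕ → Set E := fun k => (fun t => (4 * (k : ℝ) * ε) • v + t) '' S with hT
  have hTm : ∀ k, MeasurableSet (T k) := fun k =>
    (MeasurableEquiv.addLeft ((4 * (k : ℝ) * ε) • v)).measurableSet_image.mpr hSm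
  have hTν : ∀ k, ν (T k) = ν S := fun k => by
    have : T k = (fun t => (-((4 * (k : ℝ) * ε) • v)) + t) ⁻¹' S := by
      ext x
      simp only [hT, mem_image, mem_preimage]
      constructor
      · rintro ⟨t, ht, rfl⟩
        simpa using ht
      · intro h
        exact ⟨_, h, by simp⟩
    rw [this, measure_preimage_add]
  have hsub : (⋃ k ∈ Finset.range K, T k) ⊆ Metric.closedBall 0 (R + 1) := by
    intro x hx
    simp only [mem_iUnion, Finset.mem_range, hT, mem_image] at hx
    obtain ⟨k, hk, t, ht, rfl⟩ := hx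
    rw [mem_closedBall_zero_iff]
    have h1 : ‖(4 * (k : ℝ) * ε) • v‖ ≤ 1 := by
      rw [norm_smul, Real.norm_of_nonneg (by positivity)]
      have hk' : (k : ℝ) ≤ 1 / (4 * ε) := by
        have : (k : ℝ) ≤ K := by exact_mod_cast hk.le
        linarith
      have h2 : 4 * (k : ℝ) * ε ≤ 1 := by
        rw [le_div_iff₀ (by positivity)] at hk'
        linarith
      calc 4 * (k : ℝ) * ε * ‖v‖ ≤ 1 * 1 := mul_le_mul h2 hv1 (norm_nonneg _) zero_le_one
        _ = 1 := one_mul 1
    have := norm_add_le ((4 * (k : ℝ) * ε) • v) t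
    have := ht.1
    linarith
  have hdisj : (↑(Finset.range K) : Set ℕ).PairwiseDisjoint T := by
    intro i _ j _ hij
    rw [Function.onFun, Set.disjoint_left]
    rintro x ⟨a, ha, hax⟩ ⟨b, hb, hbx⟩
    have h1 : (4 * (i : ℝ) * ε) * ℓ v + ℓ a = (4 * (j : ℝ) * ε) * ℓ v + ℓ b := by
      have h := congrArg ℓ (hax.trans hbx.symm)
      simpa using h
    have ha' := abs_lt.mp ha.2
    have hb' := abs_lt.mp hb.2
    have key : ∀ p q : ℕ, p < q → ∀ α β : ℝ, (4 * (p : ℝ) * ε) * ℓ v + α = (4 * (q : ℝ) * ε) * ℓ v + β →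
        α < ε * ‖ℓ‖ → -(ε * ‖ℓ‖) < β → False := by
      intro p q hpq α β h hα hβ
      have hpq' : (p : ℝ) + 1 ≤ q := by exact_mod_cast hpq
      have h5 : 0 < ε * ℓ v := mul_pos hε (by linarith)
      have h6 : ε * ‖ℓ‖ < 2 * (ε * ℓ v) := by nlinarith
      nlinarith
    rcases lt_or_gt_of_ne hij with h | h
    · exact key i j h _ _ h1 ha'.2 hb'.1
    · exact key j i h _ _ h1.symm hb'.2 ha'.1
  have hmain : (K : ℝ≥0∞) * ν S ≤ ν (Metric.closedBall 0 (R + 1)) := by
    calc (K : ℝ≥0∞) * ν S = ∑ k ∈ Finset.range K, ν (T k) := by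
          simp [hTν]
      _ = ν (⋃ k ∈ Finset.range K, T k) :=
          (measure_biUnion_finset hdisj fun k _ => hTm k).symm
      _ ≤ _ := measure_mono hsub
  have hK3 : (1 : ℝ≥0∞) ≤ ENNReal.ofReal (8 * ε) * (K : ℝ≥0∞) := by
    have h8 : (1 : ℝ) ≤ 8 * ε * K := by
      rw [div_le_iff₀ (by positivity)] at hK2
      linarith
    rw [← ENNReal.ofReal_natCast, ← ENNReal.ofReal_mul (by positivity), ← ENNReal.ofReal_one]
    exact ENNReal.ofReal_le_ofReal h8
  calc ν S = 1 * ν S := (one_mul _).symm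
    _ ≤ (ENNReal.ofReal (8 * ε) * (K : ℝ≥0∞)) * ν S := by gcongr
    _ = ENNReal.ofReal (8 * ε) * ((K : ℝ≥0∞) * ν S) := by rw [mul_assoc]
    _ ≤ _ := by gcongr

end Slab

section BCLin

variable {E : Type*} [NormedAddCommGroup E] [NormedSpace ℝ E] [MeasurableSpace E] [BorelSpace E]
  [ProperSpace E] (ν : Measure E) [ν.IsAddLeftInvariant] [IsFiniteMeasureOnCompacts ν]

/-- for almost every `t`, all functionals of the `m`-th list (at most `e^(C m)` of them) are bounded
below by `e^(-(C+1) m) ‖ℓ‖` at `t`, for all large `m` -/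
theorem ae_linear_lower (L : ℕ → Finset (E →L[ℝ] ℝ)) {C : ℝ}
    (hcard : ∀ᶠ m : ℕ in atTop, ((L m).card : ℝ) ≤ Real.exp (C * m)) :
    ∀ᵐ t ∂ν, ∀ᶠ m : ℕ in atTop, ∀ ℓ ∈ L m, Real.exp (-((C + 1) * m)) * ‖ℓ‖ ≤ |ℓ t| := by
  classical
  -- it is enough to treat each ball
  have hball : ∀ R : ℕ, ∀ᵐ t ∂ν, ‖t‖ ≤ R → ∀ᶠ m : ℕ in atTop, ∀ ℓ ∈ L m,
      Real.exp (-((C + 1) * m)) * ‖ℓ‖ ≤ |ℓ t| := by
    intro R
    set B : ℕ → Set E := fun m => ⋃ ℓ ∈ (L m).filter (fun ℓ => ℓ ≠ 0),
      {t : E | ‖t‖ ≤ R ∧ |ℓ t| < Real.exp (-((C + 1) * m)) * ‖ℓ‖} with hB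
    obtain ⟨m0, hm0⟩ := eventually_atTop.mp hcard
    set V : ℝ≥0∞ := ν (Metric.closedBall 0 ((R : ℝ) + 1)) with hV
    have hVfin : V ≠ ⊤ := (isCompact_closedBall _ _).measure_lt_top.ne
    obtain ⟨m1, hm1⟩ : ∃ m1 : ℕ, ∀ m ≥ m1, Real.exp (-((C + 1) * m)) ≤ 1 / 8 ∨ (L m).filter (fun ℓ => ℓ ≠ 0) = ∅ := by
      by_cases hC : 0 ≤ C
      · refine ⟨3, fun m hm => Or.inl ?_⟩
        have h3 : (3 : ℝ) ≤ m := by exact_mod_cast hm
        have h4 : Real.exp (-((C + 1) * m)) ≤ Real.exp (-3) := by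
          apply Real.exp_le_exp.mpr
          nlinarith
        have h5 : Real.exp (-3) ≤ 1 / 8 := by
          rw [Real.exp_neg, one_div]
          apply inv_anti₀ (by norm_num)
          have : (2 : ℝ) ≤ Real.exp 1 := by
            have := Real.add_one_le_exp (1 : ℝ)
            linarith
          calc (8 : ℝ) = 2 ^ 3 := by norm_num
            _ ≤ Real.exp 1 ^ 3 := by gcongr
            _ = Real.exp 3 := by rw [← Real.exp_nat_mul]; norm_num
        linarith
      · push Not at hC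
        -- the lists are eventually empty
        refine ⟨max m0 1, fun m hm => Or.inr ?_⟩
        have hm' := hm0 m (le_trans (le_max_left _ _) hm)
        have h1 : (1 : ℝ) ≤ m := by exact_mod_cast le_trans (le_max_right _ _) hm
        have h2 : Real.exp (C * m) < 1 := by
          rw [Real.exp_lt_one_iff]
          exact mul_neg_of_neg_of_pos hC (by linarith)
        have h3 : (L m).card = 0 := by
          have : ((L m).card : ℝ) < 1 := lt_of_le_of_lt hm' h2
          exact_mod_cast Nat.lt_one_iff.mp (by exact_mod_cast this)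
        rw [Finset.card_eq_zero] at h3
        rw [h3]
        simp
    have hBle : ∀ m ≥ max m0 m1, ν (B m) ≤ ENNReal.ofReal (8 * Real.exp (-(m : ℝ))) * V := by
      intro m hm
      rcases hm1 m (le_trans (le_max_right _ _) hm) with h8 | h8
      · calc ν (B m) ≤ ∑ ℓ ∈ (L m).filter (fun ℓ => ℓ ≠ 0),
              ν {t : E | ‖t‖ ≤ R ∧ |ℓ t| < Real.exp (-((C + 1) * m)) * ‖ℓ‖} :=
            measure_biUnion_finset_le _ _
          _ ≤ ∑ ℓ ∈ (L m).filter (fun ℓ => ℓ ≠ 0), ENNReal.ofReal (8 * Real.exp (-((C + 1) * m))) * V := by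
            apply Finset.sum_le_sum
            intro ℓ hℓ
            exact slab_measure_le ν ℓ (Finset.mem_filter.mp hℓ).2 _ (Real.exp_pos _) h8
          _ = (((L m).filter (fun ℓ => ℓ ≠ 0)).card : ℝ≥0∞) *
                (ENNReal.ofReal (8 * Real.exp (-((C + 1) * m))) * V) := by
            simp
          _ ≤ ENNReal.ofReal (Real.exp (C * m)) * (ENNReal.ofReal (8 * Real.exp (-((C + 1) * m))) * V) := by
            gcongr
            rw [← ENNReal.ofReal_natCast]
            apply ENNReal.ofReal_le_ofReal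
            refine le_trans ?_ (hm0 m (le_trans (le_max_left _ _) hm))
            exact_mod_cast Finset.card_filter_le _ _
          _ = ENNReal.ofReal (8 * Real.exp (-(m : ℝ))) * V := by
            rw [← mul_assoc, ← ENNReal.ofReal_mul (Real.exp_pos _).le]
            congr 2
            rw [mul_left_comm, ← Real.exp_add]
            congr 2
            ring
      · have : B m = ∅ := by
          simp only [hB, h8]
          simp
        rw [this]
        simp
    have hsum : ∑' m : ℕ, ν (B (m + max m0 m1)) ≠ ⊤ := by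
      have h1 : ∑' m : ℕ, ν (B (m + max m0 m1)) ≤
          ∑' m : ℕ, ENNReal.ofReal (8 * Real.exp (-((m + max m0 m1 : ℕ) : ℝ))) * V :=
        ENNReal.tsum_le_tsum fun m => hBle _ (Nat.le_add_left _ _)
      have h2 : Summable fun m : ℕ => 8 * Real.exp (-((m + max m0 m1 : ℕ) : ℝ)) := by
        apply Summable.mul_left
        have := (summable_nat_add_iff (max m0 m1)).mpr (Real.summable_exp_neg_nat)
        exact this
      refine ne_top_of_le_ne_top ?_ h1
      rw [ENNReal.tsum_mul_right]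
      refine ENNReal.mul_ne_top ?_ hVfin
      rw [← ENNReal.ofReal_tsum_of_nonneg (fun m => by positivity) h2]
      exact ENNReal.ofReal_ne_top
    have hae := ae_eventually_notMem hsum
    filter_upwards [hae] with t ht htR
    have ht2 : ∀ᶠ m : ℕ in atTop, t ∉ B m := by
      rw [eventually_atTop] at ht ⊢
      obtain ⟨a, ha⟩ := ht
      refine ⟨a + max m0 m1, fun m hm => ?_⟩
      have := ha (m - max m0 m1) (by omega)
      rwa [Nat.sub_add_cancel (by omega)] at this
    filter_upwards [ht2] with m hm ℓ hℓ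
    by_contra hcon
    push Not at hcon
    apply hm
    have hℓ0 : ℓ ≠ 0 := by
      rintro rfl
      simp at hcon
    simp only [hB, mem_iUnion]
    exact ⟨ℓ, Finset.mem_filter.mpr ⟨hℓ, hℓ0⟩, htR, hcon⟩
  rw [← ae_all_iff] at hball
  filter_upwards [hball] with t ht
  obtain ⟨R, hR⟩ := exists_nat_ge ‖t‖
  exact ht R hR

end BCLin

section BCPoint

/-- for almost every `s`, the `m`-th list of candidates (at most `e^(C m)` of them) stays at distance
`≥ e^(-(C+1) m)` from `s`, for all large `m` -/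
theorem ae_point_away (A : ℕ → Finset ℝ) {C : ℝ}
    (hcard : ∀ᶠ m : ℕ in atTop, ((A m).card : ℝ) ≤ Real.exp (C * m)) :
    ∀ᵐ s : ℝ, ∀ᶠ m : ℕ in atTop, ∀ a ∈ A m, Real.exp (-((C + 1) * m)) ≤ |s - a| := by
  classical
  set B : ℕ → Set ℝ := fun m => ⋃ a ∈ A m, {s : ℝ | |s - a| < Real.exp (-((C + 1) * m))} with hB
  obtain ⟨m0, hm0⟩ := eventually_atTop.mp hcard
  have hBle : ∀ m ≥ m0, volume (B m) ≤ ENNReal.ofReal (2 * Real.exp (-(m : ℝ))) := by
    intro m hm
    calc volume (B m) ≤ ∑ a ∈ A m, volume {s : ℝ | |s - a| < Real.exp (-((C + 1) * m))} :=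
          measure_biUnion_finset_le _ _
      _ = ∑ a ∈ A m, ENNReal.ofReal (2 * Real.exp (-((C + 1) * m))) := by
          refine Finset.sum_congr rfl fun a _ => ?_
          have : {s : ℝ | |s - a| < Real.exp (-((C + 1) * m))} = Metric.ball a (Real.exp (-((C + 1) * m))) := by
            ext s
            simp [Real.dist_eq]
          rw [this, Real.volume_ball]
      _ = ((A m).card : ℝ≥0∞) * ENNReal.ofReal (2 * Real.exp (-((C + 1) * m))) := by simp
      _ ≤ ENNReal.ofReal (Real.exp (C * m)) * ENNReal.ofReal (2 * Real.exp (-((C + 1) * m))) := by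
          gcongr
          rw [← ENNReal.ofReal_natCast]
          exact ENNReal.ofReal_le_ofReal (hm0 m hm)
      _ = ENNReal.ofReal (2 * Real.exp (-(m : ℝ))) := by
          rw [← ENNReal.ofReal_mul (Real.exp_pos _).le]
          congr 1
          rw [mul_left_comm, ← Real.exp_add]
          congr 2
          ring
  have hsum : ∑' m : ℕ, volume (B (m + m0)) ≠ ⊤ := by
    have h1 : ∑' m : ℕ, volume (B (m + m0)) ≤
        ∑' m : ℕ, ENNReal.ofReal (2 * Real.exp (-((m + m0 : ℕ) : ℝ))) :=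
      ENNReal.tsum_le_tsum fun m => hBle _ (Nat.le_add_left _ _)
    have h2 : Summable fun m : ℕ => 2 * Real.exp (-((m + m0 : ℕ) : ℝ)) :=
      Summable.mul_left _ ((summable_nat_add_iff m0).mpr Real.summable_exp_neg_nat)
    refine ne_top_of_le_ne_top ?_ h1
    rw [← ENNReal.ofReal_tsum_of_nonneg (fun m => by positivity) h2]
    exact ENNReal.ofReal_ne_top
  have hae := ae_eventually_notMem hsum
  filter_upwards [hae] with s hs
  have hs2 : ∀ᶠ m : ℕ in atTop, s ∉ B m := by
    rw [eventually_atTop] at hs ⊢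
    obtain ⟨a, ha⟩ := hs
    refine ⟨a + m0, fun m hm => ?_⟩
    have := ha (m - m0) (by omega)
    rwa [Nat.sub_add_cancel (by omega)] at this
  filter_upwards [hs2] with m hm a ha
  by_contra hcon
  push Not at hcon
  apply hm
  simp only [hB, mem_iUnion]
  exact ⟨a, ha, hcon⟩

/-- power version: `λ ^ s` stays away from the candidates, locally uniformly in `s` -/
theorem ae_rpow_away {lam : ℝ} (h0 : 0 < lam) (h1 : lam < 1) (A : ℕ → Finset ℝ) {C : ℝ}
    (hcard : ∀ᶠ m : ℕ in atTop, ((A m).card : ℝ) ≤ Real.exp (C * m)) :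
    ∀ᵐ s : ℝ, ∀ᶠ m : ℕ in atTop, ∀ a ∈ A m, Real.exp (-((C + 2) * m)) ≤ |lam ^ s - a| := by
  classical
  -- candidates in the `s` variable
  have hA' : ∀ᶠ m : ℕ in atTop,
      ((((A m).image fun a => Real.log a / Real.log lam).card : ℕ) : ℝ) ≤ Real.exp (C * m) := by
    filter_upwards [hcard] with m hm
    refine le_trans ?_ hm
    exact_mod_cast Finset.card_image_le
  have hlog : Real.log lam < 0 := Real.log_neg h0 h1
  filter_upwards [ae_point_away _ hA'] with s hs
  -- eventually `e^(-(C+2)m)` is small compared with everything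
  have hpos : 0 < lam ^ s := Real.rpow_pos_of_pos h0 s
  have hk : ∀ᶠ m : ℕ in atTop, Real.exp (-(m : ℝ)) ≤ min 1 (|Real.log lam| * lam ^ s / 2) := by
    have ht : Tendsto (fun m : ℕ => Real.exp (-(m : ℝ))) atTop (𝓝 0) :=
      Real.tendsto_exp_neg_atTop_nhds_zero.comp tendsto_natCast_atTop_atTop
    have habs : 0 < |Real.log lam| := abs_pos.mpr hlog.ne
    have hmin : 0 < min 1 (|Real.log lam| * lam ^ s / 2) := by positivity
    exact (ht.eventually_lt_const hmin).mono (fun m hm => le_of_lt hm)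
  have hk2 : ∀ᶠ m : ℕ in atTop, (A m).Nonempty → Real.exp (-((C + 2) * m)) < lam ^ s / 2 := by
    have ht : Tendsto (fun m : ℕ => Real.exp (-(m : ℝ))) atTop (𝓝 0) :=
      Real.tendsto_exp_neg_atTop_nhds_zero.comp tendsto_natCast_atTop_atTop
    filter_upwards [ht.eventually_lt_const (half_pos hpos), hcard] with m hm hc hne
    have h1 : (1 : ℝ) ≤ Real.exp (C * m) := by
      refine le_trans ?_ hc
      exact_mod_cast hne.card_pos
    have h2 : 0 ≤ C * m := by
      by_contra hcon
      push Not at hcon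
      have := Real.exp_lt_one_iff.mpr hcon
      linarith
    calc Real.exp (-((C + 2) * m)) ≤ Real.exp (-(m : ℝ)) := by
          apply Real.exp_le_exp.mpr
          have : (0 : ℝ) ≤ m := Nat.cast_nonneg m
          nlinarith
      _ < _ := hm
  filter_upwards [hs, hk, hk2] with m hm hkm hk2m a ha
  by_contra hcon
  push Not at hcon
  have hsmall := hk2m ⟨a, ha⟩
  have hab := abs_lt.mp hcon
  -- `a > 0`
  have ha0 : lam ^ s / 2 < a := by linarith [hab.2]
  have ha0' : 0 < a := lt_trans (by positivity) ha0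
  have hm' := hm (Real.log a / Real.log lam) (Finset.mem_image_of_mem _ ha)
  -- `|log a - s log lam| ≤ 2 |λ^s - a| / λ^s`
  have hlg : |Real.log (lam ^ s) - Real.log a| ≤ |lam ^ s - a| / (lam ^ s / 2) := by
    rcases le_total a (lam ^ s) with h | h
    · rw [abs_of_nonneg (sub_nonneg.mpr (Real.log_le_log ha0' h)), abs_of_nonneg (sub_nonneg.mpr h),
        ← Real.log_div hpos.ne' ha0'.ne']
      have h4 := Real.log_le_sub_one_of_pos (div_pos hpos ha0')
      refine h4.trans ?_
      rw [div_sub_one ha0'.ne']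
      exact div_le_div_of_nonneg_left (sub_nonneg.mpr h) (by positivity) ha0.le
    · rw [abs_sub_comm, abs_of_nonneg (sub_nonneg.mpr (Real.log_le_log hpos h)), abs_sub_comm,
        abs_of_nonneg (sub_nonneg.mpr h), ← Real.log_div ha0'.ne' hpos.ne']
      have h4 := Real.log_le_sub_one_of_pos (div_pos ha0' hpos)
      refine h4.trans ?_
      rw [div_sub_one hpos.ne']
      exact div_le_div_of_nonneg_left (sub_nonneg.mpr h) (by positivity) (by linarith)
  have hlam : Real.log (lam ^ s) = s * Real.log lam := Real.log_rpow h0 s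
  have heq : |s - Real.log a / Real.log lam| * |Real.log lam| = |Real.log (lam ^ s) - Real.log a| := by
    rw [← abs_mul, sub_mul, div_mul_cancel₀ _ hlog.ne, hlam]
  have habs : 0 < |Real.log lam| := abs_pos.mpr hlog.ne
  have h7 : Real.exp (-((C + 1) * m)) * |Real.log lam| ≤ |lam ^ s - a| / (lam ^ s / 2) := by
    refine le_trans ?_ hlg
    rw [← heq]
    exact mul_le_mul_of_nonneg_right hm' habs.le
  rw [le_div_iff₀ (by positivity)] at h7
  have h8 : Real.exp (-((C + 2) * m)) = Real.exp (-((C + 1) * m)) * Real.exp (-(m : ℝ)) := by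
    rw [← Real.exp_add]
    congr 1
    ring
  have h9 : Real.exp (-(m : ℝ)) ≤ |Real.log lam| * lam ^ s / 2 := hkm.trans (min_le_right _ _)
  have h10 : Real.exp (-((C + 1) * m)) * Real.exp (-(m : ℝ)) ≤
      Real.exp (-((C + 1) * m)) * (|Real.log lam| * lam ^ s / 2) :=
    mul_le_mul_of_nonneg_left h9 (Real.exp_pos _).le
  rw [h8] at hcon
  nlinarith

end BCPoint

end Crest.Agent.R98
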