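import Crest.Agent.R98.DimLower

/-!
Row 98, dimension part: lower bound for `lowerHausdorffDim` from the dyadic entropy.
-/

set_option autoImplicit false
open MeasureTheory Crest.AnalysisR Set Filter Topology
open scoped ENNReal NNReal

namespace Crest.Agent.R98

/-- Mass distribution principle along dyadic levels `n₀ (j+1)`. -/
theorem mass_distribution {μ : Measure ℝ} [IsProbabilityMeasure μ] {n₀ N : ℕ} (hn₀ : 0 < n₀)
    {s : ℝ} (hs : 0 < s) {S : Set ℝ} (hSm : MeasurableSet S) (hS : μ S ≠ 0)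
    (h : ∀ x ∈ S, ∀ j : ℕ, N ≤ j →
      μ (cell (n₀ * (j + 1)) (fl (n₀ * (j + 1)) x)) ≤ ENNReal.ofReal (((2:ℝ) ^ (n₀ * (j + 1)))⁻¹ ^ s)) :
    ENNReal.ofReal s ≤ dimH S := by
  classical
  -- basic estimate
  have hbasic : ∀ U : Set ℝ, ∀ j : ℕ, N ≤ j →
      Metric.ediam U ≤ ENNReal.ofReal (((2:ℝ) ^ (n₀ * (j + 1)))⁻¹) →
      μ (U ∩ S) ≤ 3 * ENNReal.ofReal (((2:ℝ) ^ (n₀ * (j + 1)))⁻¹ ^ s) := by
    intro U j hj hU
    set n := n₀ * (j + 1) with hn
    have h2n : (0:ℝ) < 2 ^ n := by positivity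
    rcases (U ∩ S).eq_empty_or_nonempty with he | ⟨x, hxU, hxS⟩
    · rw [he, measure_empty]; exact zero_le
    · have hcov : U ∩ S ⊆ ⋃ k ∈ Finset.Icc (fl n x - 1) (fl n x + 1), (S ∩ cell n k) := by
        rintro y ⟨hyU, hyS⟩
        have h1 : edist y x ≤ ENNReal.ofReal (((2:ℝ) ^ n)⁻¹) :=
          (Metric.edist_le_ediam_of_mem hyU hxU).trans hU
        have h2 : |y - x| ≤ ((2:ℝ) ^ n)⁻¹ := by
          rw [edist_dist, ENNReal.ofReal_le_ofReal_iff (by positivity), Real.dist_eq] at h1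
          exact h1
        have h3 : |(2:ℝ) ^ n * y - 2 ^ n * x| ≤ (1:ℕ) := by
          rw [← mul_sub, abs_mul, abs_of_pos h2n]
          calc (2:ℝ) ^ n * |y - x| ≤ 2 ^ n * (2 ^ n)⁻¹ := by gcongr
            _ = ((1:ℕ):ℝ) := by rw [mul_inv_cancel₀ h2n.ne']; simp
        have h4 := floor_mem_Icc_of_abs_sub_le h3
        simp only [mem_iUnion]
        exact ⟨fl n y, h4, hyS, rfl⟩
      calc μ (U ∩ S) ≤ μ (⋃ k ∈ Finset.Icc (fl n x - 1) (fl n x + 1), (S ∩ cell n k)) :=
            measure_mono hcov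
        _ ≤ ∑ k ∈ Finset.Icc (fl n x - 1) (fl n x + 1), μ (S ∩ cell n k) :=
            measure_biUnion_finset_le _ _
        _ ≤ ∑ _k ∈ Finset.Icc (fl n x - 1) (fl n x + 1), ENNReal.ofReal (((2:ℝ) ^ n)⁻¹ ^ s) := by
            refine Finset.sum_le_sum fun k _ => ?_
            rcases (S ∩ cell n k).eq_empty_or_nonempty with he | ⟨z, hzS, hzk⟩
            · rw [he, measure_empty]; exact zero_le
            · have h5 := h z hzS j hj
              have h6 : fl n z = k := hzk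
              rw [← hn, h6] at h5
              exact (measure_mono inter_subset_right).trans h5
        _ ≤ 3 * ENNReal.ofReal (((2:ℝ) ^ n)⁻¹ ^ s) := by
            rw [Finset.sum_const, nsmul_eq_mul]
            gcongr
            have := card_Icc_symm (fl n x) 1
            push_cast at this
            exact_mod_cast this
  -- the constant
  set Cst : ℝ := 3 * ((2:ℝ) ^ n₀) ^ s with hCst
  have hCpos : 0 < Cst := by positivity
  have hfin : ∀ U : Set ℝ, Metric.ediam U ≤ ENNReal.ofReal (((2:ℝ) ^ (n₀ * (N + 1)))⁻¹) →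
      μ (U ∩ S) ≤ ENNReal.ofReal Cst * Metric.ediam U ^ s := by
    intro U hU
    rcases eq_or_ne (Metric.ediam U) 0 with h0 | h0
    · -- null diameter
      have h1 : ∀ j : ℕ, N ≤ j → μ (U ∩ S) ≤ 3 * ENNReal.ofReal (((2:ℝ) ^ (n₀ * (j + 1)))⁻¹ ^ s) :=
        fun j hj => hbasic U j hj (by rw [h0]; exact zero_le)
      have ht : Tendsto (fun j : ℕ => 3 * ENNReal.ofReal (((2:ℝ) ^ (n₀ * (j + 1)))⁻¹ ^ s)) atTop
          (𝓝 (3 * ENNReal.ofReal (0 ^ s))) := by
        apply ENNReal.Tendsto.const_mul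
        · apply ENNReal.tendsto_ofReal
          have h2 : Tendsto (fun j : ℕ => ((2:ℝ) ^ (n₀ * (j + 1)))⁻¹) atTop (𝓝 0) := by
            have h3 : Tendsto (fun j : ℕ => ((1/2:ℝ)) ^ (n₀ * (j + 1))) atTop (𝓝 0) := by
              apply (tendsto_pow_atTop_nhds_zero_of_lt_one (by norm_num) (by norm_num)).comp
              apply tendsto_atTop_mono (f := fun j : ℕ => j)
              · intro j; nlinarith
              · exact tendsto_id
            refine h3.congr fun j => ?_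
            rw [one_div, inv_pow]
          exact (Real.continuous_rpow_const hs.le).continuousAt.tendsto.comp h2
        · right; norm_num
      rw [Real.zero_rpow hs.ne', ENNReal.ofReal_zero, mul_zero] at ht
      have : μ (U ∩ S) ≤ 0 := ge_of_tendsto ht (by
        filter_upwards [eventually_ge_atTop N] with j hj using h1 j hj)
      exact this.trans zero_le
    · have hne : Metric.ediam U ≠ ∞ := (hU.trans_lt ENNReal.ofReal_lt_top).ne
      set d := (Metric.ediam U).toReal with hd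
      have hd0 : 0 < d := ENNReal.toReal_pos h0 hne
      have hdU : Metric.ediam U = ENNReal.ofReal d := (ENNReal.ofReal_toReal hne).symm
      have hdle : d ≤ ((2:ℝ) ^ (n₀ * (N + 1)))⁻¹ := by
        rw [hdU] at hU
        exact (ENNReal.ofReal_le_ofReal_iff (by positivity)).1 hU
      set y : ℝ := ((2:ℝ) ^ n₀)⁻¹ with hy
      have hy0 : 0 < y := by positivity
      have hy1 : y < 1 := inv_lt_one_of_one_lt₀ (one_lt_pow₀ one_lt_two hn₀.ne')
      have hyp : ∀ j : ℕ, ((2:ℝ) ^ (n₀ * (j + 1)))⁻¹ = y ^ (j + 1) := by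
        intro j; rw [hy, inv_pow, ← pow_mul]
      rw [hyp] at hdle
      have hd1 : d ≤ 1 := hdle.trans (pow_le_one₀ hy0.le hy1.le)
      obtain ⟨i, hi1, hi2⟩ := exists_nat_pow_near_of_lt_one hd0 hd1 hy0 hy1
      have hiN : N + 1 ≤ i := by
        have : y ^ (i + 1) < y ^ (N + 1) := hi1.trans_le hdle
        have := (pow_lt_pow_iff_right_of_lt_one₀ hy0 hy1).1 this
        omega
      obtain ⟨j, rfl⟩ : ∃ j, i = j + 1 := ⟨i - 1, by omega⟩
      have hj : N ≤ j := by omega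
      have h1 := hbasic U j hj (by rw [hyp, hdU]; exact ENNReal.ofReal_le_ofReal hi2)
      rw [hyp] at h1
      refine h1.trans ?_
      rw [hdU, ENNReal.ofReal_rpow_of_nonneg hd0.le hs.le, ← ENNReal.ofReal_mul hCpos.le,
        show (3:ℝ≥0∞) = ENNReal.ofReal 3 by simp, ← ENNReal.ofReal_mul (by norm_num)]
      apply ENNReal.ofReal_le_ofReal
      have h2 : (y ^ (j + 1)) ^ s ≤ ((2:ℝ) ^ n₀) ^ s * d ^ s := by
        rw [← Real.mul_rpow (by positivity) hd0.le]
        apply Real.rpow_le_rpow (by positivity) _ hs.le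
        have h3 : y ^ (j + 1) = 2 ^ n₀ * y ^ (j + 1 + 1) := by
          rw [pow_succ y (j+1), hy]; field_simp
        rw [h3]
        gcongr
      rw [hCst]; nlinarith
  -- conclude
  have hle : (ENNReal.ofReal Cst)⁻¹ • (μ.restrict S) ≤ μH[s] := by
    apply Measure.le_hausdorffMeasure s _ (ENNReal.ofReal (((2:ℝ) ^ (n₀ * (N + 1)))⁻¹))
      (by rw [ENNReal.ofReal_pos]; positivity)
    intro U hU
    rw [Measure.smul_apply, smul_eq_mul, Measure.restrict_apply' hSm]
    have h1 := hfin U hU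
    have hC1 : ENNReal.ofReal Cst ≠ 0 := by rw [Ne, ENNReal.ofReal_eq_zero]; linarith
    calc (ENNReal.ofReal Cst)⁻¹ * μ (U ∩ S)
        ≤ (ENNReal.ofReal Cst)⁻¹ * (ENNReal.ofReal Cst * Metric.ediam U ^ s) := by gcongr
      _ = Metric.ediam U ^ s := by
          rw [← mul_assoc, ENNReal.inv_mul_cancel hC1 ENNReal.ofReal_ne_top, one_mul]
  have hpos : μH[s] S ≠ 0 := by
    intro h0
    have h1 := hle S
    rw [h0, Measure.smul_apply, smul_eq_mul, Measure.restrict_apply' hSm, inter_self] at h1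
    have h2 : (ENNReal.ofReal Cst)⁻¹ * μ S = 0 := le_antisymm h1 zero_le
    rcases mul_eq_zero.1 h2 with h3 | h3
    · exact ENNReal.ofReal_ne_top (ENNReal.inv_eq_zero.1 h3)
    · exact hS h3
  have hs' : ((s.toNNReal : ℝ≥0) : ℝ) = s := Real.coe_toNNReal s hs.le
  apply le_dimH_of_hausdorffMeasure_ne_zero
  rw [hs']
  exact hpos

universe u
variable {ι : Type u} [Fintype ι] {r t p : ι → ℝ} {μ : Measure ℝ}

/-- THE LOWER BOUND (A2): it is enough to have many levels with large dyadic entropy. -/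
theorem le_lowerHausdorffDim_of_frequently (hr : ∀ i, r i ≠ 0 ∧ |r i| < 1) (hp : ∀ i, 0 ≤ p i)
    (hp₁ : ∑ i, p i = 1) (hμ : IsSelfSimilarMeasure r t p μ) {s : ℝ}
    (hfreq : ∃ᶠ n : ℕ in atTop, s * (n * Real.log 2) ≤ Hd μ n) :
    ENNReal.ofReal s ≤ lowerHausdorffDim μ := by
  classical
  have := hμ.1
  -- it suffices to treat s' < s, s' > 0
  suffices hmain : ∀ s' : ℝ, 0 < s' → s' < s → ENNReal.ofReal s' ≤ lowerHausdorffDim μ by
    rcases le_or_gt s 0 with h0 | h0
    · rw [ENNReal.ofReal_of_nonpos h0]; exact zero_le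
    · have ht : Tendsto (fun s' => ENNReal.ofReal s') (𝓝[<] s) (𝓝 (ENNReal.ofReal s)) :=
        (ENNReal.continuous_ofReal.tendsto s).mono_left nhdsWithin_le_nhds
      refine le_of_tendsto ht ?_
      filter_upwards [Ioo_mem_nhdsLT h0] with s' hs'
      exact hmain s' hs'.1 hs'.2
  intro s' hs'0 hs's
  obtain ⟨n₀, hn₀, θ, hθ0, hθ1, hdec⟩ := exists_exp_decay hr hp hp₁ hμ hs's hfreq
  unfold lowerHausdorffDim
  refine le_iInf fun E => le_iInf fun hE => le_iInf fun hμE => ?_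
  -- Borel-Cantelli
  set bad : ℕ → Set ℝ := fun j => {x | ENNReal.ofReal (((2:ℝ) ^ (n₀ * (j + 1)))⁻¹ ^ s') ≤
    μ (cell (n₀ * (j + 1)) (fl (n₀ * (j + 1)) x))} with hbad
  have hbadm : ∀ j, MeasurableSet (bad j) := by
    intro j
    have : bad j = fl (n₀ * (j + 1)) ⁻¹' {k | ENNReal.ofReal (((2:ℝ) ^ (n₀ * (j + 1)))⁻¹ ^ s') ≤
      μ (cell (n₀ * (j + 1)) k)} := rfl
    rw [this]
    exact measurable_fl _ (MeasurableSet.of_discrete)
  have hsum : ∑' j, μ (bad j) ≠ ∞ := by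
    have h1 : ∑' j, μ (bad j) ≤ ∑' j : ℕ, ENNReal.ofReal (θ ^ (j + 1)) := ENNReal.tsum_le_tsum hdec
    have h2 : Summable (fun j : ℕ => θ ^ (j + 1)) := by
      simp_rw [pow_succ]
      exact (summable_geometric_of_lt_one hθ0 hθ1).mul_right _
    rw [← ENNReal.ofReal_tsum_of_nonneg (fun j => by positivity) h2] at h1
    exact (h1.trans_lt ENNReal.ofReal_lt_top).ne
  have hae := ae_eventually_notMem hsum
  -- increasing sets
  set S : ℕ → Set ℝ := fun N => E ∩ ⋂ j : ℕ, (bad (N + j))ᶜ with hSdef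
  have hSm : ∀ N, MeasurableSet (S N) := fun N =>
    hE.inter (MeasurableSet.iInter fun j => (hbadm _).compl)
  obtain ⟨N, hN⟩ : ∃ N, μ (S N) ≠ 0 := by
    by_contra hcon
    push Not at hcon
    have h1 : μ (⋃ N, S N) = 0 := measure_iUnion_null hcon
    have h2 : μ E ≤ μ ((⋃ N, S N) ∪ {x | ¬ ∀ᶠ n in atTop, x ∉ bad n}) := by
      apply measure_mono
      intro x hx
      by_cases hev : ∀ᶠ n in atTop, x ∉ bad n
      · left
        obtain ⟨N, hN⟩ := eventually_atTop.1 hev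
        exact mem_iUnion.2 ⟨N, hx, mem_iInter.2 fun j => hN _ (Nat.le_add_right _ _)⟩
      · right; exact hev
    have h3 : μ {x | ¬ ∀ᶠ n in atTop, x ∉ bad n} = 0 := hae
    have h4 : μ E ≤ 0 := h2.trans ((measure_union_le _ _).trans (by rw [h1, h3, add_zero]))
    exact absurd hμE (not_lt.2 h4)
  have hsub : S N ⊆ E := inter_subset_left
  refine le_trans ?_ (dimH_mono hsub)
  apply mass_distribution (N := N) hn₀ hs'0 (hSm N) hN
  intro x hx j hj
  obtain ⟨k, rfl⟩ := Nat.exists_eq_add_of_le hj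
  have hx2 := mem_iInter.1 hx.2 k
  simp only [hbad, mem_compl_iff, mem_ofPred_eq, not_le] at hx2
  exact hx2.le

/-- Reduction of S0129 to the entropy inequality. -/
theorem result_of_entropy [Nonempty ι] (hr : ∀ i, r i ≠ 0 ∧ |r i| < 1) (hp : ∀ i, 0 < p i)
    (hp₁ : ∑ i, p i = 1) (hμ : IsSelfSimilarMeasure r t p μ)
    (hgoal : ∀ ε : ℝ, 0 < ε → ∃ᶠ n : ℕ in atTop,
      (min 1 (rwEntropyRate r t p / lyapunovExp r p) - ε) * (n * Real.log 2) ≤ Hd μ n) :
    lowerHausdorffDim μ = ENNReal.ofReal (min 1 (rwEntropyRate r t p / lyapunovExp r p)) := by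
  apply le_antisymm (lowerHausdorffDim_le hr hp hp₁ hμ)
  set a := min 1 (rwEntropyRate r t p / lyapunovExp r p) with ha
  have ht : Tendsto (fun ε : ℝ => ENNReal.ofReal (a - ε)) (𝓝[>] 0) (𝓝 (ENNReal.ofReal (a - 0))) := by
    apply ENNReal.tendsto_ofReal
    exact (tendsto_const_nhds.sub tendsto_id).mono_left nhdsWithin_le_nhds
  rw [sub_zero] at ht
  refine le_of_tendsto ht ?_
  filter_upwards [self_mem_nhdsWithin] with ε hε
  exact le_lowerHausdorffDim_of_frequently hr (fun i => (hp i).le) hp₁ hμ (hgoal ε hε)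

end Crest.Agent.R98
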