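import Mathlib

/-!
R98 / Ent (helper272): shift-averaged entropy of measures on the line at scale `d`.
-/

set_option autoImplicit false

open MeasureTheory Set Real

namespace Crest.Agent.R98

section table

variable {ι κ : Type*} [Fintype ι] [Fintype κ]

/-- nonnegativity of the mutual information of a finite table -/
theorem negMulLog_table {m : ι → κ → ℝ} (hm : ∀ i k, 0 ≤ m i k) :
    ∑ i, ∑ k, negMulLog (m i k) + negMulLog (∑ i, ∑ k, m i k) ≤
      ∑ i, negMulLog (∑ k, m i k) + ∑ k, negMulLog (∑ i, m i k) := by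
  set R : ι → ℝ := fun i => ∑ k, m i k with hR
  set C : κ → ℝ := fun k => ∑ i, m i k with hC
  set T : ℝ := ∑ i, R i with hT
  have hTC : T = ∑ k, C k := by rw [hT, hR, hC]; exact Finset.sum_comm
  have hR0 : ∀ i, 0 ≤ R i := fun i => Finset.sum_nonneg fun k _ => hm i k
  have hC0 : ∀ k, 0 ≤ C k := fun k => Finset.sum_nonneg fun i _ => hm i k
  have hT0 : 0 ≤ T := Finset.sum_nonneg fun i _ => hR0 i
  have hpt : ∀ i k, m i k - R i * C k / T ≤
      m i k * log (m i k) + m i k * log T - m i k * log (R i) - m i k * log (C k) := by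
    intro i k
    rcases (hm i k).eq_or_lt with h0 | h0
    · rw [← h0]
      have : 0 ≤ R i * C k / T := div_nonneg (mul_nonneg (hR0 i) (hC0 k)) hT0
      simp; linarith
    · have hRi : 0 < R i := lt_of_lt_of_le h0
        (Finset.single_le_sum (f := fun k => m i k) (fun k _ => hm i k) (Finset.mem_univ k))
      have hCk : 0 < C k := lt_of_lt_of_le h0
        (Finset.single_le_sum (f := fun i => m i k) (fun i _ => hm i k) (Finset.mem_univ i))
      have hTp : 0 < T := lt_of_lt_of_le hRi
        (Finset.single_le_sum (f := R) (fun i _ => hR0 i) (Finset.mem_univ i))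
      have h1 := log_le_sub_one_of_pos (show 0 < R i * C k / (m i k * T) by positivity)
      rw [log_div (by positivity) (by positivity), log_mul hRi.ne' hCk.ne',
        log_mul h0.ne' hTp.ne'] at h1
      have h2 := mul_le_mul_of_nonneg_left h1 h0.le
      have h3 : m i k * (R i * C k / (m i k * T) - 1) = R i * C k / T - m i k := by
        field_simp
      rw [h3] at h2
      linarith
  have hsum := Finset.sum_le_sum fun i (_ : i ∈ Finset.univ) =>
    Finset.sum_le_sum fun k (_ : k ∈ Finset.univ) => hpt i k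
  have hL : ∑ i, ∑ k, (m i k - R i * C k / T) = 0 := by
    simp only [Finset.sum_sub_distrib]
    have h1 : ∑ i, ∑ k, R i * C k / T = T := by
      have : ∀ i, ∑ k, R i * C k / T = R i * (T / T) := by
        intro i
        rw [← Finset.sum_div, ← Finset.mul_sum, ← hTC, mul_div_assoc]
      simp only [this]
      rw [← Finset.sum_mul, ← hT]
      rcases hT0.eq_or_lt with h0 | h0
      · rw [← h0]; simp
      · rw [div_self h0.ne', mul_one]
    rw [h1, hT]; simp [hR]
  rw [hL] at hsum
  simp only [Finset.sum_sub_distrib, Finset.sum_add_distrib] at hsum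
  have e1 : ∑ i, ∑ k, m i k * log T = T * log T := by
    simp only [← Finset.sum_mul]; rfl
  have e2 : ∑ i, ∑ k, m i k * log (R i) = ∑ i, R i * log (R i) := by
    simp only [← Finset.sum_mul]; rfl
  have e3 : ∑ i, ∑ k, m i k * log (C k) = ∑ k, C k * log (C k) := by
    rw [Finset.sum_comm]
    simp only [← Finset.sum_mul]; rfl
  rw [e1, e2, e3] at hsum
  simp only [negMulLog, neg_mul, Finset.sum_neg_distrib]
  change -(∑ i, ∑ k, m i k * log (m i k)) + -(T * log T) ≤
    -(∑ i, R i * log (R i)) + -(∑ k, C k * log (C k))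
  linarith

/-- the pointwise information of a finite mixture -/
noncomputable def jfun (p v : ι → ℝ) : ℝ :=
  negMulLog (∑ i, p i * v i) - ∑ i, p i * negMulLog (v i)

theorem jfun_smul (p v : ι → ℝ) (c : ℝ) : jfun p (fun i => c * v i) = c * jfun p v := by
  unfold jfun
  have h1 : ∑ i, p i * (c * v i) = c * ∑ i, p i * v i := by
    rw [Finset.mul_sum]; exact Finset.sum_congr rfl fun i _ => by ring
  rw [h1, negMulLog_mul]
  have h2 : ∑ i, p i * negMulLog (c * v i) = (∑ i, p i * v i) * negMulLog c +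
      c * ∑ i, p i * negMulLog (v i) := by
    rw [Finset.sum_mul, Finset.mul_sum, ← Finset.sum_add_distrib]
    refine Finset.sum_congr rfl fun i _ => ?_
    rw [negMulLog_mul]; ring
  rw [h2]; ring

theorem jfun_zero (p : ι → ℝ) : jfun p (fun _ => 0) = 0 := by
  simp [jfun]

/-- subadditivity (log-sum inequality) -/
theorem jfun_sum_le {p : ι → ℝ} (hp : ∀ i, 0 ≤ p i) {u : κ → ι → ℝ} (hu : ∀ k i, 0 ≤ u k i) :
    jfun p (fun i => ∑ k, u k i) ≤ ∑ k, jfun p (u k) := by
  have h := negMulLog_table (m := fun i k => p i * u k i) (fun i k => mul_nonneg (hp i) (hu k i))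
  unfold jfun
  have e1 : ∀ i, negMulLog (∑ k, p i * u k i) = (∑ k, u k i) * negMulLog (p i) +
      p i * negMulLog (∑ k, u k i) := by
    intro i; rw [← Finset.mul_sum, negMulLog_mul]
  have e2 : ∀ i, ∑ k, negMulLog (p i * u k i) = (∑ k, u k i) * negMulLog (p i) +
      p i * ∑ k, negMulLog (u k i) := by
    intro i
    rw [Finset.sum_mul, Finset.mul_sum, ← Finset.sum_add_distrib]
    exact Finset.sum_congr rfl fun k _ => negMulLog_mul _ _
  simp only [e1, e2, Finset.sum_add_distrib] at h
  have e3 : ∑ i, p i * ∑ k, u k i = ∑ i, ∑ k, p i * u k i := by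
    simp only [Finset.mul_sum]
  have e4 : ∑ k, ∑ i, p i * negMulLog (u k i) = ∑ i, p i * ∑ k, negMulLog (u k i) := by
    rw [Finset.sum_comm]; simp only [Finset.mul_sum]
  rw [Finset.sum_sub_distrib, e3, e4]
  linarith

theorem jfun_wsum_le {p : ι → ℝ} (hp : ∀ i, 0 ≤ p i) {q : κ → ℝ} (hq : ∀ k, 0 ≤ q k)
    {u : κ → ι → ℝ} (hu : ∀ k i, 0 ≤ u k i) :
    jfun p (fun i => ∑ k, q k * u k i) ≤ ∑ k, q k * jfun p (u k) := by
  have h := jfun_sum_le hp (u := fun k i => q k * u k i) fun k i => mul_nonneg (hq k) (hu k i)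
  simpa only [jfun_smul] using h

/-- upper bound by the entropy of the weights -/
theorem jfun_le {p : ι → ℝ} (hp : ∀ i, 0 ≤ p i) {v : ι → ℝ} (hv : ∀ i, 0 ≤ v i) :
    jfun p v ≤ ∑ i, v i * negMulLog (p i) := by
  unfold jfun
  set s := ∑ i, p i * v i with hs
  have hs0 : 0 ≤ s := Finset.sum_nonneg fun i _ => mul_nonneg (hp i) (hv i)
  have h1 : negMulLog s = ∑ i, -(p i * v i * log s) := by
    rw [Finset.sum_neg_distrib, ← Finset.sum_mul, ← hs, negMulLog]; ring
  rw [h1, ← Finset.sum_sub_distrib]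
  refine Finset.sum_le_sum fun i _ => ?_
  rcases (hp i).eq_or_lt with h0 | h0
  · rw [← h0]; simp
  rcases (hv i).eq_or_lt with h0' | h0'
  · rw [← h0']; simp
  have hle : p i * v i ≤ s :=
    Finset.single_le_sum (f := fun i => p i * v i) (fun i _ => mul_nonneg (hp i) (hv i))
      (Finset.mem_univ i)
  have h2 : log (p i * v i) ≤ log s := log_le_log (by positivity) hle
  rw [log_mul h0.ne' h0'.ne'] at h2
  simp only [negMulLog]
  have h3 := mul_le_mul_of_nonneg_left h2 (show 0 ≤ p i * v i by positivity)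
  nlinarith [h3]

/-- nonnegativity for probability weights -/
theorem jfun_nonneg {p : ι → ℝ} (hp : ∀ i, 0 ≤ p i) (hp1 : ∑ i, p i = 1) {v : ι → ℝ}
    (hv : ∀ i, 0 ≤ v i) : 0 ≤ jfun p v := by
  have h := concaveOn_negMulLog.le_map_sum (t := Finset.univ) (w := p) (p := v)
    (fun i _ => hp i) hp1 (fun i _ => hv i)
  simp only [smul_eq_mul] at h
  unfold jfun
  linarith

end table

section meas

/-- shift-averaged entropy of `μ` at scale `d` -/
noncomputable def Hs (μ : Measure ℝ) (d : ℝ) : ℝ :=
  (1 / d) * ∫ y, negMulLog (μ.real (Ico y (y + d)))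

/-- bounded support -/
def BSupp (μ : Measure ℝ) : Prop := ∃ R : ℝ, μ (Icc (-R) R)ᶜ = 0

theorem measurable_cell₂ (μ : Measure ℝ) [SFinite μ] :
    Measurable fun z : ℝ × ℝ => μ.real (Ico z.1 (z.1 + z.2)) := by
  have hs : MeasurableSet ({z : (ℝ × ℝ) × ℝ | z.1.1 ≤ z.2} ∩ {z | z.2 < z.1.1 + z.1.2}) :=
    (measurableSet_le (measurable_fst.comp measurable_fst) measurable_snd).inter
      (measurableSet_lt measurable_snd
        ((measurable_fst.comp measurable_fst).add (measurable_snd.comp measurable_fst)))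
  exact (measurable_measure_prodMk_left (ν := μ) hs).ennreal_toReal

theorem measurable_cell (μ : Measure ℝ) [SFinite μ] (d : ℝ) :
    Measurable fun y : ℝ => μ.real (Ico y (y + d)) :=
  (measurable_cell₂ μ).comp (measurable_id.prodMk measurable_const)

theorem cell_eq_zero {μ : Measure ℝ} {R : ℝ} (hR : μ (Icc (-R) R)ᶜ = 0) {d y : ℝ}
    (hy : y ∉ Icc (-R - d) R) : μ.real (Ico y (y + d)) = 0 := by
  have hsub : Ico y (y + d) ⊆ (Icc (-R) R)ᶜ := by
    intro x hx hx'
    exact hy ⟨by linarith [hx.2, hx'.1], by linarith [hx.1, hx'.2]⟩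
  rw [Measure.real, measure_mono_null hsub hR]; rfl

theorem integrable_comp_cell {μ : Measure ℝ} [IsFiniteMeasure μ] (hμ : BSupp μ) (d : ℝ)
    {φ : ℝ → ℝ} (hφ : Continuous φ) (h0 : φ 0 = 0) :
    Integrable fun y => φ (μ.real (Ico y (y + d))) := by
  obtain ⟨R, hR⟩ := hμ
  obtain ⟨C, hC⟩ := (isCompact_Icc (a := (0 : ℝ)) (b := μ.real univ)).exists_bound_of_continuousOn
    hφ.continuousOn
  have hind : (fun y => φ (μ.real (Ico y (y + d)))) =
      (Icc (-R - d) R).indicator fun y => φ (μ.real (Ico y (y + d))) := by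
    funext y
    by_cases hy : y ∈ Icc (-R - d) R
    · rw [indicator_of_mem hy]
    · rw [indicator_of_notMem hy, cell_eq_zero hR hy, h0]
  rw [hind, integrable_indicator_iff measurableSet_Icc]
  refine Measure.integrableOn_of_bounded (M := C) (by simp) ?_ ?_
  · exact (hφ.measurable.comp (measurable_cell μ d)).aestronglyMeasurable
  · refine Filter.Eventually.of_forall fun y => hC _ ⟨measureReal_nonneg, ?_⟩
    exact measureReal_mono (subset_univ _)

theorem integrable_negMulLog_cell {μ : Measure ℝ} [IsFiniteMeasure μ] (hμ : BSupp μ) (d : ℝ) :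
    Integrable fun y => negMulLog (μ.real (Ico y (y + d))) :=
  integrable_comp_cell hμ d continuous_negMulLog negMulLog_zero

theorem integrable_cell {μ : Measure ℝ} [IsFiniteMeasure μ] (hμ : BSupp μ) (d : ℝ) :
    Integrable fun y => μ.real (Ico y (y + d)) :=
  integrable_comp_cell hμ d continuous_id rfl

/-- the total mass -/
theorem integral_cell {μ : Measure ℝ} [IsFiniteMeasure μ] {d : ℝ} (hd : 0 ≤ d) :
    ∫ y, μ.real (Ico y (y + d)) = d * μ.real univ := by
  have hs : MeasurableSet ({z : ℝ × ℝ | z.1 ≤ z.2} ∩ {z | z.2 < z.1 + d}) :=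
    (measurableSet_le measurable_fst measurable_snd).inter
      (measurableSet_lt measurable_snd (measurable_fst.add_const d))
  have h1 : (volume.prod μ) ({z : ℝ × ℝ | z.1 ≤ z.2} ∩ {z | z.2 < z.1 + d}) =
      ENNReal.ofReal d * μ univ := by
    rw [Measure.prod_apply_symm hs]
    have : ∀ x : ℝ, volume ((fun y : ℝ => (y, x)) ⁻¹' ({z : ℝ × ℝ | z.1 ≤ z.2} ∩ {z | z.2 < z.1 + d})) =
        ENNReal.ofReal d := by
      intro x
      have : (fun y : ℝ => (y, x)) ⁻¹' ({z : ℝ × ℝ | z.1 ≤ z.2} ∩ {z | z.2 < z.1 + d}) =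
          Ioc (x - d) x := by
        ext y; simp only [mem_preimage, mem_inter_iff, mem_ofPred_eq, mem_Ioc]
        constructor
        · rintro ⟨h1, h2⟩; exact ⟨by linarith, h1⟩
        · rintro ⟨h1, h2⟩; exact ⟨h2, by linarith⟩
      rw [this, Real.volume_Ioc]; congr 1; ring
    simp only [this, lintegral_const]
  have h2 : (volume.prod μ) ({z : ℝ × ℝ | z.1 ≤ z.2} ∩ {z | z.2 < z.1 + d}) =
      ∫⁻ y, μ (Ico y (y + d)) := by
    rw [Measure.prod_apply hs]; rfl
  rw [integral_eq_lintegral_of_nonneg_ae (Filter.Eventually.of_forall fun y => measureReal_nonneg)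
    (measurable_cell μ d).aestronglyMeasurable]
  have h3 : ∫⁻ y, ENNReal.ofReal (μ.real (Ico y (y + d))) = ∫⁻ y, μ (Ico y (y + d)) := by
    refine lintegral_congr fun y => ?_
    rw [Measure.real, ENNReal.ofReal_toReal (measure_ne_top _ _)]
  rw [h3, ← h2, h1, ENNReal.toReal_mul, ENNReal.toReal_ofReal hd]; rfl

theorem Hs_nonneg {μ : Measure ℝ} [IsFiniteMeasure μ] (h1 : μ.real univ ≤ 1) {d : ℝ}
    (hd : 0 ≤ d) : 0 ≤ Hs μ d := by
  refine mul_nonneg (by positivity) (integral_nonneg fun y => ?_)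
  exact negMulLog_nonneg measureReal_nonneg ((measureReal_mono (subset_univ _)).trans h1)

/-- measurability in the scale -/
theorem measurable_Hs (μ : Measure ℝ) [SFinite μ] : Measurable fun d => Hs μ d := by
  have h1 : StronglyMeasurable fun z : ℝ × ℝ => negMulLog (μ.real (Ico z.2 (z.2 + z.1))) :=
    (continuous_negMulLog.measurable.comp
      ((measurable_cell₂ μ).comp measurable_swap)).stronglyMeasurable
  have h2 : StronglyMeasurable fun d : ℝ => ∫ y, negMulLog (μ.real (Ico y (y + d))) :=
    h1.integral_prod_right (ν := volume)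
  exact (measurable_const.div measurable_id).mul h2.measurable

end meas

section mixture

variable {ι κ : Type*} [Fintype ι] [Fintype κ]

/-- finite mixture of measures -/
noncomputable def mix (q : κ → ℝ) (ν : κ → Measure ℝ) : Measure ℝ :=
  ∑ k, ENNReal.ofReal (q k) • ν k

instance isFiniteMeasure_mix (q : κ → ℝ) (ν : κ → Measure ℝ) [∀ k, IsFiniteMeasure (ν k)] :
    IsFiniteMeasure (mix q ν) := by
  constructor
  unfold mix
  rw [Measure.coe_finsetSum, Finset.sum_apply]
  refine ENNReal.sum_lt_top.mpr fun k _ => ?_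
  rw [Measure.smul_apply, smul_eq_mul]
  exact ENNReal.mul_lt_top ENNReal.ofReal_lt_top (measure_lt_top _ _)

theorem mix_real {q : κ → ℝ} (hq : ∀ k, 0 ≤ q k) (ν : κ → Measure ℝ)
    [∀ k, IsFiniteMeasure (ν k)] (s : Set ℝ) :
    (mix q ν).real s = ∑ k, q k * (ν k).real s := by
  unfold mix
  rw [Measure.real, Measure.coe_finsetSum, Finset.sum_apply, ENNReal.toReal_sum]
  · refine Finset.sum_congr rfl fun k _ => ?_
    rw [Measure.smul_apply, smul_eq_mul, ENNReal.toReal_mul, ENNReal.toReal_ofReal (hq k)]; rfl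
  · intro k _
    rw [Measure.smul_apply, smul_eq_mul]
    exact ENNReal.mul_ne_top ENNReal.ofReal_ne_top (measure_ne_top _ _)

theorem isProbabilityMeasure_mix {q : κ → ℝ} (hq : ∀ k, 0 ≤ q k) (hq1 : ∑ k, q k = 1)
    (ν : κ → Measure ℝ) [∀ k, IsProbabilityMeasure (ν k)] : IsProbabilityMeasure (mix q ν) := by
  constructor
  have h := mix_real hq ν univ
  simp only [probReal_univ, mul_one, hq1] at h
  rwa [Measure.real, ENNReal.toReal_eq_one_iff] at h

theorem BSupp.mono {μ : Measure ℝ} {R R' : ℝ} (h : μ (Icc (-R) R)ᶜ = 0) (hRR : R ≤ R') :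
    μ (Icc (-R') R')ᶜ = 0 := by
  refine measure_mono_null ?_ h
  apply compl_subset_compl.mpr
  exact Icc_subset_Icc (by linarith) hRR

theorem BSupp.mix {q : κ → ℝ} {ν : κ → Measure ℝ} (h : ∀ k, BSupp (ν k)) : BSupp (mix q ν) := by
  choose R hR using h
  obtain ⟨M, hM⟩ := (Set.finite_range R).bddAbove
  refine ⟨M, ?_⟩
  unfold Crest.Agent.R98.mix
  rw [Measure.coe_finsetSum, Finset.sum_apply]
  refine Finset.sum_eq_zero fun k _ => ?_
  rw [Measure.smul_apply, BSupp.mono (hR k) (hM ⟨k, rfl⟩), smul_zero]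

/-- information of the index of a finite mixture, at scale `d` -/
noncomputable def J (p : ι → ℝ) (ν : ι → Measure ℝ) (d : ℝ) : ℝ :=
  Hs (mix p ν) d - ∑ i, p i * Hs (ν i) d

theorem J_eq {p : ι → ℝ} (hp : ∀ i, 0 ≤ p i) {ν : ι → Measure ℝ}
    [∀ i, IsFiniteMeasure (ν i)] (hν : ∀ i, BSupp (ν i)) (d : ℝ) :
    J p ν d = (1 / d) * ∫ y, jfun p (fun i => (ν i).real (Ico y (y + d))) := by
  unfold J Hs jfun
  rw [integral_sub, integral_finsetSum]
  · simp only [integral_const_mul, mix_real hp ν]
    rw [mul_sub, Finset.mul_sum]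
    congr 1
    exact Finset.sum_congr rfl fun i _ => by ring
  · intro i _
    exact (integrable_negMulLog_cell (hν i) d).const_mul _
  · have := integrable_negMulLog_cell (BSupp.mix (q := p) hν) d
    simpa only [mix_real hp ν] using this
  · exact integrable_finsetSum _ fun i _ => (integrable_negMulLog_cell (hν i) d).const_mul _

theorem integrable_jfun {p : ι → ℝ} (hp : ∀ i, 0 ≤ p i) {ν : ι → Measure ℝ}
    [∀ i, IsFiniteMeasure (ν i)] (hν : ∀ i, BSupp (ν i)) (d : ℝ) :
    Integrable fun y => jfun p (fun i => (ν i).real (Ico y (y + d))) := by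
  unfold jfun
  refine Integrable.sub ?_ ?_
  · have := integrable_negMulLog_cell (BSupp.mix (q := p) hν) d
    simpa only [mix_real hp ν] using this
  · exact integrable_finsetSum _ fun i _ => (integrable_negMulLog_cell (hν i) d).const_mul _

theorem J_nonneg {p : ι → ℝ} (hp : ∀ i, 0 ≤ p i) (hp1 : ∑ i, p i = 1) {ν : ι → Measure ℝ}
    [∀ i, IsFiniteMeasure (ν i)] (hν : ∀ i, BSupp (ν i)) {d : ℝ} (hd : 0 ≤ d) :
    0 ≤ J p ν d := by
  rw [J_eq hp hν]
  exact mul_nonneg (by positivity)
    (integral_nonneg fun y => jfun_nonneg hp hp1 fun i => measureReal_nonneg)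

theorem J_le {p : ι → ℝ} (hp : ∀ i, 0 ≤ p i) {ν : ι → Measure ℝ}
    [∀ i, IsProbabilityMeasure (ν i)] (hν : ∀ i, BSupp (ν i)) {d : ℝ} (hd : 0 < d) :
    J p ν d ≤ ∑ i, negMulLog (p i) := by
  rw [J_eq hp hν]
  have h1 : ∫ y, jfun p (fun i => (ν i).real (Ico y (y + d))) ≤
      ∫ y, ∑ i, (ν i).real (Ico y (y + d)) * negMulLog (p i) := by
    refine integral_mono (integrable_jfun hp hν d) ?_ ?_
    · exact integrable_finsetSum _ fun i _ => (integrable_cell (hν i) d).mul_const _
    · intro y
      exact jfun_le hp fun i => measureReal_nonneg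
  rw [integral_finsetSum _ fun i _ => (integrable_cell (hν i) d).mul_const _] at h1
  simp only [integral_mul_const, integral_cell hd.le, probReal_univ, mul_one] at h1
  rw [← Finset.mul_sum] at h1
  calc (1 / d) * ∫ y, jfun p (fun i => (ν i).real (Ico y (y + d)))
      ≤ (1 / d) * (d * ∑ i, negMulLog (p i)) := by
        exact mul_le_mul_of_nonneg_left h1 (by positivity)
    _ = ∑ i, negMulLog (p i) := by field_simp

/-- `[y, y + n d)` is the union of `n` cells -/
theorem cell_nsmul (μ : Measure ℝ) [IsFiniteMeasure μ] {d : ℝ} (hd : 0 ≤ d) (n : ℕ) (y : ℝ) :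
    μ.real (Ico y (y + n * d)) = ∑ k : Fin n, μ.real (Ico (y + k * d) (y + k * d + d)) := by
  induction n with
  | zero => simp
  | succ n ih =>
    rw [Fin.sum_univ_castSucc]
    simp only [Fin.val_castSucc, Fin.val_last]
    rw [← ih]
    have h1 : Ico y (y + ((n + 1 : ℕ) : ℝ) * d) =
        Ico y (y + n * d) ∪ Ico (y + n * d) (y + n * d + d) := by
      rw [Ico_union_Ico_eq_Ico]
      · congr 1; push_cast; ring
      · have : 0 ≤ (n : ℝ) * d := by positivity
        linarith
      · linarith
    rw [h1, measureReal_union _ measurableSet_Ico]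
    rw [Set.disjoint_left]
    intro x hx hx'
    exact absurd hx.2 (not_lt.mpr hx'.1)

/-- data processing: coarser scale -/
theorem J_nsmul_le {p : ι → ℝ} (hp : ∀ i, 0 ≤ p i) {ν : ι → Measure ℝ}
    [∀ i, IsFiniteMeasure (ν i)] (hν : ∀ i, BSupp (ν i)) {d : ℝ} (hd : 0 < d) {n : ℕ}
    (hn : 0 < n) : J p ν (n * d) ≤ J p ν d := by
  rw [J_eq hp hν, J_eq hp hν]
  have hint : ∀ c : ℝ, Integrable fun y =>
      jfun p (fun i => (ν i).real (Ico (y + c) (y + c + d))) := fun c =>
    (integrable_jfun hp hν d).comp_add_right c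
  have h1 : ∫ y, jfun p (fun i => (ν i).real (Ico y (y + n * d))) ≤
      ∫ y, ∑ k : Fin n, jfun p (fun i => (ν i).real (Ico (y + k * d) (y + k * d + d))) := by
    refine integral_mono (integrable_jfun hp hν _) ?_ ?_
    · exact integrable_finsetSum _ fun k _ => hint _
    · intro y
      simp only [cell_nsmul _ hd.le]
      exact jfun_sum_le hp fun k i => measureReal_nonneg
  rw [integral_finsetSum _ fun k _ => hint _] at h1
  have h2 : ∀ c : ℝ, ∫ y, jfun p (fun i => (ν i).real (Ico (y + c) (y + c + d))) =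
      ∫ y, jfun p (fun i => (ν i).real (Ico y (y + d))) := fun c =>
    integral_add_right_eq_self (fun y => jfun p (fun i => (ν i).real (Ico y (y + d)))) c
  simp only [h2, Finset.sum_const, Finset.card_univ, Fintype.card_fin, nsmul_eq_mul] at h1
  have hn' : (0 : ℝ) < n := by exact_mod_cast hn
  calc (1 / (n * d)) * ∫ y, jfun p (fun i => (ν i).real (Ico y (y + n * d)))
      ≤ (1 / (n * d)) * (n * ∫ y, jfun p (fun i => (ν i).real (Ico y (y + d)))) :=
        mul_le_mul_of_nonneg_left h1 (by positivity)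
    _ = (1 / d) * ∫ y, jfun p (fun i => (ν i).real (Ico y (y + d))) := by
        field_simp

/-- data processing: independent common randomness -/
theorem J_mix_le {p : ι → ℝ} (hp : ∀ i, 0 ≤ p i) {q : κ → ℝ} (hq : ∀ k, 0 ≤ q k)
    {ν : ι → κ → Measure ℝ} [∀ i k, IsFiniteMeasure (ν i k)] (hν : ∀ i k, BSupp (ν i k))
    {d : ℝ} (hd : 0 ≤ d) :
    J p (fun i => mix q (ν i)) d ≤ ∑ k, q k * J p (fun i => ν i k) d := by
  rw [J_eq hp fun i => BSupp.mix (hν i)]
  have h1 : ∫ y, jfun p (fun i => (mix q (ν i)).real (Ico y (y + d))) ≤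
      ∫ y, ∑ k, q k * jfun p (fun i => (ν i k).real (Ico y (y + d))) := by
    refine integral_mono (integrable_jfun hp (fun i => BSupp.mix (hν i)) d) ?_ ?_
    · exact integrable_finsetSum _ fun k _ =>
        (integrable_jfun hp (fun i => hν i k) d).const_mul _
    · intro y
      simp only [mix_real hq]
      exact jfun_wsum_le hp hq fun k i => measureReal_nonneg
  rw [integral_finsetSum _ fun k _ => (integrable_jfun hp (fun i => hν i k) d).const_mul _] at h1
  simp only [integral_const_mul] at h1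
  calc (1 / d) * ∫ y, jfun p (fun i => (mix q (ν i)).real (Ico y (y + d)))
      ≤ (1 / d) * ∑ k, q k * ∫ y, jfun p (fun i => (ν i k).real (Ico y (y + d))) :=
        mul_le_mul_of_nonneg_left h1 (by positivity)
    _ = ∑ k, q k * J p (fun i => ν i k) d := by
        rw [Finset.mul_sum]
        refine Finset.sum_congr rfl fun k _ => ?_
        rw [J_eq hp fun i => hν i k]; ring

end mixture

section maps

/-- shift -/
noncomputable def shift (s : ℝ) (μ : Measure ℝ) : Measure ℝ := μ.map (fun x => x + s)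

instance (s : ℝ) (μ : Measure ℝ) [IsFiniteMeasure μ] : IsFiniteMeasure (shift s μ) := by
  unfold shift; infer_instance

instance (s : ℝ) (μ : Measure ℝ) [IsProbabilityMeasure μ] : IsProbabilityMeasure (shift s μ) :=
  Measure.isProbabilityMeasure_map (by fun_prop)

theorem shift_real (s : ℝ) (μ : Measure ℝ) (y d : ℝ) :
    (shift s μ).real (Ico y (y + d)) = μ.real (Ico (y - s) (y - s + d)) := by
  unfold shift
  rw [Measure.real, Measure.real, Measure.map_apply (by fun_prop) measurableSet_Ico]
  congr 2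
  ext x
  simp only [mem_preimage, mem_Ico]
  constructor
  · rintro ⟨h1, h2⟩; constructor <;> linarith
  · rintro ⟨h1, h2⟩; constructor <;> linarith

theorem BSupp.shift {μ : Measure ℝ} (h : BSupp μ) (s : ℝ) : BSupp (shift s μ) := by
  obtain ⟨R, hR⟩ := h
  refine ⟨R + |s|, ?_⟩
  unfold Crest.Agent.R98.shift
  rw [Measure.map_apply (by fun_prop) measurableSet_Icc.compl]
  refine measure_mono_null ?_ hR
  intro x hx hx'
  apply hx
  constructor
  · have := neg_abs_le s; linarith [hx'.1]
  · have := le_abs_self s; linarith [hx'.2]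

theorem Hs_shift (s : ℝ) (μ : Measure ℝ) (d : ℝ) : Hs (shift s μ) d = Hs μ d := by
  unfold Hs
  simp only [shift_real]
  congr 1
  exact integral_sub_right_eq_self (fun y => negMulLog (μ.real (Ico y (y + d)))) s

theorem BSupp.map_affine {μ : Measure ℝ} (h : BSupp μ) (a b : ℝ) :
    BSupp (μ.map fun x => a * x + b) := by
  obtain ⟨R, hR⟩ := h
  refine ⟨|a| * |R| + |b|, ?_⟩
  rw [Measure.map_apply (by fun_prop) measurableSet_Icc.compl]
  refine measure_mono_null ?_ hR
  intro x hx hx'
  apply hx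
  have h1 : |x| ≤ |R| := by
    rw [abs_le]
    have := le_abs_self R
    constructor
    · linarith [hx'.1]
    · linarith [hx'.2]
  have h2 : |a * x + b| ≤ |a| * |R| + |b| := by
    calc |a * x + b| ≤ |a * x| + |b| := abs_add_le _ _
      _ ≤ |a| * |R| + |b| := by
        rw [abs_mul]
        have := mul_le_mul_of_nonneg_left h1 (abs_nonneg a)
        linarith
  exact abs_le.mp h2

/-- scaling by a positive factor -/
theorem Hs_map_pos {a : ℝ} (ha : 0 < a) (b : ℝ) (μ : Measure ℝ) (d : ℝ) :
    Hs (μ.map fun x => a * x + b) (a * d) = Hs μ d := by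
  unfold Hs
  have h1 : ∀ y, (μ.map fun x => a * x + b).real (Ico y (y + a * d)) =
      μ.real (Ico ((y - b) / a) ((y - b) / a + d)) := by
    intro y
    rw [Measure.real, Measure.real, Measure.map_apply (by fun_prop) measurableSet_Ico]
    congr 2
    ext x
    simp only [mem_preimage, mem_Ico]
    constructor
    · rintro ⟨h1, h2⟩
      constructor
      · rw [div_le_iff₀ ha]; linarith
      · rw [← sub_lt_iff_lt_add, lt_div_iff₀ ha]; nlinarith
    · rintro ⟨h1, h2⟩
      rw [div_le_iff₀ ha] at h1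
      rw [← sub_lt_iff_lt_add, lt_div_iff₀ ha] at h2
      constructor <;> nlinarith
  simp only [h1]
  have h2 : ∫ y, negMulLog (μ.real (Ico ((y - b) / a) ((y - b) / a + d))) =
      a * ∫ y, negMulLog (μ.real (Ico y (y + d))) := by
    rw [integral_sub_right_eq_self (fun y => negMulLog (μ.real (Ico (y / a) (y / a + d)))) b]
    rw [Measure.integral_comp_div (fun y => negMulLog (μ.real (Ico y (y + d)))) a, abs_of_pos ha,
      smul_eq_mul]
  rw [h2]
  rcases eq_or_ne d 0 with rfl | hd
  · simp
  · field_simp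

/-- reflection -/
theorem Hs_map_neg (μ : Measure ℝ) [IsFiniteMeasure μ] (d : ℝ) :
    Hs (μ.map fun x => -x) d = Hs μ d := by
  unfold Hs
  congr 1
  -- the half-open interval changes sides; this matters only at atoms
  have hcount : Set.Countable {y : ℝ | μ {y} ≠ 0} := by
    have := Measure.countable_meas_pos_of_disjoint_iUnion (μ := μ) (As := fun y : ℝ => ({y} : Set ℝ))
      (fun y => measurableSet_singleton y) (fun a b hab => by
        simpa [Function.onFun] using hab)
    refine this.mono ?_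
    intro y hy
    exact pos_iff_ne_zero.mpr hy
  have h1 : ∀ᵐ y : ℝ, (μ.map fun x => -x).real (Ico y (y + d)) =
      μ.real (Ico (-y - d) (-y - d + d)) := by
    have h2 : ∀ᵐ y : ℝ, -y ∉ {y : ℝ | μ {y} ≠ 0} := by
      have h3 : volume ((fun y : ℝ => -y) ⁻¹' {y : ℝ | μ {y} ≠ 0}) = 0 := by
        have : ((fun y : ℝ => -y) ⁻¹' {y : ℝ | μ {y} ≠ 0}).Countable :=
          hcount.preimage neg_injective
        exact this.measure_zero _
      exact (measure_eq_zero_iff_ae_notMem.mp h3)
    have h2' : ∀ᵐ y : ℝ, -y - d ∉ {y : ℝ | μ {y} ≠ 0} := by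
      have h3 : volume ((fun y : ℝ => -y - d) ⁻¹' {y : ℝ | μ {y} ≠ 0}) = 0 := by
        have : ((fun y : ℝ => -y - d) ⁻¹' {y : ℝ | μ {y} ≠ 0}).Countable :=
          hcount.preimage (fun a b h => by simpa using h)
        exact this.measure_zero _
      exact (measure_eq_zero_iff_ae_notMem.mp h3)
    filter_upwards [h2, h2'] with y hy hy'
    simp only [ne_eq, not_not] at hy hy'
    rw [Measure.real, Measure.real, Measure.map_apply (by fun_prop) measurableSet_Ico]
    congr 1
    apply le_antisymm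
    · have hsub : (fun x => -x) ⁻¹' Ico y (y + d) ⊆ Ico (-y - d) (-y - d + d) ∪ {-y} := by
        intro x hx
        simp only [mem_preimage, mem_Ico] at hx
        rcases eq_or_ne x (-y) with h | h
        · right; exact h
        · left
          refine ⟨by linarith, ?_⟩
          rcases lt_or_gt_of_ne h with h' | h'
          · linarith
          · linarith
      calc μ ((fun x => -x) ⁻¹' Ico y (y + d)) ≤ _ := measure_mono hsub
        _ ≤ μ (Ico (-y - d) (-y - d + d)) + μ {-y} := measure_union_le _ _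
        _ = _ := by rw [hy, add_zero]
    · have hsub : Ico (-y - d) (-y - d + d) ⊆ (fun x => -x) ⁻¹' Ico y (y + d) ∪ {-y - d} := by
        intro x hx
        simp only [mem_Ico] at hx
        rcases eq_or_ne x (-y - d) with h | h
        · right; exact h
        · left
          have : -y - d < x := lt_of_le_of_ne hx.1 (Ne.symm h)
          simp only [mem_preimage, mem_Ico]
          constructor <;> linarith
      calc μ (Ico (-y - d) (-y - d + d)) ≤ _ := measure_mono hsub
        _ ≤ μ ((fun x => -x) ⁻¹' Ico y (y + d)) + μ {-y - d} := measure_union_le _ _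
        _ = _ := by rw [hy', add_zero]
  rw [integral_congr_ae (h1.mono fun y hy => by rw [hy])]
  have h3 := integral_neg_eq_self (fun y => negMulLog (μ.real (Ico (y - d) (y - d + d)))) volume
  rw [h3]
  exact integral_sub_right_eq_self (fun y => negMulLog (μ.real (Ico y (y + d)))) d

/-- exact scaling -/
theorem Hs_map {a : ℝ} (ha : a ≠ 0) (b : ℝ) (μ : Measure ℝ) [IsFiniteMeasure μ] (d : ℝ) :
    Hs (μ.map fun x => a * x + b) (|a| * d) = Hs μ d := by
  rcases lt_or_gt_of_ne ha with h | h
  · have h1 : (μ.map fun x => a * x + b) =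
        ((μ.map fun x => -x).map fun x => (-a) * x + b) := by
      rw [Measure.map_map (by fun_prop) (by fun_prop)]
      congr 1
      funext x; simp [Function.comp]
    rw [h1, abs_of_neg h, Hs_map_pos (neg_pos.mpr h), Hs_map_neg]
  · rw [abs_of_pos h, Hs_map_pos h]

theorem shift_mix (s : ℝ) {ι : Type*} [Fintype ι] (q : ι → ℝ) (ν : ι → Measure ℝ) :
    shift s (mix q ν) = mix q fun i => shift s (ν i) := by
  unfold shift mix
  rw [← Measure.mapₗ_apply_of_measurable (by fun_prop), map_sum]
  refine Finset.sum_congr rfl fun i _ => ?_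
  rw [Measure.mapₗ_apply_of_measurable (by fun_prop), Measure.map_smul]

theorem shift_shift (s t : ℝ) (μ : Measure ℝ) : shift s (shift t μ) = shift (s + t) μ := by
  unfold shift
  rw [Measure.map_map (by fun_prop) (by fun_prop)]
  congr 1
  funext x; simp only [Function.comp]; ring

theorem shift_zero (μ : Measure ℝ) : shift 0 μ = μ := by
  unfold shift; simp

theorem J_shift {ι : Type*} [Fintype ι] (t : ℝ) (p : ι → ℝ) (ν : ι → Measure ℝ) (d : ℝ) :
    J p (fun i => shift t (ν i)) d = J p ν d := by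
  unfold J
  rw [← shift_mix, Hs_shift]
  simp only [Hs_shift]

end maps

section sums

variable {ι κ : Type*} [Fintype ι] [Fintype κ]

/-- the law of `T + X` for an independent `T` taking the value `s k` with probability `q k` -/
noncomputable def addLaw (q s : κ → ℝ) (B : Measure ℝ) : Measure ℝ :=
  mix q fun k => shift (s k) B

instance (q s : κ → ℝ) (B : Measure ℝ) [IsFiniteMeasure B] : IsFiniteMeasure (addLaw q s B) := by
  unfold addLaw; infer_instance

theorem isProbabilityMeasure_addLaw {q : κ → ℝ} (hq : ∀ k, 0 ≤ q k) (hq1 : ∑ k, q k = 1)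
    (s : κ → ℝ) (B : Measure ℝ) [IsProbabilityMeasure B] :
    IsProbabilityMeasure (addLaw q s B) :=
  isProbabilityMeasure_mix hq hq1 _

theorem BSupp.addLaw {B : Measure ℝ} (h : BSupp B) (q s : κ → ℝ) : BSupp (addLaw q s B) :=
  BSupp.mix fun k => h.shift (s k)

theorem mix_mix_comm (q : κ → ℝ) (q' : ι → ℝ) (ν : κ → ι → Measure ℝ) :
    mix q (fun k => mix q' (ν k)) = mix q' (fun i => mix q fun k => ν k i) := by
  unfold mix
  simp only [Finset.smul_sum]
  rw [Finset.sum_comm]
  refine Finset.sum_congr rfl fun i _ => Finset.sum_congr rfl fun k _ => ?_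
  rw [smul_comm]

theorem addLaw_comm (q s : κ → ℝ) (q' s' : ι → ℝ) (B : Measure ℝ) :
    addLaw q s (addLaw q' s' B) = addLaw q' s' (addLaw q s B) := by
  unfold addLaw
  simp only [shift_mix, shift_shift]
  rw [mix_mix_comm]
  simp only [add_comm]

theorem Hs_addLaw_sub {q : κ → ℝ} (hq1 : ∑ k, q k = 1) (s : κ → ℝ) (B : Measure ℝ) (d : ℝ) :
    Hs (addLaw q s B) d - Hs B d = J q (fun k => shift (s k) B) d := by
  unfold J addLaw
  simp only [Hs_shift]
  rw [← Finset.sum_mul, hq1, one_mul]

theorem Hs_le_addLaw {q : κ → ℝ} (hq : ∀ k, 0 ≤ q k) (hq1 : ∑ k, q k = 1) (s : κ → ℝ)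
    {B : Measure ℝ} [IsFiniteMeasure B] (hB : BSupp B) {d : ℝ} (hd : 0 ≤ d) :
    Hs B d ≤ Hs (addLaw q s B) d := by
  have h1 := J_nonneg hq hq1 (fun k => hB.shift (s k)) hd
  rw [← Hs_addLaw_sub hq1 s B d] at h1
  linarith

theorem Hs_addLaw_le {q : κ → ℝ} (hq : ∀ k, 0 ≤ q k) (hq1 : ∑ k, q k = 1) (s : κ → ℝ)
    {B : Measure ℝ} [IsProbabilityMeasure B] (hB : BSupp B) {d : ℝ} (hd : 0 < d) :
    Hs (addLaw q s B) d ≤ Hs B d + ∑ k, negMulLog (q k) := by
  have h1 := J_le hq (fun k => hB.shift (s k)) hd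
  rw [← Hs_addLaw_sub hq1 s B d] at h1
  linarith

/-- coarser scales: the gain from adding `T` decreases -/
theorem Hs_addLaw_nsmul {q : κ → ℝ} (hq : ∀ k, 0 ≤ q k) (hq1 : ∑ k, q k = 1) (s : κ → ℝ)
    {B : Measure ℝ} [IsFiniteMeasure B] (hB : BSupp B) {d : ℝ} (hd : 0 < d) {n : ℕ} (hn : 0 < n) :
    Hs (addLaw q s B) (n * d) - Hs B (n * d) ≤ Hs (addLaw q s B) d - Hs B d := by
  rw [Hs_addLaw_sub hq1, Hs_addLaw_sub hq1]
  exact J_nsmul_le hq (fun k => hB.shift (s k)) hd hn

/-- Kaimanovich–Vershik -/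
theorem Hs_addLaw_addLaw_le {q : κ → ℝ} (hq : ∀ k, 0 ≤ q k) (hq1 : ∑ k, q k = 1) (s : κ → ℝ)
    {q' : ι → ℝ} (hq' : ∀ k, 0 ≤ q' k) (hq1' : ∑ k, q' k = 1) (s' : ι → ℝ)
    {B : Measure ℝ} [IsFiniteMeasure B] (hB : BSupp B) {d : ℝ} (hd : 0 ≤ d) :
    Hs (addLaw q s (addLaw q' s' B)) d - Hs (addLaw q' s' B) d ≤ Hs (addLaw q s B) d - Hs B d := by
  rw [Hs_addLaw_sub hq1, Hs_addLaw_sub hq1]
  unfold addLaw
  simp only [shift_mix, shift_shift]
  refine (J_mix_le hq hq' (ν := fun k i => shift (s k + s' i) B) (fun k i => hB.shift _) hd).trans ?_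
  have h1 : ∀ i, J q (fun k => shift (s k + s' i) B) d = J q (fun k => shift (s k) B) d := by
    intro i
    rw [← J_shift (s' i) q (fun k => shift (s k) B) d]
    simp only [shift_shift, add_comm]
  simp only [h1]
  rw [← Finset.sum_mul, hq1', one_mul]

/-- a finitely supported probability law on the line -/
structure FLaw where
  /-- number of points -/
  n : ℕ
  /-- weights -/
  q : Fin n → ℝ
  /-- points -/
  s : Fin n → ℝ
  nonneg : ∀ k, 0 ≤ q k
  sum_one : ∑ k, q k = 1

/-- the law of `T + X` -/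
noncomputable def FLaw.add (T : FLaw) (B : Measure ℝ) : Measure ℝ := addLaw T.q T.s B

instance (T : FLaw) (B : Measure ℝ) [IsFiniteMeasure B] : IsFiniteMeasure (T.add B) := by
  unfold FLaw.add; infer_instance

instance (T : FLaw) (B : Measure ℝ) [IsProbabilityMeasure B] : IsProbabilityMeasure (T.add B) :=
  isProbabilityMeasure_addLaw T.nonneg T.sum_one T.s B

/-- the law of `T₁ + ⋯ + T_k + X` -/
noncomputable def addList (L : List FLaw) (B : Measure ℝ) : Measure ℝ := L.foldr FLaw.add B

theorem addList_nil (B : Measure ℝ) : addList [] B = B := rfl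

theorem addList_cons (T : FLaw) (L : List FLaw) (B : Measure ℝ) :
    addList (T :: L) B = T.add (addList L B) := rfl

instance (L : List FLaw) (B : Measure ℝ) [IsFiniteMeasure B] : IsFiniteMeasure (addList L B) := by
  induction L with
  | nil => exact ‹_›
  | cons T L ih => rw [addList_cons]; infer_instance

instance (L : List FLaw) (B : Measure ℝ) [IsProbabilityMeasure B] :
    IsProbabilityMeasure (addList L B) := by
  induction L with
  | nil => exact ‹_›
  | cons T L ih => rw [addList_cons]; infer_instance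

theorem BSupp.add {B : Measure ℝ} (h : BSupp B) (T : FLaw) : BSupp (T.add B) :=
  BSupp.addLaw h _ _

theorem BSupp.addList {B : Measure ℝ} (h : BSupp B) (L : List FLaw) : BSupp (addList L B) := by
  induction L with
  | nil => exact h
  | cons T L ih => rw [addList_cons]; exact ih.add T

theorem FLaw.add_comm (T T' : FLaw) (B : Measure ℝ) : T.add (T'.add B) = T'.add (T.add B) :=
  addLaw_comm _ _ _ _ _

theorem addList_add (L : List FLaw) (T : FLaw) (B : Measure ℝ) :
    addList L (T.add B) = T.add (addList L B) := by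
  induction L with
  | nil => rfl
  | cons T' L ih => rw [addList_cons, ih, FLaw.add_comm, ← addList_cons]

theorem addList_perm {L L' : List FLaw} (h : L.Perm L') (B : Measure ℝ) :
    addList L B = addList L' B := by
  induction h with
  | nil => rfl
  | cons T _ ih => rw [addList_cons, addList_cons, ih]
  | swap T T' L => simp only [addList_cons]; exact FLaw.add_comm _ _ _
  | trans _ _ ih1 ih2 => exact ih1.trans ih2

theorem addList_append (L L' : List FLaw) (B : Measure ℝ) :
    addList (L ++ L') B = addList L (addList L' B) := by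
  unfold addList; exact List.foldr_append

theorem Hs_le_add (T : FLaw) {B : Measure ℝ} [IsFiniteMeasure B] (hB : BSupp B) {d : ℝ}
    (hd : 0 ≤ d) : Hs B d ≤ Hs (T.add B) d :=
  Hs_le_addLaw T.nonneg T.sum_one T.s hB hd

theorem Hs_le_addList (L : List FLaw) {B : Measure ℝ} [IsFiniteMeasure B] (hB : BSupp B) {d : ℝ}
    (hd : 0 ≤ d) : Hs B d ≤ Hs (addList L B) d := by
  induction L with
  | nil => exact le_rfl
  | cons T L ih => rw [addList_cons]; exact ih.trans (Hs_le_add T (hB.addList L) hd)

theorem Hs_add_addList_le (T : FLaw) (L : List FLaw) {B : Measure ℝ} [IsFiniteMeasure B]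
    (hB : BSupp B) {d : ℝ} (hd : 0 ≤ d) :
    Hs (T.add (addList L B)) d - Hs (addList L B) d ≤ Hs (T.add B) d - Hs B d := by
  induction L with
  | nil => exact le_rfl
  | cons T' L ih =>
    rw [addList_cons]
    refine le_trans ?_ ih
    exact Hs_addLaw_addLaw_le T.nonneg T.sum_one T.s T'.nonneg T'.sum_one T'.s (hB.addList L) hd

/-- Kaimanovich–Vershik for several summands -/
theorem Hs_addList_le (L : List FLaw) {B : Measure ℝ} [IsFiniteMeasure B] (hB : BSupp B) {d : ℝ}
    (hd : 0 ≤ d) :
    Hs (addList L B) d - Hs B d ≤ (L.map fun T => Hs (T.add B) d - Hs B d).sum := by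
  induction L with
  | nil => simp [addList_nil]
  | cons T L ih =>
    rw [List.map_cons, List.sum_cons]
    have h1 := Hs_add_addList_le T L hB hd
    rw [addList_cons]
    linarith

theorem Hs_addList_replicate_le (T : FLaw) (k : ℕ) {B : Measure ℝ} [IsFiniteMeasure B]
    (hB : BSupp B) {d : ℝ} (hd : 0 ≤ d) :
    Hs (addList (List.replicate k T) B) d - Hs B d ≤ k * (Hs (T.add B) d - Hs B d) := by
  have h := Hs_addList_le (List.replicate k T) hB hd
  simpa [List.map_replicate, List.sum_replicate] using h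

end sums

end Crest.Agent.R98
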