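import Mathlib
import Crest.Agent.R98.Ent

/-!
R98 / Ent2 (helper272): windows of scales, concavity of the increments, convolution with arbitrary
measures.
-/

set_option autoImplicit false

open MeasureTheory Set Real

namespace Crest.Agent.R98

section psi

variable {κ : Type*} [Fintype κ]

/-- the entropy of a subdivision -/
noncomputable def psi (v : κ → ℝ) : ℝ := ∑ k, negMulLog (v k) - negMulLog (∑ k, v k)

theorem psi_smul (c : ℝ) (v : κ → ℝ) : psi (c • v) = c * psi v := by
  unfold psi
  simp only [Pi.smul_apply, smul_eq_mul, negMulLog_mul, ← Finset.mul_sum, Finset.sum_add_distrib,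
    ← Finset.sum_mul]
  ring

theorem psi_add_le {u v : κ → ℝ} (hu : ∀ k, 0 ≤ u k) (hv : ∀ k, 0 ≤ v k) :
    psi u + psi v ≤ psi (u + v) := by
  have h := negMulLog_table (m := fun (b : Bool) k => if b then u k else v k)
    (fun b k => by cases b <;> simp [hu, hv])
  simp only [Fintype.sum_bool, if_true, Bool.false_eq_true, if_false] at h
  unfold psi
  simp only [Pi.add_apply, Finset.sum_add_distrib]
  linarith

theorem continuous_psi : Continuous (psi : (κ → ℝ) → ℝ) := by
  unfold psi
  have h := continuous_negMulLog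
  exact (continuous_finsetSum _ fun k _ => h.comp (continuous_apply k)).sub
    (h.comp (continuous_finsetSum _ fun k _ => continuous_apply k))

/-- the positive cone -/
def pcone (κ : Type*) : Set (κ → ℝ) := {v | ∀ k, 0 ≤ v k}

omit [Fintype κ] in
theorem isClosed_pcone : IsClosed (pcone κ) := by
  have : pcone κ = ⋂ k, {v : κ → ℝ | 0 ≤ v k} := by ext v; simp [pcone]
  rw [this]
  exact isClosed_iInter fun k => isClosed_le continuous_const (continuous_apply k)

omit [Fintype κ] in
theorem convex_pcone : Convex ℝ (pcone κ) := by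
  intro u hu v hv a b ha hb _ k
  simp only [Pi.add_apply, Pi.smul_apply, smul_eq_mul]
  exact add_nonneg (mul_nonneg ha (hu k)) (mul_nonneg hb (hv k))

theorem concaveOn_psi : ConcaveOn ℝ (pcone κ) psi := by
  refine ⟨convex_pcone, ?_⟩
  intro u hu v hv a b ha hb _
  have h := psi_add_le (u := a • u) (v := b • v) (fun k => mul_nonneg ha (hu k))
    (fun k => mul_nonneg hb (hv k))
  rwa [psi_smul, psi_smul] at h

theorem psi_nonneg {v : κ → ℝ} (hv : ∀ k, 0 ≤ v k) : 0 ≤ psi v := by
  unfold psi
  set s := ∑ k, v k with hs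
  have h1 : negMulLog s = ∑ k, -(v k * log s) := by
    rw [Finset.sum_neg_distrib, ← Finset.sum_mul, ← hs, negMulLog]; ring
  rw [h1, ← Finset.sum_sub_distrib]
  refine Finset.sum_nonneg fun k _ => ?_
  rcases (hv k).eq_or_lt with h0 | h0
  · rw [← h0]; simp
  have hle : v k ≤ s :=
    Finset.single_le_sum (f := v) (fun k _ => hv k) (Finset.mem_univ k)
  have h2 : log (v k) ≤ log s := log_le_log h0 hle
  simp only [negMulLog]
  nlinarith

theorem psi_le [Nonempty κ] {v : κ → ℝ} (hv : ∀ k, 0 ≤ v k) :
    psi v ≤ (∑ k, v k) * log (Fintype.card κ) := by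
  have hc : (0 : ℝ) < Fintype.card κ := by exact_mod_cast Fintype.card_pos
  have h := concaveOn_negMulLog.le_map_sum (t := Finset.univ)
    (w := fun _ : κ => (1 : ℝ) / Fintype.card κ) (p := v)
    (fun i _ => by positivity) (by simp [hc.ne']) (fun i _ => hv i)
  simp only [smul_eq_mul, ← Finset.mul_sum] at h
  unfold psi
  set s := ∑ k, v k with hs
  rw [negMulLog_mul] at h
  have h3 : negMulLog (1 / (Fintype.card κ : ℝ)) = (1 / Fintype.card κ) * log (Fintype.card κ) := by
    rw [negMulLog, log_div one_ne_zero hc.ne', log_one]; ring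
  rw [h3] at h
  have h4 := mul_le_mul_of_nonneg_left h hc.le
  have h5 : (Fintype.card κ : ℝ) * (1 / Fintype.card κ * ∑ k, negMulLog (v k)) =
      ∑ k, negMulLog (v k) := by field_simp
  have h6 : (Fintype.card κ : ℝ) * (s * (1 / Fintype.card κ * log (Fintype.card κ)) +
      1 / Fintype.card κ * negMulLog s) = s * log (Fintype.card κ) + negMulLog s := by
    field_simp
  rw [h5, h6] at h4
  linarith

end psi

section window

/-- the integrated form of the difference of two scales -/
theorem Hs_sub_nsmul {μ : Measure ℝ} [IsFiniteMeasure μ] (hμ : BSupp μ) {d : ℝ} (hd : 0 < d)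
    {n : ℕ} (hn : 0 < n) :
    Hs μ d - Hs μ (n * d) =
      (1 / (n * d)) * ∫ y, psi (fun k : Fin n => μ.real (Ico (y + k * d) (y + k * d + d))) := by
  have hn' : (0 : ℝ) < n := by exact_mod_cast hn
  have hint : ∀ c : ℝ, Integrable fun y => negMulLog (μ.real (Ico (y + c) (y + c + d))) :=
    fun c => (integrable_negMulLog_cell hμ d).comp_add_right c
  have h2 : ∀ c : ℝ, ∫ y, negMulLog (μ.real (Ico (y + c) (y + c + d))) =
      ∫ y, negMulLog (μ.real (Ico y (y + d))) := fun c =>
    integral_add_right_eq_self (fun y => negMulLog (μ.real (Ico y (y + d)))) c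
  unfold psi Hs
  simp only [← cell_nsmul μ hd.le n]
  rw [integral_sub (integrable_finsetSum _ fun k _ => hint _) (integrable_negMulLog_cell hμ _),
    integral_finsetSum _ fun k _ => hint _]
  simp only [h2, Finset.sum_const, Finset.card_univ, Fintype.card_fin, nsmul_eq_mul]
  field_simp

theorem integrable_psi_cell {μ : Measure ℝ} [IsFiniteMeasure μ] (hμ : BSupp μ) {d : ℝ} (hd : 0 < d)
    (n : ℕ) : Integrable fun y => psi (fun k : Fin n => μ.real (Ico (y + k * d) (y + k * d + d))) := by
  unfold psi
  simp only [← cell_nsmul μ hd.le n]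
  exact (integrable_finsetSum _ fun k _ =>
    (integrable_negMulLog_cell hμ d).comp_add_right _).sub (integrable_negMulLog_cell hμ _)

theorem Hs_nsmul_le {μ : Measure ℝ} [IsFiniteMeasure μ] (hμ : BSupp μ) {d : ℝ} (hd : 0 < d)
    {n : ℕ} (hn : 0 < n) : Hs μ (n * d) ≤ Hs μ d := by
  have h := Hs_sub_nsmul hμ hd hn
  have h2 : 0 ≤ (1 / (n * d)) *
      ∫ y, psi (fun k : Fin n => μ.real (Ico (y + k * d) (y + k * d + d))) :=
    mul_nonneg (by positivity) (integral_nonneg fun y => psi_nonneg fun k => measureReal_nonneg)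
  linarith

theorem Hs_le_nsmul {μ : Measure ℝ} [IsProbabilityMeasure μ] (hμ : BSupp μ) {d : ℝ} (hd : 0 < d)
    {n : ℕ} (hn : 0 < n) : Hs μ d ≤ Hs μ (n * d) + log n := by
  have hn' : (0 : ℝ) < n := by exact_mod_cast hn
  have : Nonempty (Fin n) := ⟨⟨0, hn⟩⟩
  have h := Hs_sub_nsmul hμ hd hn
  have h1 : ∫ y, psi (fun k : Fin n => μ.real (Ico (y + k * d) (y + k * d + d))) ≤
      ∫ y, μ.real (Ico y (y + n * d)) * log n := by
    refine integral_mono (integrable_psi_cell hμ hd n) ((integrable_cell hμ _).mul_const _) ?_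
    intro y
    have := psi_le (v := fun k : Fin n => μ.real (Ico (y + k * d) (y + k * d + d)))
      (fun k => measureReal_nonneg)
    rwa [← cell_nsmul μ hd.le n, Fintype.card_fin] at this
  rw [integral_mul_const, integral_cell (by positivity), probReal_univ, mul_one] at h1
  have h2 : (1 / (n * d)) *
      ∫ y, psi (fun k : Fin n => μ.real (Ico (y + k * d) (y + k * d + d))) ≤ log n := by
    calc _ ≤ (1 / (n * d)) * (n * d * log n) := mul_le_mul_of_nonneg_left h1 (by positivity)
      _ = log n := by field_simp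
  linarith

variable {κ : Type*} [Fintype κ]

/-- the entropy of a window of scales is concave: finite mixtures -/
theorem mix_window {q : κ → ℝ} (hq : ∀ k, 0 ≤ q k) {ν : κ → Measure ℝ}
    [∀ k, IsFiniteMeasure (ν k)] (hν : ∀ k, BSupp (ν k)) {d : ℝ} (hd : 0 < d) {n : ℕ}
    (hn : 0 < n) :
    ∑ k, q k * (Hs (ν k) d - Hs (ν k) (n * d)) ≤ Hs (mix q ν) d - Hs (mix q ν) (n * d) := by
  have h := J_nsmul_le hq hν hd hn
  unfold J at h
  simp only [mul_sub, Finset.sum_sub_distrib]
  linarith

end window

section conv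

open Measure

/-- cells of a convolution -/
theorem conv_real (A B : Measure ℝ) [IsFiniteMeasure A] [IsFiniteMeasure B] (y d : ℝ) :
    (A ∗ B).real (Ico y (y + d)) = ∫ z, A.real (Ico (y - z) (y - z + d)) ∂B := by
  have hs : MeasurableSet ((fun x : ℝ × ℝ => x.1 + x.2) ⁻¹' Ico y (y + d)) :=
    measurableSet_Ico.preimage (by fun_prop)
  have h1 : (A ∗ B) (Ico y (y + d)) = ∫⁻ z, A (Ico (y - z) (y - z + d)) ∂B := by
    unfold Measure.conv
    rw [Measure.map_apply (by fun_prop) measurableSet_Ico, Measure.prod_apply_symm hs]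
    refine lintegral_congr fun z => ?_
    congr 1
    ext x
    simp only [mem_preimage, mem_Ico]
    constructor
    · rintro ⟨h1, h2⟩; constructor <;> linarith
    · rintro ⟨h1, h2⟩; constructor <;> linarith
  rw [Measure.real, h1, integral_eq_lintegral_of_nonneg_ae]
  · congr 1
    refine lintegral_congr fun z => ?_
    rw [Measure.real, ENNReal.ofReal_toReal (measure_ne_top _ _)]
  · exact Filter.Eventually.of_forall fun z => measureReal_nonneg
  · exact ((measurable_cell A d).comp (measurable_const.sub measurable_id)).aestronglyMeasurable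

/-- Jensen's inequality for convolutions -/
theorem integral_le_conv {κ : Type*} [Fintype κ] {φ : (κ → ℝ) → ℝ}
    (hφ : ConcaveOn ℝ (pcone κ) φ) (hc : Continuous φ) {G : ℝ → κ → ℝ} (hG : Measurable G)
    (h0 : ∀ y k, 0 ≤ G y k) (h1 : ∀ y k, G y k ≤ 1) (hint : Integrable fun y => φ (G y))
    (B : Measure ℝ) [IsProbabilityMeasure B]
    (hL : Integrable fun y => φ (fun k => ∫ z, G (y - z) k ∂B)) :
    ∫ y, φ (G y) ≤ ∫ y, φ (fun k => ∫ z, G (y - z) k ∂B) := by
  obtain ⟨C, hC⟩ := (isCompact_univ_pi fun _ : κ => isCompact_Icc (a := (0 : ℝ)) (b := 1)).exists_bound_of_continuousOn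
    hc.continuousOn
  have hCb : ∀ y, ‖φ (G y)‖ ≤ C := fun y => hC _ fun k _ => ⟨h0 y k, h1 y k⟩
  have hmeas : Measurable fun x : ℝ × ℝ => φ (G (x.1 - x.2)) :=
    hc.measurable.comp (hG.comp (measurable_fst.sub measurable_snd))
  have hprod : Integrable (fun x : ℝ × ℝ => φ (G (x.1 - x.2))) (volume.prod B) := by
    rw [integrable_prod_iff' hmeas.aestronglyMeasurable]
    refine ⟨Filter.Eventually.of_forall fun z => hint.comp_sub_right z, ?_⟩
    have : (fun z => ∫ y, ‖φ (G (y - z))‖) = fun _ => ∫ y, ‖φ (G y)‖ := by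
      funext z
      exact integral_sub_right_eq_self (fun y => ‖φ (G y)‖) z
    simp only [this]
    exact integrable_const _
  have hJ : ∀ y, ∫ z, φ (G (y - z)) ∂B ≤ φ (fun k => ∫ z, G (y - z) k ∂B) := by
    intro y
    have hGm : Measurable fun z => G (y - z) := hG.comp (measurable_const.sub measurable_id)
    have hfi : ∀ k, Integrable (fun z => G (y - z) k) B := by
      intro k
      refine Integrable.of_bound ((measurable_pi_apply k).comp hGm).aestronglyMeasurable 1
        (Filter.Eventually.of_forall fun z => ?_)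
      rw [Real.norm_eq_abs, abs_of_nonneg (h0 _ _)]
      exact h1 _ _
    have h := hφ.le_map_integral (μ := B) (f := fun z => G (y - z)) hc.continuousOn isClosed_pcone
      (Filter.Eventually.of_forall fun z k => h0 _ _) (Integrable.of_eval hfi)
      (Integrable.of_bound (hc.measurable.comp hGm).aestronglyMeasurable C
        (Filter.Eventually.of_forall fun z => hCb _))
    refine h.trans (le_of_eq ?_)
    congr 1
    funext k
    exact eval_integral hfi k
  calc ∫ y, φ (G y) = ∫ z, (∫ y, φ (G (y - z))) ∂B := by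
        have : ∀ z, ∫ y, φ (G (y - z)) = ∫ y, φ (G y) := fun z =>
          integral_sub_right_eq_self (fun y => φ (G y)) z
        simp only [this, integral_const, probReal_univ, one_smul]
    _ = ∫ y, (∫ z, φ (G (y - z)) ∂B) := (integral_integral_swap hprod).symm
    _ ≤ ∫ y, φ (fun k => ∫ z, G (y - z) k ∂B) :=
        integral_mono hprod.integral_prod_left hL hJ

instance (A B : Measure ℝ) [IsProbabilityMeasure A] [IsProbabilityMeasure B] :
    IsProbabilityMeasure (A ∗ B) := by infer_instance

theorem BSupp.conv {A B : Measure ℝ} [SFinite A] [SFinite B] (hA : BSupp A) (hB : BSupp B) :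
    BSupp (A ∗ B) := by
  obtain ⟨R, hR⟩ := hA
  obtain ⟨R', hR'⟩ := hB
  refine ⟨R + R', ?_⟩
  unfold Measure.conv
  rw [Measure.map_apply (by fun_prop) measurableSet_Icc.compl]
  refine measure_mono_null (t := ((Icc (-R) R)ᶜ ×ˢ univ) ∪ (univ ×ˢ (Icc (-R') R')ᶜ)) ?_ ?_
  · rintro ⟨x, y⟩ hxy
    by_contra hcon
    simp only [mem_union, mem_prod, mem_compl_iff, mem_univ, and_true, true_and, not_or,
      not_not] at hcon
    apply hxy
    constructor
    · linarith [hcon.1.1, hcon.2.1]
    · linarith [hcon.1.2, hcon.2.2]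
  · rw [measure_union_null_iff]
    exact ⟨by rw [Measure.prod_prod, hR, zero_mul], by rw [Measure.prod_prod, hR', mul_zero]⟩

theorem cell_le_one (μ : Measure ℝ) [IsProbabilityMeasure μ] (y d : ℝ) :
    μ.real (Ico y (y + d)) ≤ 1 := by
  have := measureReal_mono (μ := μ) (subset_univ (Ico y (y + d)))
  rwa [probReal_univ] at this

/-- **Windows of scales**: the increments of the entropy increase under convolution. -/
theorem conv_window_ge {A B : Measure ℝ} [IsProbabilityMeasure A] [IsProbabilityMeasure B]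
    (hA : BSupp A) (hB : BSupp B) {d : ℝ} (hd : 0 < d) {n : ℕ} (hn : 0 < n) :
    Hs A d - Hs A (n * d) ≤ Hs (A ∗ B) d - Hs (A ∗ B) (n * d) := by
  rw [Hs_sub_nsmul hA hd hn, Hs_sub_nsmul (hA.conv hB) hd hn]
  refine mul_le_mul_of_nonneg_left ?_ (by positivity)
  have h := integral_le_conv (κ := Fin n) concaveOn_psi continuous_psi
    (G := fun y k => A.real (Ico (y + k * d) (y + k * d + d)))
    (measurable_pi_lambda _ fun k => (measurable_cell A d).comp (measurable_id.add_const _))
    (fun y k => measureReal_nonneg) (fun y k => cell_le_one A _ _) (integrable_psi_cell hA hd n) B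
  have hrw : ∀ y, (fun k : Fin n => ∫ z, A.real (Ico (y - z + k * d) (y - z + k * d + d)) ∂B) =
      fun k : Fin n => (A ∗ B).real (Ico (y + k * d) (y + k * d + d)) := by
    intro y
    funext k
    rw [conv_real]
    refine integral_congr_ae (Filter.Eventually.of_forall fun z => ?_)
    simp only
    rw [show y - z + k * d = y + k * d - z by ring]
  simp only [hrw] at h
  exact h (integrable_psi_cell (hA.conv hB) hd n)

theorem convexOn_jfun {ι : Type*} [Fintype ι] {p : ι → ℝ} (hp : ∀ i, 0 ≤ p i) :
    ConvexOn ℝ (pcone ι) (jfun p) := by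
  refine ⟨convex_pcone, ?_⟩
  intro u hu v hv a b ha hb _
  have h := jfun_wsum_le hp (q := fun c : Bool => if c then a else b)
    (fun c => by cases c <;> simp [ha, hb]) (u := fun c : Bool => if c then u else v)
    (fun c k => by cases c <;> simp [hu k, hv k])
  simp only [Fintype.sum_bool, if_true, Bool.false_eq_true, if_false] at h
  exact h

theorem continuous_jfun {ι : Type*} [Fintype ι] (p : ι → ℝ) : Continuous (jfun p) := by
  unfold jfun
  have h := continuous_negMulLog
  exact (h.comp (continuous_finsetSum _ fun k _ => continuous_const.mul (continuous_apply k))).sub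
    (continuous_finsetSum _ fun k _ => continuous_const.mul (h.comp (continuous_apply k)))

/-- data processing: adding an arbitrary independent variable -/
theorem J_conv_le {ι : Type*} [Fintype ι] {p : ι → ℝ} (hp : ∀ i, 0 ≤ p i) {ν : ι → Measure ℝ}
    [∀ i, IsProbabilityMeasure (ν i)] (hν : ∀ i, BSupp (ν i)) {B : Measure ℝ}
    [IsProbabilityMeasure B] (hB : BSupp B) {d : ℝ} (hd : 0 ≤ d) :
    J p (fun i => ν i ∗ B) d ≤ J p ν d := by
  rw [J_eq hp fun i => (hν i).conv hB, J_eq hp hν]
  refine mul_le_mul_of_nonneg_left ?_ (by positivity)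
  have h := integral_le_conv (κ := ι) (φ := fun v => -jfun p v)
    (convexOn_jfun hp).neg (continuous_jfun p).neg
    (G := fun y i => (ν i).real (Ico y (y + d)))
    (measurable_pi_lambda _ fun i => measurable_cell (ν i) d)
    (fun y i => measureReal_nonneg) (fun y i => cell_le_one (ν i) _ _)
    (integrable_jfun hp hν d).neg B
  simp only [← conv_real] at h
  have h2 := h (integrable_jfun hp (fun i => (hν i).conv hB) d).neg
  rw [integral_neg, integral_neg] at h2
  linarith

theorem conv_mix {ι : Type*} [Fintype ι] (q : ι → ℝ) (ν : ι → Measure ℝ)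
    [∀ i, SFinite (ν i)] (B : Measure ℝ) [SFinite B] :
    mix q ν ∗ B = mix q fun i => ν i ∗ B := by
  unfold mix Measure.conv
  rw [← Measure.mapₗ_apply_of_measurable (by fun_prop)]
  have : (∑ k, ENNReal.ofReal (q k) • ν k).prod B =
      ∑ k, ENNReal.ofReal (q k) • (ν k).prod B := by
    rw [← Measure.sum_fintype, ← Measure.sum_fintype, Measure.prod_sum_left]
    congr 1
    funext k
    rw [Measure.prod_smul_left]
  rw [this, _root_.map_sum]
  refine Finset.sum_congr rfl fun i _ => ?_
  rw [Measure.mapₗ_apply_of_measurable (by fun_prop), Measure.map_smul]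

theorem shift_conv (s : ℝ) (A B : Measure ℝ) [SFinite A] [SFinite B] :
    shift s (A ∗ B) = shift s A ∗ B := by
  unfold shift Measure.conv
  rw [Measure.map_map (by fun_prop) (by fun_prop)]
  have h : (A.map fun x => x + s).prod B = (A.prod B).map fun x : ℝ × ℝ => (x.1 + s, x.2) := by
    have := Measure.map_prod_map A B (f := fun x => x + s) (g := id) (by fun_prop) measurable_id
    rw [Measure.map_id] at this
    exact this
  rw [h, Measure.map_map (by fun_prop) (by fun_prop)]
  congr 1
  funext x
  simp only [Function.comp]; ring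

theorem addLaw_conv {κ : Type*} [Fintype κ] (q s : κ → ℝ) (A B : Measure ℝ) [IsFiniteMeasure A]
    [SFinite B] : addLaw q s A ∗ B = addLaw q s (A ∗ B) := by
  unfold addLaw
  rw [conv_mix]
  simp only [← shift_conv]

/-- Kaimanovich–Vershik for an arbitrary extra summand -/
theorem Hs_addLaw_conv_le {κ : Type*} [Fintype κ] {q : κ → ℝ} (hq : ∀ k, 0 ≤ q k)
    (hq1 : ∑ k, q k = 1) (s : κ → ℝ) {A B : Measure ℝ} [IsProbabilityMeasure A]
    [IsProbabilityMeasure B] (hA : BSupp A) (hB : BSupp B) {d : ℝ} (hd : 0 ≤ d) :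
    Hs (addLaw q s (A ∗ B)) d - Hs (A ∗ B) d ≤ Hs (addLaw q s A) d - Hs A d := by
  rw [Hs_addLaw_sub hq1, Hs_addLaw_sub hq1]
  simp only [shift_conv]
  exact J_conv_le hq (fun k => hA.shift (s k)) hB hd

/-- the law of a finitely supported variable -/
noncomputable def FLaw.law (T : FLaw) : Measure ℝ := addLaw T.q T.s (dirac 0)

instance (T : FLaw) : IsProbabilityMeasure T.law :=
  isProbabilityMeasure_addLaw T.nonneg T.sum_one T.s _

theorem bsupp_dirac_zero : BSupp (dirac (0 : ℝ)) :=
  ⟨0, by rw [Measure.dirac_apply' _ measurableSet_Icc.compl]; simp⟩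

theorem FLaw.bsupp (T : FLaw) : BSupp T.law := BSupp.addLaw bsupp_dirac_zero _ _

theorem FLaw.law_conv (T : FLaw) (B : Measure ℝ) [SFinite B] : T.law ∗ B = T.add B := by
  unfold FLaw.law FLaw.add
  rw [addLaw_conv, Measure.dirac_zero_conv]

/-- the gain from adding `T` to `B` is at least the difference of the entropies of the window -/
theorem gain_ge_window (T : FLaw) {B : Measure ℝ} [IsProbabilityMeasure B] (hB : BSupp B)
    {d : ℝ} (hd : 0 < d) {n : ℕ} (hn : 0 < n) :
    (Hs T.law d - Hs T.law (n * d)) - (Hs B d - Hs B (n * d)) ≤ Hs (T.add B) d - Hs B d := by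
  have h1 := conv_window_ge T.bsupp hB hd hn
  rw [T.law_conv] at h1
  have h2 := Hs_le_add T hB (d := n * d) (by positivity)
  linarith

end conv

end Crest.Agent.R98
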