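/-
Row 98: monotonicity of `Hs` in the (real) scale, self-similar window functional,
uniform deficit, macro lemma for the two-point law.
-/
import Mathlib
import Crest.Agent.R98.Ent2

set_option linter.unusedVariables false
set_option linter.unusedSectionVars false

open MeasureTheory Set Real Filter
open scoped ENNReal Topology

namespace Crest.Agent.R98

section mono

/-- `-log`, with value `∞` at `0` -/
noncomputable def nlog (v : ℝ) : ℝ≥0∞ := if v = 0 then ⊤ else ENNReal.ofReal (-log v)

theorem nlog_anti {u v : ℝ} (hu : 0 ≤ u) (huv : u ≤ v) : nlog v ≤ nlog u := by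
  unfold nlog
  rcases hu.eq_or_lt with h | h
  · rw [← h]; simp
  · rw [if_neg h.ne', if_neg (h.trans_le huv).ne']
    exact ENNReal.ofReal_le_ofReal (neg_le_neg (log_le_log h huv))

theorem measurable_nlog : Measurable nlog := by
  unfold nlog
  exact Measurable.ite (measurableSet_singleton 0) measurable_const
    (ENNReal.measurable_ofReal.comp measurable_log.neg)

theorem ofReal_negMulLog {v : ℝ} (h0 : 0 ≤ v) :
    ENNReal.ofReal (negMulLog v) = ENNReal.ofReal v * nlog v := by
  unfold nlog
  rcases h0.eq_or_lt with h | h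
  · rw [← h]; simp
  · rw [if_neg h.ne', ← ENNReal.ofReal_mul h0]
    congr 1
    unfold negMulLog; ring

/-- local formula -/
theorem lintegral_negMulLog_cell (μ : Measure ℝ) [IsFiniteMeasure μ] (d : ℝ) :
    ∫⁻ y, ENNReal.ofReal (negMulLog (μ.real (Ico y (y + d)))) =
      ∫⁻ x, (∫⁻ y in Ioc (x - d) x, nlog (μ.real (Ico y (y + d)))) ∂μ := by
  have h1 : ∀ y : ℝ, ENNReal.ofReal (negMulLog (μ.real (Ico y (y + d)))) =
      ∫⁻ x, (Ico y (y + d)).indicator (fun _ => nlog (μ.real (Ico y (y + d)))) x ∂μ := by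
    intro y
    rw [ofReal_negMulLog measureReal_nonneg, lintegral_indicator measurableSet_Ico,
      setLIntegral_const, mul_comm, Measure.real, ENNReal.ofReal_toReal (measure_ne_top _ _)]
  simp only [h1]
  rw [lintegral_lintegral_swap]
  · refine lintegral_congr fun x => ?_
    rw [← lintegral_indicator measurableSet_Ioc]
    refine lintegral_congr fun y => ?_
    by_cases hx : x ∈ Ico y (y + d)
    · rw [indicator_of_mem hx, indicator_of_mem]
      exact ⟨by linarith [hx.2], hx.1⟩
    · rw [indicator_of_notMem hx, indicator_of_notMem]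
      intro hy
      exact hx ⟨hy.2, by linarith [hy.1]⟩
  · have hs : MeasurableSet ({z : ℝ × ℝ | z.1 ≤ z.2} ∩ {z | z.2 < z.1 + d}) :=
      (measurableSet_le measurable_fst measurable_snd).inter
        (measurableSet_lt measurable_snd (measurable_fst.add_const d))
    have : (Function.uncurry fun (y x : ℝ) =>
        (Ico y (y + d)).indicator (fun _ => nlog (μ.real (Ico y (y + d)))) x) =
        ({z : ℝ × ℝ | z.1 ≤ z.2} ∩ {z | z.2 < z.1 + d}).indicator
          fun z => nlog (μ.real (Ico z.1 (z.1 + d))) := by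
      funext z
      simp only [Function.uncurry]
      by_cases hz : z ∈ ({z : ℝ × ℝ | z.1 ≤ z.2} ∩ {z | z.2 < z.1 + d})
      · rw [indicator_of_mem hz, indicator_of_mem]
        exact ⟨hz.1, hz.2⟩
      · rw [indicator_of_notMem hz, indicator_of_notMem]
        intro h
        exact hz ⟨h.1, h.2⟩
    rw [this]
    refine (Measurable.indicator ?_ hs).aemeasurable
    exact measurable_nlog.comp ((measurable_cell μ d).comp measurable_fst)

theorem lintegral_nlog_le (μ : Measure ℝ) [IsFiniteMeasure μ] {d d' : ℝ} (hd : 0 < d)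
    (hdd : d ≤ d') (x : ℝ) :
    ∫⁻ y in Ioc (x - d') x, nlog (μ.real (Ico y (y + d'))) ≤
      ENNReal.ofReal (d' / d) * ∫⁻ y in Ioc (x - d) x, nlog (μ.real (Ico y (y + d))) := by
  have hd' : 0 < d' := hd.trans_le hdd
  set f : ℝ → ℝ := fun z => x + (z - x) * (d' / d) with hf
  have hder : ∀ z ∈ Ioc (x - d) x, HasDerivWithinAt f (d' / d) (Ioc (x - d) x) z := by
    intro z _
    have : HasDerivAt f (1 * (d' / d)) z :=
      (((hasDerivAt_id z).sub_const x).mul_const (d' / d)).const_add x
    rw [one_mul] at this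
    exact this.hasDerivWithinAt
  have hpos : 0 < d' / d := div_pos hd' hd
  have hinj : InjOn f (Ioc (x - d) x) := by
    intro a _ b _ hab
    simp only [hf] at hab
    have := mul_right_cancel₀ hpos.ne' (add_left_cancel hab)
    linarith
  have himg : f '' Ioc (x - d) x = Ioc (x - d') x := by
    ext y
    simp only [mem_image, mem_Ioc, hf]
    constructor
    · rintro ⟨z, ⟨h1, h2⟩, rfl⟩
      constructor
      · have : -d * (d' / d) < (z - x) * (d' / d) := mul_lt_mul_of_pos_right (by linarith) hpos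
        have h3 : -d * (d' / d) = -d' := by field_simp
        linarith
      · have : (z - x) * (d' / d) ≤ 0 := mul_nonpos_of_nonpos_of_nonneg (by linarith) hpos.le
        linarith
    · rintro ⟨h1, h2⟩
      refine ⟨x + (y - x) * (d / d'), ⟨?_, ?_⟩, ?_⟩
      · have : -d' * (d / d') < (y - x) * (d / d') :=
          mul_lt_mul_of_pos_right (by linarith) (div_pos hd hd')
        have h3 : -d' * (d / d') = -d := by field_simp
        linarith
      · have : (y - x) * (d / d') ≤ 0 :=
          mul_nonpos_of_nonpos_of_nonneg (by linarith) (div_pos hd hd').le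
        linarith
      · field_simp; ring
  rw [← himg, lintegral_image_eq_lintegral_abs_deriv_mul measurableSet_Ioc hder hinj,
    abs_of_pos hpos, lintegral_const_mul']
  · refine mul_le_mul_right ?_ _
    refine setLIntegral_mono' measurableSet_Ioc fun z hz => ?_
    refine nlog_anti measureReal_nonneg (measureReal_mono (Ico_subset_Ico ?_ ?_))
    · simp only [hf]
      have : (z - x) * (d' / d) ≤ (z - x) * 1 :=
        mul_le_mul_of_nonpos_left ((one_le_div hd).mpr hdd) (by linarith [hz.2])
      linarith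
    · simp only [hf]
      have h1 : (x - z) * (d' / d) = (x - z) + (x - z) * ((d' - d) / d) := by
        field_simp; ring
      have h2 : (x - z) * ((d' - d) / d) ≤ d * ((d' - d) / d) :=
        mul_le_mul_of_nonneg_right (by linarith [hz.1]) (div_nonneg (by linarith) hd.le)
      have h3 : d * ((d' - d) / d) = d' - d := by field_simp
      nlinarith
  · exact ENNReal.ofReal_ne_top

theorem ofReal_mul_Hs {μ : Measure ℝ} [IsProbabilityMeasure μ] (hμ : BSupp μ) {d : ℝ}
    (hd : 0 < d) : ENNReal.ofReal (d * Hs μ d) =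
      ∫⁻ y, ENNReal.ofReal (negMulLog (μ.real (Ico y (y + d)))) := by
  have h0 : ∀ y, 0 ≤ negMulLog (μ.real (Ico y (y + d))) := fun y =>
    negMulLog_nonneg measureReal_nonneg (cell_le_one μ y d)
  rw [← ofReal_integral_eq_lintegral_ofReal (integrable_negMulLog_cell hμ d)
    (Filter.Eventually.of_forall h0)]
  congr 1
  unfold Hs
  field_simp

/-- **`Hs` is antitone in the scale** (real scales). -/
theorem Hs_anti {μ : Measure ℝ} [IsProbabilityMeasure μ] (hμ : BSupp μ) {d d' : ℝ}
    (hd : 0 < d) (hdd : d ≤ d') : Hs μ d' ≤ Hs μ d := by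
  have hd' : 0 < d' := hd.trans_le hdd
  have hp : 0 ≤ Hs μ d := Hs_nonneg (by rw [probReal_univ]) hd.le
  have h : ENNReal.ofReal (d' * Hs μ d') ≤ ENNReal.ofReal (d' / d) * ENNReal.ofReal (d * Hs μ d) := by
    rw [ofReal_mul_Hs hμ hd', ofReal_mul_Hs hμ hd, lintegral_negMulLog_cell,
      lintegral_negMulLog_cell, ← lintegral_const_mul' _ _ ENNReal.ofReal_ne_top]
    exact lintegral_mono fun x => lintegral_nlog_le μ hd hdd x
  rw [← ENNReal.ofReal_mul (div_pos hd' hd).le, ENNReal.ofReal_le_ofReal_iff (by positivity)] at h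
  have h2 : d' / d * (d * Hs μ d) = d' * Hs μ d := by field_simp
  rw [h2] at h
  exact le_of_mul_le_mul_left h hd'

/-- the loss between two real scales -/
theorem Hs_le_ceil {μ : Measure ℝ} [IsProbabilityMeasure μ] (hμ : BSupp μ) {d d' : ℝ}
    (hd : 0 < d) (hdd : d ≤ d') : Hs μ d ≤ Hs μ d' + log ⌈d' / d⌉₊ := by
  have hd' : 0 < d' := hd.trans_le hdd
  have hn : 0 < ⌈d' / d⌉₊ := Nat.ceil_pos.mpr (div_pos hd' hd)
  have h1 := Hs_le_nsmul hμ hd hn
  have h2 : d' ≤ ⌈d' / d⌉₊ * d := by
    have := Nat.le_ceil (d' / d)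
    rwa [div_le_iff₀ hd] at this
  have h3 := Hs_anti hμ hd' h2
  linarith

theorem Hs_le_log {μ : Measure ℝ} [IsProbabilityMeasure μ] (hμ : BSupp μ) {d d' : ℝ}
    (hd : 0 < d) (hdd : d ≤ d') : Hs μ d ≤ Hs μ d' + (log (d' / d) + log 2) := by
  have hd' : 0 < d' := hd.trans_le hdd
  have hn : 0 < ⌈d' / d⌉₊ := Nat.ceil_pos.mpr (div_pos hd' hd)
  have h1 := Hs_le_ceil hμ hd hdd
  have h2 : ((⌈d' / d⌉₊ : ℕ) : ℝ) ≤ d' / d * 2 := by
    have := Nat.ceil_lt_add_one (div_pos hd' hd).le
    have h3 : 1 ≤ d' / d := (one_le_div hd).mpr hdd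
    linarith
  have h3 : log ⌈d' / d⌉₊ ≤ log (d' / d * 2) := log_le_log (by exact_mod_cast hn) h2
  rw [log_mul (div_pos hd' hd).ne' two_ne_zero] at h3
  linarith

end mono

section selfsim

variable {ι : Type*} [Fintype ι] {r t p : ι → ℝ} {μ : Measure ℝ} [IsProbabilityMeasure μ]

/-- the window functional of a self-similar measure is superharmonic along the walk of scales -/
theorem window_superharmonic (hp : ∀ i, 0 ≤ p i) (hr : ∀ i, r i ≠ 0) (hμ : BSupp μ)
    (hself : μ = mix p fun i => μ.map fun x => r i * x + t i) {d : ℝ} (hd : 0 < d) {n : ℕ}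
    (hn : 0 < n) :
    ∑ i, p i * (Hs μ (d / |r i|) - Hs μ (n * (d / |r i|))) ≤ Hs μ d - Hs μ (n * d) := by
  have hfin : ∀ i, IsFiniteMeasure (μ.map fun x => r i * x + t i) := fun i => inferInstance
  have h := mix_window hp (ν := fun i => μ.map fun x => r i * x + t i)
    (fun i => hμ.map_affine (r i) (t i)) hd hn
  rw [← hself] at h
  have h1 : ∀ i (e : ℝ), Hs (μ.map fun x => r i * x + t i) e = Hs μ (e / |r i|) := by
    intro i e
    have h2 := Hs_map (hr i) (t i) μ (e / |r i|)
    have h3 : |r i| * (e / |r i|) = e := by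
      have : |r i| ≠ 0 := abs_ne_zero.mpr (hr i)
      field_simp
    rw [h3] at h2
    exact h2
  simp only [h1] at h
  have h4 : ∀ i, (n : ℝ) * (d / |r i|) = n * d / |r i| := fun i => by ring
  simp only [h4]
  exact h

/-- **uniform deficit**: if the entropy dimension of a self-similar measure is at most `D` (along
some sequence of scales) then every window of scales has entropy at most `D log K + C`. -/
theorem uniform_deficit (hp : ∀ i, 0 ≤ p i) (hp1 : ∑ i, p i = 1) {ρ σ : ℝ} (hρ : 0 < ρ)
    (hρr : ∀ i, ρ ≤ |r i|) (hrσ : ∀ i, |r i| ≤ σ) (hσ : σ < 1) (hμ : BSupp μ)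
    (hself : μ = mix p fun i => μ.map fun x => r i * x + t i) {D C' : ℝ} (hD0 : 0 ≤ D)
    (hD : ∃ᶠ x : ℝ in atTop, Hs μ (exp (-x)) ≤ D * x + C') {K : ℕ} (hK : 0 < K) {d : ℝ}
    (hd : 0 < d) :
    Hs μ d - Hs μ (K * d) ≤ D * log K + (log (1 / ρ) + log 2) := by
  classical
  have hne : Nonempty ι := by
    by_contra hcon
    rw [not_nonempty_iff] at hcon
    rw [Finset.univ_eq_empty, Finset.sum_empty] at hp1
    exact zero_ne_one hp1
  have hr : ∀ i, r i ≠ 0 := fun i => abs_pos.mp (hρ.trans_le (hρr i))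
  obtain ⟨i0⟩ := hne
  have hρσ : ρ ≤ σ := (hρr i0).trans (hrσ i0)
  have hσ0 : 0 < σ := hρ.trans_le hρσ
  have hρ1 : ρ < 1 := hρσ.trans_lt hσ
  have hlogρ : 0 ≤ log (1 / ρ) := log_nonneg (by rw [one_le_div hρ]; exact hρ1.le)
  set W : ℝ → ℝ := fun e => Hs μ e - Hs μ (K * e) with hW
  set w := W d with hw
  set C := log (1 / ρ) + log 2 with hC
  have hK' : (1 : ℝ) ≤ K := by exact_mod_cast hK
  -- the base window
  have base : ∀ e, ρ * d ≤ e → e ≤ d → w - C ≤ W e := by
    intro e h1 h2
    have he : 0 < e := (mul_pos hρ hd).trans_le h1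
    have h3 := Hs_anti hμ he h2
    have h4 := Hs_le_log hμ (d := K * e) (d' := K * d) (by positivity)
      (mul_le_mul_of_nonneg_left h2 (by positivity))
    have h5 : log (K * d / (K * e)) ≤ log (1 / ρ) := by
      refine log_le_log (by positivity) ?_
      rw [mul_div_mul_left _ _ (by positivity : (K : ℝ) ≠ 0), div_le_div_iff₀ he hρ]
      linarith
    simp only [hw, hW, hC]
    linarith
  -- propagation to all finer scales
  have prop : ∀ k : ℕ, ∀ e, ρ * d * σ ^ k ≤ e → e ≤ d → w - C ≤ W e := by
    intro k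
    induction k with
    | zero => intro e h1 h2; exact base e (by simpa using h1) h2
    | succ k ih =>
      intro e h1 h2
      rcases le_or_gt (ρ * d) e with h3 | h3
      · exact base e h3 h2
      have he : 0 < e := lt_of_lt_of_le (by positivity) h1
      have h4 := window_superharmonic hp hr hμ hself he hK (t := t)
      have h5 : ∀ i, w - C ≤ W (e / |r i|) := by
        intro i
        have hri : 0 < |r i| := abs_pos.mpr (hr i)
        refine ih _ ?_ ?_
        · rw [le_div_iff₀ hri]
          calc ρ * d * σ ^ k * |r i| ≤ ρ * d * σ ^ k * σ :=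
                mul_le_mul_of_nonneg_left (hrσ i) (by positivity)
            _ = ρ * d * σ ^ (k + 1) := by ring
            _ ≤ e := h1
        · rw [div_le_iff₀ hri]
          calc e ≤ ρ * d := h3.le
            _ = d * ρ := by ring
            _ ≤ d * |r i| := mul_le_mul_of_nonneg_left (hρr i) hd.le
      have h6 : w - C = ∑ i, p i * (w - C) := by rw [← Finset.sum_mul, hp1, one_mul]
      rw [h6]
      exact (Finset.sum_le_sum fun i _ => mul_le_mul_of_nonneg_left (h5 i) (hp i)).trans h4
  have prop' : ∀ e, 0 < e → e ≤ d → w - C ≤ W e := by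
    intro e he hed
    have h1 : Tendsto (fun k : ℕ => ρ * d * σ ^ k) atTop (𝓝 (ρ * d * 0)) :=
      (tendsto_pow_atTop_nhds_zero_of_lt_one hσ0.le hσ).const_mul _
    rw [mul_zero] at h1
    obtain ⟨k, hk⟩ := (h1.eventually (gt_mem_nhds he)).exists
    exact prop k e hk.le hed
  -- trivial case
  rcases lt_or_eq_of_le (Nat.succ_le_of_lt hK) with hK1 | hK1
  swap
  · simp only [← hK1] at *
    simp only [zero_add, Nat.cast_one, one_mul, sub_self, log_one, mul_zero]
    have : 0 ≤ log 2 := log_nonneg (by norm_num)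
    linarith
  by_contra hcon
  push Not at hcon
  have hδ : 0 < w - C - D * log K := by simp only [hw, hW]; linarith
  set δ := w - C - D * log K with hδdef
  -- telescoping
  have tele : ∀ j : ℕ, j * (w - C) ≤ Hs μ (d / K ^ j) := by
    intro j
    induction j with
    | zero => simpa using Hs_nonneg (by rw [probReal_univ]) hd.le
    | succ j ih =>
      have h1 := prop' (d / K ^ (j + 1)) (by positivity)
        (div_le_self hd.le (one_le_pow₀ hK'))
      simp only [hW] at h1
      have h2 : (K : ℝ) * (d / K ^ (j + 1)) = d / K ^ j := by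
        field_simp; ring
      rw [h2] at h1
      push_cast
      linarith
  have hKlog : 0 < log K := log_pos (by exact_mod_cast hK1)
  set x0 := -log d with hx0
  obtain ⟨x, hxD, hxbig⟩ := (hD.and_eventually (eventually_ge_atTop
    (max (x0 + log K) (x0 + log K + log K * ((D * (|x0| + log K) + |C'|) / δ + 1))))).exists
  have hx1 : x0 + log K ≤ x := (le_max_left _ _).trans hxbig
  have hx2 := (le_max_right _ _).trans hxbig
  set j := ⌊(x - x0) / log K⌋₊ with hj
  have hj1 : (j : ℝ) * log K ≤ x - x0 := by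
    have := Nat.floor_le (a := (x - x0) / log K) (div_nonneg (by linarith) hKlog.le)
    rwa [le_div_iff₀ hKlog] at this
  have hj2 : x - x0 < (j + 1) * log K := by
    have := Nat.lt_floor_add_one ((x - x0) / log K)
    rwa [div_lt_iff₀ hKlog] at this
  have h1 : exp (-x) ≤ d / K ^ j := by
    rw [le_div_iff₀ (by positivity), ← exp_log hd, ← exp_log (show (0 : ℝ) < K ^ j by positivity),
      ← exp_add, log_pow]
    apply exp_le_exp.mpr
    simp only [hx0] at hj1
    linarith
  have h2 := (tele j).trans ((Hs_anti hμ (exp_pos _) h1).trans hxD)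
  have h3 : D * x ≤ D * (|x0| + (j + 1) * log K) :=
    mul_le_mul_of_nonneg_left (by linarith [le_abs_self x0]) hD0
  have h4 : (j : ℝ) * δ ≤ D * (|x0| + log K) + |C'| := by
    rw [hδdef]; nlinarith [le_abs_self C']
  have h5 : (D * (|x0| + log K) + |C'|) / δ + 1 ≤ j := by
    have : log K * ((D * (|x0| + log K) + |C'|) / δ + 1) < log K * j := by nlinarith
    exact (lt_of_mul_lt_mul_left this hKlog.le).le
  have h6 : (D * (|x0| + log K) + |C'|) / δ * δ = D * (|x0| + log K) + |C'| :=
    div_mul_cancel₀ _ hδ.ne'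
  nlinarith

end selfsim

end Crest.Agent.R98
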