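import Crest.Agent.R98.HsHd
import Crest.Agent.R98.Ent3
import Crest.Agent.R98.DimFinal

/-!
R98 / Bridge (helper529): the entropy dimension `D` of a self-similar measure, in terms of the
dyadic entropies `Hd` and of the averaged entropies `Hs`, and the negation of the goal.
-/

set_option autoImplicit false

open MeasureTheory Set Real Filter Topology Crest.AnalysisR

namespace Crest.Agent.R98.Bridge

open HsCell

variable {ι : Type*} [Fintype ι] {r t p : ι → ℝ} {μ : Measure ℝ}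

theorem Hd_nonneg [IsProbabilityMeasure μ] (n : ℕ) : 0 ≤ Hd μ n := by
  rw [Hd_eq]
  exact Hz_nonneg _

theorem bsupp (hr : ∀ i, r i ≠ 0 ∧ |r i| < 1) (hp : ∀ i, 0 ≤ p i) (hp₁ : ∑ i, p i = 1)
    (hμ : IsSelfSimilarMeasure r t p μ) : BSupp μ := by
  obtain ⟨R, _, hR, -⟩ := exists_supp hr hp hp₁ hμ
  exact ⟨R, hR⟩

theorem Hd_le [IsProbabilityMeasure μ] (hμ : BSupp μ) (n : ℕ) :
    Hd μ n ≤ n * Real.log 2 + (Hd μ 0 + Real.log 2) := by
  have h := Hc_le hμ (d := 1 / 2 ^ n) (d' := 1) (by positivity) one_pos (N := 2 ^ n)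
    (by push_cast; rw [mul_one_div, div_self (by positivity)]) 0 0
  rw [probReal_univ, one_mul] at h
  have h0 : Hd μ 0 = Hc μ 1 0 := by rw [Hd_eq]; norm_num
  rw [Hd_eq μ n, h0]
  have h1 : Real.log (((2 ^ n : ℕ) : ℝ) + 1) ≤ n * Real.log 2 + Real.log 2 := by
    rw [← Real.log_pow, ← Real.log_mul (by positivity) two_ne_zero]
    refine Real.log_le_log (by positivity) ?_
    push_cast
    have : (1:ℝ) ≤ 2 ^ n := one_le_pow₀ one_le_two
    linarith
  linarith

/-- **the entropy dimension** -/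
theorem exists_dim (hr : ∀ i, r i ≠ 0 ∧ |r i| < 1) (hp : ∀ i, 0 ≤ p i) (hp₁ : ∑ i, p i = 1)
    (hμ : IsSelfSimilarMeasure r t p μ) :
    ∃ D C : ℝ, 0 ≤ D ∧ D ≤ 1 ∧ 0 ≤ C ∧ (∀ n : ℕ, Hd μ n ≤ D * (n * Real.log 2) + C) ∧
      Tendsto (fun n : ℕ => Hd μ n / (n * Real.log 2)) atTop (𝓝 D) := by
  have hprob := hμ.1
  have hb := bsupp hr hp hp₁ hμ
  obtain ⟨C, hC, hsup⟩ := exists_Hd_superadd hr hp hp₁ hμ
  have hlog : 0 < Real.log 2 := Real.log_pos one_lt_two
  set u : ℕ → ℝ := fun n => C - Hd μ n with hu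
  have hsub : Subadditive u := by
    intro m n
    simp only [hu]
    linarith [hsup m n]
  set K : ℝ := Hd μ 0 + Real.log 2 with hK
  have hK0 : 0 ≤ K := add_nonneg (Hd_nonneg 0) hlog.le
  have hbd : BddBelow (Set.range fun n => u n / n) := by
    refine ⟨-(Real.log 2 + K), ?_⟩
    rintro x ⟨n, rfl⟩
    simp only
    rcases Nat.eq_zero_or_pos n with h | h
    · subst h
      simp only [Nat.cast_zero, div_zero]
      linarith
    · have hn : (0:ℝ) < n := by exact_mod_cast h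
      have hn1 : (1:ℝ) ≤ n := by exact_mod_cast h
      rw [le_div_iff₀ hn]
      have := Hd_le hb n
      simp only [hu]
      nlinarith
  have hlim := hsub.tendsto_lim hbd
  set L := hsub.lim with hL
  have hle : ∀ n : ℕ, Hd μ n ≤ (-L / Real.log 2) * (n * Real.log 2) + (C + Hd μ 0) := by
    intro n
    rcases Nat.eq_zero_or_pos n with h | h
    · subst h
      simp only [Nat.cast_zero, zero_mul, mul_zero, zero_add]
      linarith
    · have h1 := hsub.lim_le_div hbd (n := n) (by omega)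
      have hn : (0:ℝ) < n := by exact_mod_cast h
      rw [← hL, le_div_iff₀ hn] at h1
      simp only [hu] at h1
      have h2 : (-L / Real.log 2) * (n * Real.log 2) = -(L * n) := by field_simp
      rw [h2]
      have := Hd_nonneg (μ := μ) 0
      linarith
  have htend : Tendsto (fun n : ℕ => Hd μ n / (n * Real.log 2)) atTop (𝓝 (-L / Real.log 2)) := by
    have h1 : Tendsto (fun n : ℕ => C / n - u n / n) atTop (𝓝 (0 - L)) :=
      (tendsto_const_div_atTop_nhds_zero_nat C).sub hlim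
    have h2 := h1.div_const (Real.log 2)
    rw [zero_sub] at h2
    refine h2.congr fun n => ?_
    simp only [hu]
    rw [← sub_div, sub_sub_cancel, div_div]
  refine ⟨-L / Real.log 2, C + Hd μ 0, ?_, ?_, add_nonneg hC (Hd_nonneg 0), hle, htend⟩
  · refine ge_of_tendsto' htend fun n => ?_
    exact div_nonneg (Hd_nonneg n) (by positivity)
  · have h3 : Tendsto (fun n : ℕ => 1 + (K / Real.log 2) / n) atTop (𝓝 (1 + 0)) :=
      tendsto_const_nhds.add (tendsto_const_div_atTop_nhds_zero_nat _)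
    rw [add_zero] at h3
    refine le_of_tendsto_of_tendsto htend h3 ?_
    filter_upwards [eventually_gt_atTop 0] with n hn
    have hn' : (0:ℝ) < n := by exact_mod_cast hn
    rw [div_le_iff₀ (by positivity)]
    have h4 := Hd_le hb n
    have h5 : (1 + K / Real.log 2 / n) * (n * Real.log 2) = n * Real.log 2 + K := by
      field_simp
    rw [h5]
    exact h4

/-- real scales -/
theorem exists_dim_real (hr : ∀ i, r i ≠ 0 ∧ |r i| < 1) (hp : ∀ i, 0 ≤ p i)
    (hp₁ : ∑ i, p i = 1) (hμ : IsSelfSimilarMeasure r t p μ) :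
    ∃ D C : ℝ, 0 ≤ D ∧ D ≤ 1 ∧ 0 ≤ C ∧ (∀ n : ℕ, Hd μ n ≤ D * (n * Real.log 2) + C) ∧
      Tendsto (fun n : ℕ => Hd μ n / (n * Real.log 2)) atTop (𝓝 D) ∧
      (∀ x : ℝ, 0 ≤ x → Hs μ (exp (-x)) ≤ D * x + C) ∧
      Tendsto (fun x : ℝ => Hs μ (exp (-x)) / x) atTop (𝓝 D) := by
  have hprob := hμ.1
  have hb := bsupp hr hp hp₁ hμ
  obtain ⟨D, C, hD0, hD1, hC, hle, htend⟩ := exists_dim hr hp hp₁ hμ
  have hlog : 0 < Real.log 2 := Real.log_pos one_lt_two
  have hexp : ∀ n : ℕ, (1:ℝ) / 2 ^ n = exp (-(n * Real.log 2)) := by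
    intro n
    rw [Real.exp_neg, mul_comm, Real.exp_mul, Real.exp_log two_pos, Real.rpow_natCast, one_div]
  have hupper : ∀ x : ℝ, 0 ≤ x → Hs μ (exp (-x)) ≤ D * x + (C + 2 * Real.log 2) := by
    intro x hx
    set n := ⌈x / Real.log 2⌉₊ with hn
    have h1 : x ≤ n * Real.log 2 := by
      have := Nat.le_ceil (x / Real.log 2)
      rwa [div_le_iff₀ hlog] at this
    have h2 : n * Real.log 2 ≤ x + Real.log 2 := by
      have := (Nat.ceil_lt_add_one (div_nonneg hx hlog.le)).le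
      have h3 := mul_le_mul_of_nonneg_right this hlog.le
      rw [add_mul, div_mul_cancel₀ _ hlog.ne', one_mul] at h3
      exact h3
    have h3 : Hs μ (exp (-x)) ≤ Hs μ (exp (-(n * Real.log 2))) :=
      Hs_anti hb (exp_pos _) (exp_le_exp.mpr (by linarith))
    have h4 := (abs_le.mp (abs_Hs_sub_Hd_le hb n)).2
    rw [hexp] at h4
    have h5 := hle n
    have h6 : D * (n * Real.log 2) ≤ D * (x + Real.log 2) := mul_le_mul_of_nonneg_left h2 hD0
    nlinarith
  have hlower : ∀ x : ℝ, 0 ≤ x → Hd μ ⌊x / Real.log 2⌋₊ - Real.log 2 ≤ Hs μ (exp (-x)) := by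
    intro x hx
    set n := ⌊x / Real.log 2⌋₊ with hn
    have h1 : n * Real.log 2 ≤ x := by
      have := Nat.floor_le (div_nonneg hx hlog.le)
      rwa [le_div_iff₀ hlog] at this
    have h3 : Hs μ (exp (-(n * Real.log 2))) ≤ Hs μ (exp (-x)) :=
      Hs_anti hb (exp_pos _) (exp_le_exp.mpr (by linarith))
    have h4 := (abs_le.mp (abs_Hs_sub_Hd_le hb n)).1
    rw [hexp] at h4
    linarith
  refine ⟨D, C + 2 * Real.log 2, hD0, hD1, by positivity, fun n => (hle n).trans (by linarith),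
    htend, hupper, ?_⟩
  -- the limit over real scales
  have hfl : Tendsto (fun x : ℝ => ⌊x / Real.log 2⌋₊) atTop atTop :=
    tendsto_nat_floor_atTop.comp (tendsto_id.atTop_div_const hlog)
  have hratio : Tendsto (fun x : ℝ => ((⌊x / Real.log 2⌋₊ : ℕ) : ℝ) / (x / Real.log 2)) atTop
      (𝓝 1) := (tendsto_nat_floor_div_atTop (R := ℝ)).comp (tendsto_id.atTop_div_const hlog)
  have hlow : Tendsto (fun x : ℝ => (Hd μ ⌊x / Real.log 2⌋₊ / (⌊x / Real.log 2⌋₊ * Real.log 2)) *
      (((⌊x / Real.log 2⌋₊ : ℕ) : ℝ) / (x / Real.log 2)) - Real.log 2 / x) atTop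
      (𝓝 (D * 1 - 0)) :=
    ((htend.comp hfl).mul hratio).sub (tendsto_const_nhds.div_atTop tendsto_id)
  rw [mul_one, sub_zero] at hlow
  have hup : Tendsto (fun x : ℝ => D + (C + 2 * Real.log 2) / x) atTop (𝓝 (D + 0)) :=
    tendsto_const_nhds.add (tendsto_const_nhds.div_atTop tendsto_id)
  rw [add_zero] at hup
  refine tendsto_of_tendsto_of_tendsto_of_le_of_le' hlow hup ?_ ?_
  · filter_upwards [eventually_gt_atTop 0, hfl.eventually (eventually_gt_atTop 0)] with x hx hn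
    have hn' : (0:ℝ) < ((⌊x / Real.log 2⌋₊ : ℕ) : ℝ) := by exact_mod_cast hn
    have h1 := hlower x hx.le
    have h2 : (Hd μ ⌊x / Real.log 2⌋₊ / (⌊x / Real.log 2⌋₊ * Real.log 2)) *
      (((⌊x / Real.log 2⌋₊ : ℕ) : ℝ) / (x / Real.log 2)) - Real.log 2 / x =
      (Hd μ ⌊x / Real.log 2⌋₊ - Real.log 2) / x := by
      field_simp
    rw [h2]
    exact div_le_div_of_nonneg_right h1 hx.le
  · filter_upwards [eventually_gt_atTop 0] with x hx
    rw [div_le_iff₀ hx]
    have h1 := hupper x hx.le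
    have h2 : (D + (C + 2 * Real.log 2) / x) * x = D * x + (C + 2 * Real.log 2) := by
      field_simp
    rw [h2]
    exact h1

/-- if the goal (with `a` in place of `min 1 (h/χ)`) fails, then `D < a` -/
theorem dim_lt_of_not_goal {D a : ℝ}
    (htend : Tendsto (fun n : ℕ => Hd μ n / (n * Real.log 2)) atTop (𝓝 D))
    (h : ¬ ∀ ε : ℝ, 0 < ε → ∃ᶠ n : ℕ in atTop, (a - ε) * (n * Real.log 2) ≤ Hd μ n) : D < a := by
  push Not at h
  obtain ⟨ε, hε, h⟩ := h
  have hlog : 0 < Real.log 2 := Real.log_pos one_lt_two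
  have h1 : D ≤ a - ε := by
    refine le_of_tendsto htend ?_
    filter_upwards [h, eventually_gt_atTop 0] with n hn hn0
    have hn' : (0:ℝ) < n := by exact_mod_cast hn0
    rw [div_le_iff₀ (by positivity)]
    exact (not_le.mp (by simpa using hn)).le
  linarith

/-- conversely `a ≤ D` gives the goal -/
theorem goal_of_le_dim {D a : ℝ}
    (htend : Tendsto (fun n : ℕ => Hd μ n / (n * Real.log 2)) atTop (𝓝 D)) (h : a ≤ D) :
    ∀ ε : ℝ, 0 < ε → ∃ᶠ n : ℕ in atTop, (a - ε) * (n * Real.log 2) ≤ Hd μ n := by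
  intro ε hε
  refine Eventually.frequently ?_
  have hlog : 0 < Real.log 2 := Real.log_pos one_lt_two
  have h1 := htend.eventually (eventually_gt_nhds (show a - ε < D by linarith))
  filter_upwards [h1, eventually_gt_atTop 0] with n hn hn0
  have hn' : (0:ℝ) < n := by exact_mod_cast hn0
  rw [lt_div_iff₀ (by positivity)] at hn
  exact hn.le

end Crest.Agent.R98.Bridge
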