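import Crest.Agent.R98.HsCell

/-!
R98 / Cluster (helper529): entropies of finite laws whose values cluster: if (within a type) two
values which are closer than `d` belong to the same cluster, and the clusters have diameter `≤ δ ≤ d`,
then the averaged entropy at scale `d` is the cluster entropy up to `(δ/d) log 2`.
-/

set_option autoImplicit false

open MeasureTheory Set Real

namespace Crest.Agent.R98.Cluster

open HsCell Part

variable {Ω : Type*} [Fintype Ω]

theorem res_nonneg {T : Type*} {q : Ω → ℝ} (hq : ∀ a, 0 ≤ q a) (f : Ω → T) (τ : T) (a : Ω) :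
    0 ≤ res q f τ a := indicator_nonneg (fun _ _ => hq _) a

theorem res_ne_zero {T : Type*} {q : Ω → ℝ} {f : Ω → T} {τ : T} {a : Ω} (h : res q f τ a ≠ 0) :
    f a = τ ∧ q a ≠ 0 := by
  unfold res at h
  have h1 : a ∈ ({a | f a = τ} : Set Ω) := mem_of_indicator_ne_zero h
  rw [indicator_of_mem h1] at h
  exact ⟨h1, h⟩

theorem sum_res {T : Type*} [Fintype T] (q : Ω → ℝ) (f : Ω → T) (a : Ω) :
    ∑ τ, res q f τ a = q a := by
  classical
  unfold res
  rw [Finset.sum_eq_single (f a)]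
  · exact indicator_of_mem (show a ∈ {b | f b = f a} from rfl) q
  · intro τ _ hτ
    exact indicator_of_notMem (fun h => hτ h.symm) q
  · intro h; exact absurd (Finset.mem_univ _) h

/-- mass of a measurable set for a finite law -/
theorem law_real' {q : Ω → ℝ} (hq : ∀ a, 0 ≤ q a) (v : Ω → ℝ) {s : Set ℝ} (hs : MeasurableSet s) :
    (law q v).real s = ∑ a, q a * s.indicator 1 (v a) := by
  unfold law
  rw [mix_real hq]
  refine Finset.sum_congr rfl fun a _ => ?_
  rw [Measure.real, Measure.dirac_apply' _ hs]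
  by_cases h : v a ∈ s
  · rw [indicator_of_mem h, indicator_of_mem h]; simp
  · rw [indicator_of_notMem h, indicator_of_notMem h]; simp

/-- the law is the sum of the restricted laws -/
theorem law_real_sum_res {T : Type*} [Fintype T] {q : Ω → ℝ} (hq : ∀ a, 0 ≤ q a) (v : Ω → ℝ)
    (f : Ω → T) {s : Set ℝ} (hs : MeasurableSet s) :
    (law q v).real s = ∑ τ, (law (res q f τ) v).real s := by
  rw [law_real' hq v hs]
  simp only [law_real' (res_nonneg hq f _) v hs]
  rw [Finset.sum_comm]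
  refine Finset.sum_congr rfl fun a _ => ?_
  rw [← Finset.sum_mul, sum_res]

theorem law_real_ne_zero {q : Ω → ℝ} (hq : ∀ a, 0 ≤ q a) {v : Ω → ℝ} {s : Set ℝ}
    (hs : MeasurableSet s) (h : (law q v).real s ≠ 0) : ∃ a, q a ≠ 0 ∧ v a ∈ s := by
  by_contra hc
  push Not at hc
  apply h
  rw [law_real' hq v hs]
  refine Finset.sum_eq_zero fun a _ => ?_
  by_cases h1 : q a = 0
  · rw [h1, zero_mul]
  · rw [indicator_of_notMem (hc a h1), mul_zero]

/-- separated clusters: the entropies add -/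
theorem Hs_law_separated {T : Type*} [Fintype T] {q : Ω → ℝ} (hq : ∀ a, 0 ≤ q a) {v : Ω → ℝ}
    {c : Ω → T} {d : ℝ} (hsep : ∀ a b, q a ≠ 0 → q b ≠ 0 → |v a - v b| < d → c a = c b) :
    Hs (law q v) d = ∑ τ, Hs (law (res q c τ) v) d := by
  classical
  unfold Hs
  rw [← Finset.mul_sum, ← integral_finsetSum _ fun τ _ =>
    integrable_negMulLog_cell (bsupp_law (res q c τ) v) d]
  congr 1
  refine integral_congr_ae (Filter.Eventually.of_forall fun y => ?_)
  simp only
  rw [law_real_sum_res hq v c measurableSet_Ico]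
  by_cases h : ∃ τ, (law (res q c τ) v).real (Ico y (y + d)) ≠ 0
  · obtain ⟨τ, hτ⟩ := h
    obtain ⟨a, ha, hva⟩ := law_real_ne_zero (res_nonneg hq c τ) measurableSet_Ico hτ
    obtain ⟨hca, hqa⟩ := res_ne_zero ha
    have h0 : ∀ τ', τ' ≠ τ → (law (res q c τ') v).real (Ico y (y + d)) = 0 := by
      intro τ' hne
      by_contra hc
      obtain ⟨b, hb, hvb⟩ := law_real_ne_zero (res_nonneg hq c τ') measurableSet_Ico hc
      obtain ⟨hcb, hqb⟩ := res_ne_zero hb
      apply hne
      rw [← hcb, ← hca]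
      refine hsep b a hqb hqa ?_
      rw [abs_lt]
      constructor <;> linarith [hva.1, hva.2, hvb.1, hvb.2]
    rw [Finset.sum_eq_single τ (fun τ' _ hne => h0 τ' hne)
      (fun h => absurd (Finset.mem_univ _) h),
      Finset.sum_eq_single τ (fun τ' _ hne => by rw [h0 τ' hne, negMulLog_zero])
      (fun h => absurd (Finset.mem_univ _) h)]
  · push Not at h
    simp only [h, Finset.sum_const_zero, negMulLog_zero]

/-- entropy is at least the entropy of the total mass -/
theorem negMulLog_univ_le_Hz {X : Type*} [MeasurableSpace X] {P : Measure X} [IsFiniteMeasure P]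
    {Z : X → ℤ} (hZ : Measurable Z) (hB : Bd P Z) : negMulLog (P.real univ) ≤ Hz P Z := by
  obtain ⟨S, hS⟩ := hB
  rw [Hz_eq_sum hS, real_eq_sum hZ hS MeasurableSet.univ]
  have h2 := psi_nonneg (κ := S) (v := fun k : S => P.real (Z ⁻¹' {(k : ℤ)}))
    (fun k' => measureReal_nonneg)
  unfold psi at h2
  rw [Finset.sum_coe_sort S fun k => negMulLog (P.real (Z ⁻¹' {k})),
    Finset.sum_coe_sort S fun k => P.real (Z ⁻¹' {k})] at h2
  simp only [univ_inter]
  linarith

theorem negMulLog_univ_le_Hs {μ : Measure ℝ} [IsFiniteMeasure μ] (hμ : BSupp μ) {d : ℝ}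
    (hd : 0 < d) : negMulLog (μ.real univ) ≤ Hs μ d :=
  le_Hs hμ hd fun θ => negMulLog_univ_le_Hz (measurable_zc d θ) (BSupp.bd hμ hd θ)

theorem Hz_const {X : Type*} [MeasurableSpace X] {P : Measure X} (k : ℤ) :
    Hz P (fun _ => k) = negMulLog (P.real univ) := by
  unfold Hz
  rw [tsum_eq_single k]
  · simp
  · intro k' hk'
    rw [preimage_const_of_notMem (by simpa using hk'.symm)]
    simp

/-- a measure on an interval of length `δ ≤ d` -/
theorem Hs_le_of_small {μ : Measure ℝ} [IsFiniteMeasure μ] {m δ d : ℝ} (hδ : 0 ≤ δ) (hδd : δ ≤ d)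
    (hd : 0 < d) (hμ : μ (Icc m (m + δ))ᶜ = 0) :
    Hs μ d ≤ negMulLog (μ.real univ) + (δ / d) * (μ.real univ * Real.log 2) := by
  have hae : ∀ᵐ x ∂μ, x ∈ Icc m (m + δ) := hμ
  have hb : BSupp μ := by
    refine bsupp_of_ae (R := |m| + δ) ?_
    filter_upwards [hae] with x hx
    have h1 := le_abs_self m
    have h2 := neg_abs_le m
    rw [abs_le]
    constructor <;> linarith [hx.1, hx.2]
  set w := μ.real univ with hw
  -- phases in `(m, m+δ)`
  have h1 : ∀ θ ∈ Ioo m (m + δ), Hc μ d θ ≤ negMulLog w + w * Real.log 2 := by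
    intro θ hθ
    have h := Hz_le_add_log (P := μ) (Z := zc d θ) (Z' := fun _ => (0 : ℤ)) (measurable_zc d θ)
      measurable_const (BSupp.bd hb hd θ) ⟨{0}, by simp⟩ (N := 2) two_pos (fun _ => -1) ?_
    · rw [Hz_const] at h
      exact_mod_cast h
    · filter_upwards [hae] with x hx
      constructor
      · unfold zc
        rw [Int.le_floor, le_div_iff₀ hd]
        push_cast
        linarith [hx.1, hθ.2]
      · unfold zc
        rw [Int.floor_lt, div_lt_iff₀ hd]
        push_cast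
        linarith [hx.2, hθ.1]
  -- the other phases
  have h2 : ∀ θ ∈ Ioo (m + δ) (m + d), Hc μ d θ ≤ negMulLog w := by
    intro θ hθ
    have h := Hz_le_add_log (P := μ) (Z := zc d θ) (Z' := fun _ => (0 : ℤ)) (measurable_zc d θ)
      measurable_const (BSupp.bd hb hd θ) ⟨{0}, by simp⟩ (N := 1) one_pos (fun _ => -1) ?_
    · rw [Hz_const, Nat.cast_one, Real.log_one, mul_zero, add_zero] at h
      exact h
    · filter_upwards [hae] with x hx
      constructor
      · unfold zc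
        rw [Int.le_floor, le_div_iff₀ hd]
        push_cast
        linarith [hx.1, hθ.2]
      · unfold zc
        rw [Int.floor_lt, div_lt_iff₀ hd]
        push_cast
        linarith [hx.2, hθ.1]
  have hint := intervalIntegrable_Hc hb hd m
  have hi1 : IntervalIntegrable (Hc μ d) volume m (m + δ) :=
    hint.mono_set (by
      rw [uIcc_of_le (by linarith), uIcc_of_le (by linarith)]
      exact Icc_subset_Icc le_rfl (by linarith))
  have hi2 : IntervalIntegrable (Hc μ d) volume (m + δ) (m + d) :=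
    hint.mono_set (by
      rw [uIcc_of_le (by linarith), uIcc_of_le (by linarith)]
      exact Icc_subset_Icc (by linarith) le_rfl)
  have e1 : ∫ θ in m..(m + δ), Hc μ d θ ≤ ∫ _θ in m..(m + δ), (negMulLog w + w * Real.log 2) :=
    intervalIntegral.integral_mono_on_of_le_Ioo (by linarith) hi1 intervalIntegrable_const h1
  have e2 : ∫ θ in (m + δ)..(m + d), Hc μ d θ ≤ ∫ _θ in (m + δ)..(m + d), negMulLog w :=
    intervalIntegral.integral_mono_on_of_le_Ioo (by linarith) hi2 intervalIntegrable_const h2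
  rw [intervalIntegral.integral_const, smul_eq_mul] at e1 e2
  rw [Hs_eq_average hb hd m, ← intervalIntegral.integral_add_adjacent_intervals hi1 hi2]
  calc (1 / d) * ((∫ θ in m..(m + δ), Hc μ d θ) + ∫ θ in (m + δ)..(m + d), Hc μ d θ)
      ≤ (1 / d) * ((m + δ - m) * (negMulLog w + w * Real.log 2) +
        (m + d - (m + δ)) * negMulLog w) :=
        mul_le_mul_of_nonneg_left (add_le_add e1 e2) (by positivity)
    _ = _ := by field_simp; ring

/-- one cluster -/
theorem Hs_law_le_of_small {q : Ω → ℝ} (hq : ∀ a, 0 ≤ q a) {v : Ω → ℝ} {δ d : ℝ} (hδ : 0 ≤ δ)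
    (hδd : δ ≤ d) (hd : 0 < d) (h : ∀ a b, q a ≠ 0 → q b ≠ 0 → |v a - v b| ≤ δ) :
    Hs (law q v) d ≤ negMulLog (∑ a, q a) + (δ / d) * ((∑ a, q a) * Real.log 2) := by
  classical
  rw [← law_real_univ hq v]
  by_cases hne : ∃ a, q a ≠ 0
  · -- the minimum
    obtain ⟨a₀, ha₀⟩ := hne
    obtain ⟨a, ha, hmin⟩ := Finset.exists_min_image (Finset.univ.filter fun a => q a ≠ 0) v
      ⟨a₀, by simpa using ha₀⟩
    rw [Finset.mem_filter] at ha
    refine Hs_le_of_small (m := v a) hδ hδd hd ?_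
    by_contra hc
    have : (law q v).real (Icc (v a) (v a + δ))ᶜ ≠ 0 := by
      rw [Measure.real]
      exact ENNReal.toReal_ne_zero.mpr ⟨hc, measure_ne_top _ _⟩
    obtain ⟨b, hb, hvb⟩ := law_real_ne_zero hq measurableSet_Icc.compl this
    apply hvb
    refine ⟨hmin b (by simpa using hb), ?_⟩
    have := (abs_le.mp (h b a hb ha.2)).2
    linarith
  · push Not at hne
    refine Hs_le_of_small (m := 0) hδ hδd hd ?_
    by_contra hc
    have : (law q v).real (Icc 0 (0 + δ))ᶜ ≠ 0 := by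
      rw [Measure.real]
      exact ENNReal.toReal_ne_zero.mpr ⟨hc, measure_ne_top _ _⟩
    obtain ⟨b, hb, _⟩ := law_real_ne_zero hq measurableSet_Icc.compl this
    exact hb (hne b)

theorem HS_ker_eq_sum_res {T : Type*} [Fintype T] (q : Ω → ℝ) (c : Ω → T) :
    HS q (Setoid.ker c) = ∑ τ, negMulLog (∑ a, res q c τ a) := by
  have h := HS_inf_ker_sum q c ⊤
  rw [top_inf_eq] at h
  rw [h]
  exact Finset.sum_congr rfl fun τ _ => HS_top _

/-- **cluster lemma** -/
theorem Hs_law_le_cluster {T : Type*} [Fintype T] {q : Ω → ℝ} (hq : ∀ a, 0 ≤ q a) {v : Ω → ℝ}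
    {c : Ω → T} {δ d : ℝ} (hδ : 0 ≤ δ) (hδd : δ ≤ d) (hd : 0 < d)
    (h1 : ∀ a b, q a ≠ 0 → q b ≠ 0 → c a = c b → |v a - v b| ≤ δ)
    (h2 : ∀ a b, q a ≠ 0 → q b ≠ 0 → |v a - v b| < d → c a = c b) :
    Hs (law q v) d ≤ HS q (Setoid.ker c) + (δ / d) * ((∑ a, q a) * Real.log 2) := by
  rw [Hs_law_separated hq h2, HS_ker_eq_sum_res]
  have e1 : ∑ a, q a = ∑ τ, ∑ a, res q c τ a := by
    rw [Finset.sum_comm]
    exact Finset.sum_congr rfl fun a _ => (sum_res q c a).symm
  rw [e1, Finset.sum_mul, Finset.mul_sum, ← Finset.sum_add_distrib]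
  refine Finset.sum_le_sum fun τ _ => ?_
  refine Hs_law_le_of_small (res_nonneg hq c τ) hδ hδd hd fun a b ha hb => ?_
  obtain ⟨ha1, ha2⟩ := res_ne_zero ha
  obtain ⟨hb1, hb2⟩ := res_ne_zero hb
  exact h1 a b ha2 hb2 (ha1.trans hb1.symm)

/-- **cluster lemma**, lower bound -/
theorem cluster_le_Hs_law {T : Type*} [Fintype T] {q : Ω → ℝ} (hq : ∀ a, 0 ≤ q a) {v : Ω → ℝ}
    {c : Ω → T} {d : ℝ} (hd : 0 < d)
    (h2 : ∀ a b, q a ≠ 0 → q b ≠ 0 → |v a - v b| < d → c a = c b) :
    HS q (Setoid.ker c) ≤ Hs (law q v) d := by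
  rw [Hs_law_separated hq h2, HS_ker_eq_sum_res]
  refine Finset.sum_le_sum fun τ _ => ?_
  rw [← law_real_univ (res_nonneg hq c τ) v]
  exact negMulLog_univ_le_Hs (bsupp_law _ _) hd

/-- entropy of `v` at scale `d` together with the type `ty`:
`H(ty) + H(v ; d | ty)`. -/
noncomputable def HT {T : Type*} [Fintype T] (q : Ω → ℝ) (ty : Ω → T) (v : Ω → ℝ) (d : ℝ) : ℝ :=
  ∑ τ, Hs (law (res q ty τ) v) d

/-- **cluster lemma with types** -/
theorem HT_le_cluster {T T' : Type*} [Fintype T] [Fintype T'] {q : Ω → ℝ} (hq : ∀ a, 0 ≤ q a)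
    {ty : Ω → T'} {v : Ω → ℝ} {c : Ω → T} {δ d : ℝ} (hδ : 0 ≤ δ) (hδd : δ ≤ d) (hd : 0 < d)
    (h1 : ∀ a b, c a = c b → ty a = ty b ∧ |v a - v b| ≤ δ)
    (h2 : ∀ a b, ty a = ty b → |v a - v b| < d → c a = c b) :
    HT q ty v d ≤ HS q (Setoid.ker c) + (δ / d) * ((∑ a, q a) * Real.log 2) := by
  unfold HT
  have e1 : ∑ a, q a = ∑ τ, ∑ a, res q ty τ a := by
    rw [Finset.sum_comm]
    exact Finset.sum_congr rfl fun a _ => (sum_res q ty a).symm
  have e2 : HS q (Setoid.ker c) = ∑ τ, HS (res q ty τ) (Setoid.ker c) := by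
    rw [← HS_inf_ker_sum]
    congr 1
    exact (inf_eq_left.mpr fun a b hab => (h1 a b hab).1).symm
  rw [e1, e2, Finset.sum_mul, Finset.mul_sum, ← Finset.sum_add_distrib]
  refine Finset.sum_le_sum fun τ _ => ?_
  refine Hs_law_le_cluster (res_nonneg hq ty τ) hδ hδd hd (fun a b _ _ hab => (h1 a b hab).2) ?_
  intro a b ha hb hab
  exact h2 a b ((res_ne_zero ha).1.trans (res_ne_zero hb).1.symm) hab

theorem cluster_le_HT {T T' : Type*} [Fintype T] [Fintype T'] {q : Ω → ℝ} (hq : ∀ a, 0 ≤ q a)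
    {ty : Ω → T'} {v : Ω → ℝ} {c : Ω → T} {d : ℝ} (hd : 0 < d)
    (h1 : ∀ a b, c a = c b → ty a = ty b)
    (h2 : ∀ a b, ty a = ty b → |v a - v b| < d → c a = c b) :
    HS q (Setoid.ker c) ≤ HT q ty v d := by
  unfold HT
  have e2 : HS q (Setoid.ker c) = ∑ τ, HS (res q ty τ) (Setoid.ker c) := by
    rw [← HS_inf_ker_sum]
    congr 1
    exact (inf_eq_left.mpr fun a b hab => h1 a b hab).symm
  rw [e2]
  refine Finset.sum_le_sum fun τ _ => ?_
  refine cluster_le_Hs_law (res_nonneg hq ty τ) hd ?_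
  intro a b ha hb hab
  exact h2 a b ((res_ne_zero ha).1.trans (res_ne_zero hb).1.symm) hab

/-- if all differences `≤ D` within a type are `≤ δ`, the entropies between the scales `δ e^y` and
`D` differ by at most `e^{-y} log 2` (statement with `δ ≤ d ≤ d' < D - δ`... in the form used:
`δ ≤ d`, `d' ≤ D - δ`, `d ≤ D - δ`, `2 δ ≤ D`). -/
theorem HT_gap {T' : Type*} [Fintype T'] {q : Ω → ℝ} (hq : ∀ a, 0 ≤ q a)
    {ty : Ω → T'} {v : Ω → ℝ} {δ D d d' : ℝ} (hδ : 0 ≤ δ) (hδD : 2 * δ ≤ D) (hδd : δ ≤ d)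
    (hd : 0 < d) (hdD : d ≤ D) (hd' : 0 < d') (hdD' : d' ≤ D)
    (h : ∀ a b, ty a = ty b → |v a - v b| ≤ D → |v a - v b| ≤ δ) :
    HT q ty v d ≤ HT q ty v d' + (δ / d) * ((∑ a, q a) * Real.log 2) := by
  classical
  -- the cluster relation
  let cl : Setoid Ω :=
    { r := fun a b => ty a = ty b ∧ |v a - v b| ≤ δ
      iseqv := by
        refine ⟨fun a => ⟨rfl, by simpa using hδ⟩, fun h => ⟨h.1.symm, by
          rw [abs_sub_comm]; exact h.2⟩, ?_⟩
        rintro a b c ⟨h1, h2⟩ ⟨h3, h4⟩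
        refine ⟨h1.trans h3, h a c (h1.trans h3) ?_⟩
        have := abs_sub_le (v a) (v b) (v c)
        linarith }
  have : Fintype (Quotient cl) := Fintype.ofFinite _
  have h1 : ∀ a b, (Quotient.mk cl a) = (Quotient.mk cl b) → ty a = ty b ∧ |v a - v b| ≤ δ :=
    fun a b hab => Quotient.exact hab
  have h2 : ∀ e ≤ D, ∀ a b, ty a = ty b → |v a - v b| < e →
      (Quotient.mk cl a) = (Quotient.mk cl b) := fun e he a b hab hlt =>
    Quotient.sound ⟨hab, h a b hab (hlt.le.trans he)⟩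
  have e1 := HT_le_cluster (ty := ty) (v := v) (c := Quotient.mk cl) hq hδ hδd hd h1 (h2 d hdD)
  have e2 := cluster_le_HT (ty := ty) (v := v) (c := Quotient.mk cl) hq hd'
    (fun a b hab => (h1 a b hab).1) (h2 d' hdD')
  linarith

end Crest.Agent.R98.Cluster
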