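import Crest.Agent.R98.FB
import Mathlib.Probability.Kernel.Condexp
import Mathlib.MeasureTheory.Measure.Support

/-!
Row 98, module F (helper893): almost everywhere versions; relatively independent self-joining:
a continuous function of the word is a.e. `m`-measurable iff it takes equal values on all pairs of
a fixed set (the support of the joining).
-/

set_option autoImplicit false
set_option linter.unusedSectionVars false
set_option linter.unusedSimpArgs false

namespace Crest.Agent.R98.F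

open MeasureTheory ProbabilityTheory Filter Topology Real
open Crest.Agent.R098.Upper

noncomputable section

section congr

variable {Ω : Type*} [m0 : MeasurableSpace Ω] {μ : Measure Ω} {E : Type*} [mE : MeasurableSpace E]

/-- conditional expectations given a.e. equal variables -/
theorem condExp_comap_congr [IsProbabilityMeasure μ] {Φ Ψ : Ω → E} (hΦ : Measurable Φ)
    (hΨ : Measurable Ψ) (h : Φ =ᵐ[μ] Ψ) {F : Ω → ℝ} (hF : Integrable F μ) :
    μ[F | MeasurableSpace.comap Φ mE] =ᵐ[μ] μ[F | MeasurableSpace.comap Ψ mE] := by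
  obtain ⟨g, hg, e⟩ := (stronglyMeasurable_condExp (f := F) (μ := μ)
    (m := MeasurableSpace.comap Φ mE)).exists_eq_measurable_comp
  have hgi : Integrable (g ∘ Φ) μ := by rw [← e]; exact integrable_condExp
  have hae : g ∘ Φ =ᵐ[μ] g ∘ Ψ := by
    filter_upwards [h] with ω hω
    simp only [Function.comp_apply, hω]
  have hgi' : Integrable (g ∘ Ψ) μ := hgi.congr hae
  have h2 : g ∘ Ψ =ᵐ[μ] μ[F | MeasurableSpace.comap Ψ mE] := by
    refine ae_eq_condExp_of_forall_setIntegral_eq hΨ.comap_le hF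
      (fun s _ _ => hgi'.integrableOn) ?_ ?_
    · rintro _ ⟨B, hB, rfl⟩ _
      have hs : Φ ⁻¹' B =ᵐ[μ] Ψ ⁻¹' B := by
        filter_upwards [h] with ω hω
        have : (ω ∈ Φ ⁻¹' B) = (ω ∈ Ψ ⁻¹' B) := by
          simp only [Set.mem_preimage, hω]
        exact this
      rw [← setIntegral_congr_set hs, ← setIntegral_congr_set hs]
      have e1 : ∫ ω in Φ ⁻¹' B, (g ∘ Ψ) ω ∂μ = ∫ ω in Φ ⁻¹' B, (g ∘ Φ) ω ∂μ := by
        refine integral_congr_ae ?_
        exact ae_restrict_of_ae (by filter_upwards [hae] with ω hω using hω.symm)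
      rw [e1, ← e]
      exact setIntegral_condExp hΦ.comap_le hF ⟨B, hB, rfl⟩
    · have : StronglyMeasurable[MeasurableSpace.comap Ψ mE] (g ∘ Ψ) :=
        hg.comp_measurable (comap_measurable Ψ)
      exact this.aestronglyMeasurable
  rw [e]
  exact hae.trans h2

theorem Hc_comap_congr {Z : Type*} [Fintype Z] [MeasurableSpace Z] [MeasurableSingletonClass Z]
    [IsProbabilityMeasure μ] {Φ Ψ : Ω → E} (hΦ : Measurable Φ)
    (hΨ : Measurable Ψ) (h : Φ =ᵐ[μ] Ψ) {f : Ω → Z} (hf : Measurable f) :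
    Hc μ (MeasurableSpace.comap Φ mE) f = Hc μ (MeasurableSpace.comap Ψ mE) f := by
  unfold Hc
  refine Finset.sum_congr rfl fun z _ => integral_congr_ae ?_
  filter_upwards [condExp_comap_congr hΦ hΨ h (ind_int (μ := μ) z hf)] with ω hω
  unfold cp
  rw [hω]

end congr

section join

variable {Ω : Type*} {m : MeasurableSpace Ω} [mΩ : MeasurableSpace Ω] [StandardBorelSpace Ω]

/-- the conditional kernel as a kernel on the big σ-algebra -/
def kr (μ : Measure Ω) [IsFiniteMeasure μ] (hm : m ≤ mΩ) : Kernel Ω Ω :=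
  (condExpKernel μ m).comap id (measurable_id'' hm)

instance (μ : Measure Ω) [IsFiniteMeasure μ] (hm : m ≤ mΩ) : IsMarkovKernel (kr μ hm) := by
  unfold kr; infer_instance

theorem kr_apply (μ : Measure Ω) [IsFiniteMeasure μ] (hm : m ≤ mΩ) (ω : Ω) :
    kr μ hm ω = condExpKernel μ m ω := by
  unfold kr; rw [Kernel.comap_apply]; rfl

/-- the relatively independent self-joining over `m` -/
def jn (μ : Measure Ω) [IsFiniteMeasure μ] (hm : m ≤ mΩ) : Measure (Ω × Ω) := μ ⊗ₘ kr μ hm

instance (μ : Measure Ω) [IsProbabilityMeasure μ] (hm : m ≤ mΩ) :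
    IsProbabilityMeasure (jn μ hm) := by
  unfold jn; infer_instance

/-- **joining criterion** -/
theorem jn_ae_iff {μ : Measure Ω} [IsProbabilityMeasure μ] (hm : m ≤ mΩ) {φ : Ω → ℝ}
    (hφ : Measurable φ) {C : ℝ} (hC : ∀ ω, |φ ω| ≤ C) :
    AEStronglyMeasurable[m] φ μ ↔ ∀ᵐ x ∂(jn μ hm), φ x.1 = φ x.2 := by
  have hi : Integrable φ μ := Integrable.of_bound hφ.aestronglyMeasurable C
    (Eventually.of_forall fun ω => hC ω)
  have hi2 : Integrable (fun ω => φ ω ^ 2) μ := by
    refine Integrable.of_bound (hφ.pow_const 2).aestronglyMeasurable (C ^ 2)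
      (Eventually.of_forall fun ω => ?_)
    rw [Real.norm_eq_abs, abs_pow]
    exact pow_le_pow_left₀ (abs_nonneg _) (hC ω) 2
  have hset : MeasurableSet {x : Ω × Ω | φ x.1 = φ x.2} :=
    measurableSet_eq_fun (hφ.comp measurable_fst) (hφ.comp measurable_snd)
  have hk1 := condExp_ae_eq_integral_condExpKernel hm hi
  have hk2 := condExp_ae_eq_integral_condExpKernel hm hi2
  unfold jn
  rw [Measure.ae_compProd_iff hset]
  constructor
  · intro h
    have e1 : μ[φ | m] =ᵐ[μ] φ := condExp_of_aestronglyMeasurable' hm h hi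
    have h2 : AEStronglyMeasurable[m] (fun ω => φ ω ^ 2) μ := h.pow 2
    have e2 : μ[fun ω => φ ω ^ 2 | m] =ᵐ[μ] fun ω => φ ω ^ 2 :=
      condExp_of_aestronglyMeasurable' hm h2 hi2
    filter_upwards [e1, e2, hk1, hk2] with ω a1 a2 a3 a4
    rw [kr_apply]
    rw [a3] at a1
    rw [a4] at a2
    have b1 : Integrable φ (condExpKernel μ m ω) :=
      Integrable.of_bound hφ.aestronglyMeasurable C (Eventually.of_forall fun ω => hC ω)
    have b2 : Integrable (fun ω => φ ω ^ 2) (condExpKernel μ m ω) := by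
      refine Integrable.of_bound (hφ.pow_const 2).aestronglyMeasurable (C ^ 2)
        (Eventually.of_forall fun ω => ?_)
      rw [Real.norm_eq_abs, abs_pow]
      exact pow_le_pow_left₀ (abs_nonneg _) (hC ω) 2
    have b4 : Integrable (fun y => φ y ^ 2 - 2 * φ ω * φ y) (condExpKernel μ m ω) :=
      b2.sub (b1.const_mul _)
    have b3 : Integrable (fun y => φ y ^ 2 - 2 * φ ω * φ y + φ ω ^ 2) (condExpKernel μ m ω) :=
      b4.add (integrable_const _)
    have e3 : ∫ y, (φ y ^ 2 - 2 * φ ω * φ y + φ ω ^ 2) ∂(condExpKernel μ m ω) = 0 := by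
      rw [integral_add b4 (integrable_const _), integral_sub b2 (b1.const_mul _),
        integral_const_mul, a1, a2]
      simp only [integral_const, probReal_univ, one_smul, smul_eq_mul, one_mul]
      ring
    have e4 : 0 ≤ fun y => φ y ^ 2 - 2 * φ ω * φ y + φ ω ^ 2 := fun y => by
      show 0 ≤ φ y ^ 2 - 2 * φ ω * φ y + φ ω ^ 2
      nlinarith [sq_nonneg (φ y - φ ω)]
    rw [integral_eq_zero_iff_of_nonneg e4 b3] at e3
    filter_upwards [e3] with y hy
    have hy' : φ y ^ 2 - 2 * φ ω * φ y + φ ω ^ 2 = 0 := hy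
    have : (φ ω - φ y) ^ 2 = 0 := by linarith [hy']
    have := pow_eq_zero_iff (two_ne_zero) |>.1 this
    show φ ω = φ y
    linarith
  · intro h
    refine ⟨μ[φ | m], stronglyMeasurable_condExp, ?_⟩
    filter_upwards [h, hk1] with ω a1 a2
    rw [a2]
    rw [kr_apply] at a1
    have : ∫ y, φ y ∂(condExpKernel μ m ω) = ∫ _, φ ω ∂(condExpKernel μ m ω) := by
      refine integral_congr_ae ?_
      filter_upwards [a1] with y hy
      exact Eq.symm hy
    rw [this]
    simp

/-- **support criterion** -/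
theorem exists_joint {μ : Measure Ω} [IsProbabilityMeasure μ] (hm : m ≤ mΩ)
    [TopologicalSpace Ω] [BorelSpace Ω] [SecondCountableTopology Ω] [CompactSpace Ω] :
    ∃ S : Set (Ω × Ω), ∀ φ : Ω → ℝ, Continuous φ →
      (AEStronglyMeasurable[m] φ μ ↔ ∀ x ∈ S, φ x.1 = φ x.2) := by
  refine ⟨(jn μ hm).support, fun φ hφ => ?_⟩
  obtain ⟨C, hC⟩ : ∃ C, ∀ ω, |φ ω| ≤ C := by
    obtain ⟨C, hC⟩ := (isCompact_univ (X := Ω)).exists_bound_of_continuousOn hφ.continuousOn
    exact ⟨C, fun ω => hC ω (Set.mem_univ _)⟩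
  rw [jn_ae_iff hm hφ.measurable hC]
  have hcl : IsClosed {x : Ω × Ω | φ x.1 = φ x.2} :=
    isClosed_eq (hφ.comp continuous_fst) (hφ.comp continuous_snd)
  constructor
  · intro h x hx
    exact Measure.support_subset_of_isClosed hcl h hx
  · intro h
    have := Measure.support_mem_ae (μ := jn μ hm)
    filter_upwards [this] with x hx
    exact h x hx

end join

section seq

variable {ι : Type*} [Fintype ι] [mι : MeasurableSpace ι] [DiscreteMeasurableSpace ι]
variable {E : Type*} [mE : MeasurableSpace E] {E' : Type*} [mE' : MeasurableSpace E']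

theorem alpha_congr {p : ι → ℝ} (hp : (∀ i, 0 ≤ p i) ∧ ∑ i, p i = 1) {Φ Ψ : (ℕ → ι) → E}
    (hΦ : Measurable Φ) (hΨ : Measurable Ψ) (h : Φ =ᵐ[PP p] Ψ) : alpha p Φ = alpha p Ψ := by
  have := isProb_PP hp
  unfold alpha
  rw [Hc_comap_congr hΦ hΨ h (measurable_pi_apply 0)]

/-- monotonicity of `α`, almost everywhere version -/
theorem alpha_mono_ae {p : ι → ℝ} (hp : (∀ i, 0 ≤ p i) ∧ ∑ i, p i = 1) {Φ : (ℕ → ι) → E}
    {Φ₁ : (ℕ → ι) → E'} (h : Measurable Φ) (h₁ : Measurable Φ₁)
    (hae : ∃ Ψ : (ℕ → ι) → E', Measurable[MeasurableSpace.comap Φ mE] Ψ ∧ Φ₁ =ᵐ[PP p] Ψ) :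
    alpha p Φ₁ ≤ alpha p Φ := by
  obtain ⟨Ψ, hΨ, hae⟩ := hae
  rw [alpha_congr hp h₁ (hΨ.mono h.comap_le le_rfl) hae]
  exact alpha_mono hp h hΨ.comap_le

/-- real version -/
theorem alpha_mono_aesm {p : ι → ℝ} (hp : (∀ i, 0 ≤ p i) ∧ ∑ i, p i = 1) {Φ : (ℕ → ι) → E}
    {Φ₁ : (ℕ → ι) → ℝ} (h : Measurable Φ) (h₁ : Measurable Φ₁)
    (hae : AEStronglyMeasurable[MeasurableSpace.comap Φ mE] Φ₁ (PP p)) :
    alpha p Φ₁ ≤ alpha p Φ :=
  alpha_mono_ae hp h h₁ ⟨hae.mk Φ₁, hae.stronglyMeasurable_mk.measurable, hae.ae_eq_mk⟩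

/-- vector version -/
theorem alpha_mono_aesm_pi {p : ι → ℝ} (hp : (∀ i, 0 ≤ p i) ∧ ∑ i, p i = 1) {K : Type*}
    [Fintype K] {Φ : (ℕ → ι) → E} {Φ₁ : (ℕ → ι) → K → ℝ} (h : Measurable Φ)
    (h₁ : Measurable Φ₁)
    (hae : ∀ k, AEStronglyMeasurable[MeasurableSpace.comap Φ mE] (fun w => Φ₁ w k) (PP p)) :
    alpha p Φ₁ ≤ alpha p Φ := by
  refine alpha_mono_ae hp h h₁ ⟨fun w k => (hae k).mk _ w, ?_, ?_⟩
  · exact @measurable_pi_lambda (ℕ → ι) K (fun _ => ℝ) (MeasurableSpace.comap Φ mE) _ _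
      fun k => (hae k).stronglyMeasurable_mk.measurable
  · have : ∀ᵐ w ∂(PP p), ∀ k, Φ₁ w k = (hae k).mk _ w :=
      ae_all_iff.2 fun k => (hae k).ae_eq_mk
    filter_upwards [this] with w hw
    funext k
    exact hw k

/-- restriction to the words starting with `i` -/
theorem aesm_scons {p : ι → ℝ} (hp : (∀ i, 0 ≤ p i) ∧ ∑ i, p i = 1) {Φ : (ℕ → ι) → E}
    {B : ι → E → E} (h : IsProc Φ B) {i : ι} (hi : 0 < p i) {F : (ℕ → ι) → ℝ}
    (hF : AEStronglyMeasurable[MeasurableSpace.comap Φ mE] F (PP p)) :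
    AEStronglyMeasurable[MeasurableSpace.comap Φ mE] (fun w => F (scons i w)) (PP p) := by
  obtain ⟨G, hG, hFG⟩ := hF
  obtain ⟨g, hg, rfl⟩ := hG.exists_eq_measurable_comp
  refine ⟨fun w => g (B i (Φ w)), ?_, ?_⟩
  · have h1 : StronglyMeasurable (fun x => g (B i x)) := hg.comp_measurable (h.emb i).measurable
    exact h1.comp_measurable (comap_measurable Φ)
  · have hac : (PP p).map (scons i) ≪ PP p := by
      refine Measure.AbsolutelyContinuous.mk fun A hA h0 => ?_
      rw [PP_cons hp] at h0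
      simp only [Measure.coe_finsetSum, Finset.sum_apply, Measure.smul_apply, smul_eq_mul] at h0
      rw [Finset.sum_eq_zero_iff] at h0
      have h2 := h0 i (Finset.mem_univ _)
      rcases mul_eq_zero.1 h2 with h3 | h3
      · exact absurd h3 (by simpa using hi)
      · exact h3
    have h1 : ∀ᵐ w ∂((PP p).map (scons i)), F w = (g ∘ Φ) w := hac.ae_le hFG
    have h2 := ae_of_ae_map (measurable_scons i).aemeasurable h1
    filter_upwards [h2] with w hw
    rw [hw]
    show g (Φ (scons i w)) = g (B i (Φ w))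
    rw [h.eq (scons i w)]
    rfl

/-- iterated restriction -/
theorem aesm_scons_iterate {p : ι → ℝ} (hp : (∀ i, 0 ≤ p i) ∧ ∑ i, p i = 1) {Φ : (ℕ → ι) → E}
    {B : ι → E → E} (h : IsProc Φ B) {i : ι} (hi : 0 < p i) (n : ℕ) {F : (ℕ → ι) → ℝ}
    (hF : AEStronglyMeasurable[MeasurableSpace.comap Φ mE] F (PP p)) :
    AEStronglyMeasurable[MeasurableSpace.comap Φ mE] (fun w => F ((scons i)^[n] w)) (PP p) := by
  induction n generalizing F with
  | zero => exact hF
  | succ n ih =>
    have := ih (aesm_scons hp h hi hF)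
    have e : (fun w => F ((scons i)^[n + 1] w)) = fun w => F (scons i ((scons i)^[n] w)) := by
      funext w
      rw [Function.iterate_succ_apply']
    rw [e]
    exact this

/-- continuity criterion on the space of words -/
theorem continuous_of_pre [TopologicalSpace ι] [DiscreteTopology ι] {X : Type*}
    [PseudoMetricSpace X] {F : (ℕ → ι) → X}
    (h : ∀ ε > 0, ∃ n, ∀ w w', pre n w = pre n w' → dist (F w) (F w') < ε) : Continuous F := by
  rw [continuous_iff_continuousAt]
  intro w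
  rw [Metric.continuousAt_iff']
  intro ε hε
  obtain ⟨n, hn⟩ := h ε hε
  have ho : IsOpen (pre n ⁻¹' {pre n w} : Set (ℕ → ι)) := by
    have hc : Continuous (pre n : (ℕ → ι) → Fin n → ι) :=
      continuous_pi fun j => continuous_apply (j : ℕ)
    exact (isOpen_discrete _).preimage hc
  filter_upwards [ho.mem_nhds (show w ∈ pre n ⁻¹' {pre n w} from rfl)] with w' hw'
  exact hn w' w hw'

/-- **joining criterion on words**: there is a set `S` of pairs of words such that a function with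
small oscillation on long cylinders is a.e. `m`-measurable iff it is constant on the pairs -/
theorem exists_joint_words {p : ι → ℝ} (hp : (∀ i, 0 ≤ p i) ∧ ∑ i, p i = 1)
    (m : MeasurableSpace (ℕ → ι)) (hm : m ≤ MeasurableSpace.pi) :
    ∃ S : Set ((ℕ → ι) × (ℕ → ι)), ∀ φ : (ℕ → ι) → ℝ,
      (∀ ε > 0, ∃ n, ∀ w w', pre n w = pre n w' → dist (φ w) (φ w') < ε) →
      (AEStronglyMeasurable[m] φ (PP p) ↔ ∀ x ∈ S, φ x.1 = φ x.2) := by
  have hprob := isProb_PP hp
  let _ : TopologicalSpace ι := ⊥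
  have : DiscreteTopology ι := ⟨rfl⟩
  obtain ⟨S, hS⟩ := @exists_joint (ℕ → ι) m MeasurableSpace.pi inferInstance (PP p) hprob hm
    inferInstance inferInstance inferInstance inferInstance
  exact ⟨S, fun φ h => hS φ (continuous_of_pre h)⟩

end seq

end

end Crest.Agent.R98.F
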