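import Mathlib
import Crest.Prelude.Def_SelfSimilar

/-!
R98 / Part (helper529): Shannon entropy of partitions (setoids) of a finite type with nonnegative
weights, in the form of the Prelude (`finiteLawEntropy`): submodularity, monotonicity, conditional
entropy, cardinality bounds, products, push-forwards, join lemma.
-/

set_option autoImplicit false

open Finset

namespace Crest.Agent.R98

namespace Part

open Crest.AnalysisR

variable {Ω : Type*} [Fintype Ω]

/-- mass of the class of `a` -/
noncomputable def cm (q : Ω → ℝ) (s : Setoid Ω) (a : Ω) : ℝ :=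
  ∑ b, ({b | s b a} : Set Ω).indicator q b

/-- entropy of a partition -/
noncomputable def HS (q : Ω → ℝ) (s : Setoid Ω) : ℝ := -∑ a, q a * Real.log (cm q s a)

/-- conditional entropy `H(s | t)` -/
noncomputable def HC (q : Ω → ℝ) (s t : Setoid Ω) : ℝ := HS q (s ⊓ t) - HS q t

theorem HS_ker {β : Type*} (q : Ω → ℝ) (Z : Ω → β) : HS q (Setoid.ker Z) = finiteLawEntropy q Z :=
  rfl

section basic

variable {q : Ω → ℝ} (hq : ∀ a, 0 ≤ q a)

include hq

theorem cm_nonneg (s : Setoid Ω) (a : Ω) : 0 ≤ cm q s a :=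
  Finset.sum_nonneg fun b _ => Set.indicator_nonneg (fun _ _ => hq _) b

theorem le_cm (s : Setoid Ω) (a : Ω) : q a ≤ cm q s a := by
  have h := Finset.single_le_sum (f := fun b => ({b | s b a} : Set Ω).indicator q b)
    (fun b _ => Set.indicator_nonneg (fun _ _ => hq _) b) (Finset.mem_univ a)
  have h2 : ({b | s b a} : Set Ω).indicator q a = q a :=
    Set.indicator_of_mem (s.refl a) q
  rw [← h2]
  exact h

theorem cm_pos (s : Setoid Ω) {a : Ω} (ha : 0 < q a) : 0 < cm q s a :=
  lt_of_lt_of_le ha (le_cm hq s a)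

theorem cm_mono {s t : Setoid Ω} (h : s ≤ t) (a : Ω) : cm q s a ≤ cm q t a := by
  refine Finset.sum_le_sum fun b _ => ?_
  refine Set.indicator_le_indicator_of_subset ?_ (fun _ => hq _) b
  intro b hb
  exact h hb

theorem cm_le_sum (s : Setoid Ω) (a : Ω) : cm q s a ≤ ∑ b, q b := by
  refine Finset.sum_le_sum fun b _ => ?_
  exact Set.indicator_le_self' (fun _ _ => hq _) b

/-- coarser partitions have less entropy -/
theorem HS_anti {s t : Setoid Ω} (h : s ≤ t) : HS q t ≤ HS q s := by
  refine neg_le_neg (Finset.sum_le_sum fun a _ => ?_)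
  rcases (hq a).eq_or_lt with h0 | h0
  · rw [← h0, zero_mul, zero_mul]
  · exact mul_le_mul_of_nonneg_left (Real.log_le_log (cm_pos hq s h0) (cm_mono hq h a)) (hq a)

theorem HC_nonneg (s t : Setoid Ω) : 0 ≤ HC q s t :=
  sub_nonneg.mpr (HS_anti hq inf_le_right)

end basic

theorem cm_congr {q : Ω → ℝ} {s : Setoid Ω} {a b : Ω} (h : s a b) : cm q s a = cm q s b := by
  unfold cm
  refine Finset.sum_congr rfl fun c _ => ?_
  have : ({c | s c a} : Set Ω) = {c | s c b} := by
    ext c
    exact ⟨fun h' => s.trans h' h, fun h' => s.trans h' (s.symm h)⟩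
  rw [this]

/-- the master inequality: submodularity relative to a common coarsening -/
theorem submod' {q : Ω → ℝ} (hq : ∀ a, 0 ≤ q a) {s t u : Setoid Ω} (hs : s ≤ u) (ht : t ≤ u) :
    HS q (s ⊓ t) + HS q u ≤ HS q s + HS q t := by
  classical
  -- pointwise inequality
  have hpt : ∀ a, q a - q a * (cm q s a * cm q t a / (cm q (s ⊓ t) a * cm q u a)) ≤
      q a * (Real.log (cm q (s ⊓ t) a) + Real.log (cm q u a) - Real.log (cm q s a)
        - Real.log (cm q t a)) := by
    intro a
    rcases (hq a).eq_or_lt with h0 | h0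
    · rw [← h0]; simp
    · have h1 := cm_pos hq s h0
      have h2 := cm_pos hq t h0
      have h3 := cm_pos hq (s ⊓ t) h0
      have h4 := cm_pos hq u h0
      have hx : 0 < cm q s a * cm q t a / (cm q (s ⊓ t) a * cm q u a) := by positivity
      have := Real.log_le_sub_one_of_pos hx
      have hlog : Real.log (cm q s a * cm q t a / (cm q (s ⊓ t) a * cm q u a)) =
          Real.log (cm q s a) + Real.log (cm q t a) - Real.log (cm q (s ⊓ t) a)
            - Real.log (cm q u a) := by
        rw [Real.log_div (by positivity) (by positivity), Real.log_mul h1.ne' h2.ne',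
          Real.log_mul h3.ne' h4.ne']
        ring
      rw [hlog] at this
      nlinarith [this, h0]
  -- the double counting
  have hcount : ∑ a, q a * (cm q s a * cm q t a / (cm q (s ⊓ t) a * cm q u a)) ≤ ∑ a, q a := by
    -- expand the two class masses
    have e1 : ∀ a, q a * (cm q s a * cm q t a / (cm q (s ⊓ t) a * cm q u a)) =
        ∑ b, ∑ c, if s b a ∧ t c a then
          q b * q c * (q a / cm q (s ⊓ t) a) / cm q u b else 0 := by
      intro a
      have h1 : cm q s a * cm q t a = ∑ b, ∑ c, if s b a ∧ t c a then q b * q c else 0 := by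
        unfold cm
        rw [Finset.sum_mul_sum]
        refine Finset.sum_congr rfl fun b _ => Finset.sum_congr rfl fun c _ => ?_
        by_cases hb : s b a <;> by_cases hc : t c a <;> simp [Set.indicator, hb, hc]
      have h2 : q a * (cm q s a * cm q t a / (cm q (s ⊓ t) a * cm q u a)) =
          (cm q s a * cm q t a) * ((q a / cm q (s ⊓ t) a) / cm q u a) := by
        ring
      rw [h2, h1, Finset.sum_mul]
      refine Finset.sum_congr rfl fun b _ => ?_
      rw [Finset.sum_mul]
      refine Finset.sum_congr rfl fun c _ => ?_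
      by_cases h : s b a ∧ t c a
      · rw [if_pos h, if_pos h, cm_congr (q := q) (hs h.1)]
        ring
      · rw [if_neg h, if_neg h, zero_mul]
    have e2 : ∑ a, q a * (cm q s a * cm q t a / (cm q (s ⊓ t) a * cm q u a)) =
        ∑ b, ∑ c, ∑ a, if s b a ∧ t c a then
          q b * q c * (q a / cm q (s ⊓ t) a) / cm q u b else 0 := by
      simp_rw [e1]
      rw [Finset.sum_comm]
      refine Finset.sum_congr rfl fun b _ => ?_
      rw [Finset.sum_comm]
    rw [e2]
    -- for fixed `b`, `c`
    have e3 : ∀ b c, ∑ a, (if s b a ∧ t c a then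
          q b * q c * (q a / cm q (s ⊓ t) a) / cm q u b else 0) ≤
        if u c b then q b * q c / cm q u b else 0 := by
      intro b c
      by_cases hbc : ∃ a, s b a ∧ t c a
      · obtain ⟨a₀, ha₀⟩ := hbc
        have hu : u c b := u.trans (ht ha₀.2) (u.symm (hs ha₀.1))
        rw [if_pos hu]
        have h1 : ∀ a, (if s b a ∧ t c a then
            q b * q c * (q a / cm q (s ⊓ t) a) / cm q u b else 0) =
            (q b * q c / cm q u b) * (({a | (s ⊓ t) a a₀} : Set Ω).indicator q a
              / cm q (s ⊓ t) a₀) := by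
          intro a
          by_cases h : s b a ∧ t c a
          · have h' : (s ⊓ t) a a₀ := ⟨s.trans (s.symm h.1) ha₀.1, t.trans (t.symm h.2) ha₀.2⟩
            rw [if_pos h, Set.indicator_of_mem (show a ∈ {a | (s ⊓ t) a a₀} from h'),
              cm_congr (q := q) h']
            ring
          · have h' : a ∉ ({a | (s ⊓ t) a a₀} : Set Ω) := by
              intro h'
              have h'' : s a a₀ ∧ t a a₀ := h'
              exact h ⟨s.trans ha₀.1 (s.symm h''.1), t.trans ha₀.2 (t.symm h''.2)⟩
            rw [if_neg h, Set.indicator_of_notMem h', zero_div, mul_zero]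
        rw [Finset.sum_congr rfl fun a _ => h1 a, ← Finset.mul_sum, ← Finset.sum_div]
        have h2 : 0 ≤ q b * q c / cm q u b :=
          div_nonneg (mul_nonneg (hq _) (hq _)) (cm_nonneg hq _ _)
        have h3 : (∑ a, ({a | (s ⊓ t) a a₀} : Set Ω).indicator q a) / cm q (s ⊓ t) a₀ ≤ 1 := by
          have : (∑ a, ({a | (s ⊓ t) a a₀} : Set Ω).indicator q a) = cm q (s ⊓ t) a₀ := rfl
          rw [this]
          exact div_self_le_one _
        nlinarith
      · push Not at hbc
        have h1 : ∀ a, (if s b a ∧ t c a then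
            q b * q c * (q a / cm q (s ⊓ t) a) / cm q u b else 0) = 0 := by
          intro a
          rw [if_neg]
          rintro ⟨h, h'⟩
          exact hbc a h h'
        rw [Finset.sum_congr rfl fun a _ => h1 a, Finset.sum_const_zero]
        split_ifs
        · exact div_nonneg (mul_nonneg (hq _) (hq _)) (cm_nonneg hq _ _)
        · exact le_refl _
    refine (Finset.sum_le_sum fun b _ => Finset.sum_le_sum fun c _ => e3 b c).trans ?_
    refine Finset.sum_le_sum fun b _ => ?_
    have h1 : ∑ c, (if u c b then q b * q c / cm q u b else 0) =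
        q b * (cm q u b / cm q u b) := by
      have : ∀ c, (if u c b then q b * q c / cm q u b else 0) =
          q b * (({c | u c b} : Set Ω).indicator q c / cm q u b) := by
        intro c
        by_cases h : u c b
        · rw [if_pos h, Set.indicator_of_mem (show c ∈ {c | u c b} from h)]
          ring
        · rw [if_neg h, Set.indicator_of_notMem (show c ∉ {c | u c b} from h)]
          ring
      rw [Finset.sum_congr rfl fun c _ => this c, ← Finset.mul_sum, ← Finset.sum_div]
      rfl
    rw [h1]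
    have := div_self_le_one (cm q u b)
    nlinarith [hq b]
  have hsum := Finset.sum_le_sum fun a (_ : a ∈ (Finset.univ : Finset Ω)) => hpt a
  rw [Finset.sum_sub_distrib] at hsum
  have hexp : ∑ a, q a * (Real.log (cm q (s ⊓ t) a) + Real.log (cm q u a) - Real.log (cm q s a)
        - Real.log (cm q t a)) = -HS q (s ⊓ t) - HS q u + HS q s + HS q t := by
    unfold HS
    simp only [mul_sub, mul_add, Finset.sum_sub_distrib, Finset.sum_add_distrib]
    ring
  rw [hexp] at hsum
  linarith

/-- SUBMODULARITY (F6) -/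
theorem submod {q : Ω → ℝ} (hq : ∀ a, 0 ≤ q a) (s t : Setoid Ω) :
    HS q (s ⊓ t) + HS q (s ⊔ t) ≤ HS q s + HS q t :=
  submod' hq le_sup_left le_sup_right

/-- conditioning on a finer partition reduces the entropy -/
theorem HC_anti {q : Ω → ℝ} (hq : ∀ a, 0 ≤ q a) (s : Setoid Ω) {t t' : Setoid Ω} (h : t' ≤ t) :
    HC q s t' ≤ HC q s t := by
  have h1 := submod' hq (s := s ⊓ t) (t := t') (u := t) inf_le_right h
  have h2 : (s ⊓ t) ⊓ t' = s ⊓ t' := by
    rw [inf_assoc, inf_eq_right.mpr h]
  rw [h2] at h1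
  unfold HC
  linarith

/-! ### formal consequences -/

theorem HC_mono_left {q : Ω → ℝ} (hq : ∀ a, 0 ≤ q a) {s s' : Setoid Ω} (h : s ≤ s')
    (t : Setoid Ω) : HC q s' t ≤ HC q s t :=
  sub_le_sub_right (HS_anti hq (inf_le_inf_right t h)) _

/-- chain rule -/
theorem HC_chain (q : Ω → ℝ) (s s' t : Setoid Ω) :
    HC q (s ⊓ s') t = HC q s t + HC q s' (s ⊓ t) := by
  unfold HC
  have h : s' ⊓ (s ⊓ t) = (s ⊓ s') ⊓ t := by
    rw [← inf_assoc, inf_comm s' s]
  rw [h]
  ring

theorem HS_inf (q : Ω → ℝ) (s t : Setoid Ω) : HS q (s ⊓ t) = HS q t + HC q s t := by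
  unfold HC
  ring

theorem HC_inf_le {q : Ω → ℝ} (hq : ∀ a, 0 ≤ q a) (s s' t : Setoid Ω) :
    HC q (s ⊓ s') t ≤ HC q s t + HC q s' t := by
  rw [HC_chain]
  exact add_le_add le_rfl (HC_anti hq s' inf_le_right)

theorem HS_top (q : Ω → ℝ) : HS q ⊤ = Real.negMulLog (∑ a, q a) := by
  unfold HS
  have h : ∀ a, cm q (⊤ : Setoid Ω) a = ∑ b, q b := by
    intro a
    unfold cm
    refine Finset.sum_congr rfl fun b _ => ?_
    exact Set.indicator_of_mem (show b ∈ {b | (⊤ : Setoid Ω) b a} from trivial) q
  simp only [h]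
  rw [← Finset.sum_mul, Real.negMulLog, neg_mul]

theorem HS_top_one {q : Ω → ℝ} (h1 : ∑ a, q a = 1) : HS q ⊤ = 0 := by
  rw [HS_top, h1]
  simp

theorem HS_nonneg {q : Ω → ℝ} (hq : ∀ a, 0 ≤ q a) (h1 : ∑ a, q a = 1) (s : Setoid Ω) :
    0 ≤ HS q s := by
  rw [← HS_top_one h1]
  exact HS_anti hq le_top

/-- subadditivity -/
theorem HS_inf_le {q : Ω → ℝ} (hq : ∀ a, 0 ≤ q a) (h1 : ∑ a, q a = 1) (s t : Setoid Ω) :
    HS q (s ⊓ t) ≤ HS q s + HS q t := by
  have := submod' hq (s := s) (t := t) (u := ⊤) le_top le_top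
  rw [HS_top_one h1] at this
  linarith

theorem HC_le_HS {q : Ω → ℝ} (hq : ∀ a, 0 ≤ q a) (h1 : ∑ a, q a = 1) (s t : Setoid Ω) :
    HC q s t ≤ HS q s := by
  have := HS_inf_le hq h1 s t
  unfold HC
  linarith

theorem HS_le_HS_add_HC {q : Ω → ℝ} (hq : ∀ a, 0 ≤ q a) (s t : Setoid Ω) :
    HS q s ≤ HS q t + HC q s t := by
  rw [← HS_inf]
  exact HS_anti hq inf_le_left

/-! ### cardinality bounds -/

/-- `H(φ) ≤ log K` if `φ` has at most `K` values -/
theorem HS_ker_le_log {q : Ω → ℝ} (hq : ∀ a, 0 ≤ q a) (h1 : ∑ a, q a = 1) {K : ℕ}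
    (φ : Ω → Fin K) : HS q (Setoid.ker φ) ≤ Real.log K := by
  classical
  have hcm : ∀ a, cm q (Setoid.ker φ) a = ∑ b, if φ b = φ a then q b else 0 := by
    intro a
    unfold cm
    refine Finset.sum_congr rfl fun b _ => ?_
    by_cases h : φ b = φ a
    · rw [if_pos h]; exact Set.indicator_of_mem (show b ∈ {b | Setoid.ker φ b a} from h) q
    · rw [if_neg h]; exact Set.indicator_of_notMem (show b ∉ {b | Setoid.ker φ b a} from h) q
  have hK : (0 : ℝ) < K := by
    rcases Nat.eq_zero_or_pos K with h | h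
    · subst h
      have : IsEmpty Ω := ⟨fun a => (φ a).elim0⟩
      simp at h1
    · exact_mod_cast h
  have hpt : ∀ a, q a * (-Real.log (cm q (Setoid.ker φ) a) - Real.log K) ≤
      (1 / K) * (q a / cm q (Setoid.ker φ) a) - q a := by
    intro a
    rcases (hq a).eq_or_lt with h0 | h0
    · rw [← h0]; simp
    · have h2 := cm_pos hq (Setoid.ker φ) h0
      have hx : 0 < 1 / (K * cm q (Setoid.ker φ) a) := by positivity
      have h3 := Real.log_le_sub_one_of_pos hx
      rw [Real.log_div one_ne_zero (by positivity), Real.log_one,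
        Real.log_mul hK.ne' h2.ne'] at h3
      have h4 : (1 / K) * (q a / cm q (Setoid.ker φ) a) - q a =
          q a * (1 / (K * cm q (Setoid.ker φ) a) - 1) := by
        field_simp
      rw [h4]
      refine mul_le_mul_of_nonneg_left ?_ (hq a)
      linarith
  have hcount : ∑ a, q a / cm q (Setoid.ker φ) a ≤ K := by
    have h2 : ∑ a, q a / cm q (Setoid.ker φ) a =
        ∑ k : Fin K, ∑ a, if φ a = k then q a / (∑ b, if φ b = k then q b else 0) else 0 := by
      rw [Finset.sum_comm]
      refine Finset.sum_congr rfl fun a _ => ?_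
      rw [Finset.sum_ite_eq Finset.univ (φ a), if_pos (Finset.mem_univ _), hcm a]
    rw [h2]
    have h3 : ∀ k : Fin K,
        (∑ a, if φ a = k then q a / (∑ b, if φ b = k then q b else 0) else 0) ≤ 1 := by
      intro k
      have : (∑ a, if φ a = k then q a / (∑ b, if φ b = k then q b else 0) else 0) =
          (∑ a, if φ a = k then q a else 0) / (∑ b, if φ b = k then q b else 0) := by
        rw [Finset.sum_div]
        refine Finset.sum_congr rfl fun a _ => ?_
        split_ifs <;> simp
      rw [this]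
      exact div_self_le_one _
    calc _ ≤ ∑ _k : Fin K, (1 : ℝ) := Finset.sum_le_sum fun k _ => h3 k
      _ = K := by simp
  have hsum := Finset.sum_le_sum fun a (_ : a ∈ (Finset.univ : Finset Ω)) => hpt a
  have e1 : ∑ a, q a * (-Real.log (cm q (Setoid.ker φ) a) - Real.log K) =
      HS q (Setoid.ker φ) - Real.log K := by
    unfold HS
    simp only [mul_sub, mul_neg, Finset.sum_sub_distrib, Finset.sum_neg_distrib]
    rw [← Finset.sum_mul, h1, one_mul]
  have e2 : ∑ a, ((1 / K) * (q a / cm q (Setoid.ker φ) a) - q a) ≤ 0 := by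
    rw [Finset.sum_sub_distrib, ← Finset.mul_sum, h1]
    have : (1 / (K : ℝ)) * ∑ a, q a / cm q (Setoid.ker φ) a ≤ (1 / K) * K :=
      mul_le_mul_of_nonneg_left hcount (by positivity)
    rw [one_div_mul_cancel hK.ne'] at this
    linarith
  rw [e1] at hsum
  linarith

/-- if inside every `t`-class the `s`-class is determined by a code with `K` values then
`H(s | t) ≤ log K`; in particular `H(s) ≤ H(t) + log K`. -/
theorem HC_le_log {q : Ω → ℝ} (hq : ∀ a, 0 ≤ q a) (h1 : ∑ a, q a = 1) {K : ℕ} (φ : Ω → Fin K)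
    {s t : Setoid Ω} (h : ∀ a b, t a b → φ a = φ b → s a b) : HC q s t ≤ Real.log K := by
  have h2 : Setoid.ker φ ⊓ t ≤ s ⊓ t := fun a b hab => ⟨h a b hab.2 hab.1, hab.2⟩
  have h3 := HS_anti hq h2
  have h4 := HC_le_HS hq h1 (Setoid.ker φ) t
  have h5 := HS_ker_le_log hq h1 φ
  unfold HC at h4 ⊢
  linarith

theorem HS_le_add_log {q : Ω → ℝ} (hq : ∀ a, 0 ≤ q a) (h1 : ∑ a, q a = 1) {K : ℕ}
    (φ : Ω → Fin K) {s t : Setoid Ω} (h : ∀ a b, t a b → φ a = φ b → s a b) :
    HS q s ≤ HS q t + Real.log K :=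
  (HS_le_HS_add_HC hq s t).trans (by linarith [HC_le_log hq h1 φ h])

theorem HS_ker_le_log_card {q : Ω → ℝ} (hq : ∀ a, 0 ≤ q a) (h1 : ∑ a, q a = 1) {β : Type*}
    [Fintype β] (φ : Ω → β) : HS q (Setoid.ker φ) ≤ Real.log (Fintype.card β) := by
  have h := HS_ker_le_log hq h1 (fun a => Fintype.equivFin β (φ a))
  refine le_trans (HS_anti hq ?_) h
  intro a b hab
  exact (Fintype.equivFin β).injective hab

/-! ### push-forward -/

/-- invariance under push-forward of the weights -/
theorem HS_comap {Ω' : Type*} [Fintype Ω'] [DecidableEq Ω] (q' : Ω' → ℝ) (f : Ω' → Ω)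
    (s : Setoid Ω) :
    HS (fun a => ∑ b, if f b = a then q' b else 0) s = HS q' (s.comap f) := by
  unfold HS
  have hcm : ∀ b, cm (fun a => ∑ b, if f b = a then q' b else 0) s (f b) =
      cm q' (s.comap f) b := by
    intro b
    unfold cm
    have h1 : ∀ a, ({a | s a (f b)} : Set Ω).indicator
        (fun a => ∑ b, if f b = a then q' b else 0) a =
        ∑ c, if f c = a then ({c | (s.comap f) c b} : Set Ω').indicator q' c else 0 := by
      intro a
      by_cases h : s a (f b)
      · rw [Set.indicator_of_mem (show a ∈ {a | s a (f b)} from h)]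
        refine Finset.sum_congr rfl fun c _ => ?_
        by_cases hc : f c = a
        · rw [if_pos hc, if_pos hc, Set.indicator_of_mem]
          show (s.comap f) c b
          rw [Setoid.comap_rel, hc]
          exact h
        · rw [if_neg hc, if_neg hc]
      · rw [Set.indicator_of_notMem (show a ∉ {a | s a (f b)} from h)]
        symm
        refine Finset.sum_eq_zero fun c _ => ?_
        by_cases hc : f c = a
        · rw [if_pos hc, Set.indicator_of_notMem]
          intro h'
          have h'' : (s.comap f) c b := h'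
          rw [Setoid.comap_rel, hc] at h''
          exact h h''
        · rw [if_neg hc]
    rw [Finset.sum_congr rfl fun a _ => h1 a, Finset.sum_comm]
    refine Finset.sum_congr rfl fun c _ => ?_
    rw [Finset.sum_ite_eq Finset.univ (f c), if_pos (Finset.mem_univ _)]
  congr 1
  have h2 : ∀ a, (∑ b, if f b = a then q' b else 0) *
      Real.log (cm (fun a => ∑ b, if f b = a then q' b else 0) s a) =
      ∑ b, if f b = a then q' b * Real.log (cm q' (s.comap f) b) else 0 := by
    intro a
    rw [Finset.sum_mul]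
    refine Finset.sum_congr rfl fun b _ => ?_
    by_cases hb : f b = a
    · rw [if_pos hb, if_pos hb, ← hcm b, hb]
    · rw [if_neg hb, if_neg hb, zero_mul]
  rw [Finset.sum_congr rfl fun a _ => h2 a, Finset.sum_comm]
  refine Finset.sum_congr rfl fun b _ => ?_
  rw [Finset.sum_ite_eq Finset.univ (f b), if_pos (Finset.mem_univ _)]

/-! ### disintegration over a finite-valued map -/

/-- weights restricted to `{f = τ}` -/
noncomputable def res {T : Type*} (q : Ω → ℝ) (f : Ω → T) (τ : T) : Ω → ℝ :=
  ({a | f a = τ} : Set Ω).indicator q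

theorem HS_inf_ker_sum {T : Type*} [Fintype T] (q : Ω → ℝ) (f : Ω → T) (s : Setoid Ω) :
    HS q (s ⊓ Setoid.ker f) = ∑ τ, HS (res q f τ) s := by
  classical
  have hcm : ∀ a, cm q (s ⊓ Setoid.ker f) a = cm (res q f (f a)) s a := by
    intro a
    unfold cm res
    refine Finset.sum_congr rfl fun b _ => ?_
    by_cases h : s b a
    · rw [Set.indicator_of_mem (show b ∈ {b | s b a} from h)]
      by_cases h' : f b = f a
      · rw [Set.indicator_of_mem (show b ∈ {b | f b = f a} from h'),
          Set.indicator_of_mem (show b ∈ {b | (s ⊓ Setoid.ker f) b a} from ⟨h, h'⟩)]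
      · rw [Set.indicator_of_notMem (show b ∉ {b | f b = f a} from h'),
          Set.indicator_of_notMem (show b ∉ {b | (s ⊓ Setoid.ker f) b a} from fun h'' => h' h''.2)]
    · rw [Set.indicator_of_notMem (show b ∉ {b | s b a} from h),
        Set.indicator_of_notMem (show b ∉ {b | (s ⊓ Setoid.ker f) b a} from fun h'' => h h''.1)]
  unfold HS
  rw [Finset.sum_neg_distrib, Finset.sum_comm]
  congr 1
  refine Finset.sum_congr rfl fun a _ => ?_
  have : ∀ τ, res q f τ a * Real.log (cm (res q f τ) s a) =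
      if f a = τ then q a * Real.log (cm (res q f τ) s a) else 0 := by
    intro τ
    unfold res
    by_cases h : f a = τ
    · rw [if_pos h, Set.indicator_of_mem (show a ∈ {a | f a = τ} from h)]
    · rw [if_neg h, Set.indicator_of_notMem (show a ∉ {a | f a = τ} from h), zero_mul]
  rw [Finset.sum_congr rfl fun τ _ => this τ, Finset.sum_ite_eq Finset.univ (f a),
    if_pos (Finset.mem_univ _), hcm a]

/-- scaling of the weights -/
theorem HS_smul {q : Ω → ℝ} (hq : ∀ a, 0 ≤ q a) {c : ℝ} (hc : 0 ≤ c) (s : Setoid Ω) :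
    HS (fun a => c * q a) s = c * HS q s + (∑ a, q a) * Real.negMulLog c := by
  rcases hc.eq_or_lt with h0 | h0
  · subst h0
    unfold HS
    simp
  · have hcm : ∀ a, cm (fun a => c * q a) s a = c * cm q s a := by
      intro a
      unfold cm
      rw [Finset.mul_sum]
      refine Finset.sum_congr rfl fun b _ => ?_
      by_cases h : s b a
      · rw [Set.indicator_of_mem (show b ∈ {b | s b a} from h),
          Set.indicator_of_mem (show b ∈ {b | s b a} from h)]
      · rw [Set.indicator_of_notMem (show b ∉ {b | s b a} from h),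
          Set.indicator_of_notMem (show b ∉ {b | s b a} from h), mul_zero]
    unfold HS
    simp only [hcm]
    have : ∀ a, c * q a * Real.log (c * cm q s a) =
        c * (q a * Real.log (cm q s a)) + q a * (c * Real.log c) := by
      intro a
      rcases (hq a).eq_or_lt with h1 | h1
      · rw [← h1]; simp
      · rw [Real.log_mul h0.ne' (cm_pos hq s h1).ne']
        ring
    rw [Finset.sum_congr rfl fun a _ => this a, Finset.sum_add_distrib, ← Finset.mul_sum,
      ← Finset.sum_mul]
    unfold Real.negMulLog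
    ring

/-- conditional entropy as an average of the entropies of the conditional laws -/
theorem HC_ker_eq {T : Type*} [Fintype T] {q : Ω → ℝ} (hq : ∀ a, 0 ≤ q a) (f : Ω → T)
    (s : Setoid Ω) :
    HC q s (Setoid.ker f) = ∑ τ, (∑ b, res q f τ b) *
      HS (fun a => (∑ b, res q f τ b)⁻¹ * res q f τ a) s := by
  have h1 := HS_inf_ker_sum q f s
  have h2 : HS q (Setoid.ker f) = ∑ τ, Real.negMulLog (∑ b, res q f τ b) := by
    have := HS_inf_ker_sum q f ⊤
    rw [top_inf_eq] at this
    rw [this]
    refine Finset.sum_congr rfl fun τ _ => ?_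
    rw [HS_top]
  unfold HC
  rw [h1, h2, ← Finset.sum_sub_distrib]
  refine Finset.sum_congr rfl fun τ _ => ?_
  have hr : ∀ a, 0 ≤ res q f τ a := fun a => Set.indicator_nonneg (fun _ _ => hq _) a
  have hm : 0 ≤ ∑ b, res q f τ b := Finset.sum_nonneg fun b _ => hr b
  rcases hm.eq_or_lt with h0 | h0
  · have h3 : ∀ a, res q f τ a = 0 := fun a =>
      (Finset.sum_eq_zero_iff_of_nonneg fun b _ => hr b).mp h0.symm a (Finset.mem_univ a)
    unfold HS
    simp [h3]
  · rw [HS_smul hr (inv_nonneg.mpr hm)]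
    unfold Real.negMulLog
    rw [Real.log_inv]
    field_simp
    ring

/-! ### products -/

/-- the product partition -/
def prodS {Ω' : Type*} (s : Setoid Ω) (t : Setoid Ω') : Setoid (Ω × Ω') :=
  s.comap Prod.fst ⊓ t.comap Prod.snd

theorem HS_prod {Ω' : Type*} [Fintype Ω'] {q : Ω → ℝ} {q' : Ω' → ℝ} (hq : ∀ a, 0 ≤ q a)
    (hq' : ∀ a, 0 ≤ q' a) (s : Setoid Ω) (t : Setoid Ω') :
    HS (fun x : Ω × Ω' => q x.1 * q' x.2) (prodS s t) =
      (∑ b, q' b) * HS q s + (∑ a, q a) * HS q' t := by
  have hcm : ∀ x : Ω × Ω', cm (fun x : Ω × Ω' => q x.1 * q' x.2) (prodS s t) x =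
      cm q s x.1 * cm q' t x.2 := by
    rintro ⟨a, b⟩
    unfold cm
    rw [Finset.sum_mul_sum, Fintype.sum_prod_type]
    refine Finset.sum_congr rfl fun c _ => Finset.sum_congr rfl fun d _ => ?_
    by_cases h : s c a <;> by_cases h' : t d b
    · rw [Set.indicator_of_mem (show c ∈ {c | s c a} from h),
        Set.indicator_of_mem (show d ∈ {d | t d b} from h'),
        Set.indicator_of_mem (show (c, d) ∈ {y | (prodS s t) y (a, b)} from ⟨h, h'⟩)]
    · rw [Set.indicator_of_notMem (show d ∉ {d | t d b} from h'), mul_zero,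
        Set.indicator_of_notMem (show (c, d) ∉ {y | (prodS s t) y (a, b)} from
          fun h'' => h' h''.2)]
    · rw [Set.indicator_of_notMem (show c ∉ {c | s c a} from h), zero_mul,
        Set.indicator_of_notMem (show (c, d) ∉ {y | (prodS s t) y (a, b)} from
          fun h'' => h h''.1)]
    · rw [Set.indicator_of_notMem (show c ∉ {c | s c a} from h), zero_mul,
        Set.indicator_of_notMem (show (c, d) ∉ {y | (prodS s t) y (a, b)} from
          fun h'' => h h''.1)]
  unfold HS
  simp only [hcm]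
  have h1 : ∀ x : Ω × Ω', q x.1 * q' x.2 * Real.log (cm q s x.1 * cm q' t x.2) =
      q' x.2 * (q x.1 * Real.log (cm q s x.1)) + q x.1 * (q' x.2 * Real.log (cm q' t x.2)) := by
    rintro ⟨a, b⟩
    dsimp only
    rcases (hq a).eq_or_lt with ha | ha
    · rw [← ha]; simp
    · rcases (hq' b).eq_or_lt with hb | hb
      · rw [← hb]; simp
      · rw [Real.log_mul (cm_pos hq s ha).ne' (cm_pos hq' t hb).ne']
        ring
  rw [Finset.sum_congr rfl fun x _ => h1 x, Finset.sum_add_distrib, Fintype.sum_prod_type,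
    Fintype.sum_prod_type]
  have h2 : ∑ x, ∑ y, q' y * (q x * Real.log (cm q s x)) =
      (∑ b, q' b) * ∑ x, q x * Real.log (cm q s x) := by
    rw [Finset.sum_comm, Finset.sum_mul]
    refine Finset.sum_congr rfl fun y _ => ?_
    rw [Finset.mul_sum]
  have h3 : ∑ x, ∑ y, q x * (q' y * Real.log (cm q' t y)) =
      (∑ a, q a) * ∑ y, q' y * Real.log (cm q' t y) := by
    rw [Finset.sum_mul]
    refine Finset.sum_congr rfl fun x _ => ?_
    rw [Finset.mul_sum]
  show -(∑ x, ∑ y, q' y * (q x * Real.log (cm q s x)) +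
    ∑ x, ∑ y, q x * (q' y * Real.log (cm q' t y))) = _
  rw [h2, h3]
  ring

/-! ### the join lemma -/

/-- values of a map along a chain of two relations -/
theorem dist_le_of_sup {E : Type*} [PseudoMetricSpace E] {s t : Setoid Ω} {v : Ω → E} {ε : ℝ}
    (hε : 0 ≤ ε) (hs : ∀ a b, s a b → dist (v a) (v b) ≤ ε)
    (ht : ∀ a b, t a b → dist (v a) (v b) ≤ ε) {a b : Ω} (h : (s ⊔ t) a b) :
    dist (v a) (v b) ≤ Fintype.card Ω * ε := by
  classical
  let G : SimpleGraph Ω :=
    { Adj := fun x y => x ≠ y ∧ (s x y ∨ t x y)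
      symm := ⟨fun x y h => ⟨h.1.symm, h.2.imp (fun h => s.symm h) (fun h => t.symm h)⟩⟩
      loopless := ⟨fun x h => h.1 rfl⟩ }
  have hG : ∀ x y, G.Adj x y → dist (v x) (v y) ≤ ε := by
    intro x y hxy
    rcases hxy.2 with h | h
    · exact hs _ _ h
    · exact ht _ _ h
  have hwalk : ∀ x y (p : G.Walk x y), dist (v x) (v y) ≤ p.length * ε := by
    intro x y p
    induction p with
    | nil => simp
    | cons hxy p ih =>
      have h1 := hG _ _ hxy
      have h2 := dist_triangle (v _) (v _) (v _) |>.trans (add_le_add h1 ih)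
      rw [SimpleGraph.Walk.length_cons]
      push_cast
      linarith
  have hreach : G.Reachable a b := by
    rw [Setoid.sup_eq_eqvGen] at h
    have h' : Relation.EqvGen (fun x y => s x y ∨ t x y) a b := h
    clear h
    induction h' with
    | rel x y hxy =>
      by_cases e : x = y
      · subst e; exact SimpleGraph.Reachable.refl _
      · exact SimpleGraph.Adj.reachable ⟨e, hxy⟩
    | refl x => exact SimpleGraph.Reachable.refl _
    | symm x y _ ih => exact ih.symm
    | trans x y z _ _ ih1 ih2 => exact ih1.trans ih2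
  obtain ⟨p, hp⟩ := hreach.exists_isPath
  have h1 := hwalk a b p
  have h2 : (p.length : ℝ) ≤ Fintype.card Ω := by
    exact_mod_cast (hp.length_lt).le
  exact h1.trans (mul_le_mul_of_nonneg_right h2 hε)

/-! ### cells of the line -/

/-- partition according to the cell `⌊(v - θ)/δ⌋` -/
noncomputable def cell (v : Ω → ℝ) (δ θ : ℝ) : Setoid Ω := Setoid.ker fun a => ⌊(v a - θ) / δ⌋

/-- if the values of `v` on each `t`-class are within `L δ` then
`H(cell v δ θ) ≤ H(t) + log (2 L + 2)`. -/
theorem HS_cell_le {q : Ω → ℝ} (hq : ∀ a, 0 ≤ q a) (h1 : ∑ a, q a = 1) {t : Setoid Ω}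
    {v : Ω → ℝ} {δ : ℝ} (hδ : 0 < δ) (θ : ℝ) {L : ℕ}
    (h : ∀ a b, t a b → |v a - v b| ≤ L * δ) :
    HC q (cell v δ θ) t ≤ Real.log (L + 2) := by
  classical
  -- code: cell number modulo `L + 2`
  let c : Ω → ℤ := fun a => ⌊(v a - θ) / δ⌋
  let φ : Ω → Fin (L + 2) := fun a => ⟨(c a % ((L : ℤ) + 2)).toNat, by
    have h2 : (0 : ℤ) < (L : ℤ) + 2 := by positivity
    have h3 := Int.emod_nonneg (c a) h2.ne'
    have h4 := Int.emod_lt_of_pos (c a) h2
    omega⟩
  have key := HC_le_log hq h1 (K := L + 2) φ (s := cell v δ θ) (t := t) ?_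
  · push_cast at key
    exact key
  intro a b hab hφ
  have h2 : (0 : ℤ) < (L : ℤ) + 2 := by positivity
  have h3 := Int.emod_nonneg (c a) h2.ne'
  have h4 := Int.emod_nonneg (c b) h2.ne'
  have h5 : c a % ((L : ℤ) + 2) = c b % ((L : ℤ) + 2) := by
    have := congrArg Fin.val hφ
    have h6 : (c a % ((L : ℤ) + 2)).toNat = (c b % ((L : ℤ) + 2)).toNat := this
    omega
  have hd : |v a - v b| / δ ≤ L := by
    rw [div_le_iff₀ hδ]
    exact h a b hab
  have h7 : |((c a : ℤ) : ℝ) - (c b : ℤ)| < L + 1 := by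
    have ha1 := Int.floor_le ((v a - θ) / δ)
    have ha2 := Int.lt_floor_add_one ((v a - θ) / δ)
    have hb1 := Int.floor_le ((v b - θ) / δ)
    have hb2 := Int.lt_floor_add_one ((v b - θ) / δ)
    have h8 : (v a - θ) / δ - (v b - θ) / δ = (v a - v b) / δ := by ring
    have h9 : |(v a - v b) / δ| ≤ L := by
      rw [abs_div, abs_of_pos hδ]; exact hd
    rw [abs_le] at h9
    rw [abs_lt]
    constructor
    · show -((L : ℝ) + 1) < (⌊(v a - θ) / δ⌋ : ℝ) - ⌊(v b - θ) / δ⌋
      linarith
    · show (⌊(v a - θ) / δ⌋ : ℝ) - ⌊(v b - θ) / δ⌋ < (L : ℝ) + 1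
      linarith
  have h8 : |c a - c b| < (L : ℤ) + 1 := by exact_mod_cast h7
  have h9 : ((L : ℤ) + 2) ∣ (c a - c b) := 
    Int.dvd_of_emod_eq_zero (Int.emod_eq_emod_iff_emod_sub_eq_zero.mp h5)
  show c a = c b
  have h10 : c a - c b = 0 := by
    refine Int.eq_zero_of_abs_lt_dvd h9 ?_
    omega
  omega

end Part

end Crest.Agent.R98
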