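import Crest.Agent.R98.Word5
import Crest.Agent.R98.EndDefs

/-!
# Row 98: test functions (TEST) of the ending (helper587)

`QQ p Y g = g - E[g | σ(Y)]`,  `vT p Y g s i = ∫ cinf (rayC s) w i * QQ p Y g w`.
-/

set_option autoImplicit false

open Filter Topology Set Metric MeasureTheory
open scoped ENNReal

namespace Crest.Agent.R98

section Q

variable {ι : Type*} [Fintype ι] [MeasurableSpace ι]

/-- the σ-algebra generated by `Y` -/
abbrev sY (Y : (ℕ → ι) → ℝ) : MeasurableSpace (ℕ → ι) := MeasurableSpace.comap Y inferInstance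

/-- `g - E[g | Y]` -/
noncomputable def QQ (p : ι → ℝ) (Y g : (ℕ → ι) → ℝ) (w : ℕ → ι) : ℝ :=
  g w - ((PP p)[g | sY Y]) w

/-- bounded measurable test functions -/
def TestFn (ι : Type*) [MeasurableSpace ι] : Type _ :=
  {g : (ℕ → ι) → ℝ // Measurable g ∧ ∃ C : ℝ, ∀ w, |g w| ≤ C}

variable {p : ι → ℝ} {Y g : (ℕ → ι) → ℝ}

theorem integrable_of_bdd (hp : (∀ i, 0 ≤ p i) ∧ ∑ i, p i = 1) {X : (ℕ → ι) → ℝ} (hX : Measurable X)
    {C : ℝ} (hC : ∀ w, |X w| ≤ C) : Integrable X (PP p) := by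
  have := isProb_PP hp
  exact Integrable.of_bound hX.aestronglyMeasurable C (Eventually.of_forall hC)

theorem integrable_QQ (hp : (∀ i, 0 ≤ p i) ∧ ∑ i, p i = 1) (hg : Measurable g)
    {C : ℝ} (hC : ∀ w, |g w| ≤ C) : Integrable (QQ p Y g) (PP p) :=
  (integrable_of_bdd hp hg hC).sub integrable_condExp

/-- functions of `Y` are orthogonal to `g - E[g|Y]` -/
theorem integral_fac_mul_QQ (hp : (∀ i, 0 ≤ p i) ∧ ∑ i, p i = 1) (hY : Measurable Y)
    (hg : Measurable g) {C : ℝ} (hC : ∀ w, |g w| ≤ C) {Z : (ℕ → ι) → ℝ} {K : ℝ}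
    (hZb : ∀ᵐ w ∂(PP p), |Z w| ≤ K) {f : ℝ → ℝ} (hf : Measurable f) (hZ : Z =ᵐ[PP p] fun w => f (Y w)) :
    ∫ w, Z w * QQ p Y g w ∂(PP p) = 0 := by
  have := isProb_PP hp
  have hm : sY Y ≤ MeasurableSpace.pi := hY.comap_le
  have hgi := integrable_of_bdd hp hg hC
  have hfY : StronglyMeasurable[sY Y] (fun w => f (Y w)) :=
    (hf.comp (comap_measurable Y)).stronglyMeasurable
  have hb : ∀ᵐ w ∂(PP p), ‖f (Y w)‖ ≤ K := by
    filter_upwards [hZ, hZb] with w h1 h2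
    rw [← h1]
    exact h2
  have h1 := condExp_stronglyMeasurable_mul_of_bound hm hfY hgi K hb
  have h2 : ∫ w, f (Y w) * g w ∂(PP p) = ∫ w, f (Y w) * ((PP p)[g | sY Y]) w ∂(PP p) := by
    rw [← integral_condExp hm (f := fun w => f (Y w) * g w)]
    exact integral_congr_ae h1
  have hi1 : Integrable (fun w => f (Y w) * g w) (PP p) :=
    hgi.bdd_mul (hfY.mono hm).aestronglyMeasurable hb
  have hi2 : Integrable (fun w => f (Y w) * ((PP p)[g | sY Y]) w) (PP p) :=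
    (integrable_condExp (μ := PP p) (m := sY Y) (f := g)).bdd_mul (hfY.mono hm).aestronglyMeasurable hb
  calc ∫ w, Z w * QQ p Y g w ∂(PP p) = ∫ w, (f (Y w) * g w - f (Y w) * ((PP p)[g | sY Y]) w) ∂(PP p) := by
        refine integral_congr_ae ?_
        filter_upwards [hZ] with w h
        rw [h]
        unfold QQ
        ring
    _ = 0 := by rw [integral_sub hi1 hi2, h2, sub_self]

/-- if `X` is orthogonal to its own remainder then it is a function of `Y` -/
theorem fac_of_orth (hp : (∀ i, 0 ≤ p i) ∧ ∑ i, p i = 1) (hY : Measurable Y) {X : (ℕ → ι) → ℝ}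
    (hX : Measurable X) {C : ℝ} (hC : ∀ w, |X w| ≤ C)
    (h0 : ∫ w, X w * QQ p Y X w ∂(PP p) = 0) : Fac p Y X := by
  have := isProb_PP hp
  have hm : sY Y ≤ MeasurableSpace.pi := hY.comap_le
  have hXi := integrable_of_bdd hp hX hC
  -- a version of the conditional expectation
  set E : (ℕ → ι) → ℝ := (PP p)[X | sY Y] with hE
  have hEm : StronglyMeasurable[sY Y] E := stronglyMeasurable_condExp
  obtain ⟨h, hh, hEh⟩ := (hEm.measurable).exists_eq_measurable_comp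
  have hC0 : 0 ≤ C := (abs_nonneg _).trans (hC (fun _ => by
    have : Nonempty ι := by
      by_contra hne
      rw [not_nonempty_iff] at hne
      have := hp.2
      simp at this
    exact this.some))
  have hEb : ∀ᵐ w ∂(PP p), |E w| ≤ C := by
    have := ae_bdd_abs_condExp_of_ae_bdd_abs (μ := PP p) (m := sY Y) (R := C) (f := X)
      (Eventually.of_forall fun w => hC w)
    exact this
  have h1 : ∫ w, E w * QQ p Y X w ∂(PP p) = 0 :=
    integral_fac_mul_QQ hp hY hX hC hEb hh (Eventually.of_forall fun w => congrFun hEh w)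
  have hQb : ∀ᵐ w ∂(PP p), ‖QQ p Y X w‖ ≤ 2 * C := by
    filter_upwards [hEb] with w hw
    unfold QQ
    calc ‖X w - E w‖ ≤ ‖X w‖ + ‖E w‖ := norm_sub_le _ _
      _ ≤ C + C := add_le_add (hC w) hw
      _ = 2 * C := by ring
  have hQi : Integrable (QQ p Y X) (PP p) := integrable_QQ hp hX hC
  have hi1 : Integrable (fun w => X w * QQ p Y X w) (PP p) :=
    hQi.bdd_mul hX.aestronglyMeasurable (Eventually.of_forall hC)
  have hi2 : Integrable (fun w => E w * QQ p Y X w) (PP p) :=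
    hQi.bdd_mul (hEm.mono hm).aestronglyMeasurable hEb
  have hsq : ∫ w, (QQ p Y X w) ^ 2 ∂(PP p) = 0 := by
    have : ∀ w, (QQ p Y X w) ^ 2 = X w * QQ p Y X w - E w * QQ p Y X w := by
      intro w
      have : QQ p Y X w = X w - E w := rfl
      rw [this]; ring
    simp only [this]
    rw [integral_sub hi1 hi2, h0, h1, sub_zero]
  have hisq : Integrable (fun w => (QQ p Y X w) ^ 2) (PP p) := by
    have : (fun w => (QQ p Y X w) ^ 2) = fun w => X w * QQ p Y X w - E w * QQ p Y X w := by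
      funext w
      have : QQ p Y X w = X w - E w := rfl
      rw [this]; ring
    rw [this]
    exact hi1.sub hi2
  have hz := (integral_eq_zero_iff_of_nonneg (fun w => sq_nonneg _) hisq).mp hsq
  refine ⟨h, hh, ?_⟩
  filter_upwards [hz] with w hw
  have h3 : QQ p Y X w = 0 := by
    have : (QQ p Y X w) ^ 2 = 0 := hw
    exact pow_eq_zero_iff (two_ne_zero) |>.mp this
  have h4 : X w = E w := by
    have : X w - E w = 0 := h3
    linarith
  rw [h4]
  exact congrFun hEh w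

end Q

section V

variable {ι : Type*} [Fintype ι] [MeasurableSpace ι] [DiscreteMeasurableSpace ι]
  {p σ ℓ : ι → ℝ} {Y : (ℕ → ι) → ℝ} {ℓ0 : ℝ}

/-- the test vectors -/
noncomputable def vT (p σ ℓ : ι → ℝ) (Y g : (ℕ → ι) → ℝ) (s : ℂ) (i : ι) : ℂ :=
  ∫ w, cinf (rayC σ ℓ s) w i * (QQ p Y g w : ℂ) ∂(PP p)

/-- finite level version -/
theorem vT_level (hp : (∀ i, 0 ≤ p i) ∧ ∑ i, p i = 1) {g : (ℕ → ι) → ℝ} (hg : Measurable g) {C : ℝ}
    (hC : ∀ w, |g w| ≤ C) (s : ℂ) (i : ι) (n : ℕ) :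
    ∫ w, cw (rayC σ ℓ s) (pre n w) i * (QQ p Y g w : ℂ) ∂(PP p) =
      ∑ u : Fin n → ι, cw (rayC σ ℓ s) u i * ∫ w in pre n ⁻¹' {u}, (QQ p Y g w : ℂ) ∂(PP p) := by
  classical
  have hQi : Integrable (fun w => (QQ p Y g w : ℂ)) (PP p) := (integrable_QQ hp hg hC).ofReal
  have hms : ∀ u : Fin n → ι, MeasurableSet (pre n ⁻¹' {u} : Set (ℕ → ι)) := fun u =>
    measurable_pre n (measurableSet_singleton u)
  have h1 : ∀ w : ℕ → ι, cw (rayC σ ℓ s) (pre n w) i * (QQ p Y g w : ℂ) =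
      ∑ u : Fin n → ι, (pre n ⁻¹' {u}).indicator (fun w => cw (rayC σ ℓ s) u i * (QQ p Y g w : ℂ)) w := by
    intro w
    rw [Finset.sum_eq_single (pre n w)]
    · rw [indicator_of_mem (by simp)]
    · intro u _ hu
      rw [indicator_of_notMem]
      simpa using fun h => hu h.symm
    · simp
  simp only [h1]
  rw [integral_finsetSum]
  · refine Finset.sum_congr rfl fun u _ => ?_
    rw [integral_indicator (hms u), integral_const_mul]
  · intro u _
    exact (hQi.const_mul _).indicator (hms u)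

/-- holomorphy of the test vectors -/
theorem differentiableOn_vT (hp : (∀ i, 0 ≤ p i) ∧ ∑ i, p i = 1) (hσ : ∀ i, |σ i| ≤ 1)
    (hℓ : ∀ i, ℓ0 ≤ ℓ i) (h0 : 0 < ℓ0) {g : (ℕ → ι) → ℝ} (hg : Measurable g) {C : ℝ}
    (hC : ∀ w, |g w| ≤ C) (i : ι) :
    DifferentiableOn ℂ (fun s => vT p σ ℓ Y g s i) (ball 0 (1 / 2)) := by
  have := isProb_PP hp
  set q : ℝ := Real.exp (-ℓ0 / 2) with hq
  have hq1 : q < 1 := exp_half_lt_one h0
  have hq0 : 0 ≤ q := (Real.exp_pos _).le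
  have hQi : Integrable (QQ p Y g) (PP p) := integrable_QQ hp hg hC
  set A : ℝ := ∫ w, |QQ p Y g w| ∂(PP p) with hA
  have hA0 : 0 ≤ A := integral_nonneg fun w => abs_nonneg _
  set vn : ℕ → ℂ → ℂ := fun n s => ∫ w, cw (rayC σ ℓ s) (pre n w) i * (QQ p Y g w : ℂ) ∂(PP p) with hvn
  have hdiff : ∀ n, DifferentiableOn ℂ (vn n) (ball 0 (1 / 2)) := by
    intro n
    have h1 : vn n = fun s => ∑ u : Fin n → ι, cw (rayC σ ℓ s) u i *
        ∫ w in pre n ⁻¹' {u}, (QQ p Y g w : ℂ) ∂(PP p) := by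
      funext s
      exact vT_level hp hg hC s i n
    rw [h1]
    refine DifferentiableOn.fun_sum fun u _ => DifferentiableOn.mul_const ?_ _
    intro s _
    have : ∀ {m : ℕ} (u : Fin m → ι), DifferentiableAt ℂ (fun s => cw (rayC σ ℓ s) u i) s := by
      classical
      intro m
      induction m with
      | zero => intro u; simp
      | succ m ih =>
        intro u
        obtain ⟨a, u, rfl⟩ := exists_cons u
        simp only [cw_cons]
        refine DifferentiableAt.const_add _ (DifferentiableAt.fun_mul ?_ (ih u))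
        unfold rayC
        fun_prop
    exact (this u).differentiableWithinAt
  have hbound : ∀ n, ∀ s ∈ ball (0 : ℂ) (1 / 2), ‖vT p σ ℓ Y g s i - vn n s‖ ≤ q ^ n / (1 - q) * A := by
    intro n s hs
    have hs' : ‖s‖ ≤ 1 / 2 := by
      rw [mem_ball_zero_iff] at hs
      exact hs.le
    have hr : ∀ i, ‖rayC σ ℓ s i‖ ≤ q := norm_rayC_le hσ hℓ h0.le hs'
    have hi1 : Integrable (fun w => cinf (rayC σ ℓ s) w i * (QQ p Y g w : ℂ)) (PP p) :=
      hQi.ofReal.bdd_mul (measurable_cinf hr hq1 i).aestronglyMeasurable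
        (Eventually.of_forall fun w => norm_cinf_le hr hq1 w i)
    have hi2 : Integrable (fun w => cw (rayC σ ℓ s) (pre n w) i * (QQ p Y g w : ℂ)) (PP p) := by
      refine hQi.ofReal.bdd_mul (measurable_cw_pre (rayC σ ℓ s) n i).aestronglyMeasurable
        (Eventually.of_forall fun w => ?_) (c := 1 / (1 - q))
      exact norm_cw_le hr hq1 (pre n w) i
    have h1 : vT p σ ℓ Y g s i - vn n s =
        ∫ w, (cinf (rayC σ ℓ s) w i - cw (rayC σ ℓ s) (pre n w) i) * (QQ p Y g w : ℂ) ∂(PP p) := by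
      unfold vT
      rw [hvn]
      simp only
      rw [← integral_sub hi1 hi2]
      refine integral_congr_ae (Eventually.of_forall fun w => ?_)
      simp only
      ring
    rw [h1]
    refine (norm_integral_le_integral_norm _).trans ?_
    rw [hA, ← integral_const_mul]
    refine integral_mono_of_nonneg (Eventually.of_forall fun w => norm_nonneg _)
      (hQi.abs.const_mul _) (Eventually.of_forall fun w => ?_)
    simp only
    rw [norm_mul, Complex.norm_real, Real.norm_eq_abs]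
    refine mul_le_mul_of_nonneg_right ?_ (abs_nonneg _)
    refine (norm_cinf_sub_le hr hq1 n w i).trans ?_
    exact div_le_div_of_nonneg_right (norm_rho_le hr _) (by linarith)
  refine TendstoLocallyUniformlyOn.differentiableOn (F := vn) (φ := atTop) ?_
    (Eventually.of_forall hdiff) isOpen_ball
  refine TendstoUniformlyOn.tendstoLocallyUniformlyOn ?_
  rw [Metric.tendstoUniformlyOn_iff]
  intro ε hε
  have hlim : Tendsto (fun n : ℕ => q ^ n / (1 - q) * A) atTop (𝓝 (0 / (1 - q) * A)) :=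
    ((tendsto_pow_atTop_nhds_zero_of_lt_one hq0 hq1).div_const _).mul_const _
  rw [zero_div, zero_mul] at hlim
  filter_upwards [hlim.eventually_lt_const hε] with n hn s hs
  rw [dist_eq_norm]
  exact (hbound n s hs).trans_lt hn

theorem analyticOnNhd_vT (hp : (∀ i, 0 ≤ p i) ∧ ∑ i, p i = 1) (hσ : ∀ i, |σ i| ≤ 1)
    (hℓ : ∀ i, ℓ0 ≤ ℓ i) (h0 : 0 < ℓ0) {g : (ℕ → ι) → ℝ} (hg : Measurable g) {C : ℝ}
    (hC : ∀ w, |g w| ≤ C) (i : ι) :
    AnalyticOnNhd ℂ (fun s => vT p σ ℓ Y g s i) (ball 0 (1 / 2)) :=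
  (differentiableOn_vT hp hσ hℓ h0 hg hC i).analyticOnNhd isOpen_ball

/-- real on the reals -/
theorem vT_ofReal (hσ : ∀ i, |σ i| ≤ 1) (hℓ : ∀ i, ℓ0 ≤ ℓ i) (h0 : 0 < ℓ0) {g : (ℕ → ι) → ℝ}
    {s : ℝ} (hs : |s| ≤ 1 / 2) (i : ι) :
    vT p σ ℓ Y g s i = ((∫ w, cinf (rayR σ ℓ s) w i * QQ p Y g w ∂(PP p) : ℝ) : ℂ) := by
  unfold vT
  rw [← integral_complex_ofReal]
  refine integral_congr_ae (Eventually.of_forall fun w => ?_)
  simp only
  have h1 : rayC σ ℓ (s : ℂ) = fun i => (rayR σ ℓ s i : ℂ) := funext fun i => rayC_ofReal σ ℓ s i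
  rw [h1, cinf_ofReal (abs_rayR_le hσ hℓ h0.le hs) (exp_half_lt_one h0)]
  push_cast
  rfl

/-- combination of the test vectors with (complex) translations -/
theorem vT_dot (hp : (∀ i, 0 ≤ p i) ∧ ∑ i, p i = 1) (hσ : ∀ i, |σ i| ≤ 1)
    (hℓ : ∀ i, ℓ0 ≤ ℓ i) (h0 : 0 < ℓ0) {g : (ℕ → ι) → ℝ} (hg : Measurable g) {C : ℝ}
    (hC : ∀ w, |g w| ≤ C) {s : ℂ} (hs : ‖s‖ ≤ 1 / 2) (t : ι → ℂ) :
    ∑ i, vT p σ ℓ Y g s i * t i =
      ∫ w, (∑ i, cinf (rayC σ ℓ s) w i * t i) * (QQ p Y g w : ℂ) ∂(PP p) := by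
  have hQi : Integrable (QQ p Y g) (PP p) := integrable_QQ hp hg hC
  have hr : ∀ i, ‖rayC σ ℓ s i‖ ≤ Real.exp (-ℓ0 / 2) := norm_rayC_le hσ hℓ h0.le hs
  have hi : ∀ i, Integrable (fun w => cinf (rayC σ ℓ s) w i * (QQ p Y g w : ℂ)) (PP p) := fun i =>
    hQi.ofReal.bdd_mul (measurable_cinf hr (exp_half_lt_one h0) i).aestronglyMeasurable
      (Eventually.of_forall fun w => norm_cinf_le hr (exp_half_lt_one h0) w i)
  unfold vT
  simp only [← integral_mul_const]
  rw [← integral_finsetSum _ fun i _ => (hi i).mul_const _]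
  refine integral_congr_ae (Eventually.of_forall fun w => ?_)
  simp only [Finset.sum_mul]
  exact Finset.sum_congr rfl fun i _ => by ring

/-- (T1) -/
theorem fac_of_vT (hp : (∀ i, 0 ≤ p i) ∧ ∑ i, p i = 1) (hσ : ∀ i, |σ i| ≤ 1)
    (hℓ : ∀ i, ℓ0 ≤ ℓ i) (h0 : 0 < ℓ0) (hY : Measurable Y) {s : ℝ} (hs : |s| ≤ 1 / 2) {τ : ι → ℝ}
    (h : ∀ g : TestFn ι, ∑ i, vT p σ ℓ Y g.1 s i * (τ i : ℂ) = 0) :
    Fac p Y (Pi (rayR σ ℓ s) τ) := by
  have hrr := abs_rayR_le (σ := σ) hσ hℓ h0.le hs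
  have hq1 := exp_half_lt_one h0
  have hXm : Measurable (Pi (rayR σ ℓ s) τ) := measurable_Pi hrr hq1 τ
  have hXb := abs_Pi_le hrr hq1 τ
  refine fac_of_orth hp hY hXm hXb ?_
  have h1 := h ⟨Pi (rayR σ ℓ s) τ, hXm, _, hXb⟩
  have hsC : ‖(s : ℂ)‖ ≤ 1 / 2 := by simpa using hs
  rw [vT_dot hp hσ hℓ h0 hXm hXb hsC] at h1
  have h2 : ∀ w, (∑ i, cinf (rayC σ ℓ (s : ℂ)) w i * (τ i : ℂ)) * (QQ p Y (Pi (rayR σ ℓ s) τ) w : ℂ) =
      ((Pi (rayR σ ℓ s) τ w * QQ p Y (Pi (rayR σ ℓ s) τ) w : ℝ) : ℂ) := by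
    intro w
    have h3 : rayC σ ℓ (s : ℂ) = fun i => (rayR σ ℓ s i : ℂ) := funext fun i => rayC_ofReal σ ℓ s i
    rw [h3]
    simp only [cinf_ofReal hrr hq1]
    unfold Pi
    push_cast
    rfl
  simp only [h2] at h1
  rw [integral_complex_ofReal] at h1
  exact_mod_cast h1

/-- (T2): a combination close to functions of `Y` -/
theorem norm_integral_QQ_le (hp : (∀ i, 0 ≤ p i) ∧ ∑ i, p i = 1) (hY : Measurable Y)
    {g : (ℕ → ι) → ℝ} (hg : Measurable g) {C : ℝ} (hC : ∀ w, |g w| ≤ C)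
    {X : (ℕ → ι) → ℂ} (hX : Measurable X) {Zr Zi : (ℕ → ι) → ℝ} (hZr : Fac p Y Zr) (hZi : Fac p Y Zi)
    (hZrm : Measurable Zr) (hZim : Measurable Zi)
    {K : ℝ} (hZrb : ∀ w, |Zr w| ≤ K) (hZib : ∀ w, |Zi w| ≤ K) {δ : ℝ}
    (hδ : ∀ w, ‖X w - (Zr w + Zi w * Complex.I)‖ ≤ δ) :
    ‖∫ w, X w * (QQ p Y g w : ℂ) ∂(PP p)‖ ≤ δ * ∫ w, |QQ p Y g w| ∂(PP p) := by
  have := isProb_PP hp
  have hQi : Integrable (QQ p Y g) (PP p) := integrable_QQ hp hg hC
  obtain ⟨fr, hfr, er⟩ := hZr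
  obtain ⟨fi, hfi, ei⟩ := hZi
  have z1 := integral_fac_mul_QQ hp hY hg hC (Eventually.of_forall hZrb) hfr er
  have z2 := integral_fac_mul_QQ hp hY hg hC (Eventually.of_forall hZib) hfi ei
  have hir : Integrable (fun w => Zr w * QQ p Y g w) (PP p) :=
    hQi.bdd_mul hZrm.aestronglyMeasurable (Eventually.of_forall hZrb)
  have hii : Integrable (fun w => Zi w * QQ p Y g w) (PP p) :=
    hQi.bdd_mul hZim.aestronglyMeasurable (Eventually.of_forall hZib)
  have hdiff : Integrable (fun w => (X w - (Zr w + Zi w * Complex.I)) * (QQ p Y g w : ℂ)) (PP p) := by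
    refine hQi.ofReal.bdd_mul ?_ (Eventually.of_forall hδ)
    have : Measurable fun w => X w - (Zr w + Zi w * Complex.I) :=
      hX.sub ((Complex.measurable_ofReal.comp hZrm).add
        ((Complex.measurable_ofReal.comp hZim).mul_const _))
    exact this.aestronglyMeasurable
  have hZint : Integrable (fun w => ((Zr w * QQ p Y g w : ℝ) : ℂ) +
      ((Zi w * QQ p Y g w : ℝ) : ℂ) * Complex.I) (PP p) :=
    hir.ofReal.add (hii.ofReal.mul_const _)
  have hZ0 : ∫ w, (((Zr w * QQ p Y g w : ℝ) : ℂ) + ((Zi w * QQ p Y g w : ℝ) : ℂ) * Complex.I) ∂(PP p) = 0 := by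
    rw [integral_add hir.ofReal (hii.ofReal.mul_const _), integral_mul_const, integral_complex_ofReal,
      integral_complex_ofReal, z1, z2]
    simp
  have hsplit : ∫ w, X w * (QQ p Y g w : ℂ) ∂(PP p) =
      ∫ w, (X w - (Zr w + Zi w * Complex.I)) * (QQ p Y g w : ℂ) ∂(PP p) := by
    have h1 : ∀ w, X w * (QQ p Y g w : ℂ) = (X w - (Zr w + Zi w * Complex.I)) * (QQ p Y g w : ℂ) +
        (((Zr w * QQ p Y g w : ℝ) : ℂ) + ((Zi w * QQ p Y g w : ℝ) : ℂ) * Complex.I) := by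
      intro w
      push_cast
      ring
    simp only [h1]
    rw [integral_add hdiff hZint, hZ0, add_zero]
  rw [hsplit]
  refine (norm_integral_le_integral_norm _).trans ?_
  rw [← integral_const_mul]
  refine integral_mono_of_nonneg (Eventually.of_forall fun w => norm_nonneg _)
    (hQi.abs.const_mul _) (Eventually.of_forall fun w => ?_)
  simp only
  rw [norm_mul, Complex.norm_real, Real.norm_eq_abs]
  exact mul_le_mul_of_nonneg_right (hδ w) (abs_nonneg _)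

end V

end Crest.Agent.R98
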