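import Crest.Agent.R98.ExactB

/-!
Row 98 (S0129): the one-variable exactness lemma (E1 of note 9852).
-/

set_option autoImplicit false

open Polynomial

namespace Crest.Agent.R98.Exact

/-- the minor with rows `P i` and columns `J j` -/
noncomputable def minor {κ : Type*} {e : ℕ} (P : Fin e → κ → ℤ[X]) (J : Fin e → κ) : ℤ[X] :=
  (Matrix.of fun i j => P i (J j)).det

lemma minor_l1 {κ : Type*} {e : ℕ} (P : Fin e → κ → ℤ[X]) (J : Fin e → κ) {H : ℝ}
    (h : ∀ i j, l1 (P i j) ≤ H) : l1 (minor P J) ≤ (e.factorial : ℝ) * H ^ e :=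
  l1_det _ H fun i j => h i (J j)

lemma minor_natDegree {κ : Type*} {e n : ℕ} (P : Fin e → κ → ℤ[X]) (J : Fin e → κ)
    (h : ∀ i j, (P i j).natDegree ≤ n) : (minor P J).natDegree ≤ e * n :=
  natDegree_det_le _ fun i j => h i (J j)

lemma aeval_minor {κ : Type*} {e : ℕ} (P : Fin e → κ → ℤ[X]) (J : Fin e → κ) (z : ℂ) :
    aeval z (minor P J) = (Matrix.of fun i j => aeval z (P i (J j))).det := by
  unfold minor
  rw [AlgHom.map_det]
  rfl

/-- if `e + 1 > card κ` all minors vanish -/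
lemma minor_eq_zero_of_card {κ : Type*} [Fintype κ] {e : ℕ} (P : Fin e → κ → ℤ[X])
    (J : Fin e → κ) (he : Fintype.card κ < e) : minor P J = 0 := by
  classical
  have : ¬ Function.Injective J := by
    intro hJ
    have := Fintype.card_le_of_injective J hJ
    simp at this
    omega
  rw [Function.Injective] at this
  push Not at this
  obtain ⟨a, b, hab, hne⟩ := this
  unfold minor
  apply Matrix.det_zero_of_column_eq hne
  intro i
  simp [hab]

/-- vanishing of all bordered minors makes every row a combination of the chosen rows -/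
lemma row_combination {κ : Type*} {e : ℕ} (A : Fin e → κ → ℂ) (J : Fin e → κ) (p : κ → ℂ)
    (hD : (Matrix.of fun i j => A i (J j)).det ≠ 0)
    (hz : ∀ j : κ, (Matrix.of fun (i : Fin (e + 1)) (l : Fin (e + 1)) =>
      (Fin.snoc A p : Fin (e + 1) → κ → ℂ) i ((Fin.snoc J j : Fin (e + 1) → κ) l)).det = 0) :
    ∃ γ : Fin e → ℂ, ∀ j, p j = ∑ i, γ i * A i j := by
  classical
  set M : Matrix (Fin e) (Fin e) ℂ := Matrix.of fun i j => A i (J j) with hM
  refine ⟨fun i => ∑ l, p (J l) * M⁻¹ l i, ?_⟩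
  intro j
  have h1 := hz j
  -- block form
  have h2 : (Matrix.of fun (i : Fin (e + 1)) (l : Fin (e + 1)) =>
      (Fin.snoc A p : Fin (e + 1) → κ → ℂ) i ((Fin.snoc J j : Fin (e + 1) → κ) l)).det
      = (Matrix.fromBlocks M (Matrix.of fun i (_ : Fin 1) => A i j)
          (Matrix.of fun (_ : Fin 1) l => p (J l)) (Matrix.of fun (_ _ : Fin 1) => p j)).det := by
    rw [← Matrix.det_submatrix_equiv_self (finSumFinEquiv (m := e) (n := 1))]
    congr 1
    ext a b
    rcases a with a | a <;> rcases b with b | b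
    · simp [hM, Fin.snoc, Fin.castAdd, Fin.castLE]
    · have hb : b = 0 := Subsingleton.elim _ _
      subst hb
      simp [Fin.snoc, Fin.castAdd, Fin.castLE, Fin.natAdd]
    · have ha : a = 0 := Subsingleton.elim _ _
      subst ha
      simp [Fin.snoc, Fin.castAdd, Fin.castLE, Fin.natAdd]
    · have ha : a = 0 := Subsingleton.elim _ _
      have hb : b = 0 := Subsingleton.elim _ _
      subst ha
      subst hb
      simp [Fin.snoc, Fin.natAdd]
  rw [h2] at h1
  have hMu : IsUnit M.det := isUnit_iff_ne_zero.mpr hD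
  let _ : Invertible M := Matrix.invertibleOfIsUnitDet M hMu
  rw [Matrix.det_fromBlocks₁₁, mul_eq_zero] at h1
  rcases h1 with h1 | h1
  · exact absurd h1 hD
  · rw [Matrix.det_unique] at h1
    simp only [Matrix.invOf_eq_nonsing_inv, Matrix.sub_apply, Matrix.of_apply, Matrix.mul_apply] at h1
    rw [sub_eq_zero] at h1
    rw [h1]


lemma norm_det_le' {e : ℕ} (M : Matrix (Fin e) (Fin e) ℂ) {B : ℝ} (hM : ∀ i j, ‖M i j‖ ≤ B) :
    ‖M.det‖ ≤ (e.factorial : ℝ) * B ^ e := by
  rw [Matrix.det_apply]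
  refine (norm_sum_le _ _).trans ?_
  have h1 : ∀ σ ∈ (Finset.univ : Finset (Equiv.Perm (Fin e))),
      ‖Equiv.Perm.sign σ • ∏ i, M (σ i) i‖ ≤ B ^ e := by
    intro σ _
    have h2 : ‖Equiv.Perm.sign σ • ∏ i, M (σ i) i‖ = ‖∏ i, M (σ i) i‖ := by
      rcases Int.units_eq_one_or (Equiv.Perm.sign σ) with h | h <;> simp [h]
    rw [h2, norm_prod]
    calc ∏ i, ‖M (σ i) i‖ ≤ ∏ _i : Fin e, B :=
          Finset.prod_le_prod (fun i _ => norm_nonneg _) (fun i _ => hM _ _)
      _ = B ^ e := by simp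
  refine (Finset.sum_le_sum h1).trans ?_
  simp [Fintype.card_perm]

/-- quantitative Cramer -/
lemma cramer_bound {e : ℕ} (M : Matrix (Fin e) (Fin e) ℂ) {B : ℝ} (hB : 1 ≤ B)
    (hM : ∀ i j, ‖M i j‖ ≤ B) (hD : M.det ≠ 0) (v : Fin e → ℂ) {ε : ℝ}
    (hv : ∀ i, ‖v i‖ ≤ ε) :
    ∃ x : Fin e → ℂ, (∀ i, ∑ l, M i l * x l = v i) ∧
      ∀ l, ‖x l‖ ≤ e * ((e.factorial : ℝ) * B ^ e) * ε / ‖M.det‖ := by
  have hMu : IsUnit M.det := isUnit_iff_ne_zero.mpr hD
  refine ⟨fun l => ∑ i, (M.det)⁻¹ * M.adjugate l i * v i, ?_, ?_⟩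
  · intro i
    have h1 : M * M.adjugate = M.det • (1 : Matrix (Fin e) (Fin e) ℂ) := Matrix.mul_adjugate M
    calc ∑ l, M i l * ∑ i', (M.det)⁻¹ * M.adjugate l i' * v i'
        = ∑ i', (M.det)⁻¹ * (∑ l, M i l * M.adjugate l i') * v i' := by
          simp_rw [Finset.mul_sum, Finset.sum_mul]
          rw [Finset.sum_comm]
          refine Finset.sum_congr rfl fun i' _ => Finset.sum_congr rfl fun l _ => ?_
          ring
      _ = ∑ i', (M.det)⁻¹ * ((M * M.adjugate) i i') * v i' := rfl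
      _ = v i := by
          rw [h1]
          simp only [Matrix.smul_apply, Matrix.one_apply, smul_eq_mul]
          rw [Finset.sum_eq_single i]
          · rw [if_pos rfl, mul_one, inv_mul_cancel₀ hD, one_mul]
          · intro b _ hb
            rw [if_neg (Ne.symm hb)]
            ring
          · intro h
            exact absurd (Finset.mem_univ _) h
  · intro l
    have hadj : ∀ i, ‖M.adjugate l i‖ ≤ (e.factorial : ℝ) * B ^ e := by
      intro i
      rw [Matrix.adjugate_apply]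
      apply norm_det_le'
      intro a b
      rw [Matrix.updateRow_apply]
      split_ifs with h
      · by_cases hb : b = l
        · subst hb
          simpa using hB
        · rw [Pi.single_eq_of_ne hb]
          simp
          linarith
      · exact hM a b
    refine (norm_sum_le _ _).trans ?_
    have hdpos : 0 < ‖M.det‖ := norm_pos_iff.mpr hD
    have h2 : ∀ i ∈ (Finset.univ : Finset (Fin e)),
        ‖(M.det)⁻¹ * M.adjugate l i * v i‖ ≤ ((e.factorial : ℝ) * B ^ e) * ε / ‖M.det‖ := by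
      intro i _
      rw [norm_mul, norm_mul, norm_inv]
      rw [div_eq_mul_inv]
      have h3 : 0 ≤ (e.factorial : ℝ) * B ^ e := by positivity
      calc ‖M.det‖⁻¹ * ‖M.adjugate l i‖ * ‖v i‖
          ≤ ‖M.det‖⁻¹ * ((e.factorial : ℝ) * B ^ e) * ε := by
            apply mul_le_mul _ (hv i) (norm_nonneg _) (by positivity)
            exact mul_le_mul_of_nonneg_left (hadj i) (by positivity)
        _ = _ := by ring
    refine (Finset.sum_le_sum h2).trans ?_
    simp only [Finset.sum_const, Finset.card_univ, Fintype.card_fin, nsmul_eq_mul]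
    apply le_of_eq
    ring

/-- the thresholds -/
noncomputable def thr (q : ℕ) (G : ℝ) : ℕ → ℝ
  | 0 => 0
  | e + 1 => (q + 1) * (thr q G e + G)

lemma thr_nonneg (q : ℕ) {G : ℝ} (hG : 0 ≤ G) (e : ℕ) : 0 ≤ thr q G e := by
  induction e with
  | zero => simp [thr]
  | succ e ih => rw [thr]; positivity

lemma thr_add_le (q : ℕ) {G : ℝ} (hG : 0 ≤ G) (e : ℕ) :
    thr q G e + G ≤ G * (e + 1) * (q + 1) ^ e := by
  induction e with
  | zero => simp [thr]
  | succ e ih =>
    rw [thr]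
    have h1 : (1 : ℝ) ≤ (q + 1) ^ (e + 1) := one_le_pow₀ (by
      have : (0 : ℝ) ≤ q := Nat.cast_nonneg q
      linarith)
    have h2 : ((q : ℝ) + 1) * (thr q G e + G) ≤ (q + 1) * (G * (e + 1) * (q + 1) ^ e) := by
      gcongr
    have h3 : G ≤ G * (q + 1) ^ (e + 1) := le_mul_of_one_le_right hG h1
    push_cast
    calc ((q : ℝ) + 1) * (thr q G e + G) + G
        ≤ (q + 1) * (G * (e + 1) * (q + 1) ^ e) + G * (q + 1) ^ (e + 1) := by linarith
      _ = _ := by ring

lemma factorial_pow_mono {a b : ℕ} (hab : a ≤ b) {H : ℝ} (hH : 1 ≤ H) :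
    (a.factorial : ℝ) * H ^ a ≤ (b.factorial : ℝ) * H ^ b := by
  have h1 : (a.factorial : ℝ) ≤ b.factorial := by exact_mod_cast Nat.factorial_le hab
  have h2 : H ^ a ≤ H ^ b := pow_le_pow_right₀ hH hab
  have : (0 : ℝ) ≤ H ^ a := by positivity
  gcongr

/-- the final step: the rank at `z` is exactly `e`, `z` close to `lam`: solve exactly -/
lemma solve_exact {κ : Type*} [Fintype κ] (PP : Set (κ → ℤ[X])) {n : ℕ} {H : ℝ} (hH : 1 ≤ H)
    (hdeg : ∀ P ∈ PP, ∀ j, (P j).natDegree ≤ n) (hl1 : ∀ P ∈ PP, ∀ j, l1 (P j) ≤ H)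
    {lam : ℝ} (h0 : 0 < lam) (h1 : lam < 1) {z : ℂ} (hz : ‖z‖ ≤ 1) {δ : ℝ}
    (hzl : ‖z - lam‖ ≤ δ) {e : ℕ} (hek : e ≤ Fintype.card κ) (R : Fin e → κ → ℤ[X]) (hR : ∀ i, R i ∈ PP)
    (J : Fin e → κ) {d : ℝ} (hd : 0 < d) (hD : d ≤ ‖aeval z (minor R J)‖)
    (hvan : ∀ (R' : Fin (e + 1) → κ → ℤ[X]) (J' : Fin (e + 1) → κ), (∀ i, R' i ∈ PP) →
      aeval z (minor R' J') = 0)
    (t : κ → ℝ) {η : ℝ} (hη0 : 0 ≤ η) (ht : ∀ P ∈ PP, ‖∑ j, (t j : ℂ) * aeval (lam : ℂ) (P j)‖ ≤ η * ‖t‖) :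
    ∃ t' : κ → ℂ, (∀ j, ‖t' j - t j‖ ≤ (Fintype.card κ : ℝ) ^ 2 *
        (((Fintype.card κ).factorial : ℝ) * H ^ (Fintype.card κ)) *
        (η + (Fintype.card κ) * n * H * δ) / d * ‖t‖) ∧
      ∀ P ∈ PP, ∑ j, t' j * aeval z (P j) = 0 := by
  classical
  set k := Fintype.card κ with hk
  have hlam : ‖(lam : ℂ)‖ ≤ 1 := by
    rw [Complex.norm_real, Real.norm_of_nonneg h0.le]; exact h1.le
  have hδ : 0 ≤ δ := (norm_nonneg _).trans hzl
  set M : Matrix (Fin e) (Fin e) ℂ := Matrix.of fun i j => aeval z (R i (J j)) with hM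
  have hMdet : M.det = aeval z (minor R J) := by rw [aeval_minor]
  have hMne : M.det ≠ 0 := by
    rw [hMdet]
    exact norm_pos_iff.mp (lt_of_lt_of_le hd hD)
  have hMent : ∀ i j, ‖M i j‖ ≤ H := by
    intro i j
    have h2 := norm_aeval_le (R i (J j)) (hdeg _ (hR i) (J j)) z
    rw [max_eq_left hz, one_pow, mul_one] at h2
    exact h2.trans (hl1 _ (hR i) _)
  set v : Fin e → ℂ := fun i => ∑ j, (t j : ℂ) * aeval z (R i j) with hv
  have hvb : ∀ i, ‖v i‖ ≤ (η + k * n * H * δ) * ‖t‖ := by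
    intro i
    have h2 : v i = ∑ j, (t j : ℂ) * aeval (lam : ℂ) (R i j) +
        ∑ j, (t j : ℂ) * (aeval z (R i j) - aeval (lam : ℂ) (R i j)) := by
      rw [hv, ← Finset.sum_add_distrib]
      refine Finset.sum_congr rfl fun j _ => ?_
      ring
    rw [h2]
    refine (norm_add_le _ _).trans ?_
    rw [add_mul]
    apply add_le_add (ht _ (hR i))
    refine (norm_sum_le _ _).trans ?_
    have h3 : ∀ j ∈ (Finset.univ : Finset κ),
        ‖(t j : ℂ) * (aeval z (R i j) - aeval (lam : ℂ) (R i j))‖ ≤ ‖t‖ * (n * H * δ) := by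
      intro j _
      rw [norm_mul, Complex.norm_real]
      apply mul_le_mul (norm_le_pi_norm t j) _ (norm_nonneg _) (norm_nonneg _)
      refine (norm_aeval_sub_le (R i j) (hdeg _ (hR i) j) hz hlam).trans ?_
      have := hl1 _ (hR i) j
      have h4 := l1_nonneg (R i j)
      gcongr
    refine (Finset.sum_le_sum h3).trans ?_
    simp only [Finset.sum_const, Finset.card_univ, nsmul_eq_mul]
    apply le_of_eq
    rw [← hk]
    ring
  obtain ⟨x, hx1, hx2⟩ := cramer_bound M hH hMent hMne v hvb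
  refine ⟨fun j => t j - ∑ l, if J l = j then x l else 0, ?_, ?_⟩
  · intro j
    rw [sub_sub_cancel_left, norm_neg]
    refine (norm_sum_le _ _).trans ?_
    have hη : 0 ≤ (η + k * n * H * δ) * ‖t‖ := by
      have := norm_nonneg t
      positivity
    have h3 : ∀ l ∈ (Finset.univ : Finset (Fin e)), ‖if J l = j then x l else 0‖ ≤
        k * ((k.factorial : ℝ) * H ^ k) * ((η + k * n * H * δ) * ‖t‖) / d := by
      intro l _
      have h4 : ‖x l‖ ≤ k * ((k.factorial : ℝ) * H ^ k) * ((η + k * n * H * δ) * ‖t‖) / d := by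
        refine (hx2 l).trans ?_
        rw [hMdet]
        have h5 : (e : ℝ) * ((e.factorial : ℝ) * H ^ e) ≤ k * ((k.factorial : ℝ) * H ^ k) := by
          have h6 : (e : ℝ) ≤ k := by exact_mod_cast hek
          have h7 := factorial_pow_mono hek hH
          have : 0 ≤ (e.factorial : ℝ) * H ^ e := by positivity
          gcongr
        have h8 : 0 ≤ (k : ℝ) * ((k.factorial : ℝ) * H ^ k) := by positivity
        gcongr
      split_ifs
      · exact h4
      · rw [norm_zero]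
        exact (norm_nonneg _).trans h4
    refine (Finset.sum_le_sum h3).trans ?_
    simp only [Finset.sum_const, Finset.card_univ, Fintype.card_fin, nsmul_eq_mul]
    have h6 : (e : ℝ) ≤ k := by exact_mod_cast hek
    calc (e : ℝ) * (k * ((k.factorial : ℝ) * H ^ k) * ((η + k * n * H * δ) * ‖t‖) / d)
        ≤ k * (k * ((k.factorial : ℝ) * H ^ k) * ((η + k * n * H * δ) * ‖t‖) / d) := by
          gcongr
      _ = _ := by ring
  · intro P hP
    have hrow : ∃ γ : Fin e → ℂ, ∀ j, aeval z (P j) = ∑ i, γ i * aeval z (R i j) := by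
      apply row_combination (fun i j => aeval z (R i j)) J (fun j => aeval z (P j)) hMne
      intro j
      have h3 := hvan (Fin.snoc R P) (Fin.snoc J j) (by
        intro i
        refine Fin.lastCases ?_ (fun i => ?_) i
        · simpa using hP
        · simpa using hR i)
      rw [aeval_minor] at h3
      rw [← h3]
      congr 1
      ext a b
      refine Fin.lastCases ?_ (fun a => ?_) a
      · simp
      · simp
    obtain ⟨γ, hγ⟩ := hrow
    have hzero : ∀ i, ∑ j, (t j - ∑ l, if J l = j then x l else 0) * aeval z (R i j) = 0 := by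
      intro i
      simp_rw [sub_mul, Finset.sum_sub_distrib, Finset.sum_mul]
      rw [Finset.sum_comm]
      have h4 : ∀ l, ∑ j, (if J l = j then x l else 0) * aeval z (R i j) = M i l * x l := by
        intro l
        simp_rw [ite_mul, zero_mul]
        rw [Finset.sum_ite_eq]
        simp only [Finset.mem_univ, if_true]
        rw [hM]
        simp only [Matrix.of_apply]
        ring
      simp_rw [h4]
      rw [hx1 i, hv]
      simp
    calc ∑ j, (t j - ∑ l, if J l = j then x l else 0) * aeval z (P j)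
        = ∑ j, (t j - ∑ l, if J l = j then x l else 0) * ∑ i, γ i * aeval z (R i j) := by
          refine Finset.sum_congr rfl fun j _ => ?_
          rw [hγ j]
      _ = ∑ i, γ i * ∑ j, (t j - ∑ l, if J l = j then x l else 0) * aeval z (R i j) := by
          simp_rw [Finset.mul_sum]
          rw [Finset.sum_comm]
          refine Finset.sum_congr rfl fun i _ => Finset.sum_congr rfl fun j _ => ?_
          ring
      _ = 0 := by simp [hzero]


/-- **E1: one-variable exactness lemma.** `PP` family of integer polynomial vectors, of degree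
`≤ n` and `l1` norm `≤ H`.  `q` bounds the number of small roots of the minors.  One `z` close to
`lam` (`‖z - lam‖ ≤ e^{-G}`) such that every real `t` which is nearly annihilated at `lam` is
close to a complex vector exactly annihilated at `z`. -/
theorem exactness {κ : Type*} [Fintype κ] (PP : Set (κ → ℤ[X])) {n : ℕ} {H : ℝ} (hH : 1 ≤ H)
    (hdeg : ∀ P ∈ PP, ∀ j, (P j).natDegree ≤ n) (hl1 : ∀ P ∈ PP, ∀ j, l1 (P j) ≤ H)
    {lam : ℝ} (h0 : 0 < lam) (h1 : lam < 1) (q : ℕ)
    (hq : (((Fintype.card κ).factorial : ℝ) * H ^ (Fintype.card κ)) *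
      ((1 + lam) / 2) ^ (q + 1) < 1)
    {G N : ℝ} (hG : 0 ≤ G) (hG0 : Real.exp (-G) ≤ 1 - lam)
    (hG1 : Real.exp (-G) ≤ (lam * ((1 - lam) / 2)) ^ (Fintype.card κ * n))
    (hG2 : 2 * ((Fintype.card κ * n : ℕ) + 1 : ℝ) *
      (((Fintype.card κ).factorial : ℝ) * H ^ (Fintype.card κ)) ^
        (2 * (Fintype.card κ * n) + 1) * Real.exp (-G) < 1)
    (hN : G * (Fintype.card κ + 1) * (q + 1) ^ (Fintype.card κ) ≤ N) :
    ∃ z : ℂ, ‖z - lam‖ ≤ Real.exp (-G) ∧ ‖z‖ ≤ 1 ∧
      (z = lam ∨ ∃ (e : ℕ) (R : Fin e → κ → ℤ[X]) (J : Fin e → κ), e ≤ Fintype.card κ ∧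
        (∀ i, R i ∈ PP) ∧ minor R J ≠ 0 ∧ aeval z (minor R J) = 0) ∧
      ∀ t : κ → ℝ, (∀ P ∈ PP, ‖∑ j, (t j : ℂ) * aeval (lam : ℂ) (P j)‖ ≤ Real.exp (-N) * ‖t‖) →
        ∃ t' : κ → ℂ, (∀ j, ‖t' j - t j‖ ≤ 2 * (Fintype.card κ : ℝ) ^ 2 *
            (((Fintype.card κ).factorial : ℝ) * H ^ (Fintype.card κ)) *
            (1 + (Fintype.card κ) * n * H) * Real.exp (-G) * ‖t‖) ∧
          ∀ P ∈ PP, ∑ j, t' j * aeval z (P j) = 0 := by
  classical
  set k := Fintype.card κ with hk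
  set H' : ℝ := (k.factorial : ℝ) * H ^ k with hH'
  have hH'1 : 1 ≤ H' := by
    have h2 : (1 : ℝ) ≤ (k.factorial : ℝ) := by exact_mod_cast Nat.one_le_iff_ne_zero.mpr (Nat.factorial_ne_zero k)
    have h3 : (1 : ℝ) ≤ H ^ k := one_le_pow₀ hH
    nlinarith
  have hlam : ‖(lam : ℂ)‖ = lam := by
    rw [Complex.norm_real, Real.norm_of_nonneg h0.le]
  -- bounds for minors
  have hminl1 : ∀ (e : ℕ) (R : Fin e → κ → ℤ[X]) (J : Fin e → κ), e ≤ k → (∀ i, R i ∈ PP) →
      l1 (minor R J) ≤ H' := by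
    intro e R J he hR
    exact (minor_l1 R J fun i j => hl1 _ (hR i) j).trans (factorial_pow_mono he hH)
  have hmindeg : ∀ (e : ℕ) (R : Fin e → κ → ℤ[X]) (J : Fin e → κ), e ≤ k → (∀ i, R i ∈ PP) →
      (minor R J).natDegree ≤ k * n := by
    intro e R J he hR
    exact (minor_natDegree R J fun i j => hdeg _ (hR i) j).trans (Nat.mul_le_mul_right n he)
  -- choice of the rank
  let Q : ℕ → Prop := fun e => ∃ (R : Fin e → κ → ℤ[X]) (J : Fin e → κ), (∀ i, R i ∈ PP) ∧
    Real.exp (-(thr q G e)) ≤ ‖aeval (lam : ℂ) (minor R J)‖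
  have hQ0 : Q 0 := by
    refine ⟨fun i => i.elim0, fun i => i.elim0, fun i => i.elim0, ?_⟩
    rw [aeval_minor]
    simp [thr]
  have hQk : ¬ Q (k + 1) := by
    rintro ⟨R, J, _, hR⟩
    rw [minor_eq_zero_of_card R J (by omega), map_zero, norm_zero] at hR
    exact absurd hR (not_le.mpr (Real.exp_pos _))
  obtain ⟨e, hek, hQe, hQe1⟩ : ∃ e ≤ k, Q e ∧ ¬ Q (e + 1) := by
    by_contra hcon
    push Not at hcon
    have : ∀ e ≤ k + 1, Q e := by
      intro e
      induction e with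
      | zero => intro _; exact hQ0
      | succ e ih =>
        intro he
        exact hcon e (by omega) (ih (by omega))
    exact hQk (this (k + 1) le_rfl)
  obtain ⟨R, J, hRPP, hDlam⟩ := hQe
  have hsmall : ∀ (R' : Fin (e + 1) → κ → ℤ[X]) (J' : Fin (e + 1) → κ), (∀ i, R' i ∈ PP) →
      ‖aeval (lam : ℂ) (minor R' J')‖ < Real.exp (-(thr q G (e + 1))) := by
    intro R' J' hR'
    by_contra h
    push Not at h
    exact hQe1 ⟨R', J', hR', h⟩
  set δ : ℝ := Real.exp (-(thr q G e + G)) with hδ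
  have hδ0 : 0 < δ := Real.exp_pos _
  have hthr := thr_nonneg q hG e
  have hδG : δ ≤ Real.exp (-G) := Real.exp_le_exp.mpr (by linarith)
  have hδ1 : δ ≤ 1 := by
    rw [hδ]
    exact Real.exp_le_one_iff.mpr (by linarith)
  have hexpE : Real.exp (-(thr q G (e + 1))) = δ ^ q * δ := by
    rw [← pow_succ, hδ, ← Real.exp_nat_mul, thr]
    congr 1
    push_cast
    ring
  -- find z
  obtain ⟨z, hzl, hzroot, hvan⟩ : ∃ z : ℂ, ‖z - lam‖ ≤ δ ∧
      (z = lam ∨ ∃ (e : ℕ) (R : Fin e → κ → ℤ[X]) (J : Fin e → κ), e ≤ k ∧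
        (∀ i, R i ∈ PP) ∧ minor R J ≠ 0 ∧ aeval z (minor R J) = 0) ∧
      (∀ (R' : Fin (e + 1) → κ → ℤ[X]) (J' : Fin (e + 1) → κ), (∀ i, R' i ∈ PP) →
        aeval z (minor R' J') = 0) := by
    by_cases hall : ∀ (R' : Fin (e + 1) → κ → ℤ[X]) (J' : Fin (e + 1) → κ), (∀ i, R' i ∈ PP) →
        aeval (lam : ℂ) (minor R' J') = 0
    · exact ⟨lam, by simpa using hδ0.le, Or.inl rfl, hall⟩
    · push Not at hall
      obtain ⟨R₁, J₁, hR₁, hne⟩ := hall
      have hm0 : minor R₁ J₁ ≠ 0 := by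
        intro h
        rw [h, map_zero] at hne
        exact hne rfl
      have he1k : e + 1 ≤ k := by
        by_contra h
        exact hm0 (minor_eq_zero_of_card R₁ J₁ (by omega))
      -- a root near lam
      obtain ⟨z, hz0, hzd⟩ : ∃ z : ℂ, aeval z (minor R₁ J₁) = 0 ∧ ‖z - lam‖ < δ := by
        by_contra hcon
        push Not at hcon
        have h2 := near_root h0 h1 hδ0 hδ1 q hq (k * n) (minor R₁ J₁) hm0
          (hmindeg _ _ _ he1k hR₁) (hminl1 _ _ _ he1k hR₁) hcon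
        have h3 := hsmall R₁ J₁ hR₁
        rw [hexpE] at h3
        have h4 : δ ^ q * δ ≤ (lam * ((1 - lam) / 2)) ^ (k * n) * δ ^ q := by
          rw [mul_comm]
          have : δ ≤ (lam * ((1 - lam) / 2)) ^ (k * n) := hδG.trans hG1
          gcongr
        linarith
      have hz1 : ‖z‖ ≤ 1 := by
        have h2 : ‖z‖ ≤ ‖z - lam‖ + ‖(lam : ℂ)‖ := by
          have := norm_add_le (z - lam) (lam : ℂ)
          simpa using this
        rw [hlam] at h2
        linarith
      refine ⟨z, hzd.le, Or.inr ⟨e + 1, R₁, J₁, he1k, hR₁, hm0, hz0⟩, ?_⟩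
      intro R₂ J₂ hR₂
      by_contra hS
      have h2 := liouville hm0 (hmindeg _ _ _ he1k hR₁) (hmindeg _ _ _ he1k hR₂) hz0 hS
      have h3 : ‖aeval z (minor R₂ J₂)‖ ≤ (1 + (k * n : ℕ)) * H' * δ := by
        have h4 := norm_aeval_sub_le (minor R₂ J₂) (hmindeg _ _ _ he1k hR₂) hz1
          (by rw [hlam]; exact h1.le : ‖(lam : ℂ)‖ ≤ 1)
        have h5 : ‖aeval z (minor R₂ J₂)‖ ≤ ‖aeval z (minor R₂ J₂) - aeval (lam : ℂ) (minor R₂ J₂)‖
            + ‖aeval (lam : ℂ) (minor R₂ J₂)‖ := by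
          have := norm_add_le (aeval z (minor R₂ J₂) - aeval (lam : ℂ) (minor R₂ J₂))
            (aeval (lam : ℂ) (minor R₂ J₂))
          simpa using this
        have h6 : ‖aeval (lam : ℂ) (minor R₂ J₂)‖ ≤ δ := by
          refine (hsmall R₂ J₂ hR₂).le.trans ?_
          rw [hexpE]
          exact mul_le_of_le_one_left hδ0.le (pow_le_one₀ hδ0.le hδ1)
        have h7 : ((k * n : ℕ) : ℝ) * l1 (minor R₂ J₂) * ‖z - lam‖ ≤ (k * n : ℕ) * H' * δ := by
          have := hminl1 _ _ J₂ he1k hR₂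
          have h8 := l1_nonneg (minor R₂ J₂)
          gcongr
        have h9 : δ ≤ H' * δ := le_mul_of_one_le_left hδ0.le hH'1
        calc ‖aeval z (minor R₂ J₂)‖ ≤ (k * n : ℕ) * H' * δ + δ := by linarith
          _ ≤ (k * n : ℕ) * H' * δ + H' * δ := by linarith
          _ = _ := by ring
      have h10 : l1 (minor R₂ J₂) ^ (k * n) * l1 (minor R₁ J₁) ^ (k * n) ≤ H' ^ (2 * (k * n)) := by
        rw [two_mul, pow_add]
        have h11 := hminl1 _ _ J₂ he1k hR₂
        have h12 := hminl1 _ _ J₁ he1k hR₁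
        have h13 := l1_nonneg (minor R₂ J₂)
        have h14 := l1_nonneg (minor R₁ J₁)
        gcongr
      have h15 : (1 : ℝ) ≤ (1 + (k * n : ℕ)) * H' * δ * H' ^ (2 * (k * n)) := by
        refine h2.trans ?_
        have h16 : 0 ≤ l1 (minor R₂ J₂) ^ (k * n) * l1 (minor R₁ J₁) ^ (k * n) := by
          have h13 := l1_nonneg (minor R₂ J₂)
          have h14 := l1_nonneg (minor R₁ J₁)
          positivity
        calc _ ≤ (1 + (k * n : ℕ)) * H' * δ *
              (l1 (minor R₂ J₂) ^ (k * n) * l1 (minor R₁ J₁) ^ (k * n)) := by gcongr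
          _ ≤ _ := by
            have : 0 ≤ (1 + (k * n : ℕ)) * H' * δ := by positivity
            gcongr
      have h17 : (1 + (k * n : ℕ)) * H' * δ * H' ^ (2 * (k * n)) ≤
          (1 + (k * n : ℕ)) * H' * Real.exp (-G) * H' ^ (2 * (k * n)) := by
        gcongr
      have h18 : (1 + (k * n : ℕ)) * H' * Real.exp (-G) * H' ^ (2 * (k * n)) =
          (((k * n : ℕ) + 1 : ℝ) * H' ^ (2 * (k * n) + 1) * Real.exp (-G)) := by
        rw [pow_succ]; ring
      have h19 : 0 ≤ ((k * n : ℕ) + 1 : ℝ) * H' ^ (2 * (k * n) + 1) * Real.exp (-G) := by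
        positivity
      have h20 : 2 * (((k * n : ℕ) + 1 : ℝ) * H' ^ (2 * (k * n) + 1) * Real.exp (-G)) < 1 := by
        calc _ = 2 * ((k * n : ℕ) + 1 : ℝ) * H' ^ (2 * (k * n) + 1) * Real.exp (-G) := by ring
          _ < 1 := hG2
      linarith
  have hz1 : ‖z‖ ≤ 1 := by
    have h2 : ‖z‖ ≤ ‖z - lam‖ + ‖(lam : ℂ)‖ := by
      have := norm_add_le (z - lam) (lam : ℂ)
      simpa using this
    rw [hlam] at h2
    linarith
  refine ⟨z, hzl.trans hδG, hz1, hzroot, ?_⟩
  -- the e-minor does not vanish at z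
  have hDz : Real.exp (-(thr q G e)) / 2 ≤ ‖aeval z (minor R J)‖ := by
    have h4 := norm_aeval_sub_le (minor R J) (hmindeg _ _ _ hek hRPP) hz1
      (by rw [hlam]; exact h1.le : ‖(lam : ℂ)‖ ≤ 1)
    have h5 : ‖aeval (lam : ℂ) (minor R J)‖ ≤ ‖aeval z (minor R J) - aeval (lam : ℂ) (minor R J)‖
        + ‖aeval z (minor R J)‖ := by
      have := norm_sub_le (aeval z (minor R J)) (aeval z (minor R J) - aeval (lam : ℂ) (minor R J))
      rw [sub_sub_cancel] at this
      linarith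
    have h7 : ((k * n : ℕ) : ℝ) * l1 (minor R J) * ‖z - lam‖ ≤ (k * n : ℕ) * H' * δ := by
      have := hminl1 _ _ J hek hRPP
      have h8 := l1_nonneg (minor R J)
      gcongr
    have h9 : ((k * n : ℕ) : ℝ) * H' * δ ≤ Real.exp (-(thr q G e)) / 2 := by
      have h10 : δ = Real.exp (-(thr q G e)) * Real.exp (-G) := by
        rw [hδ, ← Real.exp_add]
        congr 1
        ring
      rw [h10]
      have h11 : 2 * (((k * n : ℕ) : ℝ) * H' * Real.exp (-G)) ≤ 1 := by
        refine le_trans ?_ hG2.le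
        have h12 : H' ≤ H' ^ (2 * (k * n) + 1) := by
          calc H' = H' ^ 1 := (pow_one _).symm
            _ ≤ _ := pow_le_pow_right₀ hH'1 (by omega)
        calc 2 * (((k * n : ℕ) : ℝ) * H' * Real.exp (-G))
            = 2 * ((k * n : ℕ) : ℝ) * H' * Real.exp (-G) := by ring
          _ ≤ 2 * ((k * n : ℕ) + 1 : ℝ) * H' ^ (2 * (k * n) + 1) * Real.exp (-G) := by
            gcongr
            linarith
      have h13 := Real.exp_pos (-(thr q G e))
      nlinarith
    linarith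
  intro t ht
  have hNG : thr q G e + G ≤ N := by
    refine (thr_add_le q hG e).trans (le_trans ?_ hN)
    have h2 : ((e : ℝ) + 1) ≤ k + 1 := by
      have : (e : ℝ) ≤ k := by exact_mod_cast hek
      linarith
    have h3 : ((q : ℝ) + 1) ^ e ≤ (q + 1) ^ k := pow_le_pow_right₀ (by
      have : (0 : ℝ) ≤ q := Nat.cast_nonneg q
      linarith) hek
    gcongr
  have hpos := Real.exp_pos (-(thr q G e))
  obtain ⟨t', ht'1, ht'2⟩ := solve_exact PP hH hdeg hl1 h0 h1 hz1 hzl hek R hRPP J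
    (d := Real.exp (-(thr q G e)) / 2) (by positivity) hDz hvan t (Real.exp_pos (-N)).le ht
  refine ⟨t', fun j => (ht'1 j).trans ?_, ht'2⟩
  rw [← hk, ← hH']
  have h2 : Real.exp (-N) ≤ δ := Real.exp_le_exp.mpr (by linarith)
  have h10 : δ = Real.exp (-(thr q G e)) * Real.exp (-G) := by
    rw [hδ, ← Real.exp_add]
    congr 1
    ring
  have h3 : (Real.exp (-N) + k * n * H * δ) / (Real.exp (-(thr q G e)) / 2) ≤
      2 * (1 + k * n * H) * Real.exp (-G) := by
    rw [div_le_iff₀ (by positivity)]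
    have h4 : Real.exp (-N) + k * n * H * δ ≤ (1 + k * n * H) * δ := by linarith
    refine h4.trans (le_of_eq ?_)
    rw [h10]
    ring
  calc (k : ℝ) ^ 2 * H' * (Real.exp (-N) + k * n * H * δ) / (Real.exp (-(thr q G e)) / 2) * ‖t‖
      = (k : ℝ) ^ 2 * H' * ((Real.exp (-N) + k * n * H * δ) / (Real.exp (-(thr q G e)) / 2)) * ‖t‖ := by
        ring
    _ ≤ (k : ℝ) ^ 2 * H' * (2 * (1 + k * n * H) * Real.exp (-G)) * ‖t‖ := by
        gcongr
    _ = _ := by ring

end Crest.Agent.R98.Exact
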