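import Crest.Agent.R098.Upper

/-!
Row 98 (S0129). Module WORDS, part 1: finite words, their ratio `rho`, translation vector `cw`,
type `wtype`. (helper430)
-/

set_option autoImplicit false

namespace Crest.Agent.R98

open Finset Crest.AnalysisR Crest.Agent.R098.Upper

section Alg

variable {ι R : Type*}

/-- multiplicative weight of a finite word (over `ℝ` it is `Upper.pw`, definitionally) -/
def rho [CommMonoid R] (r : ι → R) {n : ℕ} (u : Fin n → ι) : R := ∏ j, r (u j)

open Classical in
/-- translation vector of a finite word: `c_u = ∑_j r_{u_1..u_j} e_{u_{j+1}}`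
(recursively `c_{a u} = e_a + r_a c_u`) -/
noncomputable def cw [CommRing R] (r : ι → R) : ∀ {n : ℕ}, (Fin n → ι) → ι → R
  | 0, _ => 0
  | _ + 1, u => fun i => (if u 0 = i then 1 else 0) + r (u 0) * cw r (Fin.tail u) i

lemma rho_eq_pw (r : ι → ℝ) {n : ℕ} (u : Fin n → ι) : rho r u = pw r u := rfl

@[simp] lemma rho_zero [CommMonoid R] (r : ι → R) (u : Fin 0 → ι) : rho r u = 1 := by simp [rho]

lemma rho_cons [CommMonoid R] (r : ι → R) {n : ℕ} (a : ι) (u : Fin n → ι) :
    rho r (Fin.cons a u : Fin (n+1) → ι) = r a * rho r u := by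
  simp [rho, Fin.prod_univ_succ]

lemma rho_append [CommMonoid R] (r : ι → R) {m n : ℕ} (u : Fin m → ι) (v : Fin n → ι) :
    rho r (Fin.append u v) = rho r u * rho r v := by
  simp [rho, Fin.prod_univ_add]

@[simp] lemma cw_zero [CommRing R] (r : ι → R) (u : Fin 0 → ι) : cw r u = 0 := rfl

open Classical in
lemma cw_cons [CommRing R] (r : ι → R) {n : ℕ} (a : ι) (u : Fin n → ι) (i : ι) :
    cw r (Fin.cons a u : Fin (n+1) → ι) i = (if a = i then 1 else 0) + r a * cw r u i := by
  simp [cw]

lemma exists_cons {n : ℕ} (w : Fin (n+1) → ι) : ∃ a v, w = (Fin.cons a v : Fin (n+1) → ι) :=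
  ⟨w 0, Fin.tail w, (Fin.cons_self_tail w).symm⟩

/-- transport of words along an equality of lengths -/
lemma cw_cast [CommRing R] (r : ι → R) {m n : ℕ} (h : m = n) (u : Fin n → ι) (i : ι) :
    cw r (u ∘ Fin.cast h) i = cw r u i := by
  subst h; rfl

lemma rho_cast [CommMonoid R] (r : ι → R) {m n : ℕ} (h : m = n) (u : Fin n → ι) :
    rho r (u ∘ Fin.cast h) = rho r u := by
  subst h; rfl

lemma cw_append [CommRing R] (r : ι → R) {m n : ℕ} (u : Fin m → ι) (v : Fin n → ι) (i : ι) :
    cw r (Fin.append u v) i = cw r u i + rho r u * cw r v i := by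
  induction m with
  | zero =>
    have : Fin.append u v = v ∘ Fin.cast (Nat.zero_add n) := Fin.append_left_nil u v rfl
    rw [this, cw_cast]
    simp
  | succ m ih =>
    obtain ⟨a, u, rfl⟩ := exists_cons u
    rw [Fin.append_cons, cw_cast, cw_cons, ih, cw_cons, rho_cons]
    ring

/-- ring homomorphisms commute with `rho` -/
lemma map_rho {S : Type*} [CommRing R] [CommRing S] (φ : R →+* S) (r : ι → R) {n : ℕ}
    (u : Fin n → ι) : φ (rho r u) = rho (fun i => φ (r i)) u := by
  simp [rho, map_prod]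

/-- ring homomorphisms commute with `cw` -/
lemma map_cw {S : Type*} [CommRing R] [CommRing S] (φ : R →+* S) (r : ι → R) {n : ℕ}
    (u : Fin n → ι) (i : ι) : φ (cw r u i) = cw (fun i => φ (r i)) u i := by
  classical
  induction n with
  | zero => simp
  | succ n ih =>
    obtain ⟨a, u, rfl⟩ := exists_cons u
    rw [cw_cons, cw_cons, map_add, map_mul, ih]
    split_ifs <;> simp

open Classical in
/-- the type (letter counts) of a word -/
noncomputable def wtype {n : ℕ} (u : Fin n → ι) (i : ι) : ℕ := (univ.filter fun j => u j = i).card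

lemma rho_eq_wtype [Fintype ι] [CommMonoid R] (r : ι → R) {n : ℕ} (u : Fin n → ι) :
    rho r u = ∏ i, r i ^ wtype u i := by
  classical
  unfold rho wtype
  rw [← Finset.prod_fiberwise_of_maps_to (s := univ) (t := univ) (g := u) (fun _ _ => mem_univ _)]
  refine Finset.prod_congr rfl fun i _ => ?_
  rw [← Finset.prod_const]
  refine Finset.prod_congr ?_ ?_
  · ext j; simp
  · intro j hj; rw [(mem_filter.1 hj).2]

lemma rho_congr_wtype [Fintype ι] [CommMonoid R] (r : ι → R) {m n : ℕ} {u : Fin n → ι} {v : Fin m → ι}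
    (h : wtype u = wtype v) : rho r u = rho r v := by
  rw [rho_eq_wtype, rho_eq_wtype, h]

lemma wtype_le {n : ℕ} (u : Fin n → ι) (i : ι) : wtype u i ≤ n := by
  classical
  exact (card_le_univ _).trans (by simp)

lemma sum_wtype [Fintype ι] {n : ℕ} (u : Fin n → ι) : ∑ i, wtype u i = n := by
  classical
  unfold wtype
  have := Finset.card_eq_sum_card_fiberwise (s := (univ : Finset (Fin n))) (t := univ) (f := u)
    (fun _ _ => mem_univ _)
  rw [card_univ, Fintype.card_fin] at this
  exact this.symm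

lemma wtype_append {m n : ℕ} (u : Fin m → ι) (v : Fin n → ι) :
    wtype (Fin.append u v) = wtype u + wtype v := by
  classical
  funext i
  unfold wtype
  simp only [Pi.add_apply, Finset.card_filter, Fin.sum_univ_add, Fin.append_left, Fin.append_right]

open Classical in
lemma wtype_cons {n : ℕ} (a : ι) (u : Fin n → ι) (i : ι) :
    wtype (Fin.cons a u : Fin (n+1) → ι) i = (if a = i then 1 else 0) + wtype u i := by
  unfold wtype
  simp only [Finset.card_filter, Fin.sum_univ_succ, Fin.cons_zero, Fin.cons_succ]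

/-- the number of types of words of length `n` is at most `(n+1)^k` -/
lemma card_wtype_le [Fintype ι] (n : ℕ) :
    (Set.range (wtype : (Fin n → ι) → ι → ℕ)).ncard ≤ (n + 1) ^ Fintype.card ι := by
  classical
  have hsub : Set.range (wtype : (Fin n → ι) → ι → ℕ) ⊆
      ((Fintype.piFinset fun _ : ι => Finset.range (n+1) : Finset (ι → ℕ)) : Set (ι → ℕ)) := by
    rintro _ ⟨u, rfl⟩
    simp only [Finset.mem_coe, Fintype.mem_piFinset, Finset.mem_range]
    exact fun i => Nat.lt_succ_of_le (wtype_le u i)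
  calc (Set.range (wtype : (Fin n → ι) → ι → ℕ)).ncard
      ≤ ((Fintype.piFinset fun _ : ι => Finset.range (n+1) : Finset (ι → ℕ)) : Set (ι → ℕ)).ncard :=
        Set.ncard_le_ncard hsub (Finset.finite_toSet _)
    _ = (n + 1) ^ Fintype.card ι := by
        rw [Set.ncard_coe_finset, Fintype.card_piFinset]
        simp

end Alg

section Real

variable {ι : Type*} [Fintype ι]

/-- the affine map of a word -/
lemma fw_eq (r t : ι → ℝ) {n : ℕ} (u : Fin n → ι) (x : ℝ) :
    fw r t u x = rho r u * x + ∑ i, cw r u i * t i := by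
  classical
  induction n with
  | zero => simp [fw_zero]
  | succ n ih =>
    obtain ⟨a, u, rfl⟩ := exists_cons u
    rw [fw_cons]
    simp only [ih, rho_cons, cw_cons, add_mul, Finset.sum_add_distrib, ite_mul, one_mul, zero_mul,
      Finset.sum_ite_eq, mem_univ, if_true, mul_assoc, ← Finset.mul_sum]
    ring

/-- two words give the same map iff same slope and same translation part -/
lemma affineWordMap_eq_iff (r t : ι → ℝ) {m n : ℕ} (u : Fin m → ι) (v : Fin n → ι) :
    affineWordMap r t (List.ofFn u) = affineWordMap r t (List.ofFn v) ↔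
      rho r u = rho r v ∧ ∑ i, cw r u i * t i = ∑ i, cw r v i * t i := by
  have h := fw_eq_iff r t u v
  unfold fw at h
  rw [h]
  simp only [key, Prod.mk.injEq]
  rw [fw_eq, fw_eq]
  simp [rho_eq_pw]

lemma affineWordMap_eq_of_wtype (r t : ι → ℝ) {m n : ℕ} {u : Fin m → ι} {v : Fin n → ι}
    (h : wtype u = wtype v) (hc : ∑ i, cw r u i * t i = ∑ i, cw r v i * t i) :
    affineWordMap r t (List.ofFn u) = affineWordMap r t (List.ofFn v) :=
  (affineWordMap_eq_iff r t u v).2 ⟨rho_congr_wtype r h, hc⟩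

end Real

section Norm

variable {ι 𝕜 : Type*} [NormedField 𝕜]

lemma norm_rho_le {r : ι → 𝕜} {q : ℝ} (hr : ∀ i, ‖r i‖ ≤ q) {n : ℕ} (u : Fin n → ι) :
    ‖rho r u‖ ≤ q ^ n := by
  unfold rho
  rw [norm_prod]
  calc ∏ j, ‖r (u j)‖ ≤ ∏ _j : Fin n, q :=
        Finset.prod_le_prod (fun _ _ => norm_nonneg _) (fun j _ => hr _)
    _ = q ^ n := by simp

lemma norm_cw_le {r : ι → 𝕜} {q : ℝ} (hr : ∀ i, ‖r i‖ ≤ q) (hq : q < 1) {n : ℕ}
    (u : Fin n → ι) (i : ι) : ‖cw r u i‖ ≤ 1 / (1 - q) := by
  classical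
  have h1 : 0 < 1 - q := by linarith
  induction n with
  | zero =>
    simp only [cw_zero, Pi.zero_apply, norm_zero]
    exact (one_div_pos.2 h1).le
  | succ n ih =>
    obtain ⟨a, u, rfl⟩ := exists_cons u
    have hq0 : 0 ≤ q := (norm_nonneg _).trans (hr a)
    rw [cw_cons]
    have h2 : ‖(if a = i then (1:𝕜) else 0)‖ ≤ 1 := by split_ifs <;> simp
    calc ‖(if a = i then (1:𝕜) else 0) + r a * cw r u i‖
        ≤ 1 + q * (1 / (1 - q)) := by
          refine (norm_add_le _ _).trans (add_le_add h2 ?_)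
          rw [norm_mul]
          exact mul_le_mul (hr a) (ih u) (norm_nonneg _) hq0
      _ = 1 / (1 - q) := by field_simp; ring

end Norm

end Crest.Agent.R98
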