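import Crest.Agent.R98.STC
import Crest.Agent.R98.Test
import Crest.Agent.R98.FC
import Crest.Agent.R98.Top0

/-!
# Row 98: the ST corollary in the shape consumed by TOP (helper587)

Input (from (UNI) for all `J`): along the sequence, the jet functional `(s_j^l τ_j)_{l ≤ J}` is
`‖s_j‖^J`-close to a (complex) combination of jet functionals which are functions of `Y`.
-/

set_option autoImplicit false

open Filter Topology Set Metric Finset MeasureTheory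

namespace Crest.Agent.R98

section Jets

variable {ι : Type*} [Fintype ι]

/-- pairing of a jet functional with the jet of an infinite word -/
noncomputable def jpair (σ ℓ : ι → ℝ) {J : ℕ} (a : Fin (J + 1) × ι → ℝ) (w : ℕ → ι) : ℝ :=
  ∑ x : Fin (J + 1) × ι, a x * jetinf σ ℓ (x.1 : ℕ) w x.2

variable {σ ℓ : ι → ℝ} {ℓ0 : ℝ}

theorem abs_jpair_le (hσ : ∀ i, |σ i| ≤ 1) (hℓ : ∀ i, ℓ0 ≤ ℓ i) (h0 : 0 < ℓ0) {J : ℕ}
    (a : Fin (J + 1) × ι → ℝ) (w : ℕ → ι) :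
    |jpair σ ℓ a w| ≤ ∑ x : Fin (J + 1) × ι, |a x| * (2 ^ (x.1 : ℕ) * jK ℓ0) := by
  unfold jpair
  refine (Finset.abs_sum_le_sum_abs _ _).trans (Finset.sum_le_sum fun x _ => ?_)
  rw [abs_mul]
  exact mul_le_mul_of_nonneg_left (abs_jetinf_le hσ hℓ h0 _ w _) (abs_nonneg _)

theorem measurable_jpair [MeasurableSpace ι] [DiscreteMeasurableSpace ι] (hσ : ∀ i, |σ i| ≤ 1)
    (hℓ : ∀ i, ℓ0 ≤ ℓ i) (h0 : 0 < ℓ0) {J : ℕ} (a : Fin (J + 1) × ι → ℝ) :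
    Measurable (jpair σ ℓ a) := by
  unfold jpair
  exact Finset.measurable_sum _ fun x _ => (measurable_jetinf hσ hℓ h0 _ _).const_mul _

/-- difference between `c_w(s) · t` and a combination of jets -/
theorem norm_cdot_sub_jpair_le (hσ : ∀ i, |σ i| ≤ 1) (hℓ : ∀ i, ℓ0 ≤ ℓ i) (h0 : 0 < ℓ0) {J : ℕ}
    {s : ℂ} (hs : ‖s‖ ≤ 1 / 4) (t : ι → ℂ) {M : ℝ} (ht : ∀ i, ‖t i‖ ≤ M)
    (a b : Fin (J + 1) × ι → ℝ) {δ : ℝ}
    (hab : ∀ x, ‖s ^ (x.1 : ℕ) * t x.2 - (a x + b x * Complex.I)‖ ≤ δ) (w : ℕ → ι) :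
    ‖∑ i, cinf (rayC σ ℓ s) w i * t i - (jpair σ ℓ a w + jpair σ ℓ b w * Complex.I)‖ ≤
      (Fintype.card ι) * ((2 * ‖s‖) ^ (J + 1) * 2 * jK ℓ0 * M) +
        (Fintype.card (Fin (J + 1) × ι)) * (2 ^ J * jK ℓ0 * δ) := by
  have hjK := jK_pos h0
  have hs2 : ‖s‖ < 1 / 2 := lt_of_le_of_lt hs (by norm_num)
  have e1 : ∑ i, cinf (rayC σ ℓ s) w i * t i - (jpair σ ℓ a w + jpair σ ℓ b w * Complex.I) =
      ∑ i, (cinf (rayC σ ℓ s) w i - ∑ l ∈ range (J + 1), s ^ l * (jetinf σ ℓ l w i : ℂ)) * t i +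
      ∑ x : Fin (J + 1) × ι, (s ^ (x.1 : ℕ) * t x.2 - (a x + b x * Complex.I)) *
        (jetinf σ ℓ (x.1 : ℕ) w x.2 : ℂ) := by
    have e2 : ∑ x : Fin (J + 1) × ι, (s ^ (x.1 : ℕ) * t x.2) * (jetinf σ ℓ (x.1 : ℕ) w x.2 : ℂ) =
        ∑ i, (∑ l ∈ range (J + 1), s ^ l * (jetinf σ ℓ l w i : ℂ)) * t i := by
      rw [Fintype.sum_prod_type, Finset.sum_comm]
      refine Finset.sum_congr rfl fun i _ => ?_
      rw [Finset.sum_mul, ← Fin.sum_univ_eq_sum_range (fun l => s ^ l * (jetinf σ ℓ l w i : ℂ) * t i)]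
      refine Finset.sum_congr rfl fun l _ => ?_
      ring
    have e3 : ((jpair σ ℓ a w : ℝ) : ℂ) + (jpair σ ℓ b w : ℝ) * Complex.I =
        ∑ x : Fin (J + 1) × ι, (a x + b x * Complex.I) * (jetinf σ ℓ (x.1 : ℕ) w x.2 : ℂ) := by
      unfold jpair
      push_cast
      rw [Finset.sum_mul, ← Finset.sum_add_distrib]
      refine Finset.sum_congr rfl fun x _ => ?_
      ring
    rw [e3]
    simp only [sub_mul, Finset.sum_sub_distrib, e2]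
    ring
  rw [e1]
  refine (norm_add_le _ _).trans (add_le_add ?_ ?_)
  · refine (norm_sum_le _ _).trans ?_
    have h1 : ∀ i ∈ (Finset.univ : Finset ι),
        ‖(cinf (rayC σ ℓ s) w i - ∑ l ∈ range (J + 1), s ^ l * (jetinf σ ℓ l w i : ℂ)) * t i‖ ≤
          (2 * ‖s‖) ^ (J + 1) * 2 * jK ℓ0 * M := by
      intro i _
      rw [norm_mul]
      have h2 := norm_cinf_sub_jets_le hσ hℓ h0 hs2 (J + 1) w i
      have h3 : (2 * ‖s‖) ^ (J + 1) / (1 - 2 * ‖s‖) ≤ (2 * ‖s‖) ^ (J + 1) * 2 := by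
        rw [div_le_iff₀ (by linarith)]
        have h4 : 0 ≤ (2 * ‖s‖) ^ (J + 1) := by positivity
        nlinarith
      refine mul_le_mul (h2.trans (mul_le_mul_of_nonneg_right h3 hjK.le)) (ht i) (norm_nonneg _) ?_
      positivity
    refine (Finset.sum_le_sum h1).trans ?_
    rw [Finset.sum_const, Finset.card_univ, nsmul_eq_mul]
  · refine (norm_sum_le _ _).trans ?_
    have h1 : ∀ x ∈ (Finset.univ : Finset (Fin (J + 1) × ι)),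
        ‖(s ^ (x.1 : ℕ) * t x.2 - (a x + b x * Complex.I)) * (jetinf σ ℓ (x.1 : ℕ) w x.2 : ℂ)‖ ≤
          2 ^ J * jK ℓ0 * δ := by
      intro x _
      rw [norm_mul, Complex.norm_real, Real.norm_eq_abs, mul_comm]
      have h2 : |jetinf σ ℓ (x.1 : ℕ) w x.2| ≤ 2 ^ J * jK ℓ0 := by
        refine (abs_jetinf_le hσ hℓ h0 _ w _).trans (mul_le_mul_of_nonneg_right ?_ hjK.le)
        exact pow_le_pow_right₀ (by norm_num) (by omega)
      exact mul_le_mul h2 (hab x) (norm_nonneg _) (by positivity)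
    refine (Finset.sum_le_sum h1).trans ?_
    rw [Finset.sum_const, Finset.card_univ, nsmul_eq_mul]

end Jets

section Main

variable {ι : Type*} [Fintype ι] [MeasurableSpace ι] [DiscreteMeasurableSpace ι]

/-- the closeness input delivered by (UNI) -/
def JetClose (p σ ℓ : ι → ℝ) (Y : (ℕ → ι) → ℝ) (sj : ℕ → ℂ) (tj : ℕ → ι → ℂ) : Prop :=
  ∀ J : ℕ, ∀ᶠ j in atTop, ∃ a b : Fin (J + 1) × ι → ℝ, Fac p Y (jpair σ ℓ a) ∧
    Fac p Y (jpair σ ℓ b) ∧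
      ∀ x, ‖sj j ^ (x.1 : ℕ) * tj j x.2 - (a x + b x * Complex.I)‖ ≤ ‖sj j‖ ^ J

variable {p σ ℓ : ι → ℝ} {Y : (ℕ → ι) → ℝ} {ℓ0 : ℝ}

theorem flat_of_jetClose (hp : (∀ i, 0 ≤ p i) ∧ ∑ i, p i = 1) (hσ : ∀ i, |σ i| ≤ 1)
    (hℓ : ∀ i, ℓ0 ≤ ℓ i) (h0 : 0 < ℓ0) (hY : Measurable Y) {sj : ℕ → ℂ}
    (hs0 : Tendsto sj atTop (𝓝 0)) {tj : ℕ → ι → ℂ} {t : ι → ℝ}
    (ht : Tendsto tj atTop (𝓝 fun i => (t i : ℂ))) (h : JetClose p σ ℓ Y sj tj)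
    (g : TestFn ι) (J : ℕ) :
    ∃ C : ℝ, ∀ᶠ j in atTop, ‖∑ i, vT p σ ℓ Y g.1 (sj j) i * tj j i‖ ≤ C * ‖sj j‖ ^ J := by
  obtain ⟨Cg, hCg⟩ := g.2.2
  have hgm := g.2.1
  set A : ℝ := ∫ w, |QQ p Y g.1 w| ∂(PP p) with hA
  have hA0 : 0 ≤ A := integral_nonneg fun w => abs_nonneg _
  have hjK := jK_pos h0
  set M : ℝ := (∑ i, |t i|) + 1 with hM
  have hM0 : 0 ≤ M := by
    have : 0 ≤ ∑ i, |t i| := Finset.sum_nonneg fun i _ => abs_nonneg _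
    linarith
  refine ⟨((Fintype.card ι) * (2 ^ (J + 1) * 2 * jK ℓ0 * M) +
    (Fintype.card (Fin (J + 1) × ι)) * (2 ^ J * jK ℓ0)) * A, ?_⟩
  have hsmall : ∀ᶠ j in atTop, ‖sj j‖ < 1 / 4 := by
    have := hs0.norm
    rw [norm_zero] at this
    exact this.eventually_lt_const (by norm_num)
  have htb : ∀ᶠ j in atTop, ∀ i, ‖tj j i‖ ≤ M := by
    rw [eventually_all]
    intro i
    have h1 : Tendsto (fun j => ‖tj j i‖) atTop (𝓝 ‖(t i : ℂ)‖) := ((tendsto_pi_nhds.mp ht) i).norm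
    have h2 : ‖(t i : ℂ)‖ < M := by
      rw [Complex.norm_real, Real.norm_eq_abs, hM]
      have h3 : |t i| ≤ ∑ i, |t i| :=
        Finset.single_le_sum (f := fun i => |t i|) (fun i _ => abs_nonneg _) (Finset.mem_univ i)
      linarith
    exact (h1.eventually_lt_const h2).mono fun j hj => hj.le
  filter_upwards [h J, hsmall, htb] with j hj hsj htj
  obtain ⟨a, b, ha, hb, hab⟩ := hj
  have hs2 : ‖sj j‖ ≤ 1 / 2 := by linarith
  rw [vT_dot hp hσ hℓ h0 hgm hCg hs2]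
  have hXm : Measurable fun w => ∑ i, cinf (rayC σ ℓ (sj j)) w i * tj j i :=
    Finset.measurable_sum _ fun i _ =>
      (measurable_cinf (norm_rayC_le hσ hℓ h0.le hs2) (exp_half_lt_one h0) i).mul_const _
  set δ : ℝ := (Fintype.card ι) * ((2 * ‖sj j‖) ^ (J + 1) * 2 * jK ℓ0 * M) +
        (Fintype.card (Fin (J + 1) × ι)) * (2 ^ J * jK ℓ0 * ‖sj j‖ ^ J) with hδ
  set K : ℝ := max (∑ x : Fin (J + 1) × ι, |a x| * (2 ^ (x.1 : ℕ) * jK ℓ0))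
    (∑ x : Fin (J + 1) × ι, |b x| * (2 ^ (x.1 : ℕ) * jK ℓ0)) with hK
  have hmain := norm_integral_QQ_le hp hY hgm hCg hXm ha hb (measurable_jpair hσ hℓ h0 a)
    (measurable_jpair hσ hℓ h0 b) (K := K)
    (fun w => (abs_jpair_le hσ hℓ h0 a w).trans (le_max_left _ _))
    (fun w => (abs_jpair_le hσ hℓ h0 b w).trans (le_max_right _ _)) (δ := δ)
    (fun w => norm_cdot_sub_jpair_le hσ hℓ h0 hsj.le (tj j) htj a b hab w)
  refine hmain.trans ?_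
  rw [← hA]
  have hn0 := norm_nonneg (sj j)
  have h3 : (2 * ‖sj j‖) ^ (J + 1) ≤ 2 ^ (J + 1) * ‖sj j‖ ^ J := by
    rw [mul_pow]
    refine mul_le_mul_of_nonneg_left ?_ (by positivity)
    exact pow_le_pow_of_le_one hn0 (by linarith) (Nat.le_succ J)
  have h4 : δ ≤ ((Fintype.card ι) * (2 ^ (J + 1) * 2 * jK ℓ0 * M) +
    (Fintype.card (Fin (J + 1) × ι)) * (2 ^ J * jK ℓ0)) * ‖sj j‖ ^ J := by
    have h5 : (2 * ‖sj j‖) ^ (J + 1) * 2 * jK ℓ0 * M ≤ 2 ^ (J + 1) * ‖sj j‖ ^ J * 2 * jK ℓ0 * M := by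
      gcongr
    have h6 : ((Fintype.card ι : ℕ) : ℝ) * ((2 * ‖sj j‖) ^ (J + 1) * 2 * jK ℓ0 * M) ≤
        (Fintype.card ι) * (2 ^ (J + 1) * ‖sj j‖ ^ J * 2 * jK ℓ0 * M) :=
      mul_le_mul_of_nonneg_left h5 (Nat.cast_nonneg _)
    rw [hδ]
    linarith
  calc δ * A ≤ (((Fintype.card ι) * (2 ^ (J + 1) * 2 * jK ℓ0 * M) +
        (Fintype.card (Fin (J + 1) × ι)) * (2 ^ J * jK ℓ0)) * ‖sj j‖ ^ J) * A :=
        mul_le_mul_of_nonneg_right h4 hA0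
    _ = _ := by ring

/-- ST corollary, word/measure form -/
theorem st_words (hp : (∀ i, 0 ≤ p i) ∧ ∑ i, p i = 1) (hσ : ∀ i, |σ i| ≤ 1)
    (hℓ : ∀ i, ℓ0 ≤ ℓ i) (h0 : 0 < ℓ0) (hY : Measurable Y) {sj : ℕ → ℂ}
    (hs0 : Tendsto sj atTop (𝓝 0)) (hsne : ∃ᶠ j in atTop, sj j ≠ 0) {tj : ℕ → ι → ℂ} {t : ι → ℝ}
    (ht : Tendsto tj atTop (𝓝 fun i => (t i : ℂ))) (h : JetClose p σ ℓ Y sj tj) :
    ∃ Z : Set ℝ, Z.Countable ∧ ∀ s : ℝ, |s| < 1 / 2 → s ∉ Z →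
      ∃ τ : ι → ℝ, Fac p Y (Pi (rayR σ ℓ s) τ) ∧
        ∀ (n : ℕ) (u w : Fin n → ι),
          ∑ i, cw (rayR σ ℓ 0) u i * t i ≠ ∑ i, cw (rayR σ ℓ 0) w i * t i →
          ∑ i, cw (rayR σ ℓ s) u i * τ i ≠ ∑ i, cw (rayR σ ℓ s) w i * τ i := by
  obtain ⟨Z, hZ, hmain⟩ := stc_abstract σ ℓ t (G := TestFn ι) (r0 := 1 / 2) (by norm_num)
    (fun g => vT p σ ℓ Y g.1)
    (fun g i => by
      obtain ⟨C, hC⟩ := g.2.2
      exact analyticOnNhd_vT hp hσ hℓ h0 g.2.1 hC i)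
    (fun g i s hs => by
      rw [vT_ofReal hσ hℓ h0 hs.le i]
      exact Complex.ofReal_im _)
    sj hs0 hsne tj ht (flat_of_jetClose hp hσ hℓ h0 hY hs0 ht h)
  refine ⟨Z, hZ, fun s hs hsZ => ?_⟩
  obtain ⟨τ, hτ1, hτ2⟩ := hmain s hs hsZ
  exact ⟨τ, fac_of_vT hp hσ hℓ h0 hY hs.le hτ1, hτ2⟩

end Main

section Core

open Crest.Agent.R98.Top Crest.Agent.R98.Part Crest.Agent.R098.Upper

variable {ι : Type*} [Fintype ι]

omit [Fintype ι] in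
theorem rr_eq_rayR (σ ℓ : ι → ℝ) (x : ℝ) : rr σ (fun i => (1 + x) * ℓ i) = rayR σ ℓ x := by
  funext i
  unfold rr rayR
  rw [neg_mul]

omit [Fintype ι] in
theorem rr_eq_rayR_zero (σ ℓ : ι → ℝ) : rr σ ℓ = rayR σ ℓ 0 := by
  rw [← rr_eq_rayR]
  congr 1
  funext i
  ring

omit [Fintype ι] in
theorem rayc_eq_rayC (σ ℓ : ι → ℝ) (s : ℂ) : rayc σ ℓ s = rayC σ ℓ s := rfl

/-- no new coincidences: `hX` does not decrease -/
theorem hX_le_of_noNew {r t r' t' p : ι → ℝ} (hp : (∀ i, 0 ≤ p i) ∧ ∑ i, p i = 1)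
    (h : ∀ (n : ℕ) (u w : Fin n → ι), ∑ i, cw r u i * t i ≠ ∑ i, cw r w i * t i →
      ∑ i, cw r' u i * t' i ≠ ∑ i, cw r' w i * t' i) :
    hX p r t ≤ hX p r' t' := by
  unfold hX
  refine le_ciInf fun m => ?_
  have hb : BddBelow (Set.range fun n : ℕ =>
      HS (pw p : (Fin (n + 1) → ι) → ℝ) (Ex r t (n + 1)) / ((n : ℝ) + 1)) := by
    refine ⟨0, ?_⟩
    rintro _ ⟨m, rfl⟩
    exact div_nonneg (HW_nonneg hp _) (by positivity)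
  refine (ciInf_le hb m).trans ?_
  refine div_le_div_of_nonneg_right (HS_anti (fun u => pw_nonneg hp.1 u) ?_) (by positivity)
  intro u w huw
  refine ⟨huw.1, ?_⟩
  have h2 : cdot r' t' u = cdot r' t' w := huw.2
  by_contra hne
  exact h (m + 1) u w hne h2

variable [MeasurableSpace ι] [DiscreteMeasurableSpace ι]

/-- `Fac` gives monotonicity of `α` -/
theorem alpha_le_of_fac {p : ι → ℝ} (hp : (∀ i, 0 ≤ p i) ∧ ∑ i, p i = 1) {Y X : (ℕ → ι) → ℝ}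
    (hY : Measurable Y) (hX : Measurable X) (h : Fac p Y X) : F.alpha p X ≤ F.alpha p Y := by
  obtain ⟨f, hf, e⟩ := h
  exact F.alpha_mono_ae hp hY hX ⟨fun w => f (Y w), hf.comp (comap_measurable Y), e⟩

/-- ST corollary in the shape of `Top.Core.st` -/
theorem st_core {p σ ℓ : ι → ℝ} (hp : (∀ i, 0 ≤ p i) ∧ ∑ i, p i = 1) (hσ : IsS σ)
    (hℓ : ∀ i, 0 < ℓ i) (t : ι → ℝ)
    (hα : F.alpha p (Pi (rr σ ℓ) t) < chi p ℓ) (hh : F.alpha p (Pi (rr σ ℓ) t) < hX p (rr σ ℓ) t)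
    {sj : ℕ → ℂ} (hs0 : Tendsto sj atTop (𝓝 0)) (hsne : ∃ᶠ j in atTop, sj j ≠ 0) {tj : ℕ → ι → ℂ}
    (ht : Tendsto tj atTop (𝓝 fun i => (t i : ℂ)))
    (h : JetClose p σ ℓ (Pi (rr σ ℓ) t) sj tj) :
    ∃ ρ > (0 : ℝ), ∃ Z : Set ℝ, Z.Countable ∧ ∀ x : ℝ, |x| < ρ → x ∉ Z →
      ∃ t' : ι → ℝ, F.alpha p (Pi (rr σ fun i => (1 + x) * ℓ i) t') < chi p (fun i => (1 + x) * ℓ i) ∧
        F.alpha p (Pi (rr σ fun i => (1 + x) * ℓ i) t') < hX p (rr σ fun i => (1 + x) * ℓ i) t' := by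
  have hne : Nonempty ι := by
    by_contra hne
    rw [not_nonempty_iff] at hne
    have := hp.2
    simp at this
  obtain ⟨i0, _, hi0⟩ := Finset.exists_min_image Finset.univ ℓ Finset.univ_nonempty
  have hℓ' : ∀ i, ℓ i0 ≤ ℓ i := fun i => hi0 i (Finset.mem_univ i)
  have hσ' : ∀ i, |σ i| ≤ 1 := fun i => by
    rcases hσ i with h1 | h1 <;> simp [h1]
  have hr0 : ∀ i, |rayR σ ℓ 0 i| ≤ Real.exp (-ℓ i0 / 2) :=
    abs_rayR_le hσ' hℓ' (hℓ i0).le (by norm_num)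
  have hY : Measurable (Pi (rr σ ℓ) t) := by
    rw [rr_eq_rayR_zero]
    exact measurable_Pi hr0 (exp_half_lt_one (hℓ i0)) t
  obtain ⟨Z, hZ, hmain⟩ := st_words hp hσ' hℓ' (hℓ i0) hY hs0 hsne ht h
  -- the exponent
  have hchi : ∀ x : ℝ, chi p (fun i => (1 + x) * ℓ i) = (1 + x) * chi p ℓ := by
    intro x
    unfold chi
    rw [Finset.mul_sum]
    exact Finset.sum_congr rfl fun i _ => by ring
  have hchi0 : 0 < chi p ℓ := by
    unfold chi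
    have h1 : ∃ i, 0 < p i := by
      by_contra hcon
      push Not at hcon
      have : ∑ i, p i ≤ 0 := Finset.sum_nonpos fun i _ => hcon i
      linarith [hp.2]
    obtain ⟨i1, hi1⟩ := h1
    exact Finset.sum_pos' (fun i _ => mul_nonneg (hp.1 i) (hℓ i).le)
      ⟨i1, Finset.mem_univ _, mul_pos hi1 (hℓ i1)⟩
  set α : ℝ := F.alpha p (Pi (rr σ ℓ) t) with hαdef
  refine ⟨min (1 / 2) ((chi p ℓ - α) / chi p ℓ), lt_min (by norm_num) (div_pos (by linarith) hchi0),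
    Z, hZ, fun x hx hxZ => ?_⟩
  have hx1 : |x| < 1 / 2 := lt_of_lt_of_le hx (min_le_left _ _)
  have hx2 : |x| < (chi p ℓ - α) / chi p ℓ := lt_of_lt_of_le hx (min_le_right _ _)
  obtain ⟨τ, hτ1, hτ2⟩ := hmain x hx1 hxZ
  have hrx : ∀ i, |rayR σ ℓ x i| ≤ Real.exp (-ℓ i0 / 2) :=
    abs_rayR_le hσ' hℓ' (hℓ i0).le hx1.le
  have hXm : Measurable (Pi (rayR σ ℓ x) τ) := measurable_Pi hrx (exp_half_lt_one (hℓ i0)) τ
  have hle : F.alpha p (Pi (rayR σ ℓ x) τ) ≤ α := alpha_le_of_fac hp hY hXm hτ1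
  refine ⟨τ, ?_, ?_⟩
  · rw [rr_eq_rayR, hchi]
    refine lt_of_le_of_lt hle ?_
    rw [lt_div_iff₀ hchi0] at hx2
    have h3 : -x ≤ |x| := neg_le_abs x
    have h4 : -x * chi p ℓ ≤ |x| * chi p ℓ := mul_le_mul_of_nonneg_right h3 hchi0.le
    linarith
  · rw [rr_eq_rayR]
    refine lt_of_le_of_lt hle (hh.trans_le ?_)
    refine hX_le_of_noNew hp ?_
    intro n u w hne'
    apply hτ2 n u w
    rw [← rr_eq_rayR_zero]
    exact hne'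

end Core

end Crest.Agent.R98
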