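import Crest.Agent.R98.TopOne
import Crest.Agent.R98.STCore

/-!
Row 98 (S0129). Instance of `Top.Core`: `α` and `W` (helper803).
-/

set_option autoImplicit false

namespace Crest.Agent.R98.Top

open Crest.AnalysisR Crest.Agent.R98 Crest.Agent.R98.Part Crest.Agent.R098.Upper Filter Topology
  MeasureTheory

variable {ι : Type*} [Fintype ι]

lemma Pi_add (r t t' : ι → ℝ) (w : ℕ → ι) : Pi r (t + t') w = Pi r t w + Pi r t' w := by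
  unfold Pi
  rw [← Finset.sum_add_distrib]
  exact Finset.sum_congr rfl fun i _ => by simp [mul_add]

lemma Pi_smul (r : ι → ℝ) (c : ℝ) (t : ι → ℝ) (w : ℕ → ι) : Pi r (c • t) w = c * Pi r t w := by
  unfold Pi
  rw [Finset.mul_sum]
  exact Finset.sum_congr rfl fun i _ => by simp; ring

lemma Pi_zero (r : ι → ℝ) (w : ℕ → ι) : Pi r 0 w = 0 := by
  unfold Pi
  simp

variable [MeasurableSpace ι]

/-- the measurability space -/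
def WS (p σ ℓ t : ι → ℝ) : Submodule ℝ (ι → ℝ) where
  carrier := {t' | Fac p (Pi (rr σ ℓ) t) (Pi (rr σ ℓ) t')}
  add_mem' := by
    intro a b ha hb
    have h := Fac.add ha hb
    have e : (Pi (rr σ ℓ) (a + b)) = fun w => Pi (rr σ ℓ) a w + Pi (rr σ ℓ) b w :=
      funext fun w => Pi_add _ _ _ w
    show Fac _ _ _
    rw [e]
    exact h
  zero_mem' := by
    have h := Fac.const p (Pi (rr σ ℓ) t) 0
    have e : (Pi (rr σ ℓ) (0 : ι → ℝ)) = fun _ => (0 : ℝ) := funext fun w => Pi_zero _ w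
    show Fac _ _ _
    rw [e]
    exact h
  smul_mem' := by
    intro c a ha
    have h := Fac.const_mul ha c
    have e : (Pi (rr σ ℓ) (c • a)) = fun w => c * Pi (rr σ ℓ) a w :=
      funext fun w => Pi_smul _ _ _ w
    show Fac _ _ _
    rw [e]
    exact h

lemma mem_WS {p σ ℓ t t' : ι → ℝ} :
    t' ∈ WS p σ ℓ t ↔ Fac p (Pi (rr σ ℓ) t) (Pi (rr σ ℓ) t') := Iff.rfl

/-- `α = I(w_1; Π)` -/
noncomputable def al (p σ ℓ t : ι → ℝ) : ℝ := F.alpha p (Pi (rr σ ℓ) t)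

lemma measurable_Pi_rr [DiscreteMeasurableSpace ι] {σ ℓ : ι → ℝ} (hσ : IsS σ) (hℓ : ∀ i, 0 < ℓ i)
    (t : ι → ℝ) : Measurable (Pi (rr σ ℓ) t) := by
  obtain ⟨q, hq0, hq1, hq⟩ := exists_q ℓ hℓ
  exact measurable_Pi (norm_rr_le hσ hℓ hq) hq1 t

/-- LT in the shape of `Core.lt` -/
def LTP (p σ : ι → ℝ) : Prop :=
  ∀ ℓ t, (∀ i, 0 < ℓ i) → al p σ ℓ t < chi p ℓ →
    ∀ (m : ℕ → ℕ) (s : ℕ → ℂ) (τ : ℕ → ι → ℂ) (η ε : ℕ → ℝ) (A : ∀ j, Setoid (Fin (m j) → ι)),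
      Dat p σ ℓ t (al p σ ℓ t) m s τ η ε A →
      ∀ᶠ j in atTop, ∃ w : ι → ℂ, InC (WS p σ ℓ t) w ∧ ∀ i, ‖τ j i - w i‖ ≤ √(max ‖s j‖ (η j))

/-- the ST corollary in the shape of `Core.st` -/
def STP (p σ : ι → ℝ) : Prop :=
  ∀ ℓ t, (∀ i, 0 < ℓ i) → al p σ ℓ t < chi p ℓ → al p σ ℓ t < hX p (rr σ ℓ) t →
    ∀ (m : ℕ → ℕ) (s : ℕ → ℂ) (τ : ℕ → ι → ℂ) (η ε : ℕ → ℝ) (A : ∀ j, Setoid (Fin (m j) → ι)),
      Dat p σ ℓ t (al p σ ℓ t) m s τ η ε A → (∀ j, s j ≠ 0) →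
      (∀ J : ℕ, ∀ᶠ j in atTop, η j ≤ ‖s j‖ ^ J) →
      ∃ ρ > (0 : ℝ), ∃ Z : Set ℝ, Z.Countable ∧ ∀ x : ℝ, |x| < ρ → x ∉ Z →
        ∃ t' : ι → ℝ, al p σ (fun i => (1 + x) * ℓ i) t' < chi p (fun i => (1 + x) * ℓ i) ∧
          al p σ (fun i => (1 + x) * ℓ i) t' < hX p (rr σ fun i => (1 + x) * ℓ i) t'

/-- the instance of `Core` -/
noncomputable def mkCore [DiscreteMeasurableSpace ι] {p σ : ι → ℝ}
    (hp : (∀ i, 0 ≤ p i) ∧ ∑ i, p i = 1) (hσ : IsS σ) (hlt : LTP p σ) (hst : STP p σ) :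
    Core p σ where
  α := al p σ
  W := WS p σ
  self_mem := fun ℓ t _ => Fac.self p _
  W_le := fun ℓ t t' _ h t'' h'' => Fac.trans (mem_WS.mp h'') (mem_WS.mp h)
  α_le := fun ℓ t t' hℓ h =>
    alpha_le_of_fac hp (measurable_Pi_rr hσ hℓ t) (measurable_Pi_rr hσ hℓ t') (mem_WS.mp h)
  lt := hlt
  st := hst

end Crest.Agent.R98.Top
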