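import Crest.Agent.R98.UniA
import Crest.Agent.R98.Word5

/-!
Row 98, module UNI (helper549): jets as a process.
-/

set_option autoImplicit false

namespace Crest.Agent.R98

open Finset MeasureTheory Filter Crest.AnalysisR Crest.Agent.R98.Part
open scoped Topology

section ExpN

variable {E : Type*} [NormedAddCommGroup E] [NormedSpace ℝ E] [CompleteSpace E]

lemma exp_real_smul_id (c : ℝ) :
    NormedSpace.exp (c • ContinuousLinearMap.id ℝ E) =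
      Real.exp c • ContinuousLinearMap.id ℝ E := by
  have h1 := NormedSpace.exp_series_hasSum_exp' (𝕂 := ℝ) (c • ContinuousLinearMap.id ℝ E)
  have h2 := NormedSpace.exp_series_hasSum_exp' (𝕂 := ℝ) c
  have h3 : HasSum (fun n : ℕ => (((n.factorial : ℝ)⁻¹) • c ^ n) • ContinuousLinearMap.id ℝ E)
      (NormedSpace.exp c • ContinuousLinearMap.id ℝ E) := by
    have := h2.mapL ((ContinuousLinearMap.lsmul ℝ ℝ (E := E →L[ℝ] E)).flip
      (ContinuousLinearMap.id ℝ E))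
    exact this
  have this : ∀ n : ℕ, (c • ContinuousLinearMap.id ℝ E) ^ n = c ^ n • ContinuousLinearMap.id ℝ E := by
    intro n
    induction n with
    | zero => ext x; simp
    | succ n ih =>
      rw [pow_succ, ih]
      refine ContinuousLinearMap.ext fun x => ?_
      simp [pow_succ, smul_smul, mul_comm]
  have e : (fun n : ℕ => ((n.factorial : ℝ)⁻¹) • (c • ContinuousLinearMap.id ℝ E) ^ n) =
      fun n : ℕ => (((n.factorial : ℝ)⁻¹) • c ^ n) • ContinuousLinearMap.id ℝ E := by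
    funext n
    rw [this, smul_assoc]
  rw [e] at h1
  rw [Real.exp_eq_exp_ℝ]
  exact h1.unique h3

lemma exp_id_add (c : ℝ) (N : E →L[ℝ] E) :
    NormedSpace.exp (c • (ContinuousLinearMap.id ℝ E + N)) =
      Real.exp c • NormedSpace.exp (c • N) := by
  have hc : Commute (c • ContinuousLinearMap.id ℝ E) (c • N) := by
    refine ContinuousLinearMap.ext fun x => ?_
    simp
  letI : NormedAlgebra ℚ (E →L[ℝ] E) := NormedAlgebra.restrictScalars ℚ ℝ _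
  rw [smul_add, NormedSpace.exp_add_of_commute hc, exp_real_smul_id]
  refine ContinuousLinearMap.ext fun x => ?_
  simp

end ExpN

lemma clm_smul_pow {E : Type*} [NormedAddCommGroup E] [NormedSpace ℝ E] (c : ℝ) (N : E →L[ℝ] E)
    (k : ℕ) : (c • N) ^ k = c ^ k • N ^ k := by
  induction k with
  | zero => ext x; simp
  | succ n ih =>
    rw [pow_succ, ih]
    refine ContinuousLinearMap.ext fun x => ?_
    simp [pow_succ, smul_smul, mul_comm]

section Jets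

variable {ι : Type*} [Fintype ι]

lemma shJ_pow_apply (J k : ℕ) (v : EJ ι J) (x : Fin (J + 1) × ι) :
    ((shJ J) ^ k) v x = if h : k ≤ (x.1 : ℕ) then v (⟨(x.1 : ℕ) - k, by omega⟩, x.2) else 0 := by
  induction k generalizing x with
  | zero => simp
  | succ k ih =>
    rw [pow_succ', ContinuousLinearMap.mul_apply, shJ_apply]
    by_cases h0 : (x.1 : ℕ) = 0
    · rw [dif_pos h0, dif_neg (by omega)]
    · rw [dif_neg h0, ih]
      by_cases h1 : k + 1 ≤ (x.1 : ℕ)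
      · have h2 : k ≤ (x.1 : ℕ) - 1 := by omega
        rw [dif_pos h1, dif_pos (show k ≤ (x.1 : ℕ) - 1 from h2)]
        have e : (⟨(x.1 : ℕ) - 1 - k, by omega⟩ : Fin (J + 1)) = ⟨(x.1 : ℕ) - (k + 1), by omega⟩ :=
          Fin.ext (by show (x.1 : ℕ) - 1 - k = (x.1 : ℕ) - (k + 1); omega)
        exact congrArg (fun y => v (y, x.2)) e
      · have h2 : ¬ k ≤ (x.1 : ℕ) - 1 := by omega
        rw [dif_neg h1, dif_neg (show ¬ k ≤ (x.1 : ℕ) - 1 from h2)]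

lemma exp_shJ_apply (J : ℕ) (c : ℝ) (v : EJ ι J) (x : Fin (J + 1) × ι) :
    NormedSpace.exp (c • shJ J) v x =
      ∑ k ∈ range ((x.1 : ℕ) + 1), c ^ k / (k.factorial : ℝ) * ((shJ J) ^ k) v x := by
  have h1 := NormedSpace.exp_series_hasSum_exp' (𝕂 := ℝ) (c • (shJ J : EJ ι J →L[ℝ] EJ ι J))
  have h2 : HasSum (fun n : ℕ => (((n.factorial : ℝ)⁻¹) • (c • (shJ J : EJ ι J →L[ℝ] EJ ι J)) ^ n) v x)
      (NormedSpace.exp (c • shJ J) v x) := by
    have := h1.mapL (ContinuousLinearMap.apply ℝ (EJ ι J) v)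
    have := this.mapL (EuclideanSpace.proj (𝕜 := ℝ) x)
    exact this
  refine h2.unique ?_
  have h3 : (fun n : ℕ => (((n.factorial : ℝ)⁻¹) • (c • (shJ J : EJ ι J →L[ℝ] EJ ι J)) ^ n) v x) =
      fun k : ℕ => c ^ k / (k.factorial : ℝ) * ((shJ J) ^ k) v x := by
    funext k
    rw [clm_smul_pow]
    simp only [smul_apply, PiLp.smul_apply, smul_eq_mul]
    ring
  rw [h3]
  refine hasSum_sum_of_ne_finset_zero fun k hk => ?_
  rw [shJ_pow_apply, dif_neg, mul_zero]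
  simp only [mem_range] at hk
  omega

/-- action of the letter map of the jet process -/
lemma GJ_apply (σ ℓ : ι → ℝ) (J : ℕ) (a : ι) (v : EJ ι J) (x : Fin (J + 1) × ι) :
    GJ σ ℓ J a v x = ∑ k ∈ range ((x.1 : ℕ) + 1),
      σ a * Real.exp (-ℓ a) * (-ℓ a) ^ k / (k.factorial : ℝ) * ((shJ J) ^ k) v x := by
  unfold GJ gen
  rw [exp_id_add]
  simp only [smul_apply, PiLp.smul_apply, smul_eq_mul]
  rw [exp_shJ_apply, Finset.mul_sum, Finset.mul_sum]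
  exact Finset.sum_congr rfl fun k _ => by ring

/-- jet of a finite word: Taylor coefficients at `s = 0` of `s ↦ cw (ray s) u` -/
noncomputable def jf (σ ℓ : ι → ℝ) (J : ℕ) {n : ℕ} (u : Fin n → ι) : EJ ι J :=
  WithLp.toLp 2 fun x : Fin (J + 1) × ι => jetw σ ℓ x.1 u x.2

/-- jet of an infinite word -/
noncomputable def ji (σ ℓ : ι → ℝ) (J : ℕ) (w : ℕ → ι) : EJ ι J :=
  WithLp.toLp 2 fun x : Fin (J + 1) × ι => jetinf σ ℓ x.1 w x.2

lemma jf_apply (σ ℓ : ι → ℝ) (J : ℕ) {n : ℕ} (u : Fin n → ι) (x : Fin (J + 1) × ι) :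
    jf σ ℓ J u x = jetw σ ℓ x.1 u x.2 := rfl

lemma ji_apply (σ ℓ : ι → ℝ) (J : ℕ) (w : ℕ → ι) (x : Fin (J + 1) × ι) :
    ji σ ℓ J w x = jetinf σ ℓ x.1 w x.2 := rfl

lemma sum_antidiag_shJ (J : ℕ) (f : ℕ → ℝ) (g : ℕ → ι → ℝ) (x : Fin (J + 1) × ι) :
    ∑ k ∈ range ((x.1 : ℕ) + 1), f k *
      ((shJ J) ^ k) (WithLp.toLp 2 fun y : Fin (J + 1) × ι => g y.1 y.2 : EJ ι J) x =
      ∑ y ∈ antidiagonal (x.1 : ℕ), f y.1 * g y.2 x.2 := by
  rw [Finset.Nat.sum_antidiagonal_eq_sum_range_succ (fun a b => f a * g b x.2)]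
  refine Finset.sum_congr rfl fun k hk => ?_
  rw [shJ_pow_apply, dif_pos (by simpa [Nat.lt_succ_iff] using hk)]

lemma jetw_cons [DecidableEq ι] (σ ℓ : ι → ℝ) (l : ℕ) {n : ℕ} (a : ι) (u : Fin n → ι) (i : ι) :
    jetw σ ℓ l (Fin.cons a u : Fin (n + 1) → ι) i = (if l = 0 ∧ a = i then 1 else 0) +
      ∑ x ∈ antidiagonal l, (σ a * Real.exp (-ℓ a) * (-ℓ a) ^ x.1 / (x.1.factorial : ℝ)) *
        jetw σ ℓ x.2 u i := by
  unfold jetw
  rw [cw_cons, map_add, PowerSeries.coeff_mul]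
  congr 1
  · by_cases h : a = i
    · subst h
      simp [PowerSeries.coeff_one]
    · simp [h]
  · refine Finset.sum_congr rfl fun x _ => ?_
    congr 1
    unfold rayPS
    rw [PowerSeries.coeff_C_mul, PowerSeries.coeff_rescale, PowerSeries.coeff_exp]
    simp
    ring

lemma jf_cons (σ ℓ : ι → ℝ) (J : ℕ) {n : ℕ} (a : ι) (u : Fin n → ι) :
    jf σ ℓ J (Fin.cons a u : Fin (n + 1) → ι) = bJ J a + GJ σ ℓ J a (jf σ ℓ J u) := by
  classical
  ext x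
  rw [jf_apply, jetw_cons, PiLp.add_apply, GJ_apply]
  congr 1
  · unfold bJ
    rw [PiLp.single_apply]
    obtain ⟨l, i⟩ := x
    by_cases h : (l : ℕ) = 0 ∧ a = i
    · rw [if_pos h, if_pos]
      refine Prod.ext ?_ h.2.symm
      exact Fin.ext (by simpa using h.1)
    · rw [if_neg h, if_neg]
      intro h'
      apply h
      rw [Prod.mk.injEq] at h'
      exact ⟨by simp [h'.1], h'.2.symm⟩
  · exact (sum_antidiag_shJ J (fun k => σ a * Real.exp (-ℓ a) * (-ℓ a) ^ k / (k.factorial : ℝ))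
      (fun l i => jetw σ ℓ l u i) x).symm

lemma jf_eq_pfin (σ ℓ : ι → ℝ) (J : ℕ) {n : ℕ} (u : Fin n → ι) :
    jf σ ℓ J u = pfin (GJ σ ℓ J) (bJ J) u := by
  induction n with
  | zero =>
    ext x
    simp [jf_apply]
  | succ n ih =>
    obtain ⟨a, u, rfl⟩ := exists_cons u
    rw [pfin_cons, jf_cons, ih]

variable [MeasurableSpace ι] [DiscreteMeasurableSpace ι]

lemma ji_scons {σ ℓ : ι → ℝ} (hσ : ∀ i, |σ i| ≤ 1) {ℓ0 : ℝ} (hℓ : ∀ i, ℓ0 ≤ ℓ i) (h0 : 0 < ℓ0)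
    (J : ℕ) (a : ι) (w : ℕ → ι) :
    ji σ ℓ J (scons a w) = bJ J a + GJ σ ℓ J a (ji σ ℓ J w) := by
  have h1 : ∀ w : ℕ → ι, Tendsto (fun n => jf σ ℓ J (pre n w)) atTop (𝓝 (ji σ ℓ J w)) := by
    intro w
    have : Tendsto (fun n => fun x : Fin (J + 1) × ι => jetw σ ℓ x.1 (pre n w) x.2) atTop
        (𝓝 (fun x : Fin (J + 1) × ι => jetinf σ ℓ x.1 w x.2)) :=
      tendsto_pi_nhds.2 fun x => tendsto_jetw hσ hℓ h0 x.1 w x.2
    exact ((PiLp.continuous_toLp 2 (fun _ : Fin (J + 1) × ι => ℝ)).tendsto _).comp this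
  have h2 := (h1 (scons a w)).comp (tendsto_add_atTop_nat 1)
  have h3 : Tendsto (fun n => bJ J a + GJ σ ℓ J a (jf σ ℓ J (pre n w))) atTop
      (𝓝 (bJ J a + GJ σ ℓ J a (ji σ ℓ J w))) :=
    (((GJ σ ℓ J a).continuous.tendsto _).comp (h1 w)).const_add _
  refine tendsto_nhds_unique h2 (h3.congr fun n => ?_)
  simp only [Function.comp]
  rw [pre_succ_scons, jf_cons]

lemma isProc_ji {σ ℓ : ι → ℝ} (hσ : ∀ i, |σ i| ≤ 1) {ℓ0 : ℝ} (hℓ : ∀ i, ℓ0 ≤ ℓ i) (h0 : 0 < ℓ0)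
    (J : ℕ) : IsProc (GJ σ ℓ J) (bJ J) (ji σ ℓ J : (ℕ → ι) → EJ ι J) := by
  refine ⟨fun a w => ji_scons hσ hℓ h0 J a w, ?_, fun φ => ?_⟩
  · refine ⟨√(∑ x : Fin (J + 1) × ι, (2 ^ (x.1 : ℕ) * jK ℓ0) ^ 2), fun w => ?_⟩
    rw [EuclideanSpace.norm_eq]
    refine Real.sqrt_le_sqrt (Finset.sum_le_sum fun x _ => ?_)
    rw [Real.norm_eq_abs]
    exact pow_le_pow_left₀ (abs_nonneg _) (abs_jetinf_le hσ hℓ h0 _ _ _) 2
  · have h : Measurable fun w : ℕ → ι => (ji σ ℓ J w : EJ ι J) := by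
      have : Measurable fun w : ℕ → ι => fun x : Fin (J + 1) × ι => jetinf σ ℓ x.1 w x.2 :=
        measurable_pi_lambda _ fun x => measurable_jetinf hσ hℓ h0 _ _
      exact (PiLp.continuous_toLp 2 (fun _ : Fin (J + 1) × ι => ℝ)).measurable.comp this
    exact φ.continuous.measurable.comp h

omit [MeasurableSpace ι] [DiscreteMeasurableSpace ι] in
lemma norm_jf_le {σ ℓ : ι → ℝ} (hσ : ∀ i, |σ i| ≤ 1) {ℓ0 : ℝ} (hℓ : ∀ i, ℓ0 ≤ ℓ i) (h0 : 0 < ℓ0)
    (J : ℕ) {n : ℕ} (u : Fin n → ι) :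
    ‖jf σ ℓ J u‖ ≤ √(∑ x : Fin (J + 1) × ι, (2 ^ (x.1 : ℕ) * jK ℓ0) ^ 2) := by
  rw [EuclideanSpace.norm_eq]
  refine Real.sqrt_le_sqrt (Finset.sum_le_sum fun x _ => ?_)
  rw [Real.norm_eq_abs]
  exact pow_le_pow_left₀ (abs_nonneg _) (abs_jetw_le hσ hℓ h0 _ _ _) 2

end Jets

section AJ

variable {ι : Type*} [Fintype ι]

/-- the functional `v ↦ ∑ s^l t'_i v_{l,i}` -/
noncomputable def AJ (J : ℕ) (s : ℂ) (t' : ι → ℂ) : EJ ι J →L[ℝ] ℂ :=
  ∑ x : Fin (J + 1) × ι, (s ^ (x.1 : ℕ) * t' x.2) •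
    (Complex.ofRealCLM.comp (EuclideanSpace.proj (𝕜 := ℝ) x))

lemma AJ_apply (J : ℕ) (s : ℂ) (t' : ι → ℂ) (v : EJ ι J) :
    AJ J s t' v = ∑ x : Fin (J + 1) × ι, s ^ (x.1 : ℕ) * t' x.2 * (v x : ℂ) := by
  unfold AJ
  simp

/-- Taylor expansion of the value functional, finite words -/
lemma norm_val_sub_AJ_le {σ ℓ : ι → ℝ} (hσ : ∀ i, |σ i| ≤ 1) {ℓ0 : ℝ} (hℓ : ∀ i, ℓ0 ≤ ℓ i)
    (h0 : 0 < ℓ0) {s : ℂ} (hs : ‖s‖ ≤ 1 / 4) (J : ℕ) (t' : ι → ℂ) {n : ℕ} (u : Fin n → ι) :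
    ‖∑ i, cw (rayC σ ℓ s) u i * t' i - AJ J s t' (jf σ ℓ J u)‖ ≤
      2 * (2 * ‖s‖) ^ (J + 1) * jK ℓ0 * ∑ i, ‖t' i‖ := by
  have e : ∑ i, cw (rayC σ ℓ s) u i * t' i - AJ J s t' (jf σ ℓ J u) =
      ∑ i, (cw (rayC σ ℓ s) u i - ∑ l ∈ range (J + 1), s ^ l * (jetw σ ℓ l u i : ℂ)) * t' i := by
    rw [AJ_apply, Fintype.sum_prod_type_right]
    rw [← Finset.sum_sub_distrib]
    refine Finset.sum_congr rfl fun i _ => ?_
    rw [sub_mul, Finset.sum_mul, ← Fin.sum_univ_eq_sum_range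
      (fun l => s ^ l * (jetw σ ℓ l u i : ℂ) * t' i)]
    congr 1
    refine Finset.sum_congr rfl fun l _ => ?_
    rw [jf_apply]
    ring
  rw [e, Finset.mul_sum]
  refine (norm_sum_le _ _).trans (Finset.sum_le_sum fun i _ => ?_)
  rw [norm_mul]
  refine mul_le_mul_of_nonneg_right ?_ (norm_nonneg _)
  refine (norm_cw_sub_jets_le hσ hℓ h0 (by linarith) (J + 1) u i).trans ?_
  refine mul_le_mul_of_nonneg_right ?_ (jK_pos h0).le
  have hs0 := norm_nonneg s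
  rw [div_le_iff₀ (by linarith)]
  have : 0 ≤ (2 * ‖s‖) ^ (J + 1) := by positivity
  nlinarith

/-- Taylor expansion of the value functional, infinite words -/
lemma norm_vali_sub_AJ_le {σ ℓ : ι → ℝ} (hσ : ∀ i, |σ i| ≤ 1) {ℓ0 : ℝ} (hℓ : ∀ i, ℓ0 ≤ ℓ i)
    (h0 : 0 < ℓ0) {s : ℂ} (hs : ‖s‖ ≤ 1 / 4) (J : ℕ) (t' : ι → ℂ) (w : ℕ → ι) :
    ‖∑ i, cinf (rayC σ ℓ s) w i * t' i - AJ J s t' (ji σ ℓ J w)‖ ≤
      2 * (2 * ‖s‖) ^ (J + 1) * jK ℓ0 * ∑ i, ‖t' i‖ := by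
  have e : ∑ i, cinf (rayC σ ℓ s) w i * t' i - AJ J s t' (ji σ ℓ J w) =
      ∑ i, (cinf (rayC σ ℓ s) w i - ∑ l ∈ range (J + 1), s ^ l * (jetinf σ ℓ l w i : ℂ)) * t' i := by
    rw [AJ_apply, Fintype.sum_prod_type_right]
    rw [← Finset.sum_sub_distrib]
    refine Finset.sum_congr rfl fun i _ => ?_
    rw [sub_mul, Finset.sum_mul, ← Fin.sum_univ_eq_sum_range
      (fun l => s ^ l * (jetinf σ ℓ l w i : ℂ) * t' i)]
    congr 1
    refine Finset.sum_congr rfl fun l _ => ?_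
    rw [ji_apply]
    ring
  rw [e, Finset.mul_sum]
  refine (norm_sum_le _ _).trans (Finset.sum_le_sum fun i _ => ?_)
  rw [norm_mul]
  refine mul_le_mul_of_nonneg_right ?_ (norm_nonneg _)
  refine (norm_cinf_sub_jets_le hσ hℓ h0 (by linarith) (J + 1) w i).trans ?_
  refine mul_le_mul_of_nonneg_right ?_ (jK_pos h0).le
  have hs0 := norm_nonneg s
  rw [div_le_iff₀ (by linarith)]
  have : 0 ≤ (2 * ‖s‖) ^ (J + 1) := by positivity
  nlinarith

lemma norm_AJ_le (J : ℕ) {s : ℂ} (hs : ‖s‖ ≤ 1) (t' : ι → ℂ) :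
    ‖AJ J s t'‖ ≤ (J + 1) * ∑ i, ‖t' i‖ := by
  refine ContinuousLinearMap.opNorm_le_bound _ (by positivity) fun v => ?_
  rw [AJ_apply]
  refine (norm_sum_le _ _).trans ?_
  rw [Fintype.sum_prod_type, Finset.mul_sum, Finset.sum_mul]
  calc ∑ l : Fin (J + 1), ∑ i, ‖s ^ (l : ℕ) * t' i * (v (l, i) : ℂ)‖
      ≤ ∑ _l : Fin (J + 1), ∑ i, ‖t' i‖ * ‖v‖ := by
        refine Finset.sum_le_sum fun l _ => Finset.sum_le_sum fun i _ => ?_
        rw [norm_mul, norm_mul, norm_pow, Complex.norm_real]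
        have h1 : ‖s‖ ^ (l : ℕ) ≤ 1 := pow_le_one₀ (norm_nonneg _) hs
        have h2 : ‖v (l, i)‖ ≤ ‖v‖ := PiLp.norm_apply_le v (l, i)
        calc ‖s‖ ^ (l : ℕ) * ‖t' i‖ * ‖v (l, i)‖ ≤ 1 * ‖t' i‖ * ‖v‖ := by gcongr
          _ = _ := by ring
    _ = ∑ i, (J + 1) * ‖t' i‖ * ‖v‖ := by
        rw [Finset.sum_const, Finset.card_univ, Fintype.card_fin, nsmul_eq_mul, Finset.mul_sum]
        refine Finset.sum_congr rfl fun i _ => ?_
        push_cast; ring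

/-- `A_z ∘ N = s A_z - O(s^{J+1})` -/
lemma norm_AJ_comp_shJ_le (J : ℕ) {s : ℂ} (hs : ‖s‖ ≤ 1) (t' : ι → ℂ) :
    ‖(AJ J s t').comp (shJ J) - s • AJ J s t'‖ ≤ ‖s‖ ^ (J + 1) * ∑ i, ‖t' i‖ := by
  refine ContinuousLinearMap.opNorm_le_bound _ (by positivity) fun v => ?_
  have e : ((AJ J s t').comp (shJ J) - s • AJ J s t') v =
      - ∑ i, s ^ (J + 1) * t' i * (v (Fin.last J, i) : ℂ) := by
    simp only [sub_apply, ContinuousLinearMap.comp_apply,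
      smul_apply, smul_eq_mul]
    rw [AJ_apply, AJ_apply, Fintype.sum_prod_type_right, Fintype.sum_prod_type_right,
      Finset.mul_sum, ← Finset.sum_sub_distrib, ← Finset.sum_neg_distrib]
    refine Finset.sum_congr rfl fun i _ => ?_
    rw [Finset.mul_sum, Fin.sum_univ_succ, Fin.sum_univ_castSucc (f := fun l : Fin (J + 1) =>
      s * (s ^ (l : ℕ) * t' i * (v (l, i) : ℂ)))]
    have h0 : (shJ J v) ((0 : Fin (J + 1)), i) = 0 := by
      rw [shJ_apply]; simp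
    have h1 : ∀ l : Fin J, (shJ J v) (l.succ, i) = v (l.castSucc, i) := by
      intro l
      rw [shJ_apply, dif_neg (by simp)]
      congr 2
    simp only [h0, h1, Complex.ofReal_zero, mul_zero, zero_add, Fin.val_succ, Fin.val_castSucc,
      Fin.val_last]
    have : ∑ x : Fin J, s ^ ((x : ℕ) + 1) * t' i * (v (x.castSucc, i) : ℂ) =
        ∑ x : Fin J, s * (s ^ (x : ℕ) * t' i * (v (x.castSucc, i) : ℂ)) :=
      Finset.sum_congr rfl fun x _ => by ring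
    rw [this]
    ring
  rw [e, norm_neg]
  refine (norm_sum_le _ _).trans ?_
  rw [Finset.mul_sum, Finset.sum_mul]
  refine Finset.sum_le_sum fun i _ => ?_
  rw [norm_mul, norm_mul, norm_pow, Complex.norm_real]
  have h2 : ‖v (Fin.last J, i)‖ ≤ ‖v‖ := PiLp.norm_apply_le v _
  gcongr

end AJ

section VJ

variable {ι : Type*} [Fintype ι] [MeasurableSpace ι]

/-- the space of jet functionals which are a.s. functions of `Π_ω`, `ω = (0,t)` -/
noncomputable def VJ (σ ℓ p t : ι → ℝ) (J : ℕ) : Submodule ℝ (EJ ι J) where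
  carrier := {a | Fac p (Pi (rayR σ ℓ 0) t) fun w => inner ℝ a (ji σ ℓ J w)}
  add_mem' := by
    intro a b ha hb
    have h := Fac.add (p := p) ha hb
    refine h.congr (Eventually.of_forall fun w => ?_)
    exact (inner_add_left a b (ji σ ℓ J w)).symm
  zero_mem' := by
    have h := Fac.const p (Pi (rayR σ ℓ 0) t) 0
    refine h.congr (Eventually.of_forall fun w => ?_)
    exact (inner_zero_left (ji σ ℓ J w)).symm
  smul_mem' := by
    intro c a ha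
    have h := Fac.const_mul (p := p) ha c
    refine h.congr (Eventually.of_forall fun w => ?_)
    exact (real_inner_smul_left a (ji σ ℓ J w) c).symm

lemma mem_VJ (σ ℓ p t : ι → ℝ) (J : ℕ) (a : EJ ι J) :
    a ∈ VJ σ ℓ p t J ↔ Fac p (Pi (rayR σ ℓ 0) t) fun w => inner ℝ a (ji σ ℓ J w) := Iff.rfl

/-- distance of the functional `A_z` to the functionals which factor through the projection -/
noncomputable def DJ (σ ℓ p t : ι → ℝ) (J : ℕ) (s : ℂ) (t' : ι → ℂ) : ℝ :=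
  ‖AJ J s t' - (AJ J s t').comp (VJ σ ℓ p t J).starProjection‖

end VJ

end Crest.Agent.R98
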