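import Crest.Agent.R98.Word3
import Crest.Agent.R98.Part

/-!
Row 98 (S0129). Module WORDS, part 4: entropies of partitions of words; exact coincidences;
blockwise partitions; the entropy rate. (helper430)

`zS r t n`     the partition `~_z` of words of length `n` : same type and same `c_u · t`
`HW p s`       entropy of a partition `s` of words
`blk s N`      blockwise partition of words of length `m * N`
`hT r t p`     `inf_n H(U_{n+1} mod ~_z)/(n+1)`  (= `rwEntropyRate r t p`)
-/

set_option autoImplicit false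

namespace Crest.Agent.R98

open Finset Crest.AnalysisR Crest.Agent.R098.Upper Crest.Agent.R98.Part MeasureTheory Filter
open scoped Topology

section Blocks

variable {ι : Type*} [Fintype ι]

/-- entropy of a partition of words of length `n` under the iid law -/
noncomputable def HW (p : ι → ℝ) {n : ℕ} (s : Setoid (Fin n → ι)) : ℝ := HS (pw p) s

lemma HW_ker (p : ι → ℝ) {n : ℕ} {β : Type*} (Z : (Fin n → ι) → β) :
    HW p (Setoid.ker Z) = finiteLawEntropy (pw p) Z := rfl

lemma HW_anti {p : ι → ℝ} (hp : ∀ i, 0 ≤ p i) {n : ℕ} {s t : Setoid (Fin n → ι)} (h : s ≤ t) :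
    HW p t ≤ HW p s := HS_anti (fun u => pw_nonneg hp u) h

lemma HW_nonneg {p : ι → ℝ} (hp : (∀ i, 0 ≤ p i) ∧ ∑ i, p i = 1) {n : ℕ}
    (s : Setoid (Fin n → ι)) : 0 ≤ HW p s :=
  HS_nonneg (fun u => pw_nonneg hp.1 u) (sum_pw hp.2 n) s

lemma HW_sup_add_inf_le {p : ι → ℝ} (hp : ∀ i, 0 ≤ p i) {n : ℕ} (s t : Setoid (Fin n → ι)) :
    HW p (s ⊓ t) + HW p (s ⊔ t) ≤ HW p s + HW p t :=
  submod (fun u => pw_nonneg hp u) s t

/-- the first `m` letters -/
def lft {m n : ℕ} (w : Fin (m + n) → ι) : Fin m → ι := fun j => w (Fin.castAdd n j)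
/-- the last `n` letters -/
def rgt {m n : ℕ} (w : Fin (m + n) → ι) : Fin n → ι := fun j => w (Fin.natAdd m j)

omit [Fintype ι] in
lemma append_lft_rgt {m n : ℕ} (w : Fin (m + n) → ι) : Fin.append (lft w) (rgt w) = w :=
  Fin.append_castAdd_natAdd

omit [Fintype ι] in
lemma wtype_split {m n : ℕ} (w : Fin (m + n) → ι) : wtype w = wtype (lft w) + wtype (rgt w) := by
  conv_lhs => rw [← append_lft_rgt w]
  rw [wtype_append]

omit [Fintype ι] in
lemma cw_split {R : Type*} [CommRing R] (r : ι → R) {m n : ℕ} (w : Fin (m + n) → ι) (i : ι) :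
    cw r w i = cw r (lft w) i + rho r (lft w) * cw r (rgt w) i := by
  conv_lhs => rw [← append_lft_rgt w]
  rw [cw_append]

omit [Fintype ι] in
lemma rho_split {R : Type*} [CommMonoid R] (r : ι → R) {m n : ℕ} (w : Fin (m + n) → ι) :
    rho r w = rho r (lft w) * rho r (rgt w) := by
  conv_lhs => rw [← append_lft_rgt w]
  rw [rho_append]

lemma dotp_split {R : Type*} [CommRing R] (r t : ι → R) {m n : ℕ} (w : Fin (m + n) → ι) :
    ∑ i, cw r w i * t i =
      ∑ i, cw r (lft w) i * t i + rho r (lft w) * ∑ i, cw r (rgt w) i * t i := by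
  simp only [cw_split, add_mul, Finset.sum_add_distrib, mul_assoc, ← Finset.mul_sum]

/-- the partition of words of length `m + n` given by partitions of the first `m` and the last `n`
letters -/
def appS {m n : ℕ} (s : Setoid (Fin m → ι)) (t : Setoid (Fin n → ι)) : Setoid (Fin (m + n) → ι) :=
  s.comap lft ⊓ t.comap rgt

omit [Fintype ι] in
lemma appS_iff {m n : ℕ} (s : Setoid (Fin m → ι)) (t : Setoid (Fin n → ι)) (u v : Fin (m + n) → ι) :
    appS s t u v ↔ s (lft u) (lft v) ∧ t (rgt u) (rgt v) := Iff.rfl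

omit [Fintype ι] in
lemma appS_append_iff {m n : ℕ} (s : Setoid (Fin m → ι)) (t : Setoid (Fin n → ι))
    (u u' : Fin m → ι) (v v' : Fin n → ι) :
    appS s t (Fin.append u v) (Fin.append u' v') ↔ s u u' ∧ t v v' := by
  rw [appS_iff]
  have h1 : ∀ (a : Fin m → ι) (b : Fin n → ι), lft (Fin.append a b) = a := by
    intro a b; funext j; simp [lft]
  have h2 : ∀ (a : Fin m → ι) (b : Fin n → ι), rgt (Fin.append a b) = b := by
    intro a b; funext j; simp [rgt]
  rw [h1, h1, h2, h2]

omit [Fintype ι] in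
lemma appS_wtype {m n : ℕ} {s : Setoid (Fin m → ι)} {t : Setoid (Fin n → ι)}
    (hs : ∀ u v, s u v → wtype u = wtype v) (ht : ∀ u v, t u v → wtype u = wtype v)
    (u v : Fin (m + n) → ι) (h : appS s t u v) : wtype u = wtype v := by
  rw [wtype_split u, wtype_split v, hs _ _ h.1, ht _ _ h.2]

lemma HW_appS {p : ι → ℝ} (hp : (∀ i, 0 ≤ p i) ∧ ∑ i, p i = 1) {m n : ℕ}
    (s : Setoid (Fin m → ι)) (t : Setoid (Fin n → ι)) :
    HW p (appS s t) = HW p s + HW p t := by
  classical
  have h1 := HS_prod (q := pw (k := m) p) (q' := pw (k := n) p) (fun u => pw_nonneg hp.1 u)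
    (fun u => pw_nonneg hp.1 u) s t
  rw [sum_pw hp.2, sum_pw hp.2, one_mul, one_mul] at h1
  unfold HW
  rw [← h1]
  unfold HS
  congr 1
  symm
  refine Fintype.sum_equiv (Fin.appendEquiv m n) _ _ fun x => ?_
  obtain ⟨u, v⟩ := x
  have e1 : (Fin.appendEquiv m n) (u, v) = Fin.append u v := rfl
  rw [e1]
  have e2 : pw p (Fin.append u v) = pw p u * pw p v := rho_append p u v
  rw [e2]
  congr 2
  unfold cm
  refine Fintype.sum_equiv (Fin.appendEquiv m n) _ _ fun y => ?_
  obtain ⟨u', v'⟩ := y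
  have e3 : (Fin.appendEquiv m n) (u', v') = Fin.append u' v' := rfl
  rw [e3]
  have e4 : pw p (Fin.append u' v') = pw p u' * pw p v' := rho_append p u' v'
  by_cases h : s u' u ∧ t v' v
  · rw [Set.indicator_of_mem (show (u', v') ∈ {b | prodS s t b (u, v)} from h),
      Set.indicator_of_mem (show Fin.append u' v' ∈ {b | appS s t b (Fin.append u v)} from
        (appS_append_iff s t u' u v' v).2 h), e4]
  · rw [Set.indicator_of_notMem (show (u', v') ∉ {b | prodS s t b (u, v)} from h),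
      Set.indicator_of_notMem (show Fin.append u' v' ∉ {b | appS s t b (Fin.append u v)} from
        fun h' => h ((appS_append_iff s t u' u v' v).1 h'))]

/-- blockwise partition of words of length `m * N` -/
def blk {m : ℕ} (s : Setoid (Fin m → ι)) : ∀ N : ℕ, Setoid (Fin (m * N) → ι)
  | 0 => ⊤
  | N + 1 => appS (blk s N) s

lemma HW_blk {p : ι → ℝ} (hp : (∀ i, 0 ≤ p i) ∧ ∑ i, p i = 1) {m : ℕ} (s : Setoid (Fin m → ι))
    (N : ℕ) : HW p (blk s N) = N * HW p s := by
  induction N with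
  | zero =>
    have : HW p (blk s 0) = 0 := HS_top_one (sum_pw hp.2 (m * 0))
    rw [this]; simp
  | succ N ih =>
    have : HW p (blk s (N+1)) = HW p (blk s N) + HW p s := HW_appS hp (blk s N) s
    rw [this, ih]
    push_cast
    ring

omit [Fintype ι] in
/-- types are equal on classes of the blockwise partition -/
lemma blk_wtype {m : ℕ} {s : Setoid (Fin m → ι)} (hs : ∀ u v, s u v → wtype u = wtype v) :
    ∀ (N : ℕ) (u v : Fin (m * N) → ι), blk s N u v → wtype u = wtype v := by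
  intro N
  induction N with
  | zero =>
    intro u v _
    have : u = v := by funext j; exact (Fin.cast (by simp) j : Fin 0).elim0
    rw [this]
  | succ N ih =>
    intro u v h
    exact appS_wtype ih hs u v h

omit [Fintype ι] in
lemma blk_le_of_le {m : ℕ} {s s' : Setoid (Fin m → ι)} (h : s ≤ s') : ∀ N, blk s N ≤ blk s' N := by
  intro N
  induction N with
  | zero => exact le_refl _
  | succ N ih =>
    intro u v huv
    exact ⟨ih huv.1, h huv.2⟩

end Blocks

section BlockBound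

variable {ι 𝕜 : Type*} [Fintype ι] [NormedField 𝕜]

/-- differences of translation parts on classes of `appS` -/
lemma norm_appS_le (r t : ι → 𝕜) {m n : ℕ} {s : Setoid (Fin m → ι)} {s' : Setoid (Fin n → ι)}
    (hs : ∀ u v, s u v → wtype u = wtype v) {η η' ρ : ℝ}
    (hη : ∀ u v, s u v → ‖∑ i, cw r u i * t i - ∑ i, cw r v i * t i‖ ≤ η)
    (hη' : ∀ u v, s' u v → ‖∑ i, cw r u i * t i - ∑ i, cw r v i * t i‖ ≤ η')
    (hρ : ∀ u : Fin m → ι, ‖rho r u‖ ≤ ρ) (hρ0 : 0 ≤ ρ) (u v : Fin (m + n) → ι)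
    (h : appS s s' u v) :
    ‖∑ i, cw r u i * t i - ∑ i, cw r v i * t i‖ ≤ η + ρ * η' := by
  have hr : rho r (lft u) = rho r (lft v) := rho_congr_wtype r (hs _ _ h.1)
  have hd : (∑ i, cw r u i * t i) - ∑ i, cw r v i * t i =
      (∑ i, cw r (lft u) i * t i - ∑ i, cw r (lft v) i * t i) +
      rho r (lft v) * (∑ i, cw r (rgt u) i * t i - ∑ i, cw r (rgt v) i * t i) := by
    rw [dotp_split r t u, dotp_split r t v, hr]; ring
  rw [hd]
  refine (norm_add_le _ _).trans (add_le_add (hη _ _ h.1) ?_)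
  rw [norm_mul]
  exact mul_le_mul (hρ _) (hη' _ _ h.2) (norm_nonneg _) hρ0

/-- differences of translation parts on classes of the blockwise partition are controlled by those
on the classes of the block partition -/
lemma norm_blk_le [Nonempty ι] {r : ι → 𝕜} {q : ℝ} (hr : ∀ i, ‖r i‖ ≤ q) (hq : q < 1) (t : ι → 𝕜)
    {m : ℕ} (hm : 0 < m) {s : Setoid (Fin m → ι)} (hs : ∀ u v, s u v → wtype u = wtype v) {η : ℝ}
    (hη : ∀ u v, s u v → ‖∑ i, cw r u i * t i - ∑ i, cw r v i * t i‖ ≤ η) (N : ℕ)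
    (u v : Fin (m * N) → ι) (h : blk s N u v) :
    ‖∑ i, cw r u i * t i - ∑ i, cw r v i * t i‖ ≤ η / (1 - q) := by
  have h1q : 0 < 1 - q := by linarith
  obtain ⟨i0⟩ := ‹Nonempty ι›
  have hq0 : 0 ≤ q := (norm_nonneg _).trans (hr i0)
  have hη0 : 0 ≤ η := (norm_nonneg _).trans (hη (fun _ => i0) (fun _ => i0) (s.refl _))
  have key : ∀ N : ℕ, ∀ u v : Fin (m * N) → ι, blk s N u v →
      ‖∑ i, cw r u i * t i - ∑ i, cw r v i * t i‖ ≤ η * ∑ j ∈ range N, q ^ j := by
    intro N
    induction N with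
    | zero =>
      intro u v _
      have : u = v := by funext j; exact (Fin.cast (by simp) j : Fin 0).elim0
      rw [this]; simp
    | succ N ih =>
      intro u v h
      have h1 : ∀ u : Fin (m * N) → ι, ‖rho r u‖ ≤ q ^ N := by
        intro u
        refine (norm_rho_le hr _).trans ?_
        exact pow_le_pow_of_le_one hq0 hq.le (Nat.le_mul_of_pos_left N hm)
      have := norm_appS_le r t (blk_wtype hs N) ih hη h1 (pow_nonneg hq0 N) u v h
      refine this.trans (le_of_eq ?_)
      rw [Finset.sum_range_succ]; ring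
  refine (key N u v h).trans ?_
  rw [div_eq_mul_inv]
  refine mul_le_mul_of_nonneg_left ?_ hη0
  rw [← tsum_geometric_of_lt_one hq0 hq]
  exact (summable_geometric_of_lt_one hq0 hq).sum_le_tsum _ fun j _ => pow_nonneg hq0 j

end BlockBound

section Rate

variable {ι : Type*} [Fintype ι]

/-- `~_z` : same type and same translation part -/
noncomputable def zS (r t : ι → ℝ) (n : ℕ) : Setoid (Fin n → ι) :=
  Setoid.ker fun u => (wtype u, ∑ i, cw r u i * t i)

lemma zS_iff (r t : ι → ℝ) {n : ℕ} (u v : Fin n → ι) :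
    zS r t n u v ↔ wtype u = wtype v ∧ ∑ i, cw r u i * t i = ∑ i, cw r v i * t i := by
  unfold zS
  rw [Setoid.ker_def, Prod.mk.injEq]

lemma zS_le_map (r t : ι → ℝ) (n : ℕ) :
    zS r t n ≤ Setoid.ker fun u : Fin n → ι => affineWordMap r t (List.ofFn u) := by
  intro u v h
  rw [zS_iff] at h
  exact affineWordMap_eq_of_wtype r t h.1 h.2

lemma composedMapEntropy_eq_HW (r t p : ι → ℝ) (n : ℕ) : composedMapEntropy r t p n =
    HW p (Setoid.ker fun u : Fin n → ι => affineWordMap r t (List.ofFn u)) := rfl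

lemma composedMapEntropy_nonneg {r t p : ι → ℝ} (hp : (∀ i, 0 ≤ p i) ∧ ∑ i, p i = 1) (n : ℕ) :
    0 ≤ composedMapEntropy r t p n := by
  rw [composedMapEntropy_eq_HW]; exact HW_nonneg hp _

lemma composedMapEntropy_le_HW {r t p : ι → ℝ} (hp : ∀ i, 0 ≤ p i) {n : ℕ}
    {s : Setoid (Fin n → ι)} (hs : s ≤ Setoid.ker fun u => affineWordMap r t (List.ofFn u)) :
    composedMapEntropy r t p n ≤ HW p s := by
  rw [composedMapEntropy_eq_HW]; exact HW_anti hp hs

/-- the final contradiction: the entropy rate is at most the entropy of any partition into exact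
coincidences, divided by the length -/
theorem rwEntropyRate_le {r t p : ι → ℝ} (hp : (∀ i, 0 ≤ p i) ∧ ∑ i, p i = 1) {n : ℕ} (hn : 0 < n)
    {s : Setoid (Fin n → ι)} (hs : s ≤ Setoid.ker fun u => affineWordMap r t (List.ofFn u)) :
    rwEntropyRate r t p ≤ HW p s / n := by
  have hb : BddBelow (Set.range fun m : ℕ => composedMapEntropy r t p (m + 1) / ((m : ℝ) + 1)) := by
    refine ⟨0, ?_⟩
    rintro _ ⟨m, rfl⟩
    exact div_nonneg (composedMapEntropy_nonneg hp _) (by positivity)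
  obtain ⟨m, rfl⟩ : ∃ m, n = m + 1 := ⟨n - 1, by omega⟩
  refine (ciInf_le hb m).trans ?_
  have : ((m + 1 : ℕ) : ℝ) = (m : ℝ) + 1 := by push_cast; ring
  rw [this]
  exact div_le_div_of_nonneg_right (composedMapEntropy_le_HW hp.1 hs) (by positivity)

theorem rwEntropyRate_le_zS {r t p : ι → ℝ} (hp : (∀ i, 0 ≤ p i) ∧ ∑ i, p i = 1) {n : ℕ}
    (hn : 0 < n) : rwEntropyRate r t p ≤ HW p (zS r t n) / n :=
  rwEntropyRate_le hp hn (zS_le_map r t n)

/-- the type costs only a logarithm -/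
lemma HW_inf_wtype_le {p : ι → ℝ} (hp : (∀ i, 0 ≤ p i) ∧ ∑ i, p i = 1) {n : ℕ}
    (s : Setoid (Fin n → ι)) :
    HW p (s ⊓ Setoid.ker wtype) ≤ HW p s + Fintype.card ι * Real.log (n + 1) := by
  classical
  let φ : (Fin n → ι) → (ι → Fin (n + 1)) := fun u i => ⟨wtype u i, Nat.lt_succ_of_le (wtype_le u i)⟩
  have h := HS_le_add_log (q := pw (k := n) p) (fun u => pw_nonneg hp.1 u) (sum_pw hp.2 n)
    (fun u => Fintype.equivFin (ι → Fin (n+1)) (φ u)) (s := s ⊓ Setoid.ker wtype) (t := s) ?_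
  · have hc : Real.log (Fintype.card (ι → Fin (n + 1)) : ℝ) =
        Fintype.card ι * Real.log (n + 1) := by
      rw [Fintype.card_fun, Fintype.card_fin]
      push_cast
      rw [Real.log_pow]
    rw [hc] at h
    exact h
  · intro u v huv hφ
    refine ⟨huv, ?_⟩
    have h1 : φ u = φ v := (Fintype.equivFin _).injective hφ
    show wtype u = wtype v
    funext i
    have := congrArg Fin.val (congrFun h1 i)
    exact this

lemma zS_eq_inf (r t : ι → ℝ) (n : ℕ) : zS r t n =
    (Setoid.ker fun u : Fin n → ι => affineWordMap r t (List.ofFn u)) ⊓ Setoid.ker wtype := by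
  ext u v
  rw [zS_iff]
  constructor
  · rintro ⟨h1, h2⟩
    exact ⟨(affineWordMap_eq_iff r t u v).2 ⟨rho_congr_wtype r h1, h2⟩, h1⟩
  · rintro ⟨h2, h1⟩
    exact ⟨h1, ((affineWordMap_eq_iff r t u v).1 h2).2⟩

lemma HW_zS_le {r t p : ι → ℝ} (hp : (∀ i, 0 ≤ p i) ∧ ∑ i, p i = 1) (n : ℕ) :
    HW p (zS r t n) ≤ composedMapEntropy r t p n + Fintype.card ι * Real.log (n + 1) := by
  rw [zS_eq_inf, composedMapEntropy_eq_HW]
  exact HW_inf_wtype_le hp _

/-- subadditivity for exact coincidences -/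
lemma appS_zS_le (r t : ι → ℝ) (m n : ℕ) : appS (zS r t m) (zS r t n) ≤ zS r t (m + n) := by
  intro u v h
  have h1 := (zS_iff r t _ _).1 h.1
  have h2 := (zS_iff r t _ _).1 h.2
  rw [zS_iff]
  refine ⟨by rw [wtype_split u, wtype_split v, h1.1, h2.1], ?_⟩
  rw [dotp_split, dotp_split, h1.2, h2.2, rho_congr_wtype r h1.1]

lemma HW_zS_add_le {r t p : ι → ℝ} (hp : (∀ i, 0 ≤ p i) ∧ ∑ i, p i = 1) (m n : ℕ) :
    HW p (zS r t (m + n)) ≤ HW p (zS r t m) + HW p (zS r t n) := by
  rw [← HW_appS hp]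
  exact HW_anti hp.1 (appS_zS_le r t m n)

lemma composedMapEntropy_add_le {r t p : ι → ℝ} (hp : (∀ i, 0 ≤ p i) ∧ ∑ i, p i = 1) (m n : ℕ) :
    composedMapEntropy r t p (m + n) ≤ composedMapEntropy r t p m + composedMapEntropy r t p n := by
  rw [composedMapEntropy_eq_HW, composedMapEntropy_eq_HW, composedMapEntropy_eq_HW, ← HW_appS hp]
  refine HW_anti hp.1 ?_
  intro u v h
  have h1 := (affineWordMap_eq_iff r t _ _).1 h.1
  have h2 := (affineWordMap_eq_iff r t _ _).1 h.2
  show affineWordMap r t (List.ofFn u) = affineWordMap r t (List.ofFn v)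
  rw [affineWordMap_eq_iff]
  refine ⟨by rw [rho_split, rho_split r v, h1.1, h2.1], ?_⟩
  rw [dotp_split, dotp_split, h1.2, h2.2, h1.1]

lemma composedMapEntropy_zero {r t p : ι → ℝ} (hp : (∀ i, 0 ≤ p i) ∧ ∑ i, p i = 1) :
    composedMapEntropy r t p 0 = 0 := by
  rw [composedMapEntropy_eq_HW]
  have h : (Setoid.ker fun u : Fin 0 → ι => affineWordMap r t (List.ofFn u)) = ⊤ := by
    ext u v
    have : u = v := by funext j; exact j.elim0
    simp [this]
  rw [h]
  exact HS_top_one (sum_pw hp.2 0)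

lemma composedMapEntropy_mul_le {r t p : ι → ℝ} (hp : (∀ i, 0 ≤ p i) ∧ ∑ i, p i = 1) (n N : ℕ) :
    composedMapEntropy r t p (n * N) ≤ N * composedMapEntropy r t p n := by
  induction N with
  | zero => rw [Nat.mul_zero, composedMapEntropy_zero hp]; simp
  | succ N ih =>
    rw [Nat.mul_succ]
    refine (composedMapEntropy_add_le hp _ _).trans ?_
    push_cast
    linarith

lemma HW_zS_zero {r t p : ι → ℝ} (hp : (∀ i, 0 ≤ p i) ∧ ∑ i, p i = 1) :
    HW p (zS r t 0) = 0 := by
  have h : (zS r t 0) = ⊤ := by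
    ext u v
    have : u = v := by funext j; exact j.elim0
    simp [this]
  rw [h]
  exact HS_top_one (sum_pw hp.2 0)

/-- `h(z) := inf_n H(U_{n+1} mod ~_z)/(n+1)` -/
noncomputable def hT (r t p : ι → ℝ) : ℝ := ⨅ m : ℕ, HW p (zS r t (m + 1)) / ((m : ℝ) + 1)

lemma hT_le {r t p : ι → ℝ} (hp : (∀ i, 0 ≤ p i) ∧ ∑ i, p i = 1) {n : ℕ} (hn : 0 < n) :
    hT r t p ≤ HW p (zS r t n) / n := by
  have hb : BddBelow (Set.range fun m : ℕ => HW p (zS r t (m + 1)) / ((m : ℝ) + 1)) := by
    refine ⟨0, ?_⟩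
    rintro _ ⟨m, rfl⟩
    exact div_nonneg (HW_nonneg hp _) (by positivity)
  obtain ⟨m, rfl⟩ : ∃ m, n = m + 1 := ⟨n - 1, by omega⟩
  refine (ciInf_le hb m).trans (le_of_eq ?_)
  push_cast
  rfl

lemma hT_nonneg {r t p : ι → ℝ} (hp : (∀ i, 0 ≤ p i) ∧ ∑ i, p i = 1) : 0 ≤ hT r t p :=
  le_ciInf fun m => div_nonneg (HW_nonneg hp _) (by positivity)

lemma rwEntropyRate_nonneg {r t p : ι → ℝ} (hp : (∀ i, 0 ≤ p i) ∧ ∑ i, p i = 1) :
    0 ≤ rwEntropyRate r t p :=
  le_ciInf fun m => div_nonneg (composedMapEntropy_nonneg hp _) (by positivity)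

lemma rwEntropyRate_le_hT {r t p : ι → ℝ} (hp : (∀ i, 0 ≤ p i) ∧ ∑ i, p i = 1) :
    rwEntropyRate r t p ≤ hT r t p := by
  refine le_ciInf fun m => ?_
  have := rwEntropyRate_le_zS (r := r) (t := t) hp (Nat.succ_pos m)
  push_cast at this
  exact this

/-- the type may be included in the definition of the entropy rate -/
theorem hT_eq {r t p : ι → ℝ} (hp : (∀ i, 0 ≤ p i) ∧ ∑ i, p i = 1) :
    hT r t p = rwEntropyRate r t p := by
  refine le_antisymm ?_ (rwEntropyRate_le_hT hp)
  refine le_ciInf fun m => ?_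
  have hn : 0 < m + 1 := Nat.succ_pos m
  have hnR : (0:ℝ) < ((m + 1 : ℕ) : ℝ) := by exact_mod_cast hn
  have e1 : ((m : ℝ) + 1) = ((m + 1 : ℕ) : ℝ) := by push_cast; ring
  rw [e1]
  -- bound at level `(m+1) * N`
  have hb : ∀ N : ℕ, 0 < N → hT r t p ≤ composedMapEntropy r t p (m+1) / ((m + 1 : ℕ) : ℝ) +
      Fintype.card ι * (Real.log (((m+1) * N : ℕ) + 1) / ((m+1) * N : ℕ)) := by
    intro N hN
    have hNR : (0:ℝ) < N := by exact_mod_cast hN
    have h1 := hT_le (r := r) (t := t) hp (Nat.mul_pos hn hN)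
    have h2 := HW_zS_le (r := r) (t := t) hp ((m+1) * N)
    have h3 := composedMapEntropy_mul_le (r := r) (t := t) hp (m+1) N
    have hpos : (0:ℝ) < (((m+1) * N : ℕ) : ℝ) := by exact_mod_cast Nat.mul_pos hn hN
    refine h1.trans ?_
    rw [div_le_iff₀ hpos]
    have e2 : (composedMapEntropy r t p (m+1) / ((m + 1 : ℕ) : ℝ) +
        Fintype.card ι * (Real.log (((m+1) * N : ℕ) + 1) / ((m+1) * N : ℕ))) *
        (((m+1) * N : ℕ) : ℝ) = N * composedMapEntropy r t p (m+1) +
          Fintype.card ι * Real.log (((m+1) * N : ℕ) + 1) := by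
      have e3 : (((m+1) * N : ℕ) : ℝ) = ((m + 1 : ℕ) : ℝ) * N := by push_cast; ring
      rw [e3] at hpos ⊢
      field_simp
    rw [e2]
    linarith
  -- the error term tends to zero
  have hlim : Tendsto (fun N : ℕ => composedMapEntropy r t p (m+1) / ((m + 1 : ℕ) : ℝ) +
      Fintype.card ι * (Real.log (((m+1) * N : ℕ) + 1) / ((m+1) * N : ℕ))) atTop
      (𝓝 (composedMapEntropy r t p (m+1) / ((m + 1 : ℕ) : ℝ) + Fintype.card ι * 0)) := by
    refine tendsto_const_nhds.add (Tendsto.const_mul _ ?_)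
    have hl : Tendsto (fun x : ℝ => Real.log (x + 1) / x) atTop (𝓝 0) := by
      have h1 : Tendsto (fun x : ℝ => Real.log x / x) atTop (𝓝 0) := by
        simpa using Real.isLittleO_log_id_atTop.tendsto_div_nhds_zero
      have h2 : Tendsto (fun x : ℝ => Real.log (x+1) / (x+1) * ((x + 1) / x)) atTop (𝓝 (0 * 1)) := by
        refine Tendsto.mul (h1.comp (tendsto_atTop_add_const_right _ _ tendsto_id)) ?_
        have h3 : Tendsto (fun x : ℝ => 1 + 1 / x) atTop (𝓝 (1 + 0)) :=
          tendsto_const_nhds.add (tendsto_const_nhds.div_atTop tendsto_id)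
        rw [add_zero] at h3
        refine h3.congr' ?_
        filter_upwards [eventually_gt_atTop 0] with x hx
        field_simp
      rw [zero_mul] at h2
      refine h2.congr' ?_
      filter_upwards [eventually_gt_atTop 0] with x hx
      have : x + 1 ≠ 0 := by positivity
      field_simp
    have hN : Tendsto (fun N : ℕ => (((m+1) * N : ℕ) : ℝ)) atTop atTop := by
      refine tendsto_natCast_atTop_atTop.comp ?_
      exact tendsto_atTop_mono (fun N => Nat.le_mul_of_pos_left N hn) tendsto_id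
    exact hl.comp hN
  rw [mul_zero, add_zero] at hlim
  refine ge_of_tendsto hlim ?_
  filter_upwards [eventually_gt_atTop 0] with N hN
  exact hb N hN

/-- Fekete: `H(U_n mod ~_z)/n → h(z)` -/
theorem tendsto_HW_zS {r t p : ι → ℝ} (hp : (∀ i, 0 ≤ p i) ∧ ∑ i, p i = 1) :
    Tendsto (fun n : ℕ => HW p (zS r t n) / n) atTop (𝓝 (hT r t p)) := by
  have hsub : Subadditive fun n : ℕ => HW p (zS r t n) := fun m n => HW_zS_add_le hp m n
  have hb : BddBelow (Set.range fun n : ℕ => HW p (zS r t n) / n) := by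
    refine ⟨0, ?_⟩
    rintro _ ⟨m, rfl⟩
    exact div_nonneg (HW_nonneg hp _) (by positivity)
  have h1 := hsub.tendsto_lim hb
  have h2 : hsub.lim = hT r t p := by
    refine le_antisymm ?_ ?_
    · refine le_ciInf fun m => ?_
      have := hsub.lim_le_div hb (n := m + 1) (Nat.succ_ne_zero m)
      push_cast at this
      exact this
    · refine ge_of_tendsto h1 ?_
      filter_upwards [eventually_gt_atTop 0] with n hn
      exact hT_le hp hn
  rw [← h2]
  exact h1

/-- a common suffix does not change the difference of the translation parts of two words of the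
same type -/
lemma dotp_append_sub {R : Type*} [CommRing R] (r t : ι → R) {m n : ℕ} (u v : Fin m → ι)
    (w : Fin n → ι) (h : wtype u = wtype v) :
    ∑ i, cw r (Fin.append u w) i * t i - ∑ i, cw r (Fin.append v w) i * t i =
      ∑ i, cw r u i * t i - ∑ i, cw r v i * t i := by
  have e : ∀ u : Fin m → ι, ∑ i, cw r (Fin.append u w) i * t i =
      ∑ i, cw r u i * t i + rho r u * ∑ i, cw r w i * t i := by
    intro u
    simp only [cw_append, add_mul, Finset.sum_add_distrib, mul_assoc, ← Finset.mul_sum]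
  rw [e u, e v, rho_congr_wtype r h]
  ring

/-- a partition of the prefix, as a partition of longer words, has the same entropy -/
lemma HW_comap_lft {p : ι → ℝ} (hp : (∀ i, 0 ≤ p i) ∧ ∑ i, p i = 1) {m n : ℕ}
    (s : Setoid (Fin m → ι)) : HW p (s.comap (lft (n := n))) = HW p s := by
  have h := HW_appS hp s (⊤ : Setoid (Fin n → ι))
  have h2 : HW p (⊤ : Setoid (Fin n → ι)) = 0 := HS_top_one (sum_pw hp.2 n)
  rw [h2, add_zero] at h
  rw [← h]
  congr 1
  ext u v
  simp [appS_iff, Setoid.comap_rel]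

/-- a partition of the suffix, as a partition of longer words, has the same entropy -/
lemma HW_comap_rgt {p : ι → ℝ} (hp : (∀ i, 0 ≤ p i) ∧ ∑ i, p i = 1) {m n : ℕ}
    (s : Setoid (Fin n → ι)) : HW p (s.comap (rgt (m := m))) = HW p s := by
  have h := HW_appS hp (⊤ : Setoid (Fin m → ι)) s
  have h2 : HW p (⊤ : Setoid (Fin m → ι)) = 0 := HS_top_one (sum_pw hp.2 m)
  rw [h2, zero_add] at h
  rw [← h]
  congr 1
  ext u v
  simp [appS_iff, Setoid.comap_rel]

end Rate

end Crest.Agent.R98
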