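import Crest.Agent.R98.STCore
import Crest.Agent.R98.EndJet
import Crest.Agent.R98.Word4

/-!
# Row 98: `Top.Core` from (UNI) (helper587)

`UniP p σ ℓ t` is the frozen statement of (UNI) of helper549 (all `J`) for one `(ℓ, t)`;
`coreOfUni` builds the interface `Top.Core p σ` of the final logic from it.
-/

set_option autoImplicit false

open Filter Topology Set Metric Finset MeasureTheory

namespace Crest.Agent.R98

open Crest.Agent.R98.Part

section Close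

variable {ι : Type*} [Fintype ι]

theorem jpair_eq_inner (σ ℓ : ι → ℝ) {J : ℕ} (a : EJ ι J) (w : ℕ → ι) :
    jpair σ ℓ (fun x => a x) w = inner ℝ a (ji σ ℓ J w) := by
  unfold jpair
  rw [PiLp.inner_apply]
  refine Finset.sum_congr rfl fun x _ => ?_
  rw [ji_apply]
  simp [mul_comm]

theorem AJ_sub (J : ℕ) (s : ℂ) (t₁ t₂ : ι → ℂ) : AJ J s (t₁ - t₂) = AJ J s t₁ - AJ J s t₂ := by
  refine ContinuousLinearMap.ext fun v => ?_
  rw [sub_apply, AJ_apply, AJ_apply, AJ_apply, ← Finset.sum_sub_distrib]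
  refine Finset.sum_congr rfl fun x _ => ?_
  rw [Pi.sub_apply]
  ring

/-- real and imaginary parts of the coefficients of `AJ` -/
noncomputable def zRe (J : ℕ) (s : ℂ) (t' : ι → ℂ) : EJ ι J :=
  WithLp.toLp 2 fun x : Fin (J + 1) × ι => (s ^ (x.1 : ℕ) * t' x.2).re

noncomputable def zIm (J : ℕ) (s : ℂ) (t' : ι → ℂ) : EJ ι J :=
  WithLp.toLp 2 fun x : Fin (J + 1) × ι => (s ^ (x.1 : ℕ) * t' x.2).im

theorem AJ_eq_inner (J : ℕ) (s : ℂ) (t' : ι → ℂ) (v : EJ ι J) :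
    AJ J s t' v = (inner ℝ (zRe J s t') v : ℝ) + (inner ℝ (zIm J s t') v : ℝ) * Complex.I := by
  rw [AJ_apply, PiLp.inner_apply, PiLp.inner_apply]
  push_cast
  rw [Finset.sum_mul, ← Finset.sum_add_distrib]
  refine Finset.sum_congr rfl fun x _ => ?_
  have h : (s ^ (x.1 : ℕ) * t' x.2) = ((s ^ (x.1 : ℕ) * t' x.2).re : ℂ) +
    ((s ^ (x.1 : ℕ) * t' x.2).im : ℂ) * Complex.I := (Complex.re_add_im _).symm
  have e1 : (inner ℝ (zRe J s t' x) (v x) : ℝ) = (s ^ (x.1 : ℕ) * t' x.2).re * v x := by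
    simp [zRe, mul_comm]
  have e2 : (inner ℝ (zIm J s t' x) (v x) : ℝ) = (s ^ (x.1 : ℕ) * t' x.2).im * v x := by
    simp [zIm, mul_comm]
  rw [e1, e2]
  conv_lhs => rw [h]
  push_cast
  ring

variable [MeasurableSpace ι]

theorem exists_close_of_DJ (σ ℓ p t : ι → ℝ) (J : ℕ) (s : ℂ) (t' : ι → ℂ) :
    ∃ a b : Fin (J + 1) × ι → ℝ, Fac p (Pi (rayR σ ℓ 0) t) (jpair σ ℓ a) ∧
      Fac p (Pi (rayR σ ℓ 0) t) (jpair σ ℓ b) ∧
      ∀ x, ‖s ^ (x.1 : ℕ) * t' x.2 - (a x + b x * Complex.I)‖ ≤ DJ σ ℓ p t J s t' := by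
  classical
  set V := VJ σ ℓ p t J with hV
  set a : EJ ι J := V.starProjection (zRe J s t') with ha
  set b : EJ ι J := V.starProjection (zIm J s t') with hb
  have haV : a ∈ V := V.starProjection_apply_mem _
  have hbV : b ∈ V := V.starProjection_apply_mem _
  refine ⟨fun x => a x, fun x => b x, ?_, ?_, fun x => ?_⟩
  · have := (mem_VJ σ ℓ p t J a).mp haV
    simpa only [← jpair_eq_inner] using this
  · have := (mem_VJ σ ℓ p t J b).mp hbV
    simpa only [← jpair_eq_inner] using this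
  · set e : EJ ι J := EuclideanSpace.single x (1 : ℝ) with he
    have hen : ‖e‖ = 1 := by simp [he]
    have h1 := (AJ J s t' - (AJ J s t').comp V.starProjection).le_opNorm e
    rw [hen, mul_one] at h1
    have h2 : (AJ J s t' - (AJ J s t').comp V.starProjection) e =
        s ^ (x.1 : ℕ) * t' x.2 - (a x + b x * Complex.I) := by
      rw [sub_apply, ContinuousLinearMap.comp_apply]
      congr 1
      · rw [AJ_apply, Finset.sum_eq_single x]
        · simp [he]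
        · intro y _ hy
          simp [he, hy]
        · simp
      · rw [AJ_eq_inner, ← Submodule.inner_starProjection_left_eq_right,
          ← Submodule.inner_starProjection_left_eq_right]
        have e1 : ∀ y : EJ ι J, (inner ℝ y e : ℝ) = y x := by
          intro y
          rw [he, EuclideanSpace.inner_single_right]
          simp
        rw [e1, e1]
    rw [h2] at h1
    exact h1

omit [MeasurableSpace ι] in
theorem jpair_zero [MeasurableSpace ι] {σ ℓ : ι → ℝ} {ℓ0 : ℝ} (hσ : ∀ i, |σ i| ≤ 1) (hℓ : ∀ i, ℓ0 ≤ ℓ i) (h0 : 0 < ℓ0)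
    (a : Fin (0 + 1) × ι → ℝ) :
    jpair σ ℓ a = Pi (rayR σ ℓ 0) (fun i => a (0, i)) := by
  funext w
  unfold jpair Pi
  rw [Fintype.sum_prod_type]
  simp only [Fin.sum_univ_succ, Finset.univ_eq_empty, Finset.sum_empty, add_zero, Fin.val_zero]
  refine Finset.sum_congr rfl fun i _ => ?_
  rw [jetinf_zero_eq hσ hℓ h0, mul_comm]

theorem DJ_zero_le {σ ℓ p t : ι → ℝ} {ℓ0 : ℝ} (hσ : ∀ i, |σ i| ≤ 1) (hℓ : ∀ i, ℓ0 ≤ ℓ i)
    (h0 : 0 < ℓ0) {s : ℂ} (hs : ‖s‖ ≤ 1) (t' : ι → ℂ) :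
    DJ σ ℓ p t 0 s t' ≤ 2 * ∑ i, ‖t' i - t i‖ := by
  set V := VJ σ ℓ p t 0 with hV
  set tC : ι → ℂ := fun i => (t i : ℂ) with htC
  have h1 : (AJ 0 s tC).comp V.starProjection = AJ 0 s tC := by
    refine ContinuousLinearMap.ext fun v => ?_
    have hre : zRe 0 s tC ∈ V := by
      rw [hV, mem_VJ]
      have e : (fun w => inner ℝ (zRe 0 s tC) (ji σ ℓ 0 w)) = Pi (rayR σ ℓ 0) t := by
        have e1 := jpair_zero hσ hℓ h0 (fun x => zRe 0 s tC x)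
        rw [show (fun w => inner ℝ (zRe 0 s tC) (ji σ ℓ 0 w)) = jpair σ ℓ fun x => zRe 0 s tC x from
          funext fun w => (jpair_eq_inner σ ℓ _ w).symm, e1]
        congr 1
        funext i
        simp [zRe, htC]
      rw [e]
      exact Fac.self p _
    have him : zIm 0 s tC = 0 := by
      ext x
      simp [zIm, htC]
    rw [ContinuousLinearMap.comp_apply, AJ_eq_inner, AJ_eq_inner, him,
      ← Submodule.inner_starProjection_left_eq_right, Submodule.starProjection_eq_self_iff.mpr hre]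
    simp
  have h2 : AJ 0 s t' - (AJ 0 s t').comp V.starProjection =
      AJ 0 s (t' - tC) - (AJ 0 s (t' - tC)).comp V.starProjection := by
    rw [AJ_sub, ContinuousLinearMap.sub_comp, h1]
    abel
  have h3 : ‖AJ 0 s (t' - tC)‖ ≤ ∑ i, ‖t' i - t i‖ := by
    refine (norm_AJ_le 0 hs _).trans (le_of_eq ?_)
    simp [htC]
  show ‖AJ 0 s t' - (AJ 0 s t').comp V.starProjection‖ ≤ _
  rw [h2]
  have h4 : ‖(AJ 0 s (t' - tC)).comp V.starProjection‖ ≤ ‖AJ 0 s (t' - tC)‖ := by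
    refine (ContinuousLinearMap.opNorm_comp_le _ _).trans ?_
    exact mul_le_of_le_one_right (norm_nonneg _) V.starProjection_norm_le
  refine (norm_sub_le _ _).trans ?_
  linarith

end Close

section Uni

variable {ι : Type*} [Fintype ι] [MeasurableSpace ι]

/-- (UNI), the frozen statement of helper549, for one `(ℓ, t)` -/
def UniP (p σ ℓ t : ι → ℝ) : Prop :=
  ∀ (J : ℕ) (m : ℕ → ℕ) (s : ℕ → ℂ) (τ : ℕ → ι → ℂ) (η d : ℕ → ℝ)
    (A : ∀ j, Setoid (Fin (m j) → ι)),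
    Tendsto m atTop atTop → Tendsto s atTop (𝓝 0) → Tendsto τ atTop (𝓝 fun i => (t i : ℂ)) →
    (∀ j, 0 ≤ η j) →
    (∀ κ > 0, ∀ᶠ j in atTop, HW p (A j) ≤ (F.alpha p (Pi (rayR σ ℓ 0) t) + κ) * m j) →
    (∀ j u v, A j u v → wtype u = wtype v ∧
      ‖∑ i, (cw (rayC σ ℓ (s j)) u i - cw (rayC σ ℓ (s j)) v i) * τ j i‖ ≤ η j) →
    (∀ j, d j = max (DJ σ ℓ p t 0 (s j) (τ j)) (√‖s j‖)) →
    (∀ j, 0 < d j) → (∀ j, η j ≤ d j ^ (2 * J + 2)) →
    Tendsto (fun j => -Real.log (d j) / m j) atTop atTop →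
    ∀ᶠ j in atTop, DJ σ ℓ p t J (s j) (τ j) < d j ^ (2 * J + 1)

/-- version with the pointwise conditions only eventually -/
theorem UniP.ev {p σ ℓ t : ι → ℝ} (h : UniP p σ ℓ t) (J : ℕ) (m : ℕ → ℕ) (s : ℕ → ℂ)
    (τ : ℕ → ι → ℂ) (η d : ℕ → ℝ) (A : ∀ j, Setoid (Fin (m j) → ι))
    (hm : Tendsto m atTop atTop) (hs : Tendsto s atTop (𝓝 0))
    (hτ : Tendsto τ atTop (𝓝 fun i => (t i : ℂ))) (hη : ∀ j, 0 ≤ η j)
    (hA : ∀ κ > 0, ∀ᶠ j in atTop, HW p (A j) ≤ (F.alpha p (Pi (rayR σ ℓ 0) t) + κ) * m j)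
    (hcl : ∀ j u v, A j u v → wtype u = wtype v ∧
      ‖∑ i, (cw (rayC σ ℓ (s j)) u i - cw (rayC σ ℓ (s j)) v i) * τ j i‖ ≤ η j)
    (hd : ∀ j, d j = max (DJ σ ℓ p t 0 (s j) (τ j)) (√‖s j‖))
    (hd0 : ∀ᶠ j in atTop, 0 < d j) (hηd : ∀ᶠ j in atTop, η j ≤ d j ^ (2 * J + 2))
    (hlog : Tendsto (fun j => -Real.log (d j) / m j) atTop atTop) :
    ∀ᶠ j in atTop, DJ σ ℓ p t J (s j) (τ j) < d j ^ (2 * J + 1) := by
  obtain ⟨N, hN⟩ := eventually_atTop.mp (hd0.and hηd)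
  have key := h J (fun j => m (j + N)) (fun j => s (j + N)) (fun j => τ (j + N))
    (fun j => η (j + N)) (fun j => d (j + N)) (fun j => A (j + N))
    (hm.comp (tendsto_add_atTop_nat N)) (hs.comp (tendsto_add_atTop_nat N))
    (hτ.comp (tendsto_add_atTop_nat N)) (fun j => hη _)
    (fun κ hκ => (tendsto_add_atTop_nat N).eventually (hA κ hκ)) (fun j => hcl _)
    (fun j => hd _) (fun j => (hN _ (Nat.le_add_left _ _)).1)
    (fun j => (hN _ (Nat.le_add_left _ _)).2) (hlog.comp (tendsto_add_atTop_nat N))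
  obtain ⟨M, hM⟩ := eventually_atTop.mp key
  refine eventually_atTop.mpr ⟨M + N, fun j hj => ?_⟩
  have := hM (j - N) (by omega)
  simpa [Nat.sub_add_cancel (show N ≤ j by omega)] using this

omit [Fintype ι] [MeasurableSpace ι] in
theorem tendsto_neg_log_div {d : ℕ → ℝ} {m : ℕ → ℕ} (hm : Tendsto m atTop atTop)
    (hd : ∀ᶠ j in atTop, 0 < d j) {K : ℝ} (hK : 0 < K)
    (h : ∀ C : ℝ, ∀ᶠ j in atTop, d j ≤ K * Real.exp (-(C * m j))) :
    Tendsto (fun j => -Real.log (d j) / m j) atTop atTop := by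
  rw [Filter.tendsto_atTop]
  intro b
  have hmR : Tendsto (fun j => (m j : ℝ)) atTop atTop := tendsto_natCast_atTop_atTop.comp hm
  filter_upwards [hd, h (b + 1), hmR.eventually_ge_atTop (max 1 (Real.log K))] with j h1 h2 h3
  have hm1 : (1 : ℝ) ≤ m j := (le_max_left _ _).trans h3
  have hm2 : Real.log K ≤ m j := (le_max_right _ _).trans h3
  have h4 : Real.log (d j) ≤ Real.log K - (b + 1) * m j := by
    have := Real.log_le_log h1 h2
    rw [Real.log_mul hK.ne' (Real.exp_pos _).ne', Real.log_exp] at this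
    linarith
  rw [le_div_iff₀ (by linarith)]
  nlinarith

end Uni

section Build

open Crest.Agent.R98.Top

variable {ι : Type*} [Fintype ι] [MeasurableSpace ι] [DiscreteMeasurableSpace ι]

/-- the space `W` -/
def WW (p σ ℓ t : ι → ℝ) : Submodule ℝ (ι → ℝ) where
  carrier := {t' | Fac p (Pi (rr σ ℓ) t) (Pi (rr σ ℓ) t')}
  add_mem' := by
    intro a b ha hb
    have h := Fac.add (p := p) ha hb
    refine h.congr (Eventually.of_forall fun w => ?_)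
    simp only [Pi, Pi.add_apply, mul_add, Finset.sum_add_distrib]
  zero_mem' := by
    have h := Fac.const p (Pi (rr σ ℓ) t) 0
    refine h.congr (Eventually.of_forall fun w => ?_)
    simp [Pi]
  smul_mem' := by
    intro c a ha
    have h := Fac.const_mul (p := p) ha c
    refine h.congr (Eventually.of_forall fun w => ?_)
    simp only [Pi, Pi.smul_apply, smul_eq_mul, Finset.mul_sum]
    exact Finset.sum_congr rfl fun i _ => by ring

omit [DiscreteMeasurableSpace ι] in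
theorem mem_WW {p σ ℓ t t' : ι → ℝ} : t' ∈ WW p σ ℓ t ↔ Fac p (Pi (rr σ ℓ) t) (Pi (rr σ ℓ) t') :=
  Iff.rfl

omit [MeasurableSpace ι] [DiscreteMeasurableSpace ι] in
/-- consequences of `Dat` -/
theorem dat_conv {p σ ℓ t : ι → ℝ} {α : ℝ} {m : ℕ → ℕ} {s : ℕ → ℂ} {τ : ℕ → ι → ℂ} {η ε : ℕ → ℝ}
    {A : ∀ j, Setoid (Fin (m j) → ι)} (D : Dat p σ ℓ t α m s τ η ε A) :
    Tendsto s atTop (𝓝 0) ∧ Tendsto τ atTop (𝓝 fun i => (t i : ℂ)) ∧
      ∀ κ > 0, ∀ᶠ j in atTop, HW p (A j) ≤ (α + κ) * m j := by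
  have hmR : Tendsto (fun j => (m j : ℝ)) atTop atTop := tendsto_natCast_atTop_atTop.comp D.hm
  have hexp : Tendsto (fun j => Real.exp (-(1 * m j : ℝ))) atTop (𝓝 0) := by
    simp only [one_mul]
    exact Real.tendsto_exp_neg_atTop_nhds_zero.comp hmR
  refine ⟨?_, ?_, fun κ hκ => ?_⟩
  · exact squeeze_zero_norm' (D.hs 1) hexp
  · rw [tendsto_pi_nhds]
    intro i
    rw [tendsto_iff_norm_sub_tendsto_zero]
    refine squeeze_zero' (Eventually.of_forall fun j => norm_nonneg _) ?_ hexp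
    filter_upwards [D.hτ 1] with j hj
    exact hj i
  · filter_upwards [D.hε.eventually_lt_const hκ] with j hj
    refine (D.hH j).trans (mul_le_mul_of_nonneg_right ?_ (Nat.cast_nonneg _))
    linarith

omit [DiscreteMeasurableSpace ι] in
theorem dat_DJ_le {p σ ℓ t : ι → ℝ} {ℓ0 : ℝ} (hσ : ∀ i, |σ i| ≤ 1) (hℓ : ∀ i, ℓ0 ≤ ℓ i)
    (h0 : 0 < ℓ0) {α : ℝ} {m : ℕ → ℕ} {s : ℕ → ℂ} {τ : ℕ → ι → ℂ} {η ε : ℕ → ℝ}
    {A : ∀ j, Setoid (Fin (m j) → ι)} (D : Dat p σ ℓ t α m s τ η ε A) (C : ℝ) :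
    ∀ᶠ j in atTop, max (DJ σ ℓ p t 0 (s j) (τ j)) (√‖s j‖) ≤
      (2 * Fintype.card ι + 1) * Real.exp (-(C * m j)) := by
  have hs1 : ∀ᶠ j in atTop, ‖s j‖ ≤ 1 := by
    have := (dat_conv D).1.norm
    rw [norm_zero] at this
    exact (this.eventually_lt_const (by norm_num : (0:ℝ) < 1)).mono fun j hj => hj.le
  filter_upwards [hs1, D.hτ C, D.hs (2 * C)] with j h1 h2 h3
  have he := Real.exp_pos (-(C * m j))
  refine max_le ?_ ?_
  · refine (DJ_zero_le hσ hℓ h0 h1 (τ j)).trans ?_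
    have h4 : ∑ i, ‖τ j i - t i‖ ≤ Fintype.card ι * Real.exp (-(C * m j)) := by
      refine (Finset.sum_le_sum fun i _ => h2 i).trans ?_
      rw [Finset.sum_const, Finset.card_univ, nsmul_eq_mul]
    nlinarith
  · have h5 : √‖s j‖ ≤ Real.exp (-(C * m j)) := by
      rw [Real.sqrt_le_left he.le, ← Real.exp_nat_mul]
      refine h3.trans (le_of_eq ?_)
      congr 1
      push_cast
      ring
    have h6 : (0 : ℝ) ≤ Fintype.card ι := Nat.cast_nonneg _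
    nlinarith

variable {p σ : ι → ℝ}

omit [MeasurableSpace ι] [DiscreteMeasurableSpace ι] in
theorem nonempty_of_sum (hp : (∀ i, 0 ≤ p i) ∧ ∑ i, p i = 1) : Nonempty ι := by
  by_contra hne
  rw [not_nonempty_iff] at hne
  have := hp.2
  simp at this

theorem measurable_Pi_rr (hσ : IsS σ) {ℓ : ι → ℝ} (hℓ : ∀ i, 0 < ℓ i) [Nonempty ι] (t : ι → ℝ) :
    Measurable (Pi (rr σ ℓ) t) := by
  obtain ⟨i0, _, hi0⟩ := Finset.exists_min_image Finset.univ ℓ Finset.univ_nonempty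
  have hℓ' : ∀ i, ℓ i0 ≤ ℓ i := fun i => hi0 i (Finset.mem_univ i)
  have hσ' : ∀ i, |σ i| ≤ 1 := fun i => by
    rcases hσ i with h1 | h1 <;> simp [h1]
  have hr0 : ∀ i, |rayR σ ℓ 0 i| ≤ Real.exp (-ℓ i0 / 2) :=
    abs_rayR_le hσ' hℓ' (hℓ i0).le (by norm_num)
  rw [rr_eq_rayR_zero]
  exact measurable_Pi hr0 (exp_half_lt_one (hℓ i0)) t

omit [DiscreteMeasurableSpace ι] in
theorem alpha_eq_rayR (σ ℓ p t : ι → ℝ) :
    F.alpha p (Pi (rayR σ ℓ 0) t) = F.alpha p (Pi (rr σ ℓ) t) := by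
  rw [rr_eq_rayR_zero]

/-- LT from (UNI), `J = 0` -/
theorem lt_of_uni (hσ : IsS σ) {ℓ t : ι → ℝ} (hℓ : ∀ i, 0 < ℓ i) [Nonempty ι]
    (hU : UniP p σ ℓ t) (m : ℕ → ℕ) (s : ℕ → ℂ) (τ : ℕ → ι → ℂ) (η ε : ℕ → ℝ)
    (A : ∀ j, Setoid (Fin (m j) → ι))
    (D : Dat p σ ℓ t (F.alpha p (Pi (rr σ ℓ) t)) m s τ η ε A) :
    ∀ᶠ j in atTop, ∃ w : ι → ℂ, InC (WW p σ ℓ t) w ∧ ∀ i, ‖τ j i - w i‖ ≤ √(max ‖s j‖ (η j)) := by
  obtain ⟨i0, _, hi0⟩ := Finset.exists_min_image Finset.univ ℓ Finset.univ_nonempty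
  have hℓ' : ∀ i, ℓ i0 ≤ ℓ i := fun i => hi0 i (Finset.mem_univ i)
  have hσ' : ∀ i, |σ i| ≤ 1 := fun i => by
    rcases hσ i with h1 | h1 <;> simp [h1]
  by_contra hcon
  rw [Filter.not_eventually] at hcon
  obtain ⟨φ, hφ, hφ2⟩ := extraction_of_frequently_atTop hcon
  -- at a bad index the distance is large
  have hbad : ∀ j, √(max ‖s (φ j)‖ (η (φ j))) < DJ σ ℓ p t 0 (s (φ j)) (τ (φ j)) := by
    intro j
    by_contra hle
    rw [not_lt] at hle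
    apply hφ2 j
    obtain ⟨a, b, ha, hb, hab⟩ := exists_close_of_DJ σ ℓ p t 0 (s (φ j)) (τ (φ j))
    refine ⟨fun i => a (0, i) + b (0, i) * Complex.I, ⟨?_, ?_⟩, fun i => ?_⟩
    · rw [jpair_zero hσ' hℓ' (hℓ i0)] at ha
      rw [mem_WW, rr_eq_rayR_zero]
      simpa using ha
    · rw [jpair_zero hσ' hℓ' (hℓ i0)] at hb
      rw [mem_WW, rr_eq_rayR_zero]
      simpa using hb
    · have := (hab (0, i)).trans hle
      simpa using this
  have hφt : Tendsto φ atTop atTop := hφ.tendsto_atTop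
  have hdeq : ∀ j, max (DJ σ ℓ p t 0 (s (φ j)) (τ (φ j))) (√‖s (φ j)‖) =
      DJ σ ℓ p t 0 (s (φ j)) (τ (φ j)) := by
    intro j
    refine max_eq_left (le_trans ?_ (hbad j).le)
    exact Real.sqrt_le_sqrt (le_max_left _ _)
  have hd0 : ∀ j, 0 < DJ σ ℓ p t 0 (s (φ j)) (τ (φ j)) := fun j =>
    lt_of_le_of_lt (Real.sqrt_nonneg _) (hbad j)
  obtain ⟨hc1, hc2, hc3⟩ := dat_conv D
  have key := hU.ev 0 (fun j => m (φ j)) (fun j => s (φ j)) (fun j => τ (φ j))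
    (fun j => η (φ j)) (fun j => DJ σ ℓ p t 0 (s (φ j)) (τ (φ j))) (fun j => A (φ j))
    (D.hm.comp hφt) (hc1.comp hφt) (hc2.comp hφt) (fun j => D.hη _)
    (fun κ hκ => by
      rw [alpha_eq_rayR]
      exact hφt.eventually (hc3 κ hκ))
    (fun j u v huv => ⟨D.hty _ huv, D.hcl _ u v huv⟩)
    (fun j => (hdeq j).symm) (Eventually.of_forall hd0)
    (Eventually.of_forall fun j => by
      have h1 := hbad j
      have h2 : max ‖s (φ j)‖ (η (φ j)) < DJ σ ℓ p t 0 (s (φ j)) (τ (φ j)) ^ 2 :=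
        (Real.sqrt_lt' (hd0 j)).mp h1
      have h3 := le_max_right ‖s (φ j)‖ (η (φ j))
      simpa using h3.trans h2.le)
    (tendsto_neg_log_div (D.hm.comp hφt) (Eventually.of_forall hd0)
      (K := 2 * Fintype.card ι + 1) (by positivity) fun C => by
        filter_upwards [hφt.eventually (dat_DJ_le hσ' hℓ' (hℓ i0) D C)] with j hj
        exact (le_max_left _ _).trans hj)
  obtain ⟨j, hj⟩ := key.exists
  simp at hj

/-- `JetClose` from (UNI) for all `J` -/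
theorem jetClose_of_uni (hσ : IsS σ) {ℓ t : ι → ℝ} (hℓ : ∀ i, 0 < ℓ i) [Nonempty ι]
    (hU : UniP p σ ℓ t) (m : ℕ → ℕ) (s : ℕ → ℂ) (τ : ℕ → ι → ℂ) (η ε : ℕ → ℝ)
    (A : ∀ j, Setoid (Fin (m j) → ι))
    (D : Dat p σ ℓ t (F.alpha p (Pi (rr σ ℓ) t)) m s τ η ε A) (hs0 : ∀ j, s j ≠ 0)
    (hη : ∀ J : ℕ, ∀ᶠ j in atTop, η j ≤ ‖s j‖ ^ J) :
    JetClose p σ ℓ (Pi (rr σ ℓ) t) s τ := by
  obtain ⟨i0, _, hi0⟩ := Finset.exists_min_image Finset.univ ℓ Finset.univ_nonempty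
  have hℓ' : ∀ i, ℓ i0 ≤ ℓ i := fun i => hi0 i (Finset.mem_univ i)
  have hσ' : ∀ i, |σ i| ≤ 1 := fun i => by
    rcases hσ i with h1 | h1 <;> simp [h1]
  set d : ℕ → ℝ := fun j => max (DJ σ ℓ p t 0 (s j) (τ j)) (√‖s j‖) with hd
  have hsq : ∀ j, 0 < √‖s j‖ := fun j => Real.sqrt_pos.mpr (norm_pos_iff.mpr (hs0 j))
  have hd0 : ∀ j, 0 < d j := fun j => lt_of_lt_of_le (hsq j) (le_max_right _ _)
  obtain ⟨hc1, hc2, hc3⟩ := dat_conv D
  have hpow : ∀ (J j : ℕ), ‖s j‖ ^ (J + 1) ≤ d j ^ (2 * J + 2) := by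
    intro J j
    have h1 : ‖s j‖ = √‖s j‖ ^ 2 := (Real.sq_sqrt (norm_nonneg _)).symm
    calc ‖s j‖ ^ (J + 1) = (√‖s j‖ ^ 2) ^ (J + 1) := by rw [← h1]
      _ = √‖s j‖ ^ (2 * J + 2) := by rw [← pow_mul]; congr 1
      _ ≤ _ := pow_le_pow_left₀ (Real.sqrt_nonneg _) (le_max_right _ _) _
  have key : ∀ J : ℕ, ∀ᶠ j in atTop, DJ σ ℓ p t J (s j) (τ j) < d j ^ (2 * J + 1) := fun J =>
    hU.ev J m s τ η d A D.hm hc1 hc2 D.hη
      (fun κ hκ => by
        rw [alpha_eq_rayR]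
        exact hc3 κ hκ)
      (fun j u v huv => ⟨D.hty _ huv, D.hcl _ u v huv⟩) (fun j => rfl)
      (Eventually.of_forall hd0)
      ((hη (J + 1)).mono fun j hj => hj.trans (hpow J j))
      (tendsto_neg_log_div D.hm (Eventually.of_forall hd0)
        (K := 2 * Fintype.card ι + 1) (by positivity) fun C => dat_DJ_le hσ' hℓ' (hℓ i0) D C)
  have hdeq : ∀ᶠ j in atTop, d j = √‖s j‖ := by
    filter_upwards [key 0] with j hj
    have h1 : DJ σ ℓ p t 0 (s j) (τ j) < d j := by simpa using hj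
    rcases max_choice (DJ σ ℓ p t 0 (s j) (τ j)) (√‖s j‖) with h2 | h2
    · exact absurd h2 (ne_of_gt h1)
    · exact h2
  have hs1 : ∀ᶠ j in atTop, ‖s j‖ < 1 := by
    have := hc1.norm
    rw [norm_zero] at this
    exact this.eventually_lt_const (by norm_num : (0:ℝ) < 1)
  intro J
  filter_upwards [key J, hdeq, hs1] with j h1 h2 h3
  obtain ⟨a, b, ha, hb, hab⟩ := exists_close_of_DJ σ ℓ p t J (s j) (τ j)
  rw [← rr_eq_rayR_zero] at ha hb
  refine ⟨a, b, ha, hb, fun x => (hab x).trans (h1.le.trans ?_)⟩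
  rw [h2]
  have h4 : √‖s j‖ ≤ 1 := by
    rw [Real.sqrt_le_one]
    exact h3.le
  calc √‖s j‖ ^ (2 * J + 1) ≤ √‖s j‖ ^ (2 * J) :=
        pow_le_pow_of_le_one (Real.sqrt_nonneg _) h4 (Nat.le_succ _)
    _ = ‖s j‖ ^ J := by rw [pow_mul, Real.sq_sqrt (norm_nonneg _)]

/-- the interface of the final logic from (UNI) -/
noncomputable def coreOfUni (hp : (∀ i, 0 ≤ p i) ∧ ∑ i, p i = 1) (hσ : IsS σ)
    (hU : ∀ ℓ t : ι → ℝ, (∀ i, 0 < ℓ i) → F.alpha p (Pi (rr σ ℓ) t) < chi p ℓ →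
      UniP p σ ℓ t) : Core p σ where
  α ℓ t := F.alpha p (Pi (rr σ ℓ) t)
  W ℓ t := WW p σ ℓ t
  self_mem ℓ t _ := mem_WW.mpr (Fac.self p _)
  W_le ℓ t t' _ h := fun t'' h'' => mem_WW.mpr ((mem_WW.mp h'').trans (mem_WW.mp h))
  α_le ℓ t t' hℓ h := by
    have hne : Nonempty ι := nonempty_of_sum hp
    exact alpha_le_of_fac hp (measurable_Pi_rr hσ hℓ t) (measurable_Pi_rr hσ hℓ t') (mem_WW.mp h)
  lt ℓ t hℓ hα m s τ η ε A D := by
    have hne : Nonempty ι := nonempty_of_sum hp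
    exact lt_of_uni hσ hℓ (hU ℓ t hℓ hα) m s τ η ε A D
  st ℓ t hℓ hα hh m s τ η ε A D hs0 hη := by
    have hne : Nonempty ι := nonempty_of_sum hp
    exact st_core hp hσ hℓ t hα hh (dat_conv D).1 (Frequently.of_forall hs0) (dat_conv D).2.1
      (jetClose_of_uni hσ hℓ (hU ℓ t hℓ hα) m s τ η ε A D hs0 hη)

end Build

end Crest.Agent.R98
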