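import Crest.Agent.R98.CoreInst
import Crest.Agent.R98.CoreMk

/-!
# Row 98: `LTP` and `STP` from (UNI) (helper587)
-/

set_option autoImplicit false

open Filter Topology Set Metric Finset MeasureTheory

namespace Crest.Agent.R98.Top

open Crest.Agent.R98

variable {ι : Type*} [Fintype ι] [MeasurableSpace ι] [DiscreteMeasurableSpace ι] {p σ : ι → ℝ}

theorem ltP_of_uni (hp : (∀ i, 0 ≤ p i) ∧ ∑ i, p i = 1) (hσ : IsS σ)
    (hU : ∀ ℓ t : ι → ℝ, (∀ i, 0 < ℓ i) → F.alpha p (Pi (rr σ ℓ) t) < chi p ℓ →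
      UniP p σ ℓ t) : LTP p σ := by
  intro ℓ t hℓ hα m s τ η ε A D
  exact (coreOfUni hp hσ hU).lt ℓ t hℓ hα m s τ η ε A D

theorem stP_of_uni (hp : (∀ i, 0 ≤ p i) ∧ ∑ i, p i = 1) (hσ : IsS σ)
    (hU : ∀ ℓ t : ι → ℝ, (∀ i, 0 < ℓ i) → F.alpha p (Pi (rr σ ℓ) t) < chi p ℓ →
      UniP p σ ℓ t) : STP p σ := by
  intro ℓ t hℓ hα hh m s τ η ε A D hs0 hη
  exact (coreOfUni hp hσ hU).st ℓ t hℓ hα hh m s τ η ε A D hs0 hη

end Crest.Agent.R98.Top
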