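import Mathlib
import Crest.Prelude.Def_SelfSimilar

/-!
Row 98, dimension part: basic facts on self-similar measures (iteration, compact support).
-/

set_option autoImplicit false
open MeasureTheory Crest.AnalysisR Set
open scoped ENNReal NNReal

namespace Crest.Agent.R98

section basic

variable {ι : Type*} [Fintype ι] {r t p : ι → ℝ} {μ : Measure ℝ}

theorem measurable_aff (a b : ℝ) : Measurable (fun x : ℝ => a * x + b) := by fun_prop

/-- self-similarity evaluated on a set -/
theorem selfSim_apply (hμ : IsSelfSimilarMeasure r t p μ) {E : Set ℝ} (hE : MeasurableSet E) :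
    μ E = ∑ i, ENNReal.ofReal (p i) * μ ((fun x => r i * x + t i) ⁻¹' E) := by
  conv_lhs => rw [hμ.2]
  rw [Measure.finsetSum_apply]
  refine Finset.sum_congr rfl fun i _ => ?_
  rw [Measure.smul_apply, Measure.map_apply (measurable_aff _ _) hE, smul_eq_mul]

theorem sum_ofReal_eq_one (hp : ∀ i, 0 ≤ p i) (hp₁ : ∑ i, p i = 1) :
    ∑ i, ENNReal.ofReal (p i) = 1 := by
  rw [← ENNReal.ofReal_sum_of_nonneg (fun i _ => hp i), hp₁, ENNReal.ofReal_one]

/-- There is a uniform contraction ratio. -/
theorem exists_ratio (hr : ∀ i, r i ≠ 0 ∧ |r i| < 1) :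
    ∃ ρ : ℝ, 0 < ρ ∧ ρ < 1 ∧ ∀ i, |r i| ≤ ρ := by
  classical
  rcases isEmpty_or_nonempty ι with h | h
  · exact ⟨1/2, by norm_num, by norm_num, fun i => h.elim i⟩
  · obtain ⟨i0, hi0⟩ := Finite.exists_max (fun i => |r i|)
    exact ⟨|r i0|, abs_pos.2 (hr i0).1, (hr i0).2, hi0⟩

theorem exists_ratio_lower (hr : ∀ i, r i ≠ 0 ∧ |r i| < 1) :
    ∃ c : ℝ, 0 < c ∧ c ≤ 1 ∧ ∀ i, c ≤ |r i| := by
  classical
  rcases isEmpty_or_nonempty ι with h | h
  · exact ⟨1/2, by norm_num, by norm_num, fun i => h.elim i⟩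
  · obtain ⟨i0, hi0⟩ := Finite.exists_min (fun i => |r i|)
    exact ⟨|r i0|, abs_pos.2 (hr i0).1, (hr i0).2.le, hi0⟩

/-- The measure lives on a compact interval. -/
theorem exists_supp (hr : ∀ i, r i ≠ 0 ∧ |r i| < 1) (hp : ∀ i, 0 ≤ p i) (hp₁ : ∑ i, p i = 1)
    (hμ : IsSelfSimilarMeasure r t p μ) :
    ∃ R : ℕ, 0 < R ∧ μ (Icc (-(R:ℝ)) R)ᶜ = 0 ∧
      (∀ i, ∀ x ∈ Icc (-(R:ℝ)) R, r i * x + t i ∈ Icc (-(R:ℝ)) R) := by
  classical
  have := hμ.1
  obtain ⟨ρ, hρ0, hρ1, hρ⟩ := exists_ratio hr
  obtain ⟨T, hT0, hT⟩ : ∃ T : ℝ, 0 ≤ T ∧ ∀ i, |t i| ≤ T := by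
    refine ⟨∑ i, |t i|, Finset.sum_nonneg fun i _ => abs_nonneg _, fun i => ?_⟩
    exact Finset.single_le_sum (f := fun i => |t i|) (fun i _ => abs_nonneg _) (Finset.mem_univ i)
  obtain ⟨R, hR⟩ := exists_nat_gt (max 1 (T / (1 - ρ)))
  have hR1 : (1:ℝ) < R := lt_of_le_of_lt (le_max_left _ _) hR
  have hR2 : T / (1 - ρ) < R := lt_of_le_of_lt (le_max_right _ _) hR
  have h1ρ : 0 < 1 - ρ := by linarith
  have hTR : T ≤ R * (1 - ρ) := by
    rw [div_lt_iff₀ h1ρ] at hR2; linarith
  -- the basic mapping property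
  have hmap : ∀ s : ℝ, 0 ≤ s → ∀ i, ∀ x : ℝ, |x| ≤ R + s → |r i * x + t i| ≤ R + ρ * s := by
    intro s hs i x hx
    calc |r i * x + t i| ≤ |r i| * |x| + |t i| := by
          rw [← abs_mul]; exact abs_add_le _ _
      _ ≤ ρ * (R + s) + T := by
          have := hρ i
          have h2 := hT i
          have h3 : |r i| * |x| ≤ ρ * (R + s) := mul_le_mul this hx (abs_nonneg _) hρ0.le
          linarith
      _ ≤ R + ρ * s := by nlinarith
  refine ⟨R, by exact_mod_cast (by linarith : (0:ℝ) < R), ?_, ?_⟩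
  · -- measure of the closed balls
    set B : ℝ → Set ℝ := fun s => {x : ℝ | |x| ≤ R + s} with hB
    have hBm : ∀ s, MeasurableSet (B s) := fun s =>
      measurableSet_le (by fun_prop) measurable_const
    have hstep : ∀ s : ℝ, 0 ≤ s → μ (B s) ≤ μ (B (ρ * s)) := by
      intro s hs
      rw [selfSim_apply hμ (hBm (ρ * s))]
      calc μ (B s) = ∑ i, ENNReal.ofReal (p i) * μ (B s) := by
            rw [← Finset.sum_mul, sum_ofReal_eq_one hp hp₁, one_mul]
        _ ≤ _ := by
            refine Finset.sum_le_sum fun i _ => ?_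
            gcongr
            intro x hx
            exact hmap s hs i x hx
    have hstepn : ∀ s : ℝ, 0 ≤ s → ∀ n : ℕ, μ (B s) ≤ μ (B (ρ ^ n * s)) := by
      intro s hs n
      induction n with
      | zero => simp
      | succ n ih =>
        refine ih.trans ((hstep _ (by positivity)).trans (le_of_eq ?_))
        congr 2; ring
    have hlim : ∀ s : ℝ, 0 ≤ s → μ (B s) ≤ μ (B 0) := by
      intro s hs
      have hanti : Antitone fun n : ℕ => B (ρ ^ n * s) := by
        intro m n hmn x hx
        simp only [hB, mem_ofPred_eq] at hx ⊢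
        have : ρ ^ n ≤ ρ ^ m := pow_le_pow_of_le_one hρ0.le hρ1.le hmn
        nlinarith
      have h0 : ⋂ n : ℕ, B (ρ ^ n * s) = B 0 := by
        ext x
        simp only [hB, mem_iInter, mem_ofPred_eq, add_zero]
        constructor
        · intro h
          have ht : Filter.Tendsto (fun n : ℕ => (R:ℝ) + ρ ^ n * s) Filter.atTop
              (nhds ((R:ℝ) + 0 * s)) :=
            tendsto_const_nhds.add ((tendsto_pow_atTop_nhds_zero_of_lt_one hρ0.le hρ1).mul_const _)
          have := ge_of_tendsto' ht h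
          simpa using this
        · intro h n
          have : 0 ≤ ρ ^ n * s := by positivity
          linarith
      have ht := tendsto_measure_iInter_atTop (μ := μ) (s := fun n : ℕ => B (ρ ^ n * s))
        (fun n => (hBm _).nullMeasurableSet) hanti ⟨0, measure_ne_top _ _⟩
      rw [h0] at ht
      exact ge_of_tendsto' ht (hstepn s hs)
    have hone : μ (B 0) = 1 := by
      apply le_antisymm prob_le_one
      have hmono : Monotone fun n : ℕ => B (n:ℝ) := by
        intro m n hmn x hx
        simp only [hB, mem_ofPred_eq] at hx ⊢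
        have : (m:ℝ) ≤ n := by exact_mod_cast hmn
        linarith
      have hU : ⋃ n : ℕ, B (n:ℝ) = univ := by
        ext x
        simp only [hB, mem_iUnion, mem_ofPred_eq, mem_univ, iff_true]
        obtain ⟨n, hn⟩ := exists_nat_gt |x|
        exact ⟨n, by linarith⟩
      have ht := tendsto_measure_iUnion_atTop (μ := μ) hmono
      rw [hU, measure_univ] at ht
      exact le_of_tendsto' ht fun n => hlim n (Nat.cast_nonneg n)
    have hBI : B 0 = Icc (-(R:ℝ)) R := by
      ext x; simp only [hB, mem_ofPred_eq, add_zero, abs_le, mem_Icc]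
    rw [← hBI]
    rw [prob_compl_eq_zero_iff (hBm 0)]
    exact hone
  · intro i x hx
    have := hmap 0 le_rfl i x (by rw [add_zero]; exact abs_le.2 hx)
    rw [mul_zero, add_zero] at this
    exact abs_le.1 this

end basic

section words

variable {ι : Type*} [Fintype ι] {r t p : ι → ℝ} {μ : Measure ℝ}

/-- ratio of a word -/
noncomputable def wR (r : ι → ℝ) {n : ℕ} (w : Fin n → ι) : ℝ := ∏ j, r (w j)

/-- translation part of a word -/
noncomputable def wT (r t : ι → ℝ) {n : ℕ} (w : Fin n → ι) : ℝ :=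
  affineWordMap r t (List.ofFn w) 0

omit [Fintype ι] in
theorem affineWordMap_nil : affineWordMap r t [] = id := rfl

omit [Fintype ι] in
theorem affineWordMap_cons (i : ι) (w : List ι) :
    affineWordMap r t (i :: w) = fun x => r i * affineWordMap r t w x + t i := rfl

omit [Fintype ι] in
theorem affineWordMap_eq (w : List ι) (x : ℝ) :
    affineWordMap r t w x = (w.map r).prod * x + affineWordMap r t w 0 := by
  induction w with
  | nil => simp [affineWordMap_nil]
  | cons i w ih =>
    rw [affineWordMap_cons]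
    simp only [List.map_cons, List.prod_cons]
    rw [ih]; ring

omit [Fintype ι] in
theorem affineWordMap_ofFn {n : ℕ} (w : Fin n → ι) :
    affineWordMap r t (List.ofFn w) = fun x => wR r w * x + wT r t w := by
  funext x
  rw [affineWordMap_eq, wR, wT]
  congr 2
  rw [List.map_ofFn, List.prod_ofFn]
  rfl

/-- iterated self-similarity evaluated on a set -/
theorem selfSim_apply_words (hμ : IsSelfSimilarMeasure r t p μ) (hp : ∀ i, 0 ≤ p i) (n : ℕ)
    {E : Set ℝ} (hE : MeasurableSet E) :
    μ E = ∑ w : Fin n → ι, ENNReal.ofReal (∏ j, p (w j)) *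
      μ ((affineWordMap r t (List.ofFn w)) ⁻¹' E) := by
  induction n generalizing E with
  | zero =>
    simp [affineWordMap_nil]
  | succ n ih =>
    rw [selfSim_apply hμ hE]
    rw [← (Fin.consEquiv (fun _ : Fin (n+1) => ι)).sum_comp, Fintype.sum_prod_type]
    refine Finset.sum_congr rfl fun i _ => ?_
    rw [ih (measurable_aff _ _ hE), Finset.mul_sum]
    refine Finset.sum_congr rfl fun w _ => ?_
    have h1 : (Fin.consEquiv fun x : Fin (n+1) => ι) (i, w) = (Fin.cons i w : Fin (n+1) → ι) := rfl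
    rw [h1, Fin.prod_univ_succ, List.ofFn_succ]
    simp only [Fin.cons_zero, Fin.cons_succ]
    rw [ENNReal.ofReal_mul (hp i), mul_assoc, affineWordMap_cons]
    rfl

end words

end Crest.Agent.R98
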