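import Crest.Agent.R98.DimBasic

/-!
Row 98, dimension part: dyadic cells, `L^q` sums, submultiplicativity.
-/

set_option autoImplicit false
open MeasureTheory Crest.AnalysisR Set Filter Topology
open scoped ENNReal NNReal

namespace Crest.Agent.R98

/-- index of the dyadic cell of level `n` containing `x` -/
noncomputable def fl (n : ℕ) (x : ℝ) : ℤ := ⌊(2:ℝ) ^ n * x⌋

/-- dyadic cell of level `n` and index `k` -/
def cell (n : ℕ) (k : ℤ) : Set ℝ := {x | fl n x = k}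

theorem measurable_fl (n : ℕ) : Measurable (fl n) := by
  unfold fl
  exact Int.measurable_floor.comp (measurable_const.mul measurable_id)

theorem measurableSet_cell (n : ℕ) (k : ℤ) : MeasurableSet (cell n k) := by
  have : cell n k = fl n ⁻¹' {k} := rfl
  rw [this]
  exact measurable_fl n (MeasurableSet.singleton k)

theorem tsum_cell_inter (μ : Measure ℝ) (n : ℕ) {A : Set ℝ} (hA : MeasurableSet A) :
    ∑' k : ℤ, μ (A ∩ cell n k) = μ A := by
  rw [← measure_iUnion]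
  · congr 1
    ext x
    simp only [mem_iUnion, mem_inter_iff]
    exact ⟨fun ⟨k, h, _⟩ => h, fun h => ⟨fl n x, h, rfl⟩⟩
  · intro k l hkl
    apply Set.disjoint_left.2
    rintro x ⟨_, h1⟩ ⟨_, h2⟩
    exact hkl (h1.symm.trans h2)
  · exact fun k => hA.inter (measurableSet_cell n k)

/-- the `L^q` sum -/
noncomputable def tau (μ : Measure ℝ) (n : ℕ) (q : ℝ) : ℝ≥0∞ := ∑' k : ℤ, μ (cell n k) ^ q

/-! ### inequalities for sums of powers -/

theorem tsum_rpow_le_rpow_tsum {I : Type*} (a : I → ℝ≥0∞) {q : ℝ} (hq : 1 ≤ q) :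
    ∑' i, a i ^ q ≤ (∑' i, a i) ^ q := by
  set S := ∑' i, a i with hS
  have h1 : ∀ i, a i ^ q ≤ a i * S ^ (q - 1) := by
    intro i
    have hle : a i ≤ S := ENNReal.le_tsum i
    calc a i ^ q = a i ^ (1 + (q - 1)) := by ring_nf
      _ = a i * a i ^ (q - 1) := by
          rw [ENNReal.rpow_add_of_nonneg _ _ zero_le_one (by linarith), ENNReal.rpow_one]
      _ ≤ a i * S ^ (q - 1) := by
          gcongr
  calc ∑' i, a i ^ q ≤ ∑' i, a i * S ^ (q - 1) := ENNReal.tsum_le_tsum h1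
    _ = S * S ^ (q - 1) := by rw [ENNReal.tsum_mul_right]
    _ = S ^ (1 + (q - 1)) := by
        rw [ENNReal.rpow_add_of_nonneg _ _ zero_le_one (by linarith), ENNReal.rpow_one]
    _ = S ^ q := by ring_nf

theorem rpow_tsum_le {J : Type*} (a : J → ℝ≥0∞) (s : Finset J) (K : ℕ) (hK : s.card ≤ K)
    (hs : ∀ j, j ∉ s → a j = 0) {q : ℝ} (hq : 1 ≤ q) :
    (∑' j, a j) ^ q ≤ (K : ℝ≥0∞) ^ (q - 1) * ∑' j, a j ^ q := by
  rw [tsum_eq_sum (s := s) (fun j hj => hs j hj)]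
  calc (∑ j ∈ s, a j) ^ q ≤ (s.card : ℝ≥0∞) ^ (q - 1) * ∑ j ∈ s, a j ^ q :=
        ENNReal.rpow_sum_le_const_mul_sum_rpow _ _ hq
    _ ≤ (K : ℝ≥0∞) ^ (q - 1) * ∑' j, a j ^ q := by
        gcongr
        exact ENNReal.sum_le_tsum s

/-- matrix lemma -/
theorem matrix_rpow_le {I J : Type*} (α : I → J → ℝ≥0∞) (s : I → Finset J) (K : ℕ)
    (hK : ∀ i, (s i).card ≤ K) (hs : ∀ i j, j ∉ s i → α i j = 0) {q : ℝ} (hq : 1 ≤ q) :
    ∑' i, (∑' j, α i j) ^ q ≤ (K : ℝ≥0∞) ^ (q - 1) * ∑' j, (∑' i, α i j) ^ q := by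
  calc ∑' i, (∑' j, α i j) ^ q ≤ ∑' i, (K : ℝ≥0∞) ^ (q - 1) * ∑' j, α i j ^ q :=
        ENNReal.tsum_le_tsum fun i => rpow_tsum_le _ (s i) K (hK i) (hs i) hq
    _ = (K : ℝ≥0∞) ^ (q - 1) * ∑' j, ∑' i, α i j ^ q := by
        rw [ENNReal.tsum_mul_left, ENNReal.tsum_comm]
    _ ≤ _ := by
        gcongr with j
        exact tsum_rpow_le_rpow_tsum _ hq

/-- weighted power mean inequality -/
theorem weighted_rpow_le {J : Type*} (s : Finset J) (w x : J → ℝ≥0∞) {q : ℝ} (hq : 1 ≤ q) :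
    (∑ j ∈ s, w j * x j) ^ q ≤ (∑ j ∈ s, w j) ^ (q - 1) * ∑ j ∈ s, w j * x j ^ q := by
  have h := ENNReal.inner_le_weight_mul_Lp_of_nonneg s hq w x
  have hq0 : 0 < q := by linarith
  calc (∑ j ∈ s, w j * x j) ^ q
      ≤ ((∑ i ∈ s, w i) ^ (1 - q⁻¹) * (∑ i ∈ s, w i * x i ^ q) ^ q⁻¹) ^ q :=
        ENNReal.rpow_le_rpow h hq0.le
    _ = _ := by
        rw [ENNReal.mul_rpow_of_nonneg _ _ hq0.le, ← ENNReal.rpow_mul, ← ENNReal.rpow_mul,
          inv_mul_cancel₀ hq0.ne', ENNReal.rpow_one, sub_mul, inv_mul_cancel₀ hq0.ne', one_mul]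

/-! ### floors -/

theorem floor_mem_Icc_of_abs_sub_le {x y : ℝ} {R : ℕ} (h : |x - y| ≤ R) :
    ⌊x⌋ ∈ Finset.Icc (⌊y⌋ - R) (⌊y⌋ + R) := by
  rw [abs_le] at h
  rw [Finset.mem_Icc]
  constructor
  · have : ⌊y⌋ - (R:ℤ) = ⌊y - (R:ℕ)⌋ := by rw [Int.floor_sub_natCast]
    rw [this]
    apply Int.floor_le_floor
    linarith [h.1]
  · have : ⌊y⌋ + (R:ℤ) = ⌊y + (R:ℕ)⌋ := by rw [Int.floor_add_natCast]
    rw [this]
    apply Int.floor_le_floor
    linarith [h.2]

theorem card_Icc_symm (k : ℤ) (R : ℕ) : (Finset.Icc (k - R) (k + R)).card ≤ 2 * R + 1 := by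
  rw [Int.card_Icc]
  have : (k + R + 1 - (k - R)) = ((2 * R + 1 : ℕ) : ℤ) := by push_cast; ring
  rw [this, Int.toNat_natCast]

theorem fl_coarse (n m : ℕ) (x : ℝ) : fl n x = fl (n + m) x / 2 ^ m := by
  unfold fl
  have h1 : (2:ℝ) ^ n * x = ((2:ℝ) ^ (n + m) * x) / ((2 ^ m : ℕ) : ℝ) := by
    push_cast
    rw [pow_add]; field_simp
  rw [h1, Int.floor_div_natCast]
  push_cast
  rfl

/-! ### stopping decomposition -/

universe u

theorem exists_decomp {ι : Type u} [Fintype ι] {r t p : ι → ℝ} {μ : Measure ℝ}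
    (hr : ∀ i, r i ≠ 0 ∧ |r i| < 1) (hp : ∀ i, 0 ≤ p i) (hp₁ : ∑ i, p i = 1)
    (hμ : IsSelfSimilarMeasure r t p μ) {c : ℝ} (hc0 : 0 < c) (hc1 : c ≤ 1)
    (hc : ∀ i, c ≤ |r i|) {b : ℝ} (hb0 : 0 < b) (hb1 : b ≤ 1) :
    ∃ (J : Type u) (_ : Fintype J) (w ρ τ : J → ℝ), (∀ j, 0 ≤ w j) ∧ ∑ j, w j = 1 ∧
      (∀ j, c * b ≤ |ρ j| ∧ |ρ j| ≤ b) ∧
      ∀ E, MeasurableSet E → μ E = ∑ j, ENNReal.ofReal (w j) * μ ((fun x => ρ j * x + τ j) ⁻¹' E) := by
  classical
  obtain ⟨θ, hθ0, hθ1, hθ⟩ := exists_ratio hr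
  have key : ∀ n : ℕ, ∃ (J : Type u) (_ : Fintype J) (w ρ τ : J → ℝ), (∀ j, 0 ≤ w j) ∧
      ∑ j, w j = 1 ∧ (∀ j, (c * b ≤ |ρ j| ∧ |ρ j| ≤ b) ∨ (b < |ρ j| ∧ |ρ j| ≤ θ ^ n)) ∧
      ∀ E, MeasurableSet E →
        μ E = ∑ j, ENNReal.ofReal (w j) * μ ((fun x => ρ j * x + τ j) ⁻¹' E) := by
    intro n
    induction n with
    | zero =>
      refine ⟨PUnit, inferInstance, fun _ => 1, fun _ => 1, fun _ => 0, fun _ => zero_le_one, by simp,
        fun _ => ?_, fun E _ => by simp⟩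
      simp only [abs_one, pow_zero, le_refl, and_true]
      rcases lt_or_eq_of_le hb1 with h | h
      · exact Or.inr h
      · left; rw [h]; exact ⟨by linarith, le_rfl⟩
    | succ n ih =>
      obtain ⟨J, _, w, ρ, τ, hw, hw1, hρ, hE⟩ := ih
      refine ⟨J × ι, inferInstance, fun x => w x.1 * p x.2,
        fun x => if |ρ x.1| ≤ b then ρ x.1 else ρ x.1 * r x.2,
        fun x => if |ρ x.1| ≤ b then τ x.1 else ρ x.1 * t x.2 + τ x.1,
        fun x => mul_nonneg (hw _) (hp _), ?_, ?_, ?_⟩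
      · rw [Fintype.sum_prod_type]
        simp_rw [← Finset.mul_sum, hp₁, mul_one]
        exact hw1
      · rintro ⟨j, i⟩
        by_cases h : |ρ j| ≤ b
        · simp only [h, if_true]
          left
          rcases hρ j with h' | h'
          · exact ⟨h'.1, trivial⟩
          · exact absurd h (not_le.2 h'.1)
        · simp only [h, if_false]
          have h' := hρ j
          rcases h' with h' | h'
          · exact absurd h'.2 h
          · have h3 : |ρ j * r i| ≤ θ ^ (n + 1) := by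
              rw [abs_mul, pow_succ]
              exact mul_le_mul h'.2 (hθ i) (abs_nonneg _) (by positivity)
            have h4 : c * b ≤ |ρ j * r i| := by
              rw [abs_mul, mul_comm c b]
              exact mul_le_mul h'.1.le (hc i) hc0.le (abs_nonneg _)
            rcases le_or_gt |ρ j * r i| b with h5 | h5
            · exact Or.inl ⟨h4, h5⟩
            · exact Or.inr ⟨h5, h3⟩
      · intro E hEm
        rw [hE E hEm, Fintype.sum_prod_type]
        refine Finset.sum_congr rfl fun j _ => ?_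
        by_cases h : |ρ j| ≤ b
        · simp only [h, if_true]
          have h1 : ∀ i, ENNReal.ofReal (w j * p i) = ENNReal.ofReal (w j) * ENNReal.ofReal (p i) :=
            fun i => ENNReal.ofReal_mul (hw j)
          simp_rw [h1]
          rw [← Finset.sum_mul, ← Finset.mul_sum, sum_ofReal_eq_one hp hp₁, mul_one]
        · simp only [h, if_false]
          have h1 : ∀ i, ENNReal.ofReal (w j * p i) = ENNReal.ofReal (w j) * ENNReal.ofReal (p i) :=
            fun i => ENNReal.ofReal_mul (hw j)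
          simp_rw [h1]
          rw [selfSim_apply hμ (measurable_aff _ _ hEm), Finset.mul_sum]
          refine Finset.sum_congr rfl fun i _ => ?_
          rw [mul_assoc]
          congr 3
          ext x
          simp only [mem_preimage]
          have : ρ j * (r i * x + t i) + τ j = ρ j * r i * x + (ρ j * t i + τ j) := by ring
          rw [this]
  obtain ⟨n, hn⟩ : ∃ n : ℕ, θ ^ n < b := exists_pow_lt_of_lt_one hb0 hθ1
  obtain ⟨J, hJ, w, ρ, τ, hw, hw1, hρ, hE⟩ := key n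
  refine ⟨J, hJ, w, ρ, τ, hw, hw1, fun j => ?_, hE⟩
  rcases hρ j with h | h
  · exact h
  · linarith [h.1, h.2]

end Crest.Agent.R98
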