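import Crest.Agent.R98.DimBasic

/-!
Row 98, dimension part: the upper bound
`lowerHausdorffDim μ ≤ ENNReal.ofReal (min 1 (rwEntropyRate r t p / lyapunovExp r p))`.
-/

set_option autoImplicit false
open MeasureTheory Crest.AnalysisR Set Filter Topology
open scoped ENNReal NNReal

namespace Crest.Agent.R98

theorem exists_lt_of_deriv_neg {F : ℝ → ℝ} {d : ℝ} (h : HasDerivAt F d 0) (hd : d < 0) :
    ∃ δ : ℝ, 0 < δ ∧ δ < 1 ∧ F δ < F 0 := by
  have h1 := hasDerivAt_iff_tendsto_slope.1 h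
  have h2 : ∀ᶠ x in 𝓝[≠] (0:ℝ), slope F 0 x < 0 := h1.eventually (gt_mem_nhds hd)
  have h3 : ∀ᶠ x in 𝓝[>] (0:ℝ), slope F 0 x < 0 :=
    h2.filter_mono (nhdsWithin_mono _ (fun x hx => ne_of_gt hx))
  have h4 : ∀ᶠ x in 𝓝[>] (0:ℝ), x ∈ Ioo (0:ℝ) 1 := Ioo_mem_nhdsGT one_pos
  obtain ⟨x, hx1, hx2⟩ := (h3.and h4).exists
  refine ⟨x, hx2.1, hx2.2, ?_⟩
  rw [slope_def_field, sub_zero] at hx1
  have := (div_neg_iff.1 hx1)
  rcases this with ⟨_, h⟩ | ⟨h, _⟩
  · linarith [hx2.1]
  · linarith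

section claim

variable {ι : Type*} [Fintype ι] [Nonempty ι] {r t p : ι → ℝ} {μ : Measure ℝ}

omit [Nonempty ι] in
theorem sum_prod_words (φ : ι → ℝ) (n : ℕ) :
    ∑ w : Fin n → ι, ∏ j, φ (w j) = (∑ i, φ i) ^ n := by
  rw [Fintype.sum_pow]

omit [Nonempty ι] in
theorem sum_prod_words_one (hp₁ : ∑ i, p i = 1) (n : ℕ) :
    ∑ w : Fin n → ι, ∏ j, p (w j) = 1 := by
  rw [sum_prod_words, hp₁, one_pow]

theorem lyap_pos (hr : ∀ i, r i ≠ 0 ∧ |r i| < 1) (hp : ∀ i, 0 < p i) :
    0 < lyapunovExp r p := by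
  unfold lyapunovExp
  rw [← Finset.sum_neg_distrib]
  refine Finset.sum_pos (fun i _ => ?_) Finset.univ_nonempty
  have := Real.log_neg (abs_pos.2 (hr i).1) (hr i).2
  have := hp i
  nlinarith

omit [Nonempty ι] in
theorem p_le_one (hp : ∀ i, 0 < p i) (hp₁ : ∑ i, p i = 1) (i : ι) : p i ≤ 1 := by
  rw [← hp₁]
  exact Finset.single_le_sum (fun i _ => (hp i).le) (Finset.mem_univ i)

/-- Key set construction. -/
theorem exists_small_set (hr : ∀ i, r i ≠ 0 ∧ |r i| < 1) (hp : ∀ i, 0 < p i)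
    (hp₁ : ∑ i, p i = 1) (hμ : IsSelfSimilarMeasure r t p μ) {s : ℝ} (hs0 : 0 < s)
    (hs : (∑ i, Real.negMulLog (p i)) < s * lyapunovExp r p) :
    ∃ E : Set ℝ, MeasurableSet E ∧ 0 < μ E ∧ dimH E ≤ ENNReal.ofReal s := by
  classical
  have := hμ.1
  obtain ⟨R, hR0, hRμ, -⟩ := exists_supp hr (fun i => (hp i).le) hp₁ hμ
  obtain ⟨ρ, hρ0, hρ1, hρ⟩ := exists_ratio hr
  -- the pressure-like function
  set b : ι → ℝ := fun i => |r i| ^ s / p i with hb
  have hrpos : ∀ i, 0 < |r i| := fun i => abs_pos.2 (hr i).1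
  have hbpos : ∀ i, 0 < b i := fun i => div_pos (Real.rpow_pos_of_pos (hrpos i) _) (hp i)
  set F : ℝ → ℝ := fun δ => ∑ i, p i * b i ^ δ with hF
  have hFd : HasDerivAt F (∑ i, p i * (b i ^ (0:ℝ) * Real.log (b i))) 0 := by
    apply HasDerivAt.fun_sum
    intro i _
    apply HasDerivAt.const_mul
    have := (Real.hasStrictDerivAt_const_rpow (hbpos i) 0).hasDerivAt
    exact this
  have hF0 : F 0 = 1 := by simp [hF, hp₁]
  have hneg : (∑ i, p i * (b i ^ (0:ℝ) * Real.log (b i))) < 0 := by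
    have h1 : ∀ i, p i * (b i ^ (0:ℝ) * Real.log (b i))
        = s * (p i * Real.log |r i|) + Real.negMulLog (p i) := by
      intro i
      rw [Real.rpow_zero, one_mul, hb]
      simp only
      rw [Real.log_div (Real.rpow_pos_of_pos (hrpos i) _).ne' (hp i).ne', Real.log_rpow (hrpos i),
        Real.negMulLog]
      ring
    simp_rw [h1]
    rw [Finset.sum_add_distrib, ← Finset.mul_sum]
    have h2 : ∑ i, p i * Real.log |r i| = - lyapunovExp r p := by simp [lyapunovExp]
    rw [h2]; linarith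
  obtain ⟨δ, hδ0, hδ1, hδ⟩ := exists_lt_of_deriv_neg hFd hneg
  rw [hF0] at hδ
  set θ := F δ with hθ
  have hθ0 : 0 < θ := by
    rw [hθ, hF]
    exact Finset.sum_pos (fun i _ => mul_pos (hp i) (Real.rpow_pos_of_pos (hbpos i) _))
      Finset.univ_nonempty
  set a := Real.sqrt θ with ha
  have ha0 : 0 < a := Real.sqrt_pos.2 hθ0
  have ha1 : a < 1 := by rw [ha]; rw [Real.sqrt_lt' one_pos]; simpa using hδ
  have haa : a * a = θ := Real.mul_self_sqrt hθ0.le
  set κ := a ^ (1 / δ) with hκ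
  have hκ0 : 0 < κ := Real.rpow_pos_of_pos ha0 _
  have hκ1 : κ < 1 := Real.rpow_lt_one ha0.le ha1 (by positivity)
  have hκδ : κ ^ δ = a := by
    rw [hκ, ← Real.rpow_mul ha0.le, one_div_mul_cancel hδ0.ne', Real.rpow_one]
  -- words
  set P : ∀ n : ℕ, (Fin n → ι) → ℝ := fun n w => ∏ j, p (w j) with hP
  have hPpos : ∀ n w, 0 < P n w := fun n w => Finset.prod_pos fun j _ => hp _
  set Q : ∀ n : ℕ, (Fin n → ι) → ℝ := fun n w => |wR r w| ^ s with hQ
  have habsR : ∀ n (w : Fin n → ι), |wR r w| = ∏ j, |r (w j)| := by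
    intro n w; rw [wR, Finset.abs_prod]
  have hRpos : ∀ n (w : Fin n → ι), 0 < |wR r w| := by
    intro n w; rw [habsR]; exact Finset.prod_pos fun j _ => hrpos _
  have hQpos : ∀ n w, 0 < Q n w := fun n w => Real.rpow_pos_of_pos (hRpos n w) _
  have hQP : ∀ n (w : Fin n → ι), Q n w / P n w = ∏ j, b (w j) := by
    intro n w
    simp only [hQ, hP, hb]
    rw [habsR, Finset.prod_div_distrib, ← Real.finsetProd_rpow _ _ (fun j _ => (hrpos _).le)]
  let G : ∀ n : ℕ, Finset (Fin n → ι) := fun n => Finset.univ.filter fun w => Q n w < κ ^ n * P n w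
  have hGc : ∀ n, ∑ w ∈ (G n)ᶜ, P n w ≤ a ^ n := by
    intro n
    have h1 : ∀ w ∈ (G n)ᶜ, P n w ≤ P n w * (∏ j, b (w j) ^ δ) * (a ^ n)⁻¹ := by
      intro w hw
      have hw' : κ ^ n * P n w ≤ Q n w := by
        simpa [G] using hw
      have h2 : κ ^ n ≤ ∏ j, b (w j) := by
        rw [← hQP, le_div_iff₀ (hPpos n w)]; exact hw'
      have h3 : a ^ n ≤ ∏ j, b (w j) ^ δ := by
        rw [Real.finsetProd_rpow _ _ (fun j _ => (hbpos _).le), ← hκδ, ← Real.rpow_natCast,
          ← Real.rpow_mul hκ0.le, mul_comm, Real.rpow_mul hκ0.le]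
        exact Real.rpow_le_rpow (by positivity) (by rw [Real.rpow_natCast]; exact h2) hδ0.le
      have h4 : 0 < a ^ n := by positivity
      rw [mul_assoc]
      apply le_mul_of_one_le_right (hPpos n w).le
      rw [← div_eq_mul_inv, le_div_iff₀ h4, one_mul]
      exact h3
    calc ∑ w ∈ (G n)ᶜ, P n w ≤ ∑ w ∈ (G n)ᶜ, P n w * (∏ j, b (w j) ^ δ) * (a ^ n)⁻¹ :=
          Finset.sum_le_sum h1
      _ ≤ ∑ w, P n w * (∏ j, b (w j) ^ δ) * (a ^ n)⁻¹ := by
          apply Finset.sum_le_sum_of_subset_of_nonneg (Finset.subset_univ _)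
          intro w _ _
          have : 0 ≤ ∏ j, b (w j) ^ δ :=
            Finset.prod_nonneg fun j _ => Real.rpow_nonneg (hbpos _).le _
          have := (hPpos n w).le
          positivity
      _ = (∑ w : Fin n → ι, ∏ j, (p (w j) * b (w j) ^ δ)) * (a ^ n)⁻¹ := by
          rw [Finset.sum_mul]
          refine Finset.sum_congr rfl fun w _ => ?_
          rw [Finset.prod_mul_distrib]
      _ = θ ^ n * (a ^ n)⁻¹ := by
          rw [sum_prod_words (fun i => p i * b i ^ δ)]
      _ = a ^ n := by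
          rw [← haa, mul_pow]; field_simp
  -- the sets
  let I : Set ℝ := Icc (-(R:ℝ)) R
  let Tn : ∀ n : ℕ, (Fin n → ι) → Set ℝ := fun n w => (affineWordMap r t (List.ofFn w)) '' I
  have hTcomp : ∀ n w, IsCompact (Tn n w) := by
    intro n w
    apply isCompact_Icc.image
    rw [affineWordMap_ofFn]; fun_prop
  let E : ℕ → Set ℝ := fun n => ⋃ w ∈ G n, Tn n w
  have hEm : ∀ n, MeasurableSet (E n) := fun n =>
    Finset.measurableSet_biUnion _ fun w _ => (hTcomp n w).isClosed.measurableSet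
  have hμE : ∀ n, μ (E n)ᶜ ≤ ENNReal.ofReal (a ^ n) := by
    intro n
    rw [selfSim_apply_words hμ (fun i => (hp i).le) n (hEm n).compl]
    calc ∑ w : Fin n → ι, ENNReal.ofReal (∏ j, p (w j)) *
          μ ((affineWordMap r t (List.ofFn w)) ⁻¹' (E n)ᶜ)
        ≤ ∑ w : Fin n → ι, if w ∈ (G n)ᶜ then ENNReal.ofReal (P n w) else 0 := by
          refine Finset.sum_le_sum fun w _ => ?_
          split_ifs with hw
          · exact mul_le_of_le_one_right' prob_le_one
          · have hw' : w ∈ G n := by simpa using hw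
            have : μ ((affineWordMap r t (List.ofFn w)) ⁻¹' (E n)ᶜ) = 0 := by
              apply measure_mono_null _ hRμ
              intro x hx hxI
              apply hx
              simp only [E, mem_iUnion]
              exact ⟨w, hw', mem_image_of_mem _ hxI⟩
            rw [this, mul_zero]
      _ = ∑ w ∈ (G n)ᶜ, ENNReal.ofReal (P n w) := by
          rw [← Finset.sum_filter]; congr 1; ext w; simp
      _ = ENNReal.ofReal (∑ w ∈ (G n)ᶜ, P n w) :=
          (ENNReal.ofReal_sum_of_nonneg fun w _ => (hPpos n w).le).symm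
      _ ≤ ENNReal.ofReal (a ^ n) := ENNReal.ofReal_le_ofReal (hGc n)
  -- choose N
  obtain ⟨N, hN⟩ : ∃ N : ℕ, a ^ N * (1 - a)⁻¹ < 1 := by
    have ht : Tendsto (fun N : ℕ => a ^ N * (1 - a)⁻¹) atTop (𝓝 (0 * (1 - a)⁻¹)) :=
      (tendsto_pow_atTop_nhds_zero_of_lt_one ha0.le ha1).mul_const _
    rw [zero_mul] at ht
    exact (ht.eventually (gt_mem_nhds one_pos)).exists
  refine ⟨⋂ n : ℕ, E (N + n), MeasurableSet.iInter fun n => hEm _, ?_, ?_⟩
  · -- positive measure
    by_contra hcon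
    have hz : μ (⋂ n : ℕ, E (N + n)) = 0 := by simpa using hcon
    have h1 : (1:ℝ≥0∞) ≤ μ (⋂ n : ℕ, E (N + n))ᶜ := by
      have := prob_compl_eq_one_sub (μ := μ) (MeasurableSet.iInter fun n => hEm (N + n))
      rw [this, hz, tsub_zero]
    have h2 : μ (⋂ n : ℕ, E (N + n))ᶜ ≤ ENNReal.ofReal (a ^ N * (1 - a)⁻¹) := by
      rw [compl_iInter]
      calc μ (⋃ n : ℕ, (E (N + n))ᶜ) ≤ ∑' n : ℕ, μ (E (N + n))ᶜ := measure_iUnion_le _
        _ ≤ ∑' n : ℕ, ENNReal.ofReal (a ^ (N + n)) := ENNReal.tsum_le_tsum fun n => hμE _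
        _ = ENNReal.ofReal (∑' n : ℕ, a ^ (N + n)) := by
            rw [ENNReal.ofReal_tsum_of_nonneg (fun n => by positivity)]
            simp_rw [pow_add]
            exact (summable_geometric_of_lt_one ha0.le ha1).mul_left _
        _ = ENNReal.ofReal (a ^ N * (1 - a)⁻¹) := by
            simp_rw [pow_add]
            rw [tsum_mul_left, tsum_geometric_of_lt_one ha0.le ha1]
    have h3 : ENNReal.ofReal (a ^ N * (1 - a)⁻¹) < 1 := by
      rw [← ENNReal.ofReal_one]
      exact (ENNReal.ofReal_lt_ofReal_iff one_pos).2 hN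
    exact absurd (h1.trans h2) (not_le.2 h3)
  · -- dimension
    have hdiam : ∀ n (w : Fin n → ι), Metric.ediam (Tn n w) ≤ ENNReal.ofReal (|wR r w| * (2 * R)) := by
      intro n w
      apply Metric.ediam_le
      rintro _ ⟨x, hx, rfl⟩ _ ⟨y, hy, rfl⟩
      rw [affineWordMap_ofFn]
      simp only
      rw [edist_dist, Real.dist_eq]
      apply ENNReal.ofReal_le_ofReal
      have h1 : wR r w * x + wT r t w - (wR r w * y + wT r t w) = wR r w * (x - y) := by ring
      rw [h1, abs_mul]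
      apply mul_le_mul_of_nonneg_left _ (abs_nonneg _)
      rw [abs_le]
      constructor <;> [linarith [hx.1, hy.2]; linarith [hx.2, hy.1]]
    have hRρ : ∀ n (w : Fin n → ι), |wR r w| ≤ ρ ^ n := by
      intro n w
      rw [habsR]
      calc ∏ j, |r (w j)| ≤ ∏ _j : Fin n, ρ :=
            Finset.prod_le_prod (fun j _ => abs_nonneg _) fun j _ => hρ _
        _ = ρ ^ n := by simp
    have hmain : μH[s] (⋂ n : ℕ, E (N + n)) ≤ ENNReal.ofReal ((2 * R : ℝ) ^ s) := by
      have h1 := Measure.hausdorffMeasure_le_liminf_sum (β := ℕ) (ι := fun n => {w // w ∈ G n}) s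
        (⋂ n : ℕ, E (N + n)) (l := atTop) (fun n => ENNReal.ofReal (ρ ^ n * (2 * R))) ?_
        (fun n w => Tn n w.1) ?_ ?_
      · refine h1.trans ?_
        refine (liminf_le_liminf (v := fun _ => ENNReal.ofReal ((2 * R : ℝ) ^ s))
          (Eventually.of_forall fun n => ?_)).trans (by simp)
        calc ∑ w : {w // w ∈ G n}, Metric.ediam (Tn n w.1) ^ s
            ≤ ∑ w : {w // w ∈ G n}, ENNReal.ofReal (P n w.1 * (2 * R : ℝ) ^ s) := by
              refine Finset.sum_le_sum fun w _ => ?_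
              have hw : Q n w.1 < κ ^ n * P n w.1 := (Finset.mem_filter.1 w.2).2
              calc Metric.ediam (Tn n w.1) ^ s
                  ≤ (ENNReal.ofReal (|wR r w.1| * (2 * R))) ^ s :=
                    ENNReal.rpow_le_rpow (hdiam n w.1) hs0.le
                _ = ENNReal.ofReal ((|wR r w.1| * (2 * R)) ^ s) :=
                    ENNReal.ofReal_rpow_of_nonneg (by positivity) hs0.le
                _ ≤ _ := by
                    apply ENNReal.ofReal_le_ofReal
                    rw [Real.mul_rpow (abs_nonneg _) (by positivity)]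
                    apply mul_le_mul_of_nonneg_right _ (by positivity)
                    have h5 : κ ^ n * P n w.1 ≤ P n w.1 :=
                      mul_le_of_le_one_left (hPpos n w.1).le (pow_le_one₀ hκ0.le hκ1.le)
                    exact hw.le.trans h5
          _ = ∑ w ∈ G n, ENNReal.ofReal (P n w * (2 * R : ℝ) ^ s) :=
              Finset.sum_coe_sort (G n) (fun w => ENNReal.ofReal (P n w * (2 * R : ℝ) ^ s))
          _ ≤ ∑ w, ENNReal.ofReal (P n w * (2 * R : ℝ) ^ s) :=
              Finset.sum_le_sum_of_subset (Finset.subset_univ _)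
          _ = ENNReal.ofReal (∑ w, P n w * (2 * R : ℝ) ^ s) := by
              rw [ENNReal.ofReal_sum_of_nonneg]
              intro w _; have := (hPpos n w).le; positivity
          _ = ENNReal.ofReal ((2 * R : ℝ) ^ s) := by
              rw [← Finset.sum_mul, sum_prod_words_one hp₁, one_mul]
      · have ht : Tendsto (fun n : ℕ => ρ ^ n * (2 * R : ℝ)) atTop (𝓝 (0 * (2 * R))) :=
          (tendsto_pow_atTop_nhds_zero_of_lt_one hρ0.le hρ1).mul_const _
        rw [zero_mul] at ht
        simpa using ENNReal.tendsto_ofReal ht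
      · refine Eventually.of_forall fun n w => (hdiam n w.1).trans ?_
        apply ENNReal.ofReal_le_ofReal
        exact mul_le_mul_of_nonneg_right (hRρ n w.1) (by positivity)
      · filter_upwards [eventually_ge_atTop N] with n hn x hx
        obtain ⟨k, rfl⟩ := Nat.exists_eq_add_of_le hn
        have := mem_iInter.1 hx k
        simp only [E, mem_iUnion] at this
        obtain ⟨w, hw, hx⟩ := this
        exact mem_iUnion.2 ⟨⟨w, hw⟩, hx⟩
    have hs' : ((s.toNNReal : ℝ≥0) : ℝ) = s := Real.coe_toNNReal s hs0.le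
    apply dimH_le_of_hausdorffMeasure_ne_top
    rw [hs']
    exact (hmain.trans_lt ENNReal.ofReal_lt_top).ne

theorem upper_claim (hr : ∀ i, r i ≠ 0 ∧ |r i| < 1) (hp : ∀ i, 0 < p i)
    (hp₁ : ∑ i, p i = 1) (hμ : IsSelfSimilarMeasure r t p μ) :
    lowerHausdorffDim μ ≤ ENNReal.ofReal ((∑ i, Real.negMulLog (p i)) / lyapunovExp r p) := by
  have hχ := lyap_pos (r := r) hr hp
  have hH : 0 ≤ ∑ i, Real.negMulLog (p i) :=
    Finset.sum_nonneg fun i _ => Real.negMulLog_nonneg (hp i).le (p_le_one hp hp₁ i)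
  apply ENNReal.le_of_forall_pos_le_add
  intro ε hε _
  have hε' : (0:ℝ) < ε := hε
  obtain ⟨E, hE1, hE2, hE3⟩ := exists_small_set (s := (∑ i, Real.negMulLog (p i)) / lyapunovExp r p + ε)
    hr hp hp₁ hμ (by positivity) (by
      rw [add_mul, div_mul_cancel₀ _ hχ.ne']
      have : 0 < (ε:ℝ) * lyapunovExp r p := by positivity
      linarith)
  calc lowerHausdorffDim μ ≤ dimH E := by
        unfold lowerHausdorffDim
        exact iInf_le_of_le E (iInf_le_of_le hE1 (iInf_le _ hE2))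
    _ ≤ _ := hE3
    _ = _ := by
        rw [ENNReal.ofReal_add (by positivity) hε'.le, ENNReal.ofReal_coe_nnreal]

/-- `∑ over words` of the log of the ratio is `m` times the Lyapunov exponent (up to sign). -/
theorem sum_words_log (hr : ∀ i, r i ≠ 0 ∧ |r i| < 1) (hp₁ : ∑ i, p i = 1) (m : ℕ) :
    ∑ w : Fin m → ι, (∏ j, p (w j)) * Real.log |wR r w| = - (m * lyapunovExp r p) := by
  induction m with
  | zero => simp [wR]
  | succ m ih =>
    rw [← (Fin.consEquiv (fun _ : Fin (m+1) => ι)).sum_comp, Fintype.sum_prod_type]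
    have h1 : ∀ (i : ι) (w : Fin m → ι), (∏ j, p ((Fin.consEquiv fun _ : Fin (m+1) => ι) (i, w) j)) *
        Real.log |wR r ((Fin.consEquiv fun _ : Fin (m+1) => ι) (i, w))|
        = (p i * Real.log |r i|) * (∏ j, p (w j)) + p i * ((∏ j, p (w j)) * Real.log |wR r w|) := by
      intro i w
      have h2 : (Fin.consEquiv fun x : Fin (m+1) => ι) (i, w) = (Fin.cons i w : Fin (m+1) → ι) := rfl
      rw [h2, Fin.prod_univ_succ]
      have h3 : wR r (Fin.cons i w : Fin (m+1) → ι) = r i * wR r w := by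
        rw [wR, Fin.prod_univ_succ, wR]; simp
      rw [h3, abs_mul, Real.log_mul (abs_pos.2 (hr i).1).ne']
      · simp only [Fin.cons_zero, Fin.cons_succ]; ring
      · apply abs_ne_zero.2
        exact Finset.prod_ne_zero_iff.2 fun j _ => (hr _).1
    simp_rw [h1]
    simp_rw [Finset.sum_add_distrib, ← Finset.mul_sum]
    rw [sum_prod_words_one hp₁, ih]
    have h5 : ∑ x, p x * -((m:ℝ) * lyapunovExp r p) = -((m:ℝ) * lyapunovExp r p) := by
      rw [← Finset.sum_mul, hp₁, one_mul]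
    have h4 : ∑ i, p i * Real.log |r i| = - lyapunovExp r p := by simp [lyapunovExp]
    rw [h5]
    simp only [mul_one]
    rw [h4]; push_cast; ring

theorem upper_words (hr : ∀ i, r i ≠ 0 ∧ |r i| < 1) (hp : ∀ i, 0 < p i)
    (hp₁ : ∑ i, p i = 1) (hμ : IsSelfSimilarMeasure r t p μ) (m : ℕ) (hm : 0 < m) :
    lowerHausdorffDim μ ≤ ENNReal.ofReal (composedMapEntropy r t p m / (m * lyapunovExp r p)) := by
  classical
  have := hμ.1
  let Z : (Fin m → ι) → (ℝ → ℝ) := fun w => affineWordMap r t (List.ofFn w)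
  let G := Set.range Z
  let _ : Fintype G := Fintype.ofFinite _
  have : Nonempty G := ⟨⟨Z (fun _ => Classical.arbitrary ι), mem_range_self _⟩⟩
  let P : (Fin m → ι) → ℝ := fun w => ∏ j, p (w j)
  have hPpos : ∀ w, 0 < P w := fun w => Finset.prod_pos fun j _ => hp _
  let zz : (Fin m → ι) → G := fun w => ⟨Z w, mem_range_self w⟩
  let p' : G → ℝ := fun g => ∑ w ∈ Finset.univ.filter (fun w => zz w = g), P w
  let r' : G → ℝ := fun g => g.1 1 - g.1 0
  let t' : G → ℝ := fun g => g.1 0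
  have hr'w : ∀ w, r' (zz w) = wR r w := by
    intro w
    simp only [r', zz, Z, affineWordMap_ofFn]; ring
  have hgw : ∀ g : G, ∀ x, g.1 x = r' g * x + t' g := by
    rintro ⟨_, w, rfl⟩ x
    simp only [r', t', Z, affineWordMap_ofFn]; ring
  have hr' : ∀ g, r' g ≠ 0 ∧ |r' g| < 1 := by
    rintro ⟨_, w, rfl⟩
    have := hr'w w
    simp only [zz] at this
    rw [this]
    refine ⟨Finset.prod_ne_zero_iff.2 fun j _ => (hr _).1, ?_⟩
    obtain ⟨ρ, hρ0, hρ1, hρ⟩ := exists_ratio hr
    rw [wR, Finset.abs_prod]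
    calc ∏ j, |r (w j)| ≤ ∏ _j : Fin m, ρ :=
          Finset.prod_le_prod (fun j _ => abs_nonneg _) fun j _ => hρ _
      _ = ρ ^ m := by simp
      _ < 1 := pow_lt_one₀ hρ0.le hρ1 hm.ne'
  have hp' : ∀ g, 0 < p' g := by
    rintro ⟨_, w, rfl⟩
    apply Finset.sum_pos (fun w _ => hPpos w)
    exact ⟨w, by simp [zz]⟩
  have hfib : ∀ f : G → ℝ, ∑ g, p' g * f g = ∑ w, P w * f (zz w) := by
    intro f
    rw [← Finset.sum_fiberwise (s := Finset.univ) (g := zz)]
    refine Finset.sum_congr rfl fun g _ => ?_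
    rw [Finset.sum_mul]
    refine Finset.sum_congr rfl fun w hw => ?_
    rw [(Finset.mem_filter.1 hw).2]
  have hp₁' : ∑ g, p' g = 1 := by
    have := hfib (fun _ => 1)
    simp only [mul_one] at this
    rw [this]
    exact sum_prod_words_one hp₁ m
  have hμ' : IsSelfSimilarMeasure r' t' p' μ := by
    refine ⟨hμ.1, ?_⟩
    ext E hE
    rw [selfSim_apply_words hμ (fun i => (hp i).le) m hE, Measure.finsetSum_apply]
    rw [← Finset.sum_fiberwise (s := Finset.univ) (g := zz)]
    refine Finset.sum_congr rfl fun g _ => ?_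
    rw [Measure.smul_apply, Measure.map_apply (measurable_aff _ _) hE, smul_eq_mul]
    have : (fun x => r' g * x + t' g) = g.1 := by funext x; rw [hgw]
    rw [this]
    simp only [p']
    rw [ENNReal.ofReal_sum_of_nonneg (fun w _ => (hPpos w).le), Finset.sum_mul]
    refine Finset.sum_congr rfl fun w hw => ?_
    have h2 := (Finset.mem_filter.1 hw).2
    rw [← h2]
  have hmain := upper_claim hr' hp' hp₁' hμ'
  have hent : ∑ g, Real.negMulLog (p' g) = composedMapEntropy r t p m := by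
    have h1 : ∀ g, Real.negMulLog (p' g) = p' g * (-Real.log (p' g)) := by
      intro g; rw [Real.negMulLog]; ring
    simp_rw [h1]
    rw [hfib (fun g => -Real.log (p' g))]
    rw [composedMapEntropy, finiteLawEntropy, ← Finset.sum_neg_distrib]
    refine Finset.sum_congr rfl fun w _ => ?_
    rw [mul_neg]
    congr 3
    simp only [p']
    rw [Finset.sum_filter]
    refine Finset.sum_congr rfl fun v _ => ?_
    simp only [zz, Subtype.mk.injEq, Set.indicator_apply, Set.mem_ofPred_eq, Z, P]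
  have hly : lyapunovExp r' p' = m * lyapunovExp r p := by
    have h1 := hfib (fun g => Real.log |r' g|)
    rw [lyapunovExp, h1]
    simp_rw [hr'w]
    rw [sum_words_log hr hp₁ m, neg_neg]
  rw [hent, hly] at hmain
  exact hmain

/-- THE UPPER BOUND (A1). -/
theorem lowerHausdorffDim_le (hr : ∀ i, r i ≠ 0 ∧ |r i| < 1) (hp : ∀ i, 0 < p i)
    (hp₁ : ∑ i, p i = 1) (hμ : IsSelfSimilarMeasure r t p μ) :
    lowerHausdorffDim μ ≤ ENNReal.ofReal (min 1 (rwEntropyRate r t p / lyapunovExp r p)) := by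
  have := hμ.1
  have hχ := lyap_pos (r := r) hr hp
  rw [ENNReal.ofReal_min, ENNReal.ofReal_one]
  refine le_min ?_ ?_
  · unfold lowerHausdorffDim
    refine iInf_le_of_le univ (iInf_le_of_le MeasurableSet.univ (iInf_le_of_le (by simp) ?_))
    rw [Real.dimH_univ]
  · apply ENNReal.le_of_forall_pos_le_add
    intro ε hε _
    have hε' : (0:ℝ) < ε := hε
    have hlt : rwEntropyRate r t p < rwEntropyRate r t p + ε * lyapunovExp r p := by
      have : 0 < (ε:ℝ) * lyapunovExp r p := by positivity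
      linarith
    obtain ⟨m, hm⟩ := exists_lt_of_ciInf_lt (show (⨅ m : ℕ, composedMapEntropy r t p (m + 1) / ((m : ℝ) + 1))
      < rwEntropyRate r t p + ε * lyapunovExp r p from hlt)
    have h1 := upper_words (t := t) hr hp hp₁ hμ (m+1) (Nat.succ_pos m)
    refine h1.trans ?_
    have h2 : composedMapEntropy r t p (m + 1) / (((m + 1 : ℕ) : ℝ) * lyapunovExp r p)
        ≤ rwEntropyRate r t p / lyapunovExp r p + ε := by
      rw [← div_div, div_le_iff₀ hχ, add_mul, div_mul_cancel₀ _ hχ.ne']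
      push_cast
      exact hm.le
    refine (ENNReal.ofReal_le_ofReal h2).trans ?_
    refine ENNReal.ofReal_add_le.trans ?_
    rw [ENNReal.ofReal_coe_nnreal]

end claim

end Crest.Agent.R98
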