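import Crest.Agent.R98.DimMul
import Crest.Agent.R98.DimUpper

/-!
Row 98, dimension part: dyadic entropy, superadditivity, and the lower bound for
`lowerHausdorffDim`.
-/

set_option autoImplicit false
open MeasureTheory Crest.AnalysisR Set Filter Topology
open scoped ENNReal NNReal

namespace Crest.Agent.R98

/-- Shannon entropy (nats) of the dyadic partition of level `n`. -/
noncomputable def Hd (μ : Measure ℝ) (n : ℕ) : ℝ := ∑' k : ℤ, Real.negMulLog (μ.real (cell n k))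

/-- finite set of indices outside which the cells are null -/
noncomputable def idx (R n : ℕ) : Finset ℤ := Finset.Icc (-((R:ℤ) * 2 ^ n)) ((R:ℤ) * 2 ^ n)

theorem cell_null {μ : Measure ℝ} {R : ℕ} (hR : μ (Icc (-(R:ℝ)) R)ᶜ = 0) (n : ℕ) (k : ℤ)
    (hk : k ∉ idx R n) : μ (cell n k) = 0 := by
  apply measure_mono_null _ hR
  intro x hx hxI
  apply hk
  have hx' : ⌊(2:ℝ) ^ n * x⌋ = k := hx
  rw [idx, Finset.mem_Icc, ← hx']
  have h2 : (0:ℝ) < 2 ^ n := by positivity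
  constructor
  · rw [Int.le_floor]
    push_cast
    nlinarith [hxI.1]
  · have : ⌊(2:ℝ) ^ n * x⌋ ≤ ⌊(((R:ℤ) * 2 ^ n : ℤ) : ℝ)⌋ := by
      apply Int.floor_le_floor
      push_cast
      nlinarith [hxI.2]
    rwa [Int.floor_intCast] at this

section

variable {μ : Measure ℝ} [IsProbabilityMeasure μ] {R : ℕ}

omit [IsProbabilityMeasure μ] in
theorem Hd_eq_sum (hR : μ (Icc (-(R:ℝ)) R)ᶜ = 0) (n : ℕ) :
    Hd μ n = ∑ k ∈ idx R n, Real.negMulLog (μ.real (cell n k)) := by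
  unfold Hd
  apply tsum_eq_sum
  intro k hk
  rw [Measure.real, cell_null hR n k hk]; simp

theorem tau_eq (hR : μ (Icc (-(R:ℝ)) R)ᶜ = 0) (n : ℕ) {δ : ℝ} (hδ : 0 ≤ δ) :
    tau μ n (1 + δ) = ENNReal.ofReal (∑ k ∈ idx R n, μ.real (cell n k) * μ.real (cell n k) ^ δ) := by
  unfold tau
  rw [tsum_eq_sum (s := idx R n)]
  · rw [ENNReal.ofReal_sum_of_nonneg]
    · refine Finset.sum_congr rfl fun k _ => ?_
      rw [ENNReal.rpow_add_of_nonneg _ _ zero_le_one hδ, ENNReal.rpow_one,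
        ENNReal.ofReal_mul measureReal_nonneg,
        ← ENNReal.ofReal_rpow_of_nonneg measureReal_nonneg hδ, ofReal_measureReal]
    · intro k _
      exact mul_nonneg measureReal_nonneg (Real.rpow_nonneg measureReal_nonneg _)
  · intro k hk
    rw [cell_null hR n k hk, ENNReal.zero_rpow_of_pos (by linarith)]

theorem sum_cells_real (hR : μ (Icc (-(R:ℝ)) R)ᶜ = 0) (n : ℕ) :
    ∑ k ∈ idx R n, μ.real (cell n k) = 1 := by
  have h := tsum_cell_inter μ n MeasurableSet.univ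
  simp only [univ_inter, measure_univ] at h
  rw [tsum_eq_sum (s := idx R n) (fun k hk => cell_null hR n k hk)] at h
  have h2 : (∑ k ∈ idx R n, μ (cell n k)).toReal = 1 := by rw [h]; simp
  rw [ENNReal.toReal_sum (fun k _ => measure_ne_top _ _)] at h2
  exact h2

/-- Derivative at `0` of `δ ↦ ∑ m_k (B m_k)^δ`. -/
theorem hasDerivAt_sum (hR : μ (Icc (-(R:ℝ)) R)ᶜ = 0) (n : ℕ) {B : ℝ} (hB : 0 < B) :
    HasDerivAt (fun δ : ℝ => ∑ k ∈ idx R n, μ.real (cell n k) * (B * μ.real (cell n k)) ^ δ)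
      (Real.log B - Hd μ n) 0 := by
  have h1 : Real.log B - Hd μ n
      = ∑ k ∈ idx R n, μ.real (cell n k) * Real.log (B * μ.real (cell n k)) := by
    rw [Hd_eq_sum hR]
    have : ∀ k ∈ idx R n, μ.real (cell n k) * Real.log (B * μ.real (cell n k))
        = μ.real (cell n k) * Real.log B - Real.negMulLog (μ.real (cell n k)) := by
      intro k _
      rcases eq_or_ne (μ.real (cell n k)) 0 with h | h
      · simp [h]
      · rw [Real.log_mul hB.ne' h, Real.negMulLog]; ring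
    rw [Finset.sum_congr rfl this, Finset.sum_sub_distrib, ← Finset.sum_mul, sum_cells_real hR,
      one_mul]
  rw [h1]
  apply HasDerivAt.fun_sum
  intro k _
  rcases eq_or_ne (μ.real (cell n k)) 0 with h | h
  · simp only [h, zero_mul]
    exact hasDerivAt_const _ _
  · have hpos : 0 < B * μ.real (cell n k) :=
      mul_pos hB (lt_of_le_of_ne measureReal_nonneg (Ne.symm h))
    have h3 := (Real.hasStrictDerivAt_const_rpow hpos 0).hasDerivAt
    rw [Real.rpow_zero, one_mul] at h3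
    exact h3.const_mul _

end

universe u
variable {ι : Type u} [Fintype ι] {r t p : ι → ℝ} {μ : Measure ℝ}

/-- real version of the submultiplicativity -/
theorem exists_sum_mul (hr : ∀ i, r i ≠ 0 ∧ |r i| < 1) (hp : ∀ i, 0 ≤ p i) (hp₁ : ∑ i, p i = 1)
    (hμ : IsSelfSimilarMeasure r t p μ) {R : ℕ} (hR : μ (Icc (-(R:ℝ)) R)ᶜ = 0) :
    ∃ K : ℕ, 1 ≤ K ∧ ∀ δ : ℝ, 0 ≤ δ → ∀ n m : ℕ,
      ∑ k ∈ idx R (n + m), μ.real (cell (n + m) k) * μ.real (cell (n + m) k) ^ δ ≤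
      (K:ℝ) ^ δ * ((∑ k ∈ idx R n, μ.real (cell n k) * μ.real (cell n k) ^ δ) *
        (∑ k ∈ idx R m, μ.real (cell m k) * μ.real (cell m k) ^ δ)) := by
  have := hμ.1
  obtain ⟨K, hK, h⟩ := exists_tau_mul hr hp hp₁ hμ
  refine ⟨K, hK, fun δ hδ n m => ?_⟩
  have h1 := h (1 + δ) (by linarith) n m
  rw [tau_eq hR _ hδ, tau_eq hR _ hδ, tau_eq hR _ hδ] at h1
  have hnn : ∀ n, 0 ≤ ∑ k ∈ idx R n, μ.real (cell n k) * μ.real (cell n k) ^ δ := fun n =>
    Finset.sum_nonneg fun k _ => mul_nonneg measureReal_nonneg (Real.rpow_nonneg measureReal_nonneg _)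
  rw [← ENNReal.ofReal_mul (hnn n), ← ENNReal.ofReal_natCast, ENNReal.ofReal_rpow_of_nonneg
    (Nat.cast_nonneg _) (by linarith), ← ENNReal.ofReal_mul (by positivity)] at h1
  rw [show (1 + δ - 1) = δ by ring] at h1
  exact (ENNReal.ofReal_le_ofReal_iff (by have := hnn n; have := hnn m; positivity)).1 h1

/-- superadditivity of the dyadic entropy up to a constant -/
theorem exists_Hd_superadd (hr : ∀ i, r i ≠ 0 ∧ |r i| < 1) (hp : ∀ i, 0 ≤ p i)
    (hp₁ : ∑ i, p i = 1) (hμ : IsSelfSimilarMeasure r t p μ) :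
    ∃ C : ℝ, 0 ≤ C ∧ ∀ n m : ℕ, Hd μ n + Hd μ m ≤ Hd μ (n + m) + C := by
  have := hμ.1
  obtain ⟨R, hR0, hR, -⟩ := exists_supp hr hp hp₁ hμ
  obtain ⟨K, hK, h⟩ := exists_sum_mul hr hp hp₁ hμ hR
  refine ⟨Real.log K, Real.log_natCast_nonneg _, fun n m => ?_⟩
  by_contra hcon
  push Not at hcon
  have hK0 : (0:ℝ) < K := by exact_mod_cast hK
  -- F δ = K^δ τ_n τ_m - τ_{n+m}
  set f : ℕ → ℝ → ℝ := fun n δ => ∑ k ∈ idx R n, μ.real (cell n k) * μ.real (cell n k) ^ δ with hf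
  have hfd : ∀ n, HasDerivAt (f n) (- Hd μ n) 0 := by
    intro n
    have := hasDerivAt_sum (μ := μ) hR n one_pos
    simpa [hf] using this
  have hf0 : ∀ n, f n 0 = 1 := by
    intro n; simp [hf, sum_cells_real hR]
  have hKd : HasDerivAt (fun δ : ℝ => (K:ℝ) ^ δ) (Real.log K) 0 := by
    have := (Real.hasStrictDerivAt_const_rpow hK0 0).hasDerivAt
    rwa [Real.rpow_zero, one_mul] at this
  have hF : HasDerivAt (fun δ => (K:ℝ) ^ δ * (f n δ * f m δ) - f (n + m) δ)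
      (Real.log K * (f n 0 * f m 0) + (K:ℝ) ^ (0:ℝ) * ((- Hd μ n) * f m 0 + f n 0 * (- Hd μ m))
        - (- Hd μ (n + m))) 0 :=
    (hKd.mul ((hfd n).mul (hfd m))).sub (hfd (n + m))
  obtain ⟨δ, hδ0, hδ1, hδ⟩ := exists_lt_of_deriv_neg hF (by
    rw [hf0, hf0, Real.rpow_zero]; linarith)
  simp only [hf0, Real.rpow_zero, mul_one, sub_self] at hδ
  have := h δ hδ0.le n m
  simp only [hf] at hδ
  linarith

/-- small measure of the set of points with heavy cells -/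
theorem exists_exp_decay (hr : ∀ i, r i ≠ 0 ∧ |r i| < 1) (hp : ∀ i, 0 ≤ p i)
    (hp₁ : ∑ i, p i = 1) (hμ : IsSelfSimilarMeasure r t p μ) {s s' : ℝ} (hs : s' < s)
    (hfreq : ∃ᶠ n : ℕ in atTop, s * (n * Real.log 2) ≤ Hd μ n) :
    ∃ n₀ : ℕ, 0 < n₀ ∧ ∃ θ : ℝ, 0 ≤ θ ∧ θ < 1 ∧ ∀ j : ℕ,
      μ {x | ENNReal.ofReal (((2:ℝ) ^ (n₀ * (j + 1)))⁻¹ ^ s') ≤ μ (cell (n₀ * (j + 1)) (fl (n₀ * (j + 1)) x))}
        ≤ ENNReal.ofReal (θ ^ (j + 1)) := by
  have := hμ.1
  obtain ⟨R, hR0, hR, -⟩ := exists_supp hr hp hp₁ hμ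
  obtain ⟨K, hK, h⟩ := exists_sum_mul hr hp hp₁ hμ hR
  have hK0 : (0:ℝ) < K := by exact_mod_cast hK
  have hK1 : (1:ℝ) ≤ K := by exact_mod_cast hK
  have hlog2 : 0 < Real.log 2 := Real.log_pos one_lt_two
  -- choose n₀
  obtain ⟨n₀, hn₀, hn₀'⟩ : ∃ n₀ : ℕ, s * (n₀ * Real.log 2) ≤ Hd μ n₀ ∧
      (0 < n₀ ∧ Real.log K < (s - s') * (n₀ * Real.log 2)) := by
    have hev : ∀ᶠ n : ℕ in atTop, 0 < n ∧ Real.log K < (s - s') * (n * Real.log 2) := by
      refine (eventually_gt_atTop 0).and ?_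
      have ht : Tendsto (fun n : ℕ => (s - s') * ((n:ℝ) * Real.log 2)) atTop atTop :=
        Tendsto.const_mul_atTop (by linarith)
          (Tendsto.atTop_mul_const hlog2 tendsto_natCast_atTop_atTop)
      exact ht.eventually_gt_atTop _
    exact (hfreq.and_eventually hev).exists
  set f : ℕ → ℝ → ℝ := fun n δ => ∑ k ∈ idx R n, μ.real (cell n k) * μ.real (cell n k) ^ δ with hf
  have hfnn : ∀ n δ, 0 ≤ f n δ := fun n δ =>
    Finset.sum_nonneg fun k _ => mul_nonneg measureReal_nonneg (Real.rpow_nonneg measureReal_nonneg _)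
  set B : ℝ := K * ((2:ℝ) ^ n₀) ^ s' with hB
  have h2n : (0:ℝ) < (2:ℝ) ^ n₀ := by positivity
  have hB0 : 0 < B := mul_pos hK0 (Real.rpow_pos_of_pos h2n _)
  have hlogB : Real.log B = Real.log K + s' * (n₀ * Real.log 2) := by
    rw [hB, Real.log_mul hK0.ne' (Real.rpow_pos_of_pos h2n _).ne', Real.log_rpow h2n, Real.log_pow]
  obtain ⟨δ, hδ0, hδ1, hδ⟩ := exists_lt_of_deriv_neg (hasDerivAt_sum (μ := μ) hR n₀ hB0) (by
    rw [hlogB]; nlinarith)
  simp only [Real.rpow_zero, mul_one, sum_cells_real hR] at hδ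
  -- θ
  set θ := ∑ k ∈ idx R n₀, μ.real (cell n₀ k) * (B * μ.real (cell n₀ k)) ^ δ with hθ
  have hθeq : θ = (K:ℝ) ^ δ * ((2:ℝ) ^ n₀) ^ (s' * δ) * f n₀ δ := by
    rw [hθ, hf, Finset.mul_sum]
    refine Finset.sum_congr rfl fun k _ => ?_
    rw [Real.mul_rpow hB0.le measureReal_nonneg, hB, Real.mul_rpow hK0.le (Real.rpow_nonneg h2n.le _),
      ← Real.rpow_mul h2n.le]
    ring
  have hθ0 : 0 ≤ θ := by
    rw [hθeq]; have := hfnn n₀ δ; positivity
  refine ⟨n₀, hn₀'.1, θ, hθ0, hδ, ?_⟩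
  -- induction for f
  have hind : ∀ j : ℕ, (K:ℝ) ^ δ * ((2:ℝ) ^ (n₀ * (j+1))) ^ (s' * δ) * f (n₀ * (j + 1)) δ ≤ θ ^ (j + 1) := by
    intro j
    induction j with
    | zero => simp only [zero_add, mul_one, pow_one]; exact hθeq.symm.le
    | succ j ih =>
      have h1 := h δ hδ0.le (n₀ * (j + 1)) n₀
      have h2 : n₀ * (j + 1) + n₀ = n₀ * (j + 1 + 1) := by ring
      rw [h2] at h1
      have h3 : ((2:ℝ) ^ (n₀ * (j + 1 + 1))) ^ (s' * δ)
          = ((2:ℝ) ^ (n₀ * (j + 1))) ^ (s' * δ) * ((2:ℝ) ^ n₀) ^ (s' * δ) := by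
        rw [← h2, pow_add, Real.mul_rpow (by positivity) (by positivity)]
      calc (K:ℝ) ^ δ * ((2:ℝ) ^ (n₀ * (j + 1 + 1))) ^ (s' * δ) * f (n₀ * (j + 1 + 1)) δ
          ≤ (K:ℝ) ^ δ * ((2:ℝ) ^ (n₀ * (j + 1 + 1))) ^ (s' * δ) *
            ((K:ℝ) ^ δ * (f (n₀ * (j + 1)) δ * f n₀ δ)) :=
            mul_le_mul_of_nonneg_left h1 (by positivity)
        _ = ((K:ℝ) ^ δ * ((2:ℝ) ^ (n₀ * (j+1))) ^ (s' * δ) * f (n₀ * (j + 1)) δ) * θ := by
            rw [h3, hθeq]; ring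
        _ ≤ θ ^ (j + 1) * θ := mul_le_mul_of_nonneg_right ih hθ0
        _ = θ ^ (j + 1 + 1) := by ring
  intro j
  set n := n₀ * (j + 1) with hn
  have h2n' : (0:ℝ) < (2:ℝ) ^ n := by positivity
  have hc0 : (0:ℝ) < ((2:ℝ) ^ n)⁻¹ ^ s' := Real.rpow_pos_of_pos (by positivity) _
  -- Markov
  set bad : Set ℝ := {x | ENNReal.ofReal (((2:ℝ) ^ n)⁻¹ ^ s') ≤ μ (cell n (fl n x))} with hbad
  have hbadm : MeasurableSet bad := by
    have : bad = fl n ⁻¹' {k | ENNReal.ofReal (((2:ℝ) ^ n)⁻¹ ^ s') ≤ μ (cell n k)} := rfl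
    rw [this]
    exact measurable_fl n (MeasurableSet.of_discrete)
  rw [← tsum_cell_inter μ n hbadm, tsum_eq_sum (s := idx R n)]
  · calc ∑ k ∈ idx R n, μ (bad ∩ cell n k)
        ≤ ∑ k ∈ idx R n, ENNReal.ofReal (((2:ℝ) ^ n) ^ (s' * δ) *
            (μ.real (cell n k) * μ.real (cell n k) ^ δ)) := by
          refine Finset.sum_le_sum fun k _ => ?_
          by_cases hk : ENNReal.ofReal (((2:ℝ) ^ n)⁻¹ ^ s') ≤ μ (cell n k)
          · have h5 : ((2:ℝ) ^ n)⁻¹ ^ s' ≤ μ.real (cell n k) := by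
              rw [← ofReal_measureReal] at hk
              exact (ENNReal.ofReal_le_ofReal_iff measureReal_nonneg).1 hk
            calc μ (bad ∩ cell n k) ≤ μ (cell n k) := measure_mono inter_subset_right
              _ = ENNReal.ofReal (μ.real (cell n k)) := (ofReal_measureReal (measure_ne_top _ _)).symm
              _ ≤ _ := by
                apply ENNReal.ofReal_le_ofReal
                have h6 : (((2:ℝ) ^ n)⁻¹ ^ s') ^ δ ≤ μ.real (cell n k) ^ δ :=
                  Real.rpow_le_rpow hc0.le h5 hδ0.le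
                have h7 : ((2:ℝ) ^ n) ^ (s' * δ) * (((2:ℝ) ^ n)⁻¹ ^ s') ^ δ = 1 := by
                  rw [← Real.rpow_mul (by positivity), Real.inv_rpow h2n'.le,
                    mul_inv_cancel₀ (Real.rpow_pos_of_pos h2n' _).ne']
                have h8 : 1 ≤ ((2:ℝ) ^ n) ^ (s' * δ) * μ.real (cell n k) ^ δ := by
                  rw [← h7]
                  exact mul_le_mul_of_nonneg_left h6 (by positivity)
                have h9 : 0 ≤ μ.real (cell n k) := measureReal_nonneg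
                nlinarith
          · have : bad ∩ cell n k = ∅ := by
              ext x
              simp only [mem_inter_iff, mem_empty_iff_false, iff_false, not_and]
              intro hx hxk
              apply hk
              have hxk' : fl n x = k := hxk
              have hx' : ENNReal.ofReal (((2:ℝ) ^ n)⁻¹ ^ s') ≤ μ (cell n (fl n x)) := hx
              rwa [hxk'] at hx'
            rw [this, measure_empty]
            exact zero_le
      _ = ENNReal.ofReal (((2:ℝ) ^ n) ^ (s' * δ) * f n δ) := by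
          rw [← ENNReal.ofReal_sum_of_nonneg, ← Finset.mul_sum]
          intro k _
          have h9 : 0 ≤ μ.real (cell n k) := measureReal_nonneg
          positivity
      _ ≤ ENNReal.ofReal (θ ^ (j + 1)) := by
          apply ENNReal.ofReal_le_ofReal
          refine le_trans ?_ (hind j)
          have h9 := hfnn n δ
          have h10 : (1:ℝ) ≤ (K:ℝ) ^ δ := Real.one_le_rpow hK1 hδ0.le
          have h11 : 0 ≤ ((2:ℝ) ^ n) ^ (s' * δ) * f n δ := by positivity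
          nlinarith
  · intro k hk
    exact measure_mono_null inter_subset_right (cell_null hR n k hk)

end Crest.Agent.R98
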