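import Crest.Agent.R98.DimCell

/-!
Row 98, dimension part: submultiplicativity of the `L^q` sums.
-/

set_option autoImplicit false
open MeasureTheory Crest.AnalysisR Set Filter Topology
open scoped ENNReal NNReal

namespace Crest.Agent.R98

theorem tsum_fiber_inter (μ : Measure ℝ) {f : ℝ → ℤ} (hf : Measurable f) {A : Set ℝ}
    (hA : MeasurableSet A) :
    ∑' k : ℤ, μ ({x | f x = k} ∩ A) = μ A := by
  have hm : ∀ k : ℤ, MeasurableSet {x | f x = k} := fun k => hf (MeasurableSet.singleton k)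
  rw [← measure_iUnion]
  · congr 1
    ext x
    simp only [mem_iUnion, mem_inter_iff]
    exact ⟨fun ⟨k, _, h⟩ => h, fun h => ⟨f x, rfl, h⟩⟩
  · intro k l hkl
    apply Set.disjoint_left.2
    rintro x ⟨h1, _⟩ ⟨h2, _⟩
    have h1' : f x = k := h1
    have h2' : f x = l := h2
    exact hkl (h1'.symm.trans h2')
  · exact fun k => (hm k).inter hA

theorem regrid (μ : Measure ℝ) {c : ℝ} (hc : 0 < c) (C : ℕ) (hC : 1 / c ≤ C) (n m : ℕ)
    (ρ τ : ℝ) (hρ : c * ((2:ℝ) ^ n)⁻¹ ≤ |ρ|) {q : ℝ} (hq : 1 ≤ q) :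
    ∑' l : ℤ, μ ((fun x => ρ * x + τ) ⁻¹' cell (n + m) l) ^ q
      ≤ ((2 * C + 1 : ℕ) : ℝ≥0∞) ^ (q - 1) * tau μ m q := by
  classical
  let g : ℝ → ℝ := fun x => ρ * x + τ
  have hg : Measurable g := measurable_aff _ _
  let α : ℤ → ℤ → ℝ≥0∞ := fun l k => μ (g ⁻¹' cell (n + m) l ∩ cell m k)
  have h1 : ∀ l, ∑' k, α l k = μ (g ⁻¹' cell (n + m) l) := fun l =>
    tsum_cell_inter μ m (hg (measurableSet_cell _ _))
  have h2 : ∀ k, ∑' l, α l k = μ (cell m k) := fun k =>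
    tsum_fiber_inter μ ((measurable_fl (n + m)).comp hg) (measurableSet_cell m k)
  let s : ℤ → Finset ℤ := fun l =>
    if h : (g ⁻¹' cell (n + m) l).Nonempty then Finset.Icc (fl m h.some - C) (fl m h.some + C) else ∅
  have hs : ∀ l, (s l).card ≤ 2 * C + 1 := by
    intro l
    by_cases h : (g ⁻¹' cell (n + m) l).Nonempty
    · simp only [s, h, dif_pos]; exact card_Icc_symm _ _
    · simp [s, h]
  have hs' : ∀ l k, k ∉ s l → α l k = 0 := by
    intro l k hk
    by_contra hne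
    obtain ⟨x, hx1, hx2⟩ := nonempty_of_measure_ne_zero hne
    have h : (g ⁻¹' cell (n + m) l).Nonempty := ⟨x, hx1⟩
    apply hk
    simp only [s, h, dif_pos]
    have hx0 : h.some ∈ g ⁻¹' cell (n + m) l := h.some_mem
    set x0 := h.some
    have e1 : ⌊(2:ℝ) ^ (n + m) * g x⌋ = l := hx1
    have e2 : ⌊(2:ℝ) ^ (n + m) * g x0⌋ = l := hx0
    have h3 := Int.abs_sub_lt_one_of_floor_eq_floor (e1.trans e2.symm)
    have h4 : (2:ℝ) ^ (n + m) * g x - (2:ℝ) ^ (n + m) * g x0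
        = ρ * 2 ^ n * (2 ^ m * x - 2 ^ m * x0) := by
      simp only [g]; ring
    rw [h4, abs_mul] at h3
    have h5 : c ≤ |ρ * 2 ^ n| := by
      rw [abs_mul, abs_of_pos (show (0:ℝ) < 2 ^ n by positivity)]
      have : (0:ℝ) < 2 ^ n := by positivity
      rw [← div_eq_mul_inv, div_le_iff₀ this] at hρ
      exact hρ
    have h6 : |(2:ℝ) ^ m * x - 2 ^ m * x0| ≤ C := by
      refine le_trans ?_ hC
      rw [le_div_iff₀ hc]
      have := mul_le_mul_of_nonneg_right h5 (abs_nonneg ((2:ℝ) ^ m * x - 2 ^ m * x0))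
      nlinarith
    have h7 := floor_mem_Icc_of_abs_sub_le h6
    have e3 : ⌊(2:ℝ) ^ m * x⌋ = k := hx2
    rw [e3] at h7
    exact h7
  have h3 := matrix_rpow_le α s (2 * C + 1) hs hs' hq
  simp_rw [h1, h2] at h3
  exact h3

theorem tsum_fiber_sum {J : Type*} [Fintype J] (kj : J → ℤ) (f : J → ℝ≥0∞) :
    ∑' k : ℤ, ∑ j ∈ Finset.univ.filter (fun j => kj j = k), f j = ∑ j, f j := by
  simp_rw [Finset.sum_filter]
  rw [Summable.tsum_finsetSum fun _ _ => ENNReal.summable]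
  refine Finset.sum_congr rfl fun j _ => ?_
  rw [tsum_eq_single (kj j)]
  · simp
  · intro k hk
    rw [if_neg (fun h => hk h.symm)]

universe u

theorem exists_tau_mul {ι : Type u} [Fintype ι] {r t p : ι → ℝ} {μ : Measure ℝ}
    (hr : ∀ i, r i ≠ 0 ∧ |r i| < 1) (hp : ∀ i, 0 ≤ p i) (hp₁ : ∑ i, p i = 1)
    (hμ : IsSelfSimilarMeasure r t p μ) :
    ∃ K : ℕ, 1 ≤ K ∧ ∀ q : ℝ, 1 ≤ q → ∀ n m : ℕ,
      tau μ (n + m) q ≤ (K : ℝ≥0∞) ^ (q - 1) * (tau μ n q * tau μ m q) := by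
  classical
  have := hμ.1
  obtain ⟨R, hR0, hRμ, -⟩ := exists_supp hr hp hp₁ hμ
  obtain ⟨c, hc0, hc1, hc⟩ := exists_ratio_lower hr
  obtain ⟨C, hC⟩ := exists_nat_ge (1 / c)
  refine ⟨(2 * R + 1) * (2 * R + 1) * (2 * C + 1), by nlinarith [Nat.zero_le R, Nat.zero_le C], ?_⟩
  intro q hq n m
  obtain ⟨J, _, w, ρ, τ, hw, hw1, hρ, hE⟩ := exists_decomp hr hp hp₁ hμ hc0 hc1 hc
    (b := ((2:ℝ) ^ n)⁻¹) (by positivity) (inv_le_one_of_one_le₀ (one_le_pow₀ one_le_two))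
  let g : J → ℝ → ℝ := fun j x => ρ j * x + τ j
  have hg : ∀ j, Measurable (g j) := fun j => measurable_aff _ _
  let kj : J → ℤ := fun j => fl n (τ j)
  let W : J → ℝ≥0∞ := fun j => ENNReal.ofReal (w j)
  let S : ℤ → Finset J := fun k => Finset.univ.filter (fun j => kj j = k)
  let ν : ℤ → Set ℝ → ℝ≥0∞ := fun k A => ∑ j ∈ S k, W j * μ (g j ⁻¹' A)
  let π : ℤ → ℝ≥0∞ := fun k => ∑ j ∈ S k, W j
  have hνsum : ∀ A, MeasurableSet A → ∑' k, ν k A = μ A := by
    intro A hA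
    rw [hE A hA]
    exact tsum_fiber_sum kj _
  -- locality
  have hloc : ∀ (m : ℕ) (k l : ℤ), ν k (cell (n + m) l) ≠ 0 →
      k ∈ Finset.Icc (l / 2 ^ m - (R:ℤ)) (l / 2 ^ m + R) := by
    intro m k l hne
    obtain ⟨j, hj, hjne⟩ := Finset.exists_ne_zero_of_sum_ne_zero hne
    have hkj : kj j = k := (Finset.mem_filter.1 hj).2
    have hjne' : μ (g j ⁻¹' cell (n + m) l) ≠ 0 := right_ne_zero_of_mul hjne
    obtain ⟨x, hx1, hx2⟩ : ∃ x, x ∈ g j ⁻¹' cell (n + m) l ∧ x ∈ Icc (-(R:ℝ)) R := by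
      by_contra hcon
      apply hjne'
      apply measure_mono_null _ hRμ
      intro x hx hxI
      exact hcon ⟨x, hx, hxI⟩
    have e1 : fl (n + m) (g j x) = l := hx1
    have e2 : fl n (g j x) = l / 2 ^ m := by rw [fl_coarse n m, e1]
    have h3 : |(2:ℝ) ^ n * τ j - 2 ^ n * g j x| ≤ R := by
      have : (2:ℝ) ^ n * τ j - 2 ^ n * g j x = - (2 ^ n * ρ j * x) := by simp only [g]; ring
      rw [this, abs_neg, abs_mul, abs_mul, abs_of_pos (show (0:ℝ) < 2 ^ n by positivity)]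
      have h4 := (hρ j).2
      have h5 : |x| ≤ R := abs_le.2 hx2
      have h6 : (2:ℝ) ^ n * |ρ j| ≤ 1 := by
        have : (0:ℝ) < 2 ^ n := by positivity
        calc (2:ℝ) ^ n * |ρ j| ≤ 2 ^ n * (2 ^ n)⁻¹ := by gcongr
          _ = 1 := by field_simp
      calc (2:ℝ) ^ n * |ρ j| * |x| ≤ 1 * R := mul_le_mul h6 h5 (abs_nonneg _) zero_le_one
        _ = R := one_mul _
    have h7 := floor_mem_Icc_of_abs_sub_le h3
    have e3 : ⌊(2:ℝ) ^ n * g j x⌋ = l / 2 ^ m := e2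
    have e4 : ⌊(2:ℝ) ^ n * τ j⌋ = k := hkj
    rw [e3, e4] at h7
    exact h7
  set K1 : ℝ≥0∞ := ((2 * R + 1 : ℕ) : ℝ≥0∞) ^ (q - 1) with hK1
  set K2 : ℝ≥0∞ := ((2 * C + 1 : ℕ) : ℝ≥0∞) ^ (q - 1) with hK2
  have hq0 : 0 ≤ q - 1 := by linarith
  -- part 3
  have hπ : ∑' k, π k ^ q ≤ K1 * tau μ n q := by
    have h1 : ∀ k, ∑' l, ν k (cell n l) = π k := by
      intro k
      simp only [ν]
      rw [Summable.tsum_finsetSum fun _ _ => ENNReal.summable]
      refine Finset.sum_congr rfl fun j _ => ?_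
      rw [ENNReal.tsum_mul_left]
      have : ∑' l, μ (g j ⁻¹' cell n l) = 1 := by
        have h2 := tsum_fiber_inter μ ((measurable_fl n).comp (hg j)) MeasurableSet.univ
        simp only [inter_univ, measure_univ] at h2
        exact h2
      rw [this, mul_one]
    have h2 : ∀ l, ∑' k, ν k (cell n l) = μ (cell n l) := fun l => hνsum _ (measurableSet_cell n l)
    have h3 := matrix_rpow_le (fun k l => ν k (cell n l))
      (fun k => Finset.Icc (k - (R:ℤ)) (k + R)) (2 * R + 1) (fun k => card_Icc_symm k R) ?_ hq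
    · simp_rw [h1, h2] at h3
      exact h3
    · intro k l hl
      by_contra hne
      apply hl
      have h4 := hloc 0 k l hne
      rw [Finset.mem_Icc] at h4 ⊢
      simp only [pow_zero, Int.ediv_one] at h4
      constructor <;> linarith [h4.1, h4.2]
  -- per class estimate
  have hk : ∀ k, ∑' l, ν k (cell (n + m) l) ^ q ≤ π k ^ q * (K2 * tau μ m q) := by
    intro k
    calc ∑' l, ν k (cell (n + m) l) ^ q
        ≤ ∑' l, π k ^ (q - 1) * ∑ j ∈ S k, W j * μ (g j ⁻¹' cell (n + m) l) ^ q :=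
          ENNReal.tsum_le_tsum fun l => weighted_rpow_le (S k) W _ hq
      _ = π k ^ (q - 1) * ∑ j ∈ S k, W j * ∑' l, μ (g j ⁻¹' cell (n + m) l) ^ q := by
          rw [ENNReal.tsum_mul_left, Summable.tsum_finsetSum fun _ _ => ENNReal.summable]
          simp_rw [ENNReal.tsum_mul_left]
      _ ≤ π k ^ (q - 1) * ∑ j ∈ S k, W j * (K2 * tau μ m q) := by
          gcongr with j _
          exact regrid μ hc0 C hC n m (ρ j) (τ j) (hρ j).1 hq
      _ = π k ^ q * (K2 * tau μ m q) := by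
          rw [← Finset.sum_mul, ← mul_assoc]
          congr 1
          have : π k ^ q = π k ^ ((q - 1) + 1) := by ring_nf
          rw [this, ENNReal.rpow_add_of_nonneg _ _ hq0 zero_le_one, ENNReal.rpow_one]
  -- conclusion
  calc tau μ (n + m) q = ∑' l, (∑' k, ν k (cell (n + m) l)) ^ q := by
        unfold tau
        congr 1; funext l
        rw [hνsum _ (measurableSet_cell _ _)]
    _ ≤ ∑' l, K1 * ∑' k, ν k (cell (n + m) l) ^ q := by
        refine ENNReal.tsum_le_tsum fun l => ?_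
        refine rpow_tsum_le _ (Finset.Icc (l / 2 ^ m - (R:ℤ)) (l / 2 ^ m + R)) (2 * R + 1)
          (card_Icc_symm _ _) ?_ hq
        intro k hk
        by_contra hne
        exact hk (hloc m k l hne)
    _ = K1 * ∑' k, ∑' l, ν k (cell (n + m) l) ^ q := by
        rw [ENNReal.tsum_mul_left, ENNReal.tsum_comm]
    _ ≤ K1 * ∑' k, π k ^ q * (K2 * tau μ m q) := by
        gcongr with k
        exact hk k
    _ = K1 * K2 * tau μ m q * ∑' k, π k ^ q := by
        rw [ENNReal.tsum_mul_right]; ring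
    _ ≤ K1 * K2 * tau μ m q * (K1 * tau μ n q) := by gcongr
    _ = _ := by
        push_cast
        rw [ENNReal.mul_rpow_of_nonneg _ _ hq0, ENNReal.mul_rpow_of_nonneg _ _ hq0]
        rw [hK1, hK2]
        push_cast
        ring

end Crest.Agent.R98
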