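import Mathlib

/-!
Row 98 (S0129): arithmetic of integer polynomials in one variable:
l1 norm, Lipschitz bound, nearest root lemma, Liouville inequality.
-/

set_option autoImplicit false

open Polynomial

namespace Crest.Agent.R98.Exact

/-- the `l1` norm of an integer polynomial -/
noncomputable def l1 (R : ℤ[X]) : ℝ := ∑ i ∈ R.support, |((R.coeff i : ℤ) : ℝ)|

lemma l1_eq_of_subset {R : ℤ[X]} {s : Finset ℕ} (h : R.support ⊆ s) :
    l1 R = ∑ i ∈ s, |((R.coeff i : ℤ) : ℝ)| := by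
  unfold l1
  apply Finset.sum_subset h
  intro i _ hi
  simp [Polynomial.notMem_support_iff.mp hi]

lemma l1_nonneg (R : ℤ[X]) : 0 ≤ l1 R := Finset.sum_nonneg fun _ _ => abs_nonneg _

@[simp] lemma l1_zero : l1 (0 : ℤ[X]) = 0 := by simp [l1]

lemma one_le_l1 {R : ℤ[X]} (h : R ≠ 0) : 1 ≤ l1 R := by
  have h1 : R.natDegree ∈ R.support := Polynomial.natDegree_mem_support_of_nonzero h
  have h2 : (1 : ℝ) ≤ |((R.coeff R.natDegree : ℤ) : ℝ)| := by
    have : R.coeff R.natDegree ≠ 0 := Polynomial.mem_support_iff.mp h1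
    exact_mod_cast Int.one_le_abs this
  exact h2.trans (Finset.single_le_sum (f := fun i => |((R.coeff i : ℤ) : ℝ)|)
    (fun _ _ => abs_nonneg _) h1)

lemma l1_add (R S : ℤ[X]) : l1 (R + S) ≤ l1 R + l1 S := by
  rw [l1_eq_of_subset (R := R + S) (s := R.support ∪ S.support) Polynomial.support_add,
    l1_eq_of_subset (R := R) (s := R.support ∪ S.support) Finset.subset_union_left,
    l1_eq_of_subset (R := S) (s := R.support ∪ S.support) Finset.subset_union_right,
    ← Finset.sum_add_distrib]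
  apply Finset.sum_le_sum
  intro i _
  simp only [Polynomial.coeff_add, Int.cast_add]
  exact abs_add_le _ _

@[simp] lemma l1_neg (R : ℤ[X]) : l1 (-R) = l1 R := by
  simp [l1, Polynomial.support_neg]

lemma l1_sum {ι : Type*} (s : Finset ι) (f : ι → ℤ[X]) :
    l1 (∑ i ∈ s, f i) ≤ ∑ i ∈ s, l1 (f i) := by
  classical
  induction s using Finset.induction_on with
  | empty => simp
  | insert a s ha ih =>
    rw [Finset.sum_insert ha, Finset.sum_insert ha]
    exact (l1_add _ _).trans (by linarith)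

lemma l1_monomial_mul (k : ℕ) (a : ℤ) (S : ℤ[X]) :
    l1 (Polynomial.monomial k a * S) ≤ |(a : ℝ)| * l1 S := by
  classical
  have hs : (Polynomial.monomial k a * S).support ⊆ S.support.image (fun i => i + k) := by
    intro i hi
    rw [Polynomial.mem_support_iff] at hi
    rw [Finset.mem_image]
    by_cases hk : k ≤ i
    · refine ⟨i - k, ?_, by omega⟩
      rw [Polynomial.mem_support_iff]
      intro h0
      apply hi
      obtain ⟨j, rfl⟩ := Nat.exists_eq_add_of_le' hk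
      rw [show j + k - k = j by omega] at h0
      rw [Polynomial.coeff_monomial_mul, h0, mul_zero]
    · exfalso
      apply hi
      rw [← Polynomial.C_mul_X_pow_eq_monomial, mul_assoc, Polynomial.coeff_C_mul,
        Polynomial.coeff_X_pow_mul', if_neg hk, mul_zero]
  rw [l1_eq_of_subset hs, Finset.sum_image (by intro x _ y _ h; simpa using h)]
  unfold l1
  rw [Finset.mul_sum]
  apply Finset.sum_le_sum
  intro i _
  rw [Polynomial.coeff_monomial_mul]
  push_cast
  rw [abs_mul]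

lemma l1_mul (R S : ℤ[X]) : l1 (R * S) ≤ l1 R * l1 S := by
  conv_lhs => rw [R.as_sum_support, Finset.sum_mul]
  refine (l1_sum _ _).trans ?_
  unfold l1
  rw [Finset.sum_mul]
  apply Finset.sum_le_sum
  intro i _
  exact l1_monomial_mul _ _ _

@[simp] lemma l1_one : l1 (1 : ℤ[X]) = 1 := by
  have : (1 : ℤ[X]).support ⊆ {0} := by
    intro i hi
    rw [Polynomial.mem_support_iff, Polynomial.coeff_one] at hi
    simp only [Finset.mem_singleton]
    by_contra h
    exact hi (by simp [h])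
  rw [l1_eq_of_subset this]
  simp

lemma l1_prod {ι : Type*} (s : Finset ι) (f : ι → ℤ[X]) :
    l1 (∏ i ∈ s, f i) ≤ ∏ i ∈ s, l1 (f i) := by
  classical
  induction s using Finset.induction_on with
  | empty => simp
  | insert a s ha ih =>
    rw [Finset.prod_insert ha, Finset.prod_insert ha]
    exact (l1_mul _ _).trans (mul_le_mul_of_nonneg_left ih (l1_nonneg _))

lemma l1_units_smul (u : ℤˣ) (R : ℤ[X]) : l1 (u • R) = l1 R := by
  rcases Int.units_eq_one_or u with h | h <;> simp [h]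

lemma l1_det {e : ℕ} (A : Matrix (Fin e) (Fin e) ℤ[X]) (H : ℝ)
    (hA : ∀ i j, l1 (A i j) ≤ H) : l1 A.det ≤ (e.factorial : ℝ) * H ^ e := by
  rw [Matrix.det_apply]
  refine (l1_sum _ _).trans ?_
  have h1 : ∀ σ ∈ (Finset.univ : Finset (Equiv.Perm (Fin e))),
      l1 (Equiv.Perm.sign σ • ∏ i, A (σ i) i) ≤ H ^ e := by
    intro σ _
    rw [l1_units_smul]
    refine (l1_prod _ _).trans ?_
    calc ∏ i, l1 (A (σ i) i) ≤ ∏ _i : Fin e, H :=
          Finset.prod_le_prod (fun i _ => l1_nonneg _) (fun i _ => hA _ _)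
      _ = H ^ e := by simp
  refine (Finset.sum_le_sum h1).trans ?_
  simp [Fintype.card_perm]

lemma natDegree_det_le {e n : ℕ} (A : Matrix (Fin e) (Fin e) ℤ[X])
    (hA : ∀ i j, (A i j).natDegree ≤ n) : A.det.natDegree ≤ e * n := by
  rw [Matrix.det_apply]
  apply Polynomial.natDegree_sum_le_of_forall_le
  intro σ _
  have h1 : (∏ i, A (σ i) i).natDegree ≤ e * n := by
    refine (Polynomial.natDegree_prod_le _ _).trans ?_
    calc ∑ i, (A (σ i) i).natDegree ≤ ∑ _i : Fin e, n :=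
          Finset.sum_le_sum (fun i _ => hA _ _)
      _ = e * n := by simp
  rcases Int.units_eq_one_or (Equiv.Perm.sign σ) with h | h <;> simpa [h] using h1

/-- evaluation of an integer polynomial at a complex number -/
lemma aeval_eq_sum (R : ℤ[X]) (z : ℂ) :
    aeval z R = ∑ i ∈ R.support, ((R.coeff i : ℤ) : ℂ) * z ^ i := by
  rw [Polynomial.aeval_eq_sum_range, ]
  rw [Finset.sum_subset (Polynomial.supp_subset_range_natDegree_succ (p := R))]
  · simp
  · intro i _ hi
    simp [Polynomial.notMem_support_iff.mp hi]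

lemma norm_aeval_le (R : ℤ[X]) {n : ℕ} (hn : R.natDegree ≤ n) (z : ℂ) :
    ‖aeval z R‖ ≤ l1 R * (max 1 ‖z‖) ^ n := by
  rw [aeval_eq_sum, l1, Finset.sum_mul]
  refine (norm_sum_le _ _).trans (Finset.sum_le_sum ?_)
  intro i hi
  rw [norm_mul, norm_pow]
  have h1 : ‖((R.coeff i : ℤ) : ℂ)‖ = |((R.coeff i : ℤ) : ℝ)| := by
    rw [Complex.norm_intCast]
  rw [h1]
  apply mul_le_mul_of_nonneg_left _ (abs_nonneg _)
  have hin : i ≤ n := (Polynomial.le_natDegree_of_mem_supp i hi).trans hn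
  calc ‖z‖ ^ i ≤ (max 1 ‖z‖) ^ i := by gcongr; exact le_max_right _ _
    _ ≤ (max 1 ‖z‖) ^ n := pow_le_pow_right₀ (le_max_left _ _) hin

lemma norm_pow_sub_pow_le {z w : ℂ} (hz : ‖z‖ ≤ 1) (hw : ‖w‖ ≤ 1) (i : ℕ) :
    ‖z ^ i - w ^ i‖ ≤ i * ‖z - w‖ := by
  induction i with
  | zero => simp
  | succ i ih =>
    have : z ^ (i + 1) - w ^ (i + 1) = (z ^ i - w ^ i) * z + w ^ i * (z - w) := by ring
    rw [this]
    refine (norm_add_le _ _).trans ?_
    rw [norm_mul, norm_mul, norm_pow]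
    have h1 : ‖z ^ i - w ^ i‖ * ‖z‖ ≤ i * ‖z - w‖ := by
      calc ‖z ^ i - w ^ i‖ * ‖z‖ ≤ ‖z ^ i - w ^ i‖ * 1 := by gcongr
        _ ≤ _ := by rw [mul_one]; exact ih
    have h2 : ‖w‖ ^ i * ‖z - w‖ ≤ 1 * ‖z - w‖ := by
      gcongr
      exact pow_le_one₀ (norm_nonneg _) hw
    push_cast
    linarith

lemma norm_aeval_sub_le (R : ℤ[X]) {n : ℕ} (hn : R.natDegree ≤ n) {z w : ℂ}
    (hz : ‖z‖ ≤ 1) (hw : ‖w‖ ≤ 1) :
    ‖aeval z R - aeval w R‖ ≤ n * l1 R * ‖z - w‖ := by
  rw [aeval_eq_sum, aeval_eq_sum, ← Finset.sum_sub_distrib, l1, Finset.mul_sum, Finset.sum_mul]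
  refine (norm_sum_le _ _).trans (Finset.sum_le_sum ?_)
  intro i hi
  rw [← mul_sub, norm_mul, Complex.norm_intCast]
  have hin : (i : ℝ) ≤ n := by exact_mod_cast (Polynomial.le_natDegree_of_mem_supp i hi).trans hn
  have h1 := norm_pow_sub_pow_le hz hw i
  have h2 : ‖z ^ i - w ^ i‖ ≤ n * ‖z - w‖ := h1.trans (by gcongr)
  calc |((R.coeff i : ℤ) : ℝ)| * ‖z ^ i - w ^ i‖
      ≤ |((R.coeff i : ℤ) : ℝ)| * (n * ‖z - w‖) := by gcongr
    _ = _ := by ring

/-- the complex polynomial attached to an integer polynomial -/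
noncomputable abbrev toC (R : ℤ[X]) : ℂ[X] := R.map (Int.castRingHom ℂ)

lemma toC_ne_zero {R : ℤ[X]} (h : R ≠ 0) : toC R ≠ 0 := by
  rwa [Ne, Polynomial.map_eq_zero_iff (RingHom.injective_int _)]

lemma eval_toC (R : ℤ[X]) (z : ℂ) : (toC R).eval z = aeval z R := by
  rw [Polynomial.eval_map, Polynomial.aeval_def]
  rfl

lemma natDegree_toC (R : ℤ[X]) : (toC R).natDegree = R.natDegree :=
  Polynomial.natDegree_map_eq_of_injective (RingHom.injective_int _) _

lemma leadingCoeff_toC (R : ℤ[X]) : (toC R).leadingCoeff = (R.leadingCoeff : ℂ) := by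
  rw [Polynomial.leadingCoeff_map_of_injective (RingHom.injective_int _)]
  rfl

lemma one_le_norm_lc {R : ℤ[X]} (h : R ≠ 0) : 1 ≤ ‖(toC R).leadingCoeff‖ := by
  rw [leadingCoeff_toC, Complex.norm_intCast]
  exact_mod_cast Int.one_le_abs (Polynomial.leadingCoeff_ne_zero.mpr h)

lemma mahler_le (R : ℤ[X]) : (toC R).mahlerMeasure ≤ l1 R := by
  refine (Polynomial.mahlerMeasure_le_sum_norm_coeff _).trans ?_
  rw [Polynomial.sum_def, l1]
  rw [show (toC R).support = R.support from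
    Polynomial.support_map_of_injective _ (RingHom.injective_int _)]
  apply Finset.sum_le_sum
  intro i _
  rw [Polynomial.coeff_map, eq_intCast, Complex.norm_intCast]

lemma one_le_mahler {R : ℤ[X]} (h : R ≠ 0) : 1 ≤ (toC R).mahlerMeasure :=
  Polynomial.one_le_mahlerMeasure_of_one_le_norm_leadingCoeff (one_le_norm_lc h)

lemma eval_eq_prod (p : ℂ[X]) (z : ℂ) :
    p.eval z = p.leadingCoeff * (p.roots.map fun ρ => z - ρ).prod := by
  conv_lhs => rw [(IsAlgClosed.splits p).eq_prod_roots]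
  rw [Polynomial.eval_mul, Polynomial.eval_C, Polynomial.eval_multiset_prod, Multiset.map_map]
  simp

lemma norm_eval_eq_prod (p : ℂ[X]) (z : ℂ) :
    ‖p.eval z‖ = ‖p.leadingCoeff‖ * (p.roots.map fun ρ => ‖z - ρ‖).prod := by
  rw [eval_eq_prod, norm_mul]
  congr 1
  rw [show (fun ρ => ‖z - ρ‖) = (fun x : ℂ => ‖x‖) ∘ (fun ρ => z - ρ) from rfl,
    ← Multiset.map_map]
  exact (Multiset.prod_hom (p.roots.map fun ρ => z - ρ) (normHom (α := ℂ))).symm

end Crest.Agent.R98.Exact
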