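import Crest.Agent.R98.ExactA

/-!
Row 98 (S0129): nearest root lemma and Liouville inequality for integer polynomials.
-/

set_option autoImplicit false

open Polynomial

namespace Crest.Agent.R98.Exact

/-- lower bound for a product over a multiset, by the number of bad elements -/
lemma multiset_prod_lower (s : Multiset ℂ) (P : ℂ → Prop) [DecidablePred P] (f : ℂ → ℝ)
    {b δ : ℝ} (hb0 : 0 ≤ b) (hb1 : b ≤ 1) (hδ0 : 0 ≤ δ)
    (h1 : ∀ x ∈ s, ¬ P x → b ≤ f x) (h2 : ∀ x ∈ s, P x → δ ≤ f x) :
    b ^ (Multiset.card s) * δ ^ (Multiset.card (s.filter P)) ≤ (s.map f).prod := by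
  induction s using Multiset.induction_on with
  | empty => simp
  | cons a s ih =>
    have ih' := ih (fun x hx => h1 x (Multiset.mem_cons_of_mem hx))
      (fun x hx => h2 x (Multiset.mem_cons_of_mem hx))
    have hprod : 0 ≤ (s.map f).prod := le_trans (by positivity) ih'
    rw [Multiset.map_cons, Multiset.prod_cons, Multiset.card_cons]
    by_cases hP : P a
    · rw [Multiset.filter_cons_of_pos _ hP, Multiset.card_cons]
      have h3 := h2 a (Multiset.mem_cons_self a s) hP
      calc b ^ (Multiset.card s + 1) * δ ^ (Multiset.card (s.filter P) + 1)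
          = (b * δ) * (b ^ Multiset.card s * δ ^ Multiset.card (s.filter P)) := by ring
        _ ≤ f a * (b ^ Multiset.card s * δ ^ Multiset.card (s.filter P)) := by
            gcongr
            calc b * δ ≤ 1 * δ := by gcongr
              _ ≤ f a := by rw [one_mul]; exact h3
        _ ≤ f a * (s.map f).prod := by
            gcongr
            exact hδ0.trans h3
    · rw [Multiset.filter_cons_of_neg _ hP]
      have h3 := h1 a (Multiset.mem_cons_self a s) hP
      calc b ^ (Multiset.card s + 1) * δ ^ (Multiset.card (s.filter P))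
          = b * (b ^ Multiset.card s * δ ^ Multiset.card (s.filter P)) := by ring
        _ ≤ f a * (b ^ Multiset.card s * δ ^ Multiset.card (s.filter P)) := by
            gcongr
        _ ≤ f a * (s.map f).prod := by
            gcongr
            exact hb0.trans h3

/-- upper bound for a product over a multiset, by the number of small elements -/
lemma multiset_prod_upper (s : Multiset ℂ) (P : ℂ → Prop) [DecidablePred P]
    {c : ℝ} (hc0 : 0 ≤ c) (h1 : ∀ x ∈ s, P x → ‖x‖ ≤ c) :
    (s.map fun x => ‖x‖).prod ≤
      c ^ (Multiset.card (s.filter P)) * (s.map fun x => max 1 ‖x‖).prod := by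
  induction s using Multiset.induction_on with
  | empty => simp
  | cons a s ih =>
    have ih' := ih (fun x hx => h1 x (Multiset.mem_cons_of_mem hx))
    have hM : 0 ≤ (s.map fun x => max 1 ‖x‖).prod :=
      Multiset.prod_nonneg (by
        intro y hy
        obtain ⟨x, _, rfl⟩ := Multiset.mem_map.mp hy
        exact le_trans zero_le_one (le_max_left _ _))
    have hM' : 0 ≤ (s.map fun x => ‖x‖).prod :=
      Multiset.prod_nonneg (by
        intro y hy
        obtain ⟨x, _, rfl⟩ := Multiset.mem_map.mp hy
        exact norm_nonneg _)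
    rw [Multiset.map_cons, Multiset.prod_cons, Multiset.map_cons, Multiset.prod_cons]
    by_cases hP : P a
    · rw [Multiset.filter_cons_of_pos _ hP, Multiset.card_cons]
      have h3 := h1 a (Multiset.mem_cons_self a s) hP
      calc ‖a‖ * (s.map fun x => ‖x‖).prod
          ≤ c * (c ^ (Multiset.card (s.filter P)) * (s.map fun x => max 1 ‖x‖).prod) :=
            mul_le_mul h3 ih' hM' hc0
        _ ≤ max 1 ‖a‖ * (c * (c ^ (Multiset.card (s.filter P)) *
              (s.map fun x => max 1 ‖x‖).prod)) := by
            apply le_mul_of_one_le_left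
            · positivity
            · exact le_max_left _ _
        _ = _ := by ring
    · rw [Multiset.filter_cons_of_neg _ hP]
      calc ‖a‖ * (s.map fun x => ‖x‖).prod
          ≤ max 1 ‖a‖ * (c ^ (Multiset.card (s.filter P)) *
              (s.map fun x => max 1 ‖x‖).prod) :=
            mul_le_mul (le_max_right _ _) ih' hM' (le_trans zero_le_one (le_max_left _ _))
        _ = _ := by ring

/-- **nearest root lemma** -/
theorem near_root {lam : ℝ} (h0 : 0 < lam) (h1 : lam < 1) {δ : ℝ} (hδ0 : 0 < δ) (hδ1 : δ ≤ 1)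
    {H : ℝ} (k : ℕ) (hk : H * ((1 + lam) / 2) ^ (k + 1) < 1) :
    ∀ (n : ℕ) (R : ℤ[X]), R ≠ 0 → R.natDegree ≤ n → l1 R ≤ H →
      (∀ ρ : ℂ, aeval ρ R = 0 → δ ≤ ‖ρ - lam‖) →
      (lam * ((1 - lam) / 2)) ^ n * δ ^ k ≤ ‖aeval (lam : ℂ) R‖ := by
  intro n
  induction n with
  | zero =>
    intro R hR hn _ _
    obtain ⟨a, rfl⟩ := Polynomial.natDegree_eq_zero.mp (Nat.le_zero.mp hn)
    have ha : a ≠ 0 := by
      rintro rfl
      simp at hR
    have : (1 : ℝ) ≤ ‖(a : ℂ)‖ := by
      rw [Complex.norm_intCast]
      exact_mod_cast Int.one_le_abs ha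
    simp only [pow_zero, one_mul, Polynomial.aeval_C]
    exact (pow_le_one₀ hδ0.le hδ1).trans (by simpa using this)
  | succ n ih =>
    intro R hR hn hH hρ
    by_cases hc : R.coeff 0 = 0
    · -- divide by X
      obtain ⟨S, rfl⟩ := Polynomial.X_dvd_iff.mpr hc
      have hS : S ≠ 0 := by
        rintro rfl
        simp at hR
      have hdeg : S.natDegree ≤ n := by
        rw [Polynomial.natDegree_X_mul hS] at hn
        omega
      have hl : l1 S ≤ H := by
        refine le_trans (le_of_eq ?_) hH
        have hs : (X * S : ℤ[X]).support ⊆ S.support.image (fun i => i + 1) := by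
          intro i hi
          rw [Polynomial.mem_support_iff] at hi
          rw [Finset.mem_image]
          cases i with
          | zero => simp at hi
          | succ j =>
            rw [Polynomial.coeff_X_mul] at hi
            exact ⟨j, Polynomial.mem_support_iff.mpr hi, rfl⟩
        rw [l1_eq_of_subset hs, Finset.sum_image (by intro x _ y _ h; simpa using h)]
        unfold l1
        apply Finset.sum_congr rfl
        intro i _
        rw [Polynomial.coeff_X_mul]
      have hroot : ∀ ρ : ℂ, aeval ρ S = 0 → δ ≤ ‖ρ - lam‖ := by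
        intro ρ hρ0
        apply hρ
        simp [hρ0]
      have ih' := ih S hS hdeg hl hroot
      rw [map_mul, Polynomial.aeval_X, norm_mul]
      have h3 : ‖(lam : ℂ)‖ = lam := by
        rw [Complex.norm_real, Real.norm_of_nonneg h0.le]
      rw [h3]
      have h4 : (lam * ((1 - lam) / 2)) ^ (n + 1) * δ ^ k
          = (lam * ((1 - lam) / 2)) * ((lam * ((1 - lam) / 2)) ^ n * δ ^ k) := by ring
      rw [h4]
      have h5 : 0 ≤ (lam * ((1 - lam) / 2)) ^ n * δ ^ k := by
        have : 0 ≤ (1 - lam) / 2 := by linarith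
        positivity
      calc (lam * ((1 - lam) / 2)) * ((lam * ((1 - lam) / 2)) ^ n * δ ^ k)
          ≤ lam * ((lam * ((1 - lam) / 2)) ^ n * δ ^ k) := by
            apply mul_le_mul_of_nonneg_right _ h5
            nlinarith
        _ ≤ _ := by gcongr
    · -- the constant coefficient is non-zero
      set p := toC R with hp
      have hp0 : p ≠ 0 := toC_ne_zero hR
      have hroots0 : ∀ x ∈ p.roots, x ≠ 0 := by
        intro x hx hx0
        rw [Polynomial.mem_roots hp0, Polynomial.IsRoot.def, hx0, ← Polynomial.coeff_zero_eq_eval_zero,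
          hp, Polynomial.coeff_map] at hx
        apply hc
        simpa using hx
      have hconst : 1 ≤ ‖p.leadingCoeff‖ * (p.roots.map fun ρ => ‖ρ‖).prod := by
        have h2 := norm_eval_eq_prod p 0
        rw [← Polynomial.coeff_zero_eq_eval_zero, hp, Polynomial.coeff_map, eq_intCast,
          Complex.norm_intCast] at h2
        have h3 : (1 : ℝ) ≤ |((R.coeff 0 : ℤ) : ℝ)| := by exact_mod_cast Int.one_le_abs hc
        rw [h2] at h3
        simpa using h3
      classical
      have hcard : Multiset.card (p.roots.filter fun x => ‖x‖ < (1 + lam) / 2) ≤ k := by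
        by_contra hcon
        push Not at hcon
        have h2 := multiset_prod_upper p.roots (fun x => ‖x‖ < (1 + lam) / 2)
          (c := (1 + lam) / 2) (by linarith) (fun x _ hx => hx.le)
        have h3 : 1 ≤ ((1 + lam) / 2) ^ (Multiset.card (p.roots.filter fun x => ‖x‖ < (1 + lam) / 2))
            * p.mahlerMeasure := by
          rw [Polynomial.mahlerMeasure_eq_leadingCoeff_mul_prod_roots]
          calc (1 : ℝ) ≤ ‖p.leadingCoeff‖ * (p.roots.map fun ρ => ‖ρ‖).prod := hconst
            _ ≤ ‖p.leadingCoeff‖ * (((1 + lam) / 2) ^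
                (Multiset.card (p.roots.filter fun x => ‖x‖ < (1 + lam) / 2)) *
                (p.roots.map fun x => max 1 ‖x‖).prod) := by gcongr
            _ = _ := by ring
        have h4 : p.mahlerMeasure ≤ H := (mahler_le R).trans hH
        have h5 : ((1 + lam) / 2) ^ (Multiset.card (p.roots.filter fun x => ‖x‖ < (1 + lam) / 2))
            ≤ ((1 + lam) / 2) ^ (k + 1) :=
          pow_le_pow_of_le_one (by linarith) (by linarith) hcon
        have h6 : 0 ≤ p.mahlerMeasure := Polynomial.mahlerMeasure_nonneg _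
        have h7 : (0 : ℝ) ≤ ((1 + lam) / 2) ^ (k + 1) := by
          have : 0 ≤ (1 + lam) / 2 := by linarith
          positivity
        have h8 : ((1 + lam) / 2) ^ (Multiset.card (p.roots.filter fun x => ‖x‖ < (1 + lam) / 2))
            * p.mahlerMeasure ≤ ((1 + lam) / 2) ^ (k + 1) * H := by
          calc _ ≤ ((1 + lam) / 2) ^ (k + 1) * p.mahlerMeasure := by gcongr
            _ ≤ _ := by gcongr
        linarith [mul_comm H (((1 + lam) / 2) ^ (k + 1))]
      have hlow := multiset_prod_lower p.roots (fun x => ‖x‖ < (1 + lam) / 2)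
        (fun ρ => ‖(lam : ℂ) - ρ‖) (b := lam * ((1 - lam) / 2)) (δ := δ)
        (by nlinarith) (by nlinarith) hδ0.le
        (by
          intro x _ hx
          push Not at hx
          have h2 : ‖x‖ - ‖(lam : ℂ)‖ ≤ ‖x - lam‖ := norm_sub_norm_le _ _
          have h3 : ‖(lam : ℂ)‖ = lam := by
            rw [Complex.norm_real, Real.norm_of_nonneg h0.le]
          rw [h3, norm_sub_rev] at h2
          nlinarith)
        (by
          intro x hx _
          rw [norm_sub_rev]
          apply hρ
          rw [Polynomial.mem_roots hp0, Polynomial.IsRoot.def, hp, eval_toC] at hx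
          exact hx)
      rw [← eval_toC, norm_eval_eq_prod]
      have hcardn : Multiset.card p.roots ≤ n + 1 :=
        (Polynomial.card_roots' p).trans (by rw [hp, natDegree_toC]; exact hn)
      have hb0 : 0 ≤ lam * ((1 - lam) / 2) := by nlinarith
      have hb1 : lam * ((1 - lam) / 2) ≤ 1 := by nlinarith
      calc (lam * ((1 - lam) / 2)) ^ (n + 1) * δ ^ k
          ≤ (lam * ((1 - lam) / 2)) ^ (Multiset.card p.roots) *
            δ ^ (Multiset.card (p.roots.filter fun x => ‖x‖ < (1 + lam) / 2)) := by
            apply mul_le_mul (pow_le_pow_of_le_one hb0 hb1 hcardn)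
              (pow_le_pow_of_le_one hδ0.le hδ1 hcard) (by positivity) (by positivity)
        _ ≤ (p.roots.map fun ρ => ‖(lam : ℂ) - ρ‖).prod := hlow
        _ ≤ ‖p.leadingCoeff‖ * (p.roots.map fun ρ => ‖(lam : ℂ) - ρ‖).prod := by
            apply le_mul_of_one_le_left (le_trans (by positivity) hlow)
            exact one_le_norm_lc hR

/-- the irreducible factor at a root -/
lemma exists_irreducible_factor {R : ℤ[X]} (hR : R ≠ 0) {ρ : ℂ} (hρ : aeval ρ R = 0) :
    ∃ g : ℤ[X], Irreducible g ∧ g ∣ R ∧ aeval ρ g = 0 := by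
  induction R using UniqueFactorizationMonoid.induction_on_prime with
  | h₁ => exact absurd rfl hR
  | h₂ x hx =>
    exfalso
    obtain ⟨y, hy⟩ := hx.exists_right_inv
    have h1 : aeval ρ (x * y) = (1 : ℂ) := by rw [hy, map_one]
    rw [map_mul, hρ, zero_mul] at h1
    exact zero_ne_one h1
  | h₃ a p ha hp ih =>
    rw [map_mul, mul_eq_zero] at hρ
    rcases hρ with h | h
    · exact ⟨p, hp.irreducible, dvd_mul_right _ _, h⟩
    · obtain ⟨g, hg1, hg2, hg3⟩ := ih ha h
      exact ⟨g, hg1, hg2.mul_left _, hg3⟩

lemma natDegree_pos_of_root {g : ℤ[X]} (hg : g ≠ 0) {ρ : ℂ} (hρ : aeval ρ g = 0) :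
    0 < g.natDegree := by
  by_contra h
  obtain ⟨a, rfl⟩ := Polynomial.natDegree_eq_zero.mp (by omega : g.natDegree = 0)
  rw [Polynomial.aeval_C] at hρ
  apply hg
  have : a = 0 := by simpa using hρ
  simp [this]

/-- **Liouville inequality** -/
theorem liouville {R S : ℤ[X]} (hR : R ≠ 0) {n s : ℕ} (hn : R.natDegree ≤ n)
    (hs : S.natDegree ≤ s) {ρ : ℂ} (hρ : aeval ρ R = 0) (hS : aeval ρ S ≠ 0) :
    1 ≤ ‖aeval ρ S‖ * (l1 S ^ n * l1 R ^ s) := by
  obtain ⟨g, hirr, ⟨h, hgh⟩, hgρ⟩ := exists_irreducible_factor hR hρ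
  have hg0 : g ≠ 0 := hirr.ne_zero
  have hh0 : h ≠ 0 := by
    rintro rfl
    rw [mul_zero] at hgh
    exact hR hgh
  have hS0 : S ≠ 0 := by
    rintro rfl
    simp at hS
  have hdeg : 0 < g.natDegree := natDegree_pos_of_root hg0 hgρ
  have hprim : g.IsPrimitive := hirr.isPrimitive (by omega)
  -- resultant is nonzero
  have hres : Polynomial.resultant g S g.natDegree s ≠ 0 := by
    have hirrQ : Irreducible (g.map (Int.castRingHom ℚ)) :=
      (Polynomial.IsPrimitive.Int.irreducible_iff_irreducible_map_cast hprim).mp hirr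
    have hcop : IsCoprime (g.map (Int.castRingHom ℚ)) (S.map (Int.castRingHom ℚ)) := by
      rw [hirrQ.coprime_iff_not_dvd]
      rintro ⟨q, hq⟩
      apply hS
      have h1 : aeval ρ (S.map (Int.castRingHom ℚ)) = aeval ρ S := by
        exact Polynomial.aeval_map_algebraMap ℚ ρ S
      have h2 : aeval ρ (g.map (Int.castRingHom ℚ)) = aeval ρ g :=
        Polynomial.aeval_map_algebraMap ℚ ρ g
      rw [← h1, hq, map_mul, h2, hgρ, zero_mul]
    intro h0
    have h1 := Polynomial.resultant_map_map g S g.natDegree s (Int.castRingHom ℚ)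
    rw [h0, map_zero] at h1
    obtain ⟨k, rfl⟩ := Nat.exists_eq_add_of_le hs
    rw [Polynomial.resultant_add_right_deg _ _ _ _ _ (by rw [Polynomial.natDegree_map_eq_of_injective
      (RingHom.injective_int _)])] at h1
    have h2 : (g.map (Int.castRingHom ℚ)).coeff g.natDegree ≠ 0 := by
      rw [Polynomial.coeff_map]
      simp [hg0]
    have h3 := mul_eq_zero.mp h1
    rcases h3 with h3 | h3
    · exact pow_ne_zero k h2 h3
    · have h4 := Polynomial.resultant_ne_zero _ _ hcop
      rw [Polynomial.natDegree_map_eq_of_injective (RingHom.injective_int _),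
        Polynomial.natDegree_map_eq_of_injective (RingHom.injective_int _)] at h4
      exact h4 h3
  -- product formula over ℂ
  have hprod := Polynomial.resultant_eq_prod_eval (toC g) (toC S) s (by rw [natDegree_toC]; exact hs)
    (IsAlgClosed.splits _)
  rw [natDegree_toC] at hprod
  have hmap := Polynomial.resultant_map_map g S g.natDegree s (Int.castRingHom ℂ)
  rw [show g.map (Int.castRingHom ℂ) = toC g from rfl,
    show S.map (Int.castRingHom ℂ) = toC S from rfl, hprod] at hmap
  have hone : (1 : ℝ) ≤ ‖(toC g).leadingCoeff ^ s * ((toC g).roots.map (toC S).eval).prod‖ := by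
    rw [hmap, eq_intCast, Complex.norm_intCast]
    exact_mod_cast Int.one_le_abs hres
  have hg0' : toC g ≠ 0 := toC_ne_zero hg0
  have hmem : ρ ∈ (toC g).roots := by
    rw [Polynomial.mem_roots hg0', Polynomial.IsRoot.def, eval_toC, hgρ]
  obtain ⟨t, ht⟩ := Multiset.exists_cons_of_mem hmem
  rw [ht, Multiset.map_cons, Multiset.prod_cons, eval_toC, norm_mul, norm_mul, norm_pow] at hone
  have hl1S : 1 ≤ l1 S := one_le_l1 hS0
  -- bound over the other roots
  have hbound : ∀ (t : Multiset ℂ), ‖(t.map (toC S).eval).prod‖ ≤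
      l1 S ^ (Multiset.card t) * ((t.map fun x => max 1 ‖x‖).prod) ^ s := by
    intro t
    induction t using Multiset.induction_on with
    | empty => simp
    | cons a t ih =>
      rw [Multiset.map_cons, Multiset.prod_cons, norm_mul, Multiset.map_cons, Multiset.prod_cons,
        Multiset.card_cons, eval_toC]
      calc ‖aeval a S‖ * ‖(t.map (toC S).eval).prod‖
          ≤ (l1 S * (max 1 ‖a‖) ^ s) *
            (l1 S ^ (Multiset.card t) * ((t.map fun x => max 1 ‖x‖).prod) ^ s) := by
            apply mul_le_mul (norm_aeval_le S hs a) ih (norm_nonneg _)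
            have := l1_nonneg S
            positivity
        _ = _ := by rw [mul_pow]; ring
  have hcardt : Multiset.card t ≤ n := by
    have h1 : Multiset.card (toC g).roots ≤ g.natDegree := by
      have := Polynomial.card_roots' (toC g)
      rwa [natDegree_toC] at this
    rw [ht, Multiset.card_cons] at h1
    have h2 : g.natDegree ≤ R.natDegree := Polynomial.natDegree_le_of_dvd ⟨h, hgh⟩ hR
    omega
  have hM : ‖(toC g).leadingCoeff‖ * (t.map fun x => max 1 ‖x‖).prod ≤ l1 R := by
    have h1 : (toC g).mahlerMeasure ≤ (toC R).mahlerMeasure := by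
      have h2 : toC R = toC g * toC h := by
        rw [hgh]
        exact Polynomial.map_mul _
      rw [h2, Polynomial.mahlerMeasure_mul]
      exact le_mul_of_one_le_right (Polynomial.mahlerMeasure_nonneg _) (one_le_mahler hh0)
    have h3 := (h1.trans (mahler_le R))
    rw [Polynomial.mahlerMeasure_eq_leadingCoeff_mul_prod_roots, ht, Multiset.map_cons,
      Multiset.prod_cons] at h3
    have hM0 : 0 ≤ (t.map fun x => max 1 ‖x‖).prod :=
      Multiset.prod_nonneg (by
        intro y hy
        obtain ⟨x, _, rfl⟩ := Multiset.mem_map.mp hy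
        exact le_trans zero_le_one (le_max_left _ _))
    refine le_trans ?_ h3
    gcongr
    exact le_mul_of_one_le_left hM0 (le_max_left _ _)
  have hMt0 : 0 ≤ (t.map fun x => max 1 ‖x‖).prod :=
    Multiset.prod_nonneg (by
      intro y hy
      obtain ⟨x, _, rfl⟩ := Multiset.mem_map.mp hy
      exact le_trans zero_le_one (le_max_left _ _))
  calc (1 : ℝ) ≤ ‖(toC g).leadingCoeff‖ ^ s * (‖aeval ρ S‖ * ‖(t.map (toC S).eval).prod‖) := hone
    _ ≤ ‖(toC g).leadingCoeff‖ ^ s * (‖aeval ρ S‖ * (l1 S ^ (Multiset.card t) *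
          ((t.map fun x => max 1 ‖x‖).prod) ^ s)) := by
        gcongr
        exact hbound t
    _ = ‖aeval ρ S‖ * (l1 S ^ (Multiset.card t) *
          (‖(toC g).leadingCoeff‖ * (t.map fun x => max 1 ‖x‖).prod) ^ s) := by
        rw [mul_pow]; ring
    _ ≤ ‖aeval ρ S‖ * (l1 S ^ n * l1 R ^ s) := by
        gcongr

end Crest.Agent.R98.Exact
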