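import Crest.Agent.R98.ExactC

/-!
Row 98 (S0129): asymptotic form of the one-variable exactness lemma.
-/

set_option autoImplicit false

open Polynomial

namespace Crest.Agent.R98.Exact

set_option maxHeartbeats 4000000 in
/-- **E1, asymptotic form.** The constant `C` depends on the number `k` of coordinates only. -/
theorem exactness_asymp (k : ℕ) : ∃ C : ℝ, 1 ≤ C ∧
    ∀ (κ : Type*) [Fintype κ], Fintype.card κ = k →
    ∀ (n : ℕ), 2 ≤ n → ∀ (b : ℝ), 1 ≤ b → ∀ (lam : ℝ), 1 / b ≤ lam → 1 / b ≤ 1 - lam →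
    ∀ (G N : ℝ), C * n * (Real.log n + Real.log b) ≤ G → G * (C * b * Real.log n) ^ k ≤ N →
    ∀ (PP : Set (κ → ℤ[X])), (∀ P ∈ PP, ∀ j, (P j).natDegree ≤ n) →
      (∀ P ∈ PP, ∀ j, l1 (P j) ≤ (n : ℝ) ^ 2) →
    ∃ z : ℂ, ‖z - lam‖ ≤ Real.exp (-G) ∧ ‖z‖ ≤ 1 ∧
      (z = lam ∨ ∃ (e : ℕ) (R : Fin e → κ → ℤ[X]) (J : Fin e → κ), e ≤ k ∧
        (∀ i, R i ∈ PP) ∧ minor R J ≠ 0 ∧ aeval z (minor R J) = 0) ∧
      ∀ t : κ → ℝ, (∀ P ∈ PP, ‖∑ j, (t j : ℂ) * aeval (lam : ℂ) (P j)‖ ≤ Real.exp (-N) * ‖t‖) →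
        ∃ t' : κ → ℂ, (∀ j, ‖t' j - t j‖ ≤ Real.exp (-(G / 2)) * ‖t‖) ∧
          ∀ P ∈ PP, ∑ j, t' j * aeval z (P j) = 0 := by
  -- constants
  set F : ℝ := (k.factorial : ℝ) with hF
  have hF1 : 1 ≤ F := by
    rw [hF]; exact_mod_cast Nat.one_le_iff_ne_zero.mpr (Nat.factorial_ne_zero k)
  have hlF : 0 ≤ Real.log F := Real.log_nonneg hF1
  -- L0 := log (k! H^k) ≤ c1 * log n
  set c1 : ℝ := 2 * Real.log F + 2 * k with hc1
  have hc10 : 0 ≤ c1 := by positivity
  set C : ℝ := 100 * (k + 1) * (c1 + 1) with hC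
  have hk0 : (0 : ℝ) ≤ k := Nat.cast_nonneg k
  have hC1 : 1 ≤ C := by
    rw [hC]
    nlinarith [mul_nonneg hk0 hc10]
  refine ⟨C, hC1, ?_⟩
  intro κ _ hcard n hn b hb lam hlb hlb1 G N hG hN PP hdeg hl1
  have hn' : (2 : ℝ) ≤ n := by exact_mod_cast hn
  have hlogn : 1 / 2 ≤ Real.log n := by
    have h1 : Real.log 2 ≤ Real.log n := Real.log_le_log (by norm_num) hn'
    have := Real.log_two_gt_d9
    linarith
  have hlogb : 0 ≤ Real.log b := Real.log_nonneg hb
  have hb0 : 0 < b := by linarith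
  have hlam0 : 0 < lam := lt_of_lt_of_le (by positivity) hlb
  have hlam1 : lam < 1 := by
    have : 0 < 1 / b := by positivity
    linarith
  set H : ℝ := (n : ℝ) ^ 2 with hH
  have hH1 : 1 ≤ H := by rw [hH]; nlinarith only [hn']
  set H' : ℝ := F * H ^ k with hH'
  have hH'pos : 0 < H' := by positivity
  have hH'1 : 1 ≤ H' := by
    have : (1 : ℝ) ≤ H ^ k := one_le_pow₀ hH1
    rw [hH']
    exact one_le_mul_of_one_le_of_one_le hF1 this
  have hlogH' : Real.log H' ≤ c1 * Real.log n := by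
    rw [hH', Real.log_mul (by positivity) (by positivity), Real.log_pow, hH, Real.log_pow, hc1]
    have h1 : Real.log F ≤ 2 * Real.log F * Real.log n := by
      nlinarith only [hlF, hlogn, mul_nonneg hlF (sub_nonneg.2 hlogn)]
    push_cast
    nlinarith only [h1]
  have hlogH'0 : 0 ≤ Real.log H' := Real.log_nonneg hH'1
  have hG0 : 0 ≤ G := by
    refine le_trans ?_ hG
    have : 0 ≤ Real.log n + Real.log b := by linarith
    positivity
  -- basic lower bounds for G
  have hGa : 100 * (k + 1) * (c1 + 1) * n * (Real.log n + Real.log b) ≤ G := hG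
  -- q
  set q : ℕ := ⌈2 * b * Real.log H'⌉₊ with hq
  have hq1 : 2 * b * Real.log H' ≤ q := Nat.le_ceil _
  have hq2 : (q : ℝ) ≤ 2 * b * Real.log H' + 1 :=
    (Nat.ceil_lt_add_one (by positivity)).le
  have hqC : (q : ℝ) + 1 ≤ C * b * Real.log n / (k + 1) := by
    have h2 : (q : ℝ) + 1 ≤ 2 * b * (c1 * Real.log n) + 2 := by
      have : 2 * b * Real.log H' ≤ 2 * b * (c1 * Real.log n) := by gcongr
      linarith
    have h3 : 2 * b * (c1 * Real.log n) + 2 ≤ 100 * (c1 + 1) * b * Real.log n := by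
      have h4 : 1 / 2 ≤ b * Real.log n := by nlinarith only [hb, hlogn]
      nlinarith only [h4, mul_nonneg hc10 (by linarith : (0 : ℝ) ≤ b * Real.log n)]
    refine (h2.trans h3).trans (le_of_eq ?_)
    rw [hC]
    field_simp
  have hqk : (((Fintype.card κ).factorial : ℝ) * H ^ (Fintype.card κ)) *
      ((1 + lam) / 2) ^ (q + 1) < 1 := by
    rw [hcard, ← hF, ← hH']
    have h2 : (1 + lam) / 2 ≤ Real.exp (-(1 / (2 * b))) := by
      have h3 := Real.add_one_le_exp (-(1 / (2 * b)))
      have h4 : 1 / (2 * b) = (1 / b) / 2 := by field_simp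
      rw [h4] at h3 ⊢
      linarith
    have h5 : ((1 + lam) / 2) ^ (q + 1) ≤ Real.exp (-(1 / (2 * b))) ^ (q + 1) :=
      pow_le_pow_left₀ (by linarith) h2 _
    have h6 : Real.exp (-(1 / (2 * b))) ^ (q + 1) < Real.exp (-(Real.log H')) := by
      rw [← Real.exp_nat_mul]
      apply Real.exp_lt_exp.mpr
      have h7 : Real.log H' ≤ q * (1 / (2 * b)) := by
        rw [mul_one_div, le_div_iff₀ (by positivity)]
        linarith
      push_cast
      have h8 : 0 < 1 / (2 * b) := by positivity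
      have h9 : ((q : ℝ) + 1) * -(1 / (2 * b)) = -(q * (1 / (2 * b))) - 1 / (2 * b) := by ring
      rw [h9]
      linarith
    calc H' * ((1 + lam) / 2) ^ (q + 1) ≤ H' * Real.exp (-(1 / (2 * b))) ^ (q + 1) := by gcongr
      _ < H' * Real.exp (-(Real.log H')) := by gcongr
      _ = 1 := by
        rw [Real.exp_neg, Real.exp_log hH'pos, mul_inv_cancel₀ hH'pos.ne']
  have hn0 : (0 : ℝ) < n := by linarith
  have hGl : ∀ x : ℝ, x ≤ 100 * (k + 1) * (c1 + 1) * n * (Real.log n + Real.log b) → x ≤ G :=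
    fun x hx => hx.trans hGa
  have hP1 : (0 : ℝ) ≤ k * c1 := by positivity
  have hsum : Real.log n ≤ Real.log n + Real.log b := by linarith
  -- hG0
  have hGexp0 : Real.exp (-G) ≤ 1 - lam := by
    refine le_trans ?_ hlb1
    have h2 : Real.log b ≤ G := by
      apply hGl
      have h3 : (1 : ℝ) ≤ 100 * (k + 1) * (c1 + 1) * n := by
        nlinarith only [mul_nonneg hP1 hn0.le, mul_nonneg hk0 hn0.le, mul_nonneg hc10 hn0.le, hn']
      have h4 : 0 ≤ Real.log n + Real.log b := by linarith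
      calc Real.log b ≤ 1 * (Real.log n + Real.log b) := by linarith
        _ ≤ _ := mul_le_mul_of_nonneg_right h3 h4
    calc Real.exp (-G) ≤ Real.exp (-(Real.log b)) := Real.exp_le_exp.mpr (by linarith)
      _ = 1 / b := by rw [Real.exp_neg, Real.exp_log hb0, one_div]
  have hGexp1 : Real.exp (-G) ≤ (lam * ((1 - lam) / 2)) ^ (Fintype.card κ * n) := by
    have h2 : 1 / b * (1 / b / 2) ≤ lam * ((1 - lam) / 2) := by
      gcongr
    have h3 : Real.exp (-(2 * Real.log b + 1)) ≤ 1 / b * (1 / b / 2) := by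
      have h4 : Real.exp (-(2 * Real.log b + 1)) = (1 / b) * (1 / b) * Real.exp (-1) := by
        rw [show -(2 * Real.log b + 1) = -Real.log b + -Real.log b + -1 by ring, Real.exp_add,
          Real.exp_add, Real.exp_neg (Real.log b), Real.exp_log hb0, one_div]
      rw [h4]
      have h5 : Real.exp (-1) ≤ 1 / 2 := by
        rw [Real.exp_neg, one_div]
        apply inv_anti₀ (by norm_num)
        have := Real.add_one_le_exp (1 : ℝ)
        linarith
      calc (1 / b) * (1 / b) * Real.exp (-1) ≤ (1 / b) * (1 / b) * (1 / 2) := by gcongr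
        _ = _ := by ring
    calc Real.exp (-G) ≤ Real.exp (-(2 * Real.log b + 1)) ^ (Fintype.card κ * n) := by
          rw [← Real.exp_nat_mul]
          apply Real.exp_le_exp.mpr
          rw [mul_neg]
          apply neg_le_neg
          apply hGl
          rw [hcard]
          push_cast
          have h6 : (1 : ℝ) ≤ 2 * (Real.log n + Real.log b) := by linarith
          have h7 : 2 * Real.log b + 1 ≤ 4 * (Real.log n + Real.log b) := by linarith
          have h8 : 0 ≤ Real.log n + Real.log b := by linarith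
          calc (k : ℝ) * n * (2 * Real.log b + 1) ≤ k * n * (4 * (Real.log n + Real.log b)) := by
                gcongr
            _ ≤ (100 * (k + 1) * (c1 + 1)) * n * (Real.log n + Real.log b) := by
                have h9 : (k : ℝ) * 4 ≤ 100 * (k + 1) * (c1 + 1) := by
                  nlinarith only [hP1, hk0, hc10]
                have h10 : 0 ≤ (n : ℝ) * (Real.log n + Real.log b) := by positivity
                calc (k : ℝ) * n * (4 * (Real.log n + Real.log b))
                    = (k * 4) * (n * (Real.log n + Real.log b)) := by ring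
                  _ ≤ (100 * (k + 1) * (c1 + 1)) * (n * (Real.log n + Real.log b)) :=
                    mul_le_mul_of_nonneg_right h9 h10
                  _ = _ := by ring
            _ = _ := by ring
      _ ≤ (1 / b * (1 / b / 2)) ^ (Fintype.card κ * n) := by gcongr
      _ ≤ _ := by gcongr
  -- hG2
  have hkn : ((Fintype.card κ * n : ℕ) : ℝ) = k * n := by rw [hcard]; push_cast; ring
  have hGexp2 : 2 * ((Fintype.card κ * n : ℕ) + 1 : ℝ) *
      (((Fintype.card κ).factorial : ℝ) * H ^ (Fintype.card κ)) ^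
        (2 * (Fintype.card κ * n) + 1) * Real.exp (-G) < 1 := by
    rw [hkn, hcard, ← hF, ← hH']
    have h2 : 2 * ((k : ℝ) * n + 1) ≤ Real.exp (2 * (k + 1) * n) := by
      have h3 := Real.add_one_le_exp (2 * ((k : ℝ) + 1) * n)
      nlinarith only [h3, mul_nonneg hk0 hn0.le, hn']
    have h4 : H' ^ (2 * (k * n) + 1) = Real.exp ((2 * (k * n) + 1 : ℕ) * Real.log H') := by
      rw [Real.exp_nat_mul, Real.exp_log hH'pos]
    have h5 : ((2 * (k * n) + 1 : ℕ) : ℝ) * Real.log H' ≤
        (2 * (k * n) + 1) * (c1 * Real.log n) := by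
      push_cast
      gcongr
    have h6 : 2 * (k + 1) * (n : ℝ) + (2 * (k * n) + 1) * (c1 * Real.log n) < G := by
      have h7 : (n : ℝ) ≤ 2 * (n * Real.log n) := by nlinarith only [hn0, hlogn]
      have h8 : (2 * ((k : ℝ) * n) + 1) ≤ 2 * (k + 1) * n := by nlinarith only [hn']
      have h9 : 0 ≤ c1 * Real.log n := by positivity
      have h10 : (2 * ((k : ℝ) * n) + 1) * (c1 * Real.log n) ≤ 2 * (k + 1) * n * (c1 * Real.log n) := by
        gcongr
      have h11 : 2 * (k + 1) * (n : ℝ) ≤ 4 * (k + 1) * (n * Real.log n) := by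
        nlinarith only [h7, hk0, mul_nonneg hk0 (sub_nonneg.2 h7)]
      have h12 : 0 < (k + 1) * ((n : ℝ) * Real.log n) := by positivity
      have h13 : 0 ≤ (k + 1) * c1 * ((n : ℝ) * Real.log n) := by positivity
      have h14 : 2 * (k + 1) * (n : ℝ) + (2 * (k * n) + 1) * (c1 * Real.log n) <
          100 * (k + 1) * (c1 + 1) * (n * Real.log n) := by
        nlinarith only [h10, h11, h12, h13]
      refine lt_of_lt_of_le h14 (le_trans ?_ hGa)
      have h15 : 0 ≤ 100 * (k + 1) * (c1 + 1) * (n : ℝ) := by positivity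
      calc 100 * (k + 1) * (c1 + 1) * ((n : ℝ) * Real.log n)
          = 100 * (k + 1) * (c1 + 1) * (n : ℝ) * Real.log n := by ring
        _ ≤ 100 * (k + 1) * (c1 + 1) * (n : ℝ) * (Real.log n + Real.log b) := by gcongr
    calc 2 * ((k : ℝ) * n + 1) * H' ^ (2 * (k * n) + 1) * Real.exp (-G)
        ≤ Real.exp (2 * (k + 1) * n) * Real.exp ((2 * (k * n) + 1) * (c1 * Real.log n)) *
          Real.exp (-G) := by
          rw [h4]
          have := Real.exp_le_exp.mpr h5
          gcongr
      _ = Real.exp (2 * (k + 1) * n + (2 * (k * n) + 1) * (c1 * Real.log n) - G) := by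
          rw [← Real.exp_add, ← Real.exp_add]
          congr 1
      _ < 1 := by
          rw [Real.exp_lt_one_iff] 
          linarith
  have hN' : G * (Fintype.card κ + 1) * (q + 1) ^ (Fintype.card κ) ≤ N := by
    refine le_trans ?_ hN
    rw [hcard, mul_assoc]
    apply mul_le_mul_of_nonneg_left _ hG0
    rcases Nat.eq_zero_or_pos k with hk | hk
    · subst hk
      simp
    · have h2 : ((q : ℝ) + 1) ^ k ≤ (C * b * Real.log n / (k + 1)) ^ k :=
        pow_le_pow_left₀ (by positivity) hqC _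
      have h3 : ((k : ℝ) + 1) ≤ (k + 1) ^ k := by
        calc ((k : ℝ) + 1) = (k + 1) ^ 1 := (pow_one _).symm
          _ ≤ (k + 1) ^ k := pow_le_pow_right₀ (by linarith) hk
      calc ((k : ℝ) + 1) * (q + 1) ^ k ≤ (k + 1) ^ k * (C * b * Real.log n / (k + 1)) ^ k := by
            gcongr
        _ = (C * b * Real.log n) ^ k := by
            rw [← mul_pow]
            congr 1
            field_simp
  obtain ⟨z, hz1, hz2, hz3, hz4⟩ := exactness PP hH1 hdeg hl1 hlam0 hlam1 q hqk hG0 hGexp0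
    hGexp1 hGexp2 hN'
  refine ⟨z, hz1, hz2, ?_, ?_⟩
  · rcases hz3 with h | ⟨e, R, J, he, h⟩
    · exact Or.inl h
    · exact Or.inr ⟨e, R, J, by rw [← hcard]; exact he, h⟩
  · intro t ht
    obtain ⟨t', h1, h2⟩ := hz4 t ht
    refine ⟨t', fun j => (h1 j).trans ?_, h2⟩
    apply mul_le_mul_of_nonneg_right _ (norm_nonneg t)
    rw [hcard, ← hF, ← hH']
    -- 2 k^2 H' (1 + k n H) ≤ exp (G/2)
    have h3 : 2 * (k : ℝ) ^ 2 ≤ Real.exp (2 * (k + 1)) := by
      have := Real.quadratic_le_exp_of_nonneg (by positivity : (0 : ℝ) ≤ 2 * ((k : ℝ) + 1))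
      nlinarith only [this, hk0]
    have h4 : H' ≤ Real.exp (c1 * Real.log n) := by
      calc H' = Real.exp (Real.log H') := (Real.exp_log hH'pos).symm
        _ ≤ _ := Real.exp_le_exp.mpr hlogH'
    have h5 : 1 + k * n * H ≤ Real.exp (k + 3 * Real.log n + 1) := by
      have h6 : Real.exp (k + 3 * Real.log n + 1) = Real.exp (k + 1) * (n : ℝ) ^ 3 := by
        rw [show (k : ℝ) + 3 * Real.log n + 1 = (k + 1) + 3 * Real.log n by ring, Real.exp_add]
        congr 1
        rw [show (3 : ℝ) * Real.log n = ((3 : ℕ) : ℝ) * Real.log n by norm_num, Real.exp_nat_mul,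
          Real.exp_log hn0]
      rw [h6, hH]
      have h7 := Real.add_one_le_exp ((k : ℝ) + 1)
      have h8 : (1 : ℝ) ≤ (n : ℝ) ^ 3 := one_le_pow₀ (by linarith)
      calc 1 + k * (n : ℝ) * (n : ℝ) ^ 2 = 1 + k * (n : ℝ) ^ 3 := by ring
        _ ≤ (k + 1 + 1) * (n : ℝ) ^ 3 := by nlinarith only [h8, hk0]
        _ ≤ _ := by gcongr
    have h9 : 2 * (k + 1) + c1 * Real.log n + (k + 3 * Real.log n + 1) ≤ G / 2 := by
      have h10 : 2 * (2 * (k + 1) + c1 * Real.log n + (k + 3 * Real.log n + 1)) ≤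
          100 * (k + 1) * (c1 + 1) * (n * Real.log n) := by
        have h11 : Real.log n ≤ n * Real.log n := by nlinarith only [hlogn, hn']
        have h12 : 1 ≤ n * Real.log n := by nlinarith only [hlogn, hn']
        have h13 : 0 ≤ (k : ℝ) * (n * Real.log n) := by positivity
        have h14 : 0 ≤ c1 * ((n : ℝ) * Real.log n) := by positivity
        have h15 : 0 ≤ (k : ℝ) * c1 * ((n : ℝ) * Real.log n) := by positivity
        have h16 : c1 * Real.log n ≤ c1 * (n * Real.log n) := by gcongr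
        have h17 : (k : ℝ) ≤ k * (n * Real.log n) := by nlinarith only [h12, hk0]
        nlinarith only [h11, h12, h13, h14, h15, h16, h17]
      have h18 : 100 * (k + 1) * (c1 + 1) * ((n : ℝ) * Real.log n) ≤ G := by
        refine le_trans ?_ hGa
        have h15 : 0 ≤ 100 * (k + 1) * (c1 + 1) * (n : ℝ) := by positivity
        calc 100 * (k + 1) * (c1 + 1) * ((n : ℝ) * Real.log n)
            = 100 * (k + 1) * (c1 + 1) * (n : ℝ) * Real.log n := by ring
          _ ≤ 100 * (k + 1) * (c1 + 1) * (n : ℝ) * (Real.log n + Real.log b) := by gcongr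
      linarith
    have hH0 : 0 ≤ 1 + k * n * H := by positivity
    calc 2 * (k : ℝ) ^ 2 * H' * (1 + k * n * H) * Real.exp (-G)
        ≤ Real.exp (2 * (k + 1)) * Real.exp (c1 * Real.log n) *
            Real.exp (k + 3 * Real.log n + 1) * Real.exp (-G) := by gcongr
      _ = Real.exp ((2 * (k + 1) + c1 * Real.log n + (k + 3 * Real.log n + 1)) - G) := by
          rw [← Real.exp_add, ← Real.exp_add, ← Real.exp_add]
          congr 1
      _ ≤ Real.exp (-(G / 2)) := Real.exp_le_exp.mpr (by linarith)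

end Crest.Agent.R98.Exact
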