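import Crest.Agent.R98.FDProc

/-!
# Row 98: renewal principle and the uniform lower bound (helper896, module FD)
-/

set_option autoImplicit false
set_option linter.unusedSectionVars false
set_option linter.unusedVariables false

namespace Crest.Agent.R98.FD

open MeasureTheory Real
open Crest.Agent.R098.Upper (pw sw pw_nonneg sum_succ pw_cons sw_cons sum_pw chebyshev)

/-! ### renewal principle -/

section Renewal

variable {U : Type*} [Fintype U]

theorem renewal_lower (q L : U → ℝ) (hq0 : ∀ u, 0 ≤ q u) (hq1 : ∑ u, q u = 1) {a M : ℝ}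
    (ha : 0 < a) (hL : ∀ u, a ≤ L u) (hM : ∀ u, L u ≤ M) (h : ℝ → ℝ) {s x0 B : ℝ}
    (hb : ∀ x, x0 - M ≤ x → x ≤ x0 → -B ≤ h x - s * x)
    (hrec : ∀ x, x0 ≤ x → s * ∑ u, q u * L u + ∑ u, q u * h (x - L u) ≤ h x) :
    ∀ x, x0 - M ≤ x → -B ≤ h x - s * x := by
  have key : ∀ n : ℕ, ∀ x, x0 - M ≤ x → x ≤ x0 + n * a → -B ≤ h x - s * x := by
    intro n
    induction n with
    | zero =>
      intro x h1 h2
      exact hb x h1 (by simpa using h2)
    | succ n ih =>
      intro x h1 h2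
      rcases le_or_gt x (x0 + n * a) with h3 | h3
      · exact ih x h1 h3
      · have hx0 : x0 ≤ x := by
          have : 0 ≤ (n : ℝ) * a := by positivity
          linarith
        have hg := hrec x hx0
        have e : ∑ u, q u * (h (x - L u) - s * (x - L u))
            = s * ∑ u, q u * L u + ∑ u, q u * h (x - L u) - s * x := by
          have : ∀ u, q u * (h (x - L u) - s * (x - L u))
              = s * (q u * L u) + q u * h (x - L u) - q u * (s * x) := fun u => by ring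
          rw [Finset.sum_congr rfl fun u _ => this u, Finset.sum_sub_distrib,
            Finset.sum_add_distrib, ← Finset.mul_sum, ← Finset.sum_mul, hq1, one_mul]
        have h4 : -B ≤ ∑ u, q u * (h (x - L u) - s * (x - L u)) := by
          have : ∑ u, q u * (-B) ≤ ∑ u, q u * (h (x - L u) - s * (x - L u)) := by
            refine Finset.sum_le_sum fun u _ => mul_le_mul_of_nonneg_left ?_ (hq0 u)
            refine ih _ (by linarith [hM u]) ?_
            have := hL u
            push_cast at h2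
            linarith
          rwa [← Finset.sum_mul, hq1, one_mul] at this
        linarith
  intro x hx
  obtain ⟨n, hn⟩ := exists_nat_ge ((x - x0) / a)
  refine key n x hx ?_
  rw [div_le_iff₀ ha] at hn
  linarith

theorem renewal_upper (q L : U → ℝ) (hq0 : ∀ u, 0 ≤ q u) (hq1 : ∑ u, q u = 1) {a M : ℝ}
    (ha : 0 < a) (hL : ∀ u, a ≤ L u) (hM : ∀ u, L u ≤ M) (h : ℝ → ℝ) {s x0 B : ℝ}
    (hb : ∀ x, x0 - M ≤ x → x ≤ x0 → h x - s * x ≤ B)
    (hrec : ∀ x, x0 ≤ x → h x ≤ s * ∑ u, q u * L u + ∑ u, q u * h (x - L u)) :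
    ∀ x, x0 - M ≤ x → h x - s * x ≤ B := by
  intro x hx
  have := renewal_lower q L hq0 hq1 ha hL hM (fun x => -h x) (s := -s) (x0 := x0) (B := B)
    (fun x h1 h2 => by linarith [hb x h1 h2]) (fun x h1 => by
      have h2 := hrec x h1
      have e : ∑ u, q u * -h (x - L u) = - ∑ u, q u * h (x - L u) := by
        rw [← Finset.sum_neg_distrib]; exact Finset.sum_congr rfl fun u _ => by ring
      rw [e]; linarith) x hx
  linarith

end Renewal

section Expect

variable {ι : Type*} [Fintype ι] {p l : ι → ℝ}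

theorem sum_pw_sw' (hp1 : ∑ i, p i = 1) (n : ℕ) :
    ∑ u : Fin n → ι, pw p u * sw l u = n * ∑ i, p i * l i := by
  induction n with
  | zero => simp [sw]
  | succ n ih =>
    rw [sum_succ]
    have : ∀ a : ι, ∑ w : Fin n → ι, pw p (Fin.cons a w : Fin (n+1) → ι) *
        sw l (Fin.cons a w : Fin (n+1) → ι) = p a * l a + p a * (n * ∑ i, p i * l i) := by
      intro a
      simp_rw [pw_cons, sw_cons]
      have h1 : ∀ w : Fin n → ι, p a * pw p w * (l a + sw l w)
          = p a * l a * pw p w + p a * (pw p w * sw l w) := by intro w; ring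
      simp_rw [h1, Finset.sum_add_distrib, ← Finset.mul_sum, ih, sum_pw hp1]
      ring
    simp_rw [this, Finset.sum_add_distrib, ← Finset.sum_mul, hp1]
    push_cast; ring

theorem exists_bounds [Nonempty ι] (hl : ∀ i, 0 < l i) :
    ∃ a M : ℝ, 0 < a ∧ (∀ i, a ≤ l i) ∧ (∀ i, l i ≤ M) := by
  obtain ⟨i, hi⟩ := Finite.exists_min l
  obtain ⟨j, hj⟩ := Finite.exists_max l
  exact ⟨l i, l j, hl i, hi, hj⟩

theorem le_sw {a : ℝ} (ha : ∀ i, a ≤ l i) {n : ℕ} (u : Fin n → ι) : n * a ≤ sw l u := by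
  have := Finset.sum_le_sum (s := (Finset.univ : Finset (Fin n))) (f := fun _ => a)
    (g := fun j => l (u j)) fun j _ => ha _
  simpa [sw] using this

theorem sw_le {M : ℝ} (hM : ∀ i, l i ≤ M) {n : ℕ} (u : Fin n → ι) : sw l u ≤ n * M := by
  have := Finset.sum_le_sum (s := (Finset.univ : Finset (Fin n))) (f := fun j => l (u j))
    (g := fun _ => M) fun j _ => hM _
  simpa [sw] using this

end Expect

namespace Proc

variable {ι : Type*} [Fintype ι] [Nonempty ι] [MeasurableSpace ι] [MeasurableSingletonClass ι]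
  {l sg : ι → ℝ} {κ : Type*} [Fintype κ]
  {p : ι → ℝ} {P : Measure (ℕ → ι)} [IsProbabilityMeasure P]

/-- linear lower bound from the information at one level -/
theorem h_lower (hP : WM p P) (hsg : ∀ i, |sg i| = 1) (hp : ∀ i, 0 ≤ p i) (hp1 : ∑ i, p i = 1)
    {a M : ℝ} (ha : 0 < a) (hal : ∀ i, a ≤ l i) (hM : ∀ i, l i ≤ M)
    (X : Proc l sg κ) {n : ℕ} (hn : 0 < n) {x0 s : ℝ} (hx0 : 0 ≤ x0)
    (hs : s * (n * ∑ i, p i * l i) ≤ MI P n (X.cell x0) - Fintype.card κ * log (2 * X.F.C + 3)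
      - Fintype.card κ * log 5) (x : ℝ) (hx : 0 ≤ x) :
    s * x - |s| * (x0 + n * M) ≤ X.h P x := by
  have hMpos : 0 < M := by
    obtain ⟨i⟩ := ‹Nonempty ι›
    exact lt_of_lt_of_le ha ((hal i).trans (hM i))
  have hnM : 0 ≤ (n : ℝ) * M := by positivity
  have key := renewal_lower (fun u : Fin n → ι => pw p u) (fun u => sw l u)
    (fun u => pw_nonneg hp u) (sum_pw hp1 n) (a := n * a) (M := n * M) (by positivity)
    (fun u => le_sw hal u) (fun u => sw_le hM u) (fun x => X.h P x) (s := s) (x0 := x0)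
    (B := |s| * (x0 + n * M)) ?_ ?_
  · rcases le_total x (x0 - n * M) with h1 | h1
    · have h2 := X.h_nonneg (P := P) x
      have h3 : s * x ≤ |s| * x := mul_le_mul_of_nonneg_right (le_abs_self s) hx
      have h4 : |s| * x ≤ |s| * (x0 + n * M) :=
        mul_le_mul_of_nonneg_left (by linarith) (abs_nonneg s)
      linarith
    · have := key x h1
      linarith
  · intro x h1 h2
    have h3 := X.h_nonneg (P := P) x
    have h4 : s * x ≤ |s| * (x0 + n * M) := by
      refine (le_abs_self _).trans ?_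
      rw [abs_mul]
      refine mul_le_mul_of_nonneg_left ?_ (abs_nonneg s)
      rw [abs_le]
      constructor <;> linarith
    linarith
  · intro x h1
    have h2 := X.MI_mono (P := P) n h1
    have h3 := (abs_le.1 (X.core hP hsg hp hp1 n x)).1
    rw [sum_pw_sw' hp1 n]
    linarith

/-- **uniform lower bound near a process** -/
theorem h_lower_unif (hP : WM p P) (hsg : ∀ i, |sg i| = 1) (hl : ∀ i, 0 < l i)
    (hp : ∀ i, 0 ≤ p i) (hp1 : ∑ i, p i = 1) (X : Proc l sg κ) {α c0 : ℝ}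
    (hα : ∀ n : ℕ, ∃ x0, 0 ≤ x0 ∧ n * α - c0 ≤ MI P n (X.cell x0))
    {ε : ℝ} (hε : 0 < ε) (C : ℝ) :
    ∃ x0 D : ℝ, ∀ Y : Proc l sg κ, Y.F.C ≤ C → (∀ w, ‖Y.sc x0 w - X.sc x0 w‖ ≤ 1) →
      ∀ x, 0 ≤ x → (α - ε) / (∑ i, p i * l i) * x - D ≤ Y.h P x := by
  obtain ⟨a, M, ha, hal, hM⟩ := exists_bounds hl
  have hχ : 0 < ∑ i, p i * l i := by
    have h1 : ∑ i, p i * a ≤ ∑ i, p i * l i :=
      Finset.sum_le_sum fun i _ => mul_le_mul_of_nonneg_left (hal i) (hp i)
    rw [← Finset.sum_mul, hp1, one_mul] at h1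
    linarith
  set c : ℝ := c0 + Fintype.card κ * log 9 + Fintype.card κ * log (2 * max C 1 + 3)
    + Fintype.card κ * log 5 with hc
  obtain ⟨n, hn⟩ := exists_nat_gt (max (c / ε) 0)
  have hn0 : 0 < (n : ℝ) := lt_of_le_of_lt (le_max_right _ _) hn
  have hn1 : c < n * ε := by
    have := lt_of_le_of_lt (le_max_left _ _) hn
    rwa [div_lt_iff₀ hε] at this
  obtain ⟨x0, hx0, hMI⟩ := hα n
  refine ⟨x0, |(α - ε) / (∑ i, p i * l i)| * (x0 + n * M), fun Y hY hclose x hx => ?_⟩
  refine Y.h_lower hP hsg hp hp1 ha hal hM (by exact_mod_cast hn0) hx0 ?_ x hx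
  have h1 : MI P n (X.cell x0) ≤ MI P n (Y.cell x0) + Fintype.card κ * log 9 := by
    refine MI_le_of_pair n (Y.FV_cell x0) (X.FV_cell x0) ?_
    have h2 := HP_fl_pair_le P (X.FV_cell x0) (Y.FV_cell x0) (R := 3) (by norm_num)
      (fun w w' hw => by
        have h3 : ‖Y.sc x0 w - Y.sc x0 w'‖ ≤ 1 := fl_eq_dist hw
        have h4 := hclose w
        have h5 := hclose w'
        have e : X.sc x0 w - X.sc x0 w' = (Y.sc x0 w - Y.sc x0 w') - (Y.sc x0 w - X.sc x0 w)
            + (Y.sc x0 w' - X.sc x0 w') := by abel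
        rw [e]
        refine (norm_add_le _ _).trans ?_
        have := norm_sub_le (Y.sc x0 w - Y.sc x0 w') (Y.sc x0 w - X.sc x0 w)
        linarith)
    have e9 : (2 * 3 + 3 : ℝ) = 9 := by norm_num
    rw [e9] at h2
    exact h2
  have h6 : log (2 * Y.F.C + 3) ≤ log (2 * max C 1 + 3) := by
    refine log_le_log (by linarith [Y.F.hC0]) ?_
    have := le_max_left C 1
    linarith
  have h7 : (Fintype.card κ : ℝ) * log (2 * Y.F.C + 3)
      ≤ Fintype.card κ * log (2 * max C 1 + 3) :=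
    mul_le_mul_of_nonneg_left h6 (Nat.cast_nonneg _)
  have e : (α - ε) / (∑ i, p i * l i) * (n * ∑ i, p i * l i) = n * (α - ε) := by
    field_simp
  rw [e]
  have : (n : ℝ) * (α - ε) = n * α - n * ε := by ring
  rw [this]
  linarith

/-- linear upper bound from the information bound -/
theorem h_upper (hP : WM p P) (hsg : ∀ i, |sg i| = 1) (hl : ∀ i, 0 < l i)
    (hp : ∀ i, 0 ≤ p i) (hp1 : ∑ i, p i = 1) (X : Proc l sg κ) {α : ℝ}
    (hα : ∀ n : ℕ, ∀ x, MI P n (X.cell x) ≤ n * α) {ε : ℝ} (hε : 0 < ε) :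
    ∃ D : ℝ, ∀ x, 0 ≤ x → X.h P x ≤ (α + ε) / (∑ i, p i * l i) * x + D := by
  obtain ⟨a, M, ha, hal, hM⟩ := exists_bounds hl
  have hMpos : 0 < M := by
    obtain ⟨i⟩ := ‹Nonempty ι›
    exact lt_of_lt_of_le ha ((hal i).trans (hM i))
  have hχ : 0 < ∑ i, p i * l i := by
    have h1 : ∑ i, p i * a ≤ ∑ i, p i * l i :=
      Finset.sum_le_sum fun i _ => mul_le_mul_of_nonneg_left (hal i) (hp i)
    rw [← Finset.sum_mul, hp1, one_mul] at h1
    linarith
  obtain ⟨n, hn⟩ := exists_nat_gt (max (Fintype.card κ * log 5 / ε) 0)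
  have hn0 : 0 < (n : ℝ) := lt_of_le_of_lt (le_max_right _ _) hn
  have hn1 : Fintype.card κ * log 5 < n * ε := by
    have := lt_of_le_of_lt (le_max_left _ _) hn
    rwa [div_lt_iff₀ hε] at this
  set s : ℝ := (α + ε) / (∑ i, p i * l i) with hs
  refine ⟨Fintype.card κ * (log (4 * (X.F.C * X.B) + 3)) + |s| * (n * M), fun x hx => ?_⟩
  have key := renewal_upper (fun u : Fin n → ι => pw p u) (fun u => sw l u)
    (fun u => pw_nonneg hp u) (sum_pw hp1 n) (a := n * a) (M := n * M) (by positivity)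
    (fun u => le_sw hal u) (fun u => sw_le hM u) (fun x => X.h P x) (s := s) (x0 := 0)
    (B := Fintype.card κ * (log (4 * (X.F.C * X.B) + 3)) + |s| * (n * M)) ?_ ?_ x
    (by have : 0 ≤ (n:ℝ) * M := by positivity
        linarith)
  · linarith
  · intro y h1 h2
    have h3 := X.h_le (P := P) y
    rw [max_eq_right h2, mul_zero, add_zero] at h3
    have h4 : -(s * y) ≤ |s| * (n * M) := by
      refine (neg_le_abs _).trans ?_
      rw [abs_mul]
      refine mul_le_mul_of_nonneg_left ?_ (abs_nonneg s)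
      have : 0 ≤ (n:ℝ) * M := by positivity
      rw [abs_le]
      constructor <;> linarith
    linarith
  · intro y h1
    have h2 := hα n y
    have h3 := (abs_le.1 (X.core hP hsg hp hp1 n y)).2
    rw [sum_pw_sw' hp1 n]
    have e : s * (n * ∑ i, p i * l i) = n * (α + ε) := by rw [hs]; field_simp
    rw [e]
    have : (n : ℝ) * (α + ε) = n * α + n * ε := by ring
    rw [this]
    linarith

/-! ### finite words -/

/-- cells of finite words, as a function on infinite words -/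
noncomputable def fcell (X : Proc l sg κ) (n : ℕ) (x : ℝ) : (ℕ → ι) → κ → ℤ :=
  fl fun w => X.F.A (-x) (X.fin (pre n w))

theorem FV_fcell (X : Proc l sg κ) (n : ℕ) (x : ℝ) : FV (X.fcell n x) :=
  (FV_pre (ι := ι) n).comp fun u => fun k => ⌊X.F.A (-x) (X.fin u) k⌋

theorem sc_sub_fin (hsg : ∀ i, |sg i| = 1) (X : Proc l sg κ) {n : ℕ} {x : ℝ} {w : ℕ → ι}
    (hx : x ≤ sw l (pre n w)) :
    ‖X.sc x w - X.F.A (-x) (X.fin (pre n w))‖ ≤ X.F.C * X.B := by
  have h1 : X.Φ w = X.fin (pre n w) + pw sg (pre n w) • X.F.A (sw l (pre n w)) (X.Φ (sh^[n] w)) := by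
    conv_lhs => rw [← app_pre n w]
    rw [X.Φ_app]
  have h2 : X.sc x w - X.F.A (-x) (X.fin (pre n w))
      = pw sg (pre n w) • X.F.A (sw l (pre n w) - x) (X.Φ (sh^[n] w)) := by
    unfold sc
    rw [← map_sub, h1, add_sub_cancel_left, map_smul, ← X.F.add]
    congr 3; ring
  rw [h2, norm_smul, Real.norm_eq_abs, abs_pw hsg, one_mul]
  refine (X.F.bd1 (by linarith) _).trans ?_
  exact mul_le_mul_of_nonneg_left (X.hB _) X.F.hC0.le

end Proc

/-- comparison lemma with variable radius -/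
theorem HP_fl_pair_le_var {Ω : Type*} [MeasurableSpace Ω] {κ : Type*} [Fintype κ] {δ : Type*}
    (P : Measure Ω) [IsProbabilityMeasure P] {Y : Ω → κ → ℝ} {g : Ω → δ} (hY : FV (fl Y))
    (hg : FV g) (t : Finset δ) (ht : ∀ ω, g ω ∈ t) {R : δ → ℝ}
    (hR : ∀ b, 0 ≤ R b) (h : ∀ ω ω', g ω = g ω' → ‖Y ω - Y ω'‖ ≤ R (g ω)) :
    HP P (pr (fl Y) g) ≤ HP P g
      + ∑ b ∈ t, P.real (g ⁻¹' {b}) * (Fintype.card κ * log (2 * R b + 3)) := by
  have e : ∀ b, (Fintype.card κ : ℝ) * log (2 * R b + 3)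
      = log ((2 * R b + 3) ^ Fintype.card κ) := fun b => by rw [log_pow]
  simp only [e]
  refine HP_pair_le_card P hY hg t ht (fun b => (2 * R b + 3) ^ Fintype.card κ)
    (fun b _ => one_le_pow₀ (by linarith [hR b])) fun b _ => ?_
  rcases (g ⁻¹' {b}).eq_empty_or_nonempty with h0 | ⟨ω0, hω0⟩
  · rw [h0]
    simp only [Set.image_empty, Set.ncard_empty, Nat.cast_zero]
    have := hR b
    positivity
  · have := ncard_int_box (fl Y ω0) (R := R b + 1) (by linarith [hR b]) (fl Y '' (g ⁻¹' {b})) ?_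
    · refine this.trans_eq ?_
      congr 1; ring
    · rintro _ ⟨ω, hω, rfl⟩ k
      rw [Set.mem_preimage, Set.mem_singleton_iff] at hω hω0
      have h1 : g ω = g ω0 := by rw [hω, hω0]
      have h2 := (norm_le_pi_norm (Y ω - Y ω0) k).trans (h ω ω0 h1)
      rw [hω, Pi.sub_apply, Real.norm_eq_abs, abs_le] at h2
      have h3 := Int.floor_le (Y ω k)
      have h4 := Int.lt_floor_add_one (Y ω k)
      have h5 := Int.floor_le (Y ω0 k)
      have h6 := Int.lt_floor_add_one (Y ω0 k)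
      show |((⌊Y ω k⌋ - ⌊Y ω0 k⌋ : ℤ) : ℝ)| ≤ R b + 1
      push_cast
      rw [abs_le]
      constructor <;> linarith

namespace Proc

variable {ι : Type*} [Fintype ι] [Nonempty ι] [MeasurableSpace ι] [MeasurableSingletonClass ι]
  {l sg : ι → ℝ} {κ : Type*} [Fintype κ]
  {p : ι → ℝ} {P : Measure (ℕ → ι)} [IsProbabilityMeasure P]

theorem real_pre_set (hP : WM p P) {n : ℕ} (S : Finset (Fin n → ι)) :
    P.real (pre n ⁻¹' (S : Set (Fin n → ι))) = ∑ u ∈ S, pw p u := by
  have : pre n ⁻¹' (S : Set (Fin n → ι)) = ⋃ u ∈ S, (pre n ⁻¹' {u} : Set (ℕ → ι)) := by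
    ext w; simp
  rw [this, measureReal_biUnion_finset]
  · exact Finset.sum_congr rfl fun u _ => hP.real_pre u
  · intro a _ b _ hab
    refine Set.disjoint_left.2 fun w ha hb => hab ?_
    simp only [Set.mem_preimage, Set.mem_singleton_iff] at ha hb
    rw [← ha, ← hb]
  · intro u _
    exact (FV_pre (ι := ι) n).meas u

/-- the cell of the infinite word costs at most a constant more than that of the finite word -/
theorem h_le_fcell (hP : WM p P) (hsg : ∀ i, |sg i| = 1) (X : Proc l sg κ) (n : ℕ) {x : ℝ}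
    (hx : 0 ≤ x) {θ : ℝ} (hθ : ∑ u ∈ (Finset.univ.filter fun u : Fin n → ι => sw l u < x), pw p u
      ≤ θ) :
    X.h P x ≤ HP P (X.fcell n x) + log 2 + Fintype.card κ * log (4 * (X.F.C * X.B) + 5)
      + θ * (Fintype.card κ * (log (4 * (X.F.C * X.B) + 3) + 2 * x)) := by
  classical
  have hC0 := X.F.hC0
  have hB0 := X.B_nonneg
  have hCB : 0 ≤ X.F.C * X.B := mul_nonneg hC0.le hB0
  set G : (ℕ → ι) → Bool := fun w => decide (x ≤ sw l (pre n w)) with hG
  have hFG : FV G := (FV_pre (ι := ι) n).comp fun u => decide (x ≤ sw l u)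
  set g := pr (X.fcell n x) G with hg
  have hFg : FV g := (X.FV_fcell n x).pair hFG
  obtain ⟨s, hs⟩ := (X.FV_fcell n x).exists_finset
  have ht : ∀ w, g w ∈ s ×ˢ (Finset.univ : Finset Bool) := fun w =>
    Finset.mem_product.2 ⟨hs w, Finset.mem_univ _⟩
  set R1 : ℝ := 2 * (X.F.C * X.B) + 1 with hR1
  set R2 : ℝ := 2 * (X.F.C * exp (2 * max x 0) * X.B) with hR2
  set R : (κ → ℤ) × Bool → ℝ := fun b => if b.2 = true then R1 else R2 with hR
  have hR10 : 0 ≤ R1 := by positivity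
  have hR20 : 0 ≤ R2 := by positivity
  have h1 := HP_fl_pair_le_var P (Y := X.sc x) (g := g) (X.FV_cell x) hFg _ ht (R := R)
    (fun b => by simp only [hR]; split_ifs <;> assumption) (fun w w' hw => by
      have hw1 : X.fcell n x w = X.fcell n x w' := congrArg Prod.fst hw
      have hw2 : G w = G w' := congrArg Prod.snd hw
      have e2 : (g w).2 = G w := rfl
      simp only [hR, e2]
      split_ifs with hGw
      · have hxw : x ≤ sw l (pre n w) := by simpa [hG] using hGw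
        have hxw' : x ≤ sw l (pre n w') := by rw [hw2] at hGw; simpa [hG] using hGw
        have a1 := X.sc_sub_fin hsg hxw
        have a2 := X.sc_sub_fin hsg hxw'
        have a3 : ‖X.F.A (-x) (X.fin (pre n w)) - X.F.A (-x) (X.fin (pre n w'))‖ ≤ 1 :=
          fl_eq_dist hw1
        have e : X.sc x w - X.sc x w' = (X.sc x w - X.F.A (-x) (X.fin (pre n w)))
            - (X.sc x w' - X.F.A (-x) (X.fin (pre n w')))
            + (X.F.A (-x) (X.fin (pre n w)) - X.F.A (-x) (X.fin (pre n w'))) := by abel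
        rw [e]
        refine (norm_add_le _ _).trans ?_
        have := norm_sub_le (X.sc x w - X.F.A (-x) (X.fin (pre n w)))
          (X.sc x w' - X.F.A (-x) (X.fin (pre n w')))
        linarith
      · have a1 := X.norm_sc_le x w
        have a2 := X.norm_sc_le x w'
        refine (norm_sub_le _ _).trans ?_
        linarith)
  have h2 : X.h P x ≤ HP P (pr (fl (X.sc x)) g) := HP_le_pair_left P (X.FV_cell x) hFg
  have h3 : HP P g ≤ HP P (X.fcell n x) + log 2 := by
    have h4 := HP_pair_le_add P (X.FV_fcell n x) hFG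
    have h5 : HP P G ≤ log 2 := by
      have h6 := HP_pair_le_log P hFG (FV.const (Ω := ℕ → ι) ()) (M := 2) (by norm_num)
        (fun b => by
          have h7 : (G '' ((fun _ : ℕ → ι => ()) ⁻¹' {b})).ncard ≤ (Set.univ : Set Bool).ncard :=
            Set.ncard_le_ncard (Set.subset_univ _) Set.finite_univ
          have h8 : (Set.univ : Set Bool).ncard = 2 := by
            rw [Set.ncard_univ]; simp
          rw [h8] at h7
          exact_mod_cast h7)
      rw [HP_const, zero_add] at h6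
      exact (HP_le_pair_left P hFG (FV.const ())).trans h6
    linarith
  -- the sum
  have hGm : ∀ c : Bool, ∑ a ∈ s, P.real (g ⁻¹' {(a, c)}) = P.real (G ⁻¹' {c}) := by
    intro c
    rw [← sum_real P (X.FV_fcell n x) s hs (G ⁻¹' {c})]
    refine Finset.sum_congr rfl fun a _ => ?_
    rw [hg, pr_preimage, Set.inter_comm]
  have h4 : ∑ b ∈ s ×ˢ (Finset.univ : Finset Bool),
      P.real (g ⁻¹' {b}) * (Fintype.card κ * log (2 * R b + 3))
      = P.real (G ⁻¹' {true}) * (Fintype.card κ * log (2 * R1 + 3))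
        + P.real (G ⁻¹' {false}) * (Fintype.card κ * log (2 * R2 + 3)) := by
    rw [Finset.sum_product_right, Fintype.sum_bool]
    congr 1
    · rw [← hGm true, Finset.sum_mul]
      exact Finset.sum_congr rfl fun a _ => by simp [hR]
    · rw [← hGm false, Finset.sum_mul]
      exact Finset.sum_congr rfl fun a _ => by simp [hR]
  have h5 : P.real (G ⁻¹' {true}) * (Fintype.card κ * log (2 * R1 + 3))
      ≤ Fintype.card κ * log (4 * (X.F.C * X.B) + 5) := by
    have e : 2 * R1 + 3 = 4 * (X.F.C * X.B) + 5 := by rw [hR1]; ring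
    rw [e]
    have h6 : 0 ≤ (Fintype.card κ : ℝ) * log (4 * (X.F.C * X.B) + 5) :=
      mul_nonneg (Nat.cast_nonneg _) (log_nonneg (by linarith))
    calc _ ≤ 1 * ((Fintype.card κ : ℝ) * log (4 * (X.F.C * X.B) + 5)) :=
          mul_le_mul_of_nonneg_right measureReal_le_one h6
      _ = _ := one_mul _
  have h6 : P.real (G ⁻¹' {false}) ≤ θ := by
    have e : G ⁻¹' {false} = pre n ⁻¹' ((Finset.univ.filter fun u : Fin n → ι => sw l u < x :
        Finset (Fin n → ι)) : Set (Fin n → ι)) := by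
      ext w
      simp [hG]
    rw [e, real_pre_set hP]
    exact hθ
  have h7 : (Fintype.card κ : ℝ) * log (2 * R2 + 3)
      ≤ Fintype.card κ * (log (4 * (X.F.C * X.B) + 3) + 2 * x) := by
    refine mul_le_mul_of_nonneg_left ?_ (Nat.cast_nonneg _)
    have h1 : 1 ≤ exp (2 * max x 0) := one_le_exp (by positivity)
    have h2 : 2 * R2 + 3 ≤ (4 * (X.F.C * X.B) + 3) * exp (2 * max x 0) := by
      rw [hR2]; nlinarith
    refine (log_le_log (by positivity) h2).trans_eq ?_
    rw [log_mul (by positivity) (exp_pos _).ne', log_exp, max_eq_left hx]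
  have h8 : 0 ≤ (Fintype.card κ : ℝ) * log (2 * R2 + 3) :=
    mul_nonneg (Nat.cast_nonneg _) (log_nonneg (by linarith))
  have h9 : P.real (G ⁻¹' {false}) * (Fintype.card κ * log (2 * R2 + 3))
      ≤ θ * (Fintype.card κ * (log (4 * (X.F.C * X.B) + 3) + 2 * x)) :=
    mul_le_mul h6 h7 h8 (measureReal_nonneg.trans h6)
  rw [h4] at h1
  linarith

/-- **law of large numbers form** -/
theorem h_le_fcell_lln (hP : WM p P) (hsg : ∀ i, |sg i| = 1) (hl : ∀ i, 0 < l i)
    (hp : ∀ i, 0 ≤ p i) (hp1 : ∑ i, p i = 1) {η : ℝ} (hη : 0 < η) (C B : ℝ) :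
    ∃ D : ℝ, ∀ X : Proc l sg κ, X.F.C ≤ C → X.B ≤ B → ∀ n : ℕ, 0 < n → ∀ x, 0 ≤ x →
      x ≤ ((∑ i, p i * l i) - η) * n → X.h P x ≤ HP P (X.fcell n x) + D := by
  classical
  set χ := ∑ i, p i * l i with hχ
  set V := ∑ i, p i * (l i - χ) ^ 2 with hV
  have hV0 : 0 ≤ V := Finset.sum_nonneg fun i _ => mul_nonneg (hp i) (sq_nonneg _)
  have hχ0 : 0 ≤ χ := Finset.sum_nonneg fun i _ => mul_nonneg (hp i) (hl i).le
  set K : ℝ := (Fintype.card κ : ℝ) with hK
  have hK0 : 0 ≤ K := Nat.cast_nonneg _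
  set E : ℝ := max C 0 * max B 0 with hE
  have hE0 : 0 ≤ E := by positivity
  refine ⟨log 2 + K * log (4 * E + 5) + V / η ^ 2 * (K * (log (4 * E + 3) + 2 * χ)), ?_⟩
  intro X hC hB n hn x hx hxn
  have hn' : (0:ℝ) < n := by exact_mod_cast hn
  have hn1 : (1:ℝ) ≤ n := by exact_mod_cast hn
  have hCB : X.F.C * X.B ≤ E :=
    mul_le_mul (hC.trans (le_max_left _ _)) (hB.trans (le_max_left _ _)) X.B_nonneg
      (le_max_right _ _)
  have hCB0 : 0 ≤ X.F.C * X.B := mul_nonneg X.F.hC0.le X.B_nonneg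
  have hY : ∑ i, p i * (l i - χ) = 0 := by
    simp_rw [mul_sub, Finset.sum_sub_distrib, ← Finset.sum_mul, hp1]
    rw [hχ]; ring
  have hcheb := chebyshev (κ := ι) hp hp1 hY n hn hη
  have hθ : ∑ u ∈ (Finset.univ.filter fun u : Fin n → ι => sw l u < x), pw p u
      ≤ V / (n * η ^ 2) := by
    refine le_trans (Finset.sum_le_sum_of_subset_of_nonneg ?_ fun u _ _ => pw_nonneg hp u) hcheb
    intro u hu
    rw [Finset.mem_filter] at hu ⊢
    refine ⟨Finset.mem_univ _, ?_⟩
    have e : sw (fun i => l i - χ) u = sw l u - n * χ := by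
      simp [sw, Finset.sum_sub_distrib]
    rw [e]
    have h1 : sw l u - n * χ ≤ -(n * η) := by nlinarith [hu.2]
    have h2 := neg_le_abs (sw l u - n * χ)
    linarith
  have h1 := X.h_le_fcell hP hsg n hx hθ
  have h2 : log (4 * (X.F.C * X.B) + 5) ≤ log (4 * E + 5) :=
    log_le_log (by linarith) (by linarith)
  have h3 : log (4 * (X.F.C * X.B) + 3) ≤ log (4 * E + 3) :=
    log_le_log (by linarith) (by linarith)
  have h4 : K * log (4 * (X.F.C * X.B) + 5) ≤ K * log (4 * E + 5) :=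
    mul_le_mul_of_nonneg_left h2 hK0
  have h0 : 0 ≤ log (4 * E + 3) := log_nonneg (by linarith)
  have h5 : V / (n * η ^ 2) * (K * (log (4 * (X.F.C * X.B) + 3) + 2 * x))
      ≤ V / η ^ 2 * (K * (log (4 * E + 3) + 2 * χ)) := by
    have hxχ : x ≤ χ * n := by nlinarith
    have h6 : K * (log (4 * (X.F.C * X.B) + 3) + 2 * x)
        ≤ n * (K * (log (4 * E + 3) + 2 * χ)) := by
      have h7 : log (4 * (X.F.C * X.B) + 3) + 2 * x ≤ n * (log (4 * E + 3) + 2 * χ) := by
        nlinarith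
      calc K * (log (4 * (X.F.C * X.B) + 3) + 2 * x)
          ≤ K * (n * (log (4 * E + 3) + 2 * χ)) := mul_le_mul_of_nonneg_left h7 hK0
        _ = _ := by ring
    calc V / (n * η ^ 2) * (K * (log (4 * (X.F.C * X.B) + 3) + 2 * x))
        ≤ V / (n * η ^ 2) * (n * (K * (log (4 * E + 3) + 2 * χ))) :=
          mul_le_mul_of_nonneg_left h6 (by positivity)
      _ = _ := by field_simp
  linarith

/-- **F4/F5, cell form**: uniform lower bound for the entropy of finite words near a process -/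
theorem fcell_lower (hP : WM p P) (hsg : ∀ i, |sg i| = 1) (hl : ∀ i, 0 < l i)
    (hp : ∀ i, 0 ≤ p i) (hp1 : ∑ i, p i = 1) (X : Proc l sg κ) {α c0 : ℝ}
    (hα : ∀ n : ℕ, ∃ x0, 0 ≤ x0 ∧ n * α - c0 ≤ MI P n (X.cell x0))
    {ε : ℝ} (hε : 0 < ε) :
    ∃ η : ℝ, 0 < η ∧ η < ∑ i, p i * l i ∧ ∀ C B : ℝ, ∃ x0 : ℝ, ∃ n0 : ℕ, ∀ Y : Proc l sg κ,
      Y.F.C ≤ C → Y.B ≤ B → (∀ w, ‖Y.sc x0 w - X.sc x0 w‖ ≤ 1) → ∀ n : ℕ, n0 ≤ n →
      (α - ε) * n ≤ HP P (Y.fcell n (((∑ i, p i * l i) - η) * n)) := by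
  obtain ⟨a, M, ha, hal, hM⟩ := exists_bounds hl
  have hχ : 0 < ∑ i, p i * l i := by
    have h1 : ∑ i, p i * a ≤ ∑ i, p i * l i :=
      Finset.sum_le_sum fun i _ => mul_le_mul_of_nonneg_left (hal i) (hp i)
    rw [← Finset.sum_mul, hp1, one_mul] at h1
    linarith
  set χ := ∑ i, p i * l i with hχd
  set T : ℝ := |α - ε / 4| + 1 with hT
  have hT0 : 0 < T := by have := abs_nonneg (α - ε / 4); linarith
  set η : ℝ := min (χ / 2) (χ * (ε / (4 * T))) with hηd
  have hη : 0 < η := lt_min (by linarith) (by positivity)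
  have hη2 : η < χ := lt_of_le_of_lt (min_le_left _ _) (by linarith)
  refine ⟨η, hη, hη2, fun C B => ?_⟩
  obtain ⟨x0, D1, hD1⟩ := X.h_lower_unif hP hsg hl hp hp1 hα (ε := ε / 4) (by linarith) C
  obtain ⟨D2, hD2⟩ := h_le_fcell_lln (κ := κ) (sg := sg) hP hsg hl hp hp1 hη C B
  obtain ⟨n0, hn0⟩ := exists_nat_gt (max ((D1 + D2) / (ε / 2)) 0)
  refine ⟨x0, n0, fun Y hC hB hclose n hn => ?_⟩
  have hn' : (n0 : ℝ) ≤ n := by exact_mod_cast hn
  have hnpos : (0:ℝ) < n := lt_of_lt_of_le (lt_of_le_of_lt (le_max_right _ _) hn0) hn'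
  have hnD : D1 + D2 < n * (ε / 2) := by
    have h1 : (D1 + D2) / (ε / 2) < n := lt_of_lt_of_le (lt_of_le_of_lt (le_max_left _ _) hn0) hn'
    rwa [div_lt_iff₀ (by linarith)] at h1
  have hx : 0 ≤ (χ - η) * n := mul_nonneg (by linarith) hnpos.le
  have h1 := hD1 Y hC hclose ((χ - η) * n) hx
  have h2 := hD2 Y hC hB n (by exact_mod_cast hnpos) ((χ - η) * n) hx le_rfl
  have e : (α - ε / 4) / χ * ((χ - η) * n) = (α - ε / 4) * n - (α - ε / 4) * (η / χ) * n := by
    field_simp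
  have h3 : (α - ε / 4) * (η / χ) ≤ ε / 4 := by
    have h4 : η / χ ≤ ε / (4 * T) := by
      rw [div_le_iff₀ hχ, mul_comm]
      exact min_le_right _ _
    have h5 : 0 ≤ η / χ := by positivity
    calc (α - ε / 4) * (η / χ) ≤ T * (η / χ) := by
          refine mul_le_mul_of_nonneg_right ?_ h5
          have := le_abs_self (α - ε / 4); linarith
      _ ≤ T * (ε / (4 * T)) := mul_le_mul_of_nonneg_left h4 hT0.le
      _ = ε / 4 := by field_simp
  have h4 : (α - ε / 4) * (η / χ) * n ≤ ε / 4 * n := mul_le_mul_of_nonneg_right h3 hnpos.le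
  rw [e] at h1
  nlinarith

end Proc

end Crest.Agent.R98.FD
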