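import Crest.Agent.R98.DimFinal

/-!
Row 98 (S0129): frozen interface between the two cases and the final statement (helper777).

* `EntGoal r t p μ`: what both cases must prove (the hypothesis of `result_of_entropy`).
* `IrrRatio r`: case K (some ratio of logarithms irrational).
* `KMain`, `RMain`: the statements of the two cases, universe polymorphic.
* `result_of_cases`: `KMain → RMain → S0129`.
-/

set_option autoImplicit false
open MeasureTheory Crest.AnalysisR Set Filter Topology

namespace Crest.Agent.R98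

/-- The frozen goal: the dyadic entropy of `μ` is at least `(min 1 (h/χ) - ε) n log 2` for
infinitely many `n`, for every `ε > 0`. -/
def EntGoal {ι : Type*} [Fintype ι] (r t p : ι → ℝ) (μ : Measure ℝ) : Prop :=
  ∀ ε : ℝ, 0 < ε → ∃ᶠ n : ℕ in atTop,
    (min 1 (rwEntropyRate r t p / lyapunovExp r p) - ε) * (n * Real.log 2) ≤ Hd μ n

/-- Case K: two letters with irrational ratio of logarithms. -/
def IrrRatio {ι : Type*} (r : ι → ℝ) : Prop :=
  ∃ i j : ι, Irrational (Real.log |r i| / Real.log |r j|)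

universe u

/-- Statement of case K. -/
def KMain : Prop :=
  ∀ (ι : Type u) [Fintype ι] [Nonempty ι] (r t p : ι → ℝ) (μ : Measure ℝ),
    (∀ i, r i ≠ 0 ∧ |r i| < 1) → (∀ i, 0 < p i) → ∑ i, p i = 1 →
    IsSelfSimilarMeasure r t p μ → IrrRatio r → EntGoal r t p μ

/-- Statement of case R. -/
def RMain : Prop :=
  ∀ (ι : Type u) [Fintype ι] [Nonempty ι] (r t p : ι → ℝ) (μ : Measure ℝ),
    (∀ i, r i ≠ 0 ∧ |r i| < 1) → (∀ i, 0 < p i) → ∑ i, p i = 1 →
    IsSelfSimilarMeasure r t p μ → ¬ IrrRatio r → EntGoal r t p μ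

/-- In case R all `-log |r i|` are positive integer multiples of one `β > 0`. -/
theorem exists_int_ratio {ι : Type*} [Fintype ι] [Nonempty ι] {r : ι → ℝ}
    (hr : ∀ i, r i ≠ 0 ∧ |r i| < 1) (h : ¬ IrrRatio r) :
    ∃ (β : ℝ) (a : ι → ℕ), 0 < β ∧ (∀ i, 0 < a i) ∧ ∀ i, -Real.log |r i| = a i * β := by
  classical
  have hneg : ∀ i, 0 < -Real.log |r i| := by
    intro i
    have h1 : 0 < |r i| := abs_pos.2 (hr i).1
    have := Real.log_neg h1 (hr i).2
    linarith
  obtain ⟨j⟩ := ‹Nonempty ι›
  have hq : ∀ i, ∃ q : ℚ, (q : ℝ) = Real.log |r i| / Real.log |r j| := by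
    intro i
    by_contra hc
    exact h ⟨i, j, fun hmem => hc (by obtain ⟨q, hq⟩ := hmem; exact ⟨q, hq⟩)⟩
  choose q hq using hq
  have hqpos : ∀ i, 0 < q i := by
    intro i
    have : (0:ℝ) < q i := by
      rw [hq i]
      have h1 := hneg i
      have h2 := hneg j
      rw [show Real.log |r i| / Real.log |r j| = (-Real.log |r i|) / (-Real.log |r j|) by
        rw [neg_div_neg_eq]]
      positivity
    exact_mod_cast this
  -- common denominator
  set N : ℕ := ∏ i, (q i).den with hN
  have hNpos : 0 < N := Finset.prod_pos fun i _ => (q i).den_pos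
  have hdiv : ∀ i, (q i).den ∣ N := fun i => Finset.dvd_prod_of_mem _ (Finset.mem_univ i)
  refine ⟨-Real.log |r j| / N, fun i => ((q i).num.toNat) * (N / (q i).den), ?_, ?_, ?_⟩
  · have := hneg j
    positivity
  · intro i
    have h1 : 0 < (q i).num := Rat.num_pos.2 (hqpos i)
    have h2 : 0 < N / (q i).den := Nat.div_pos (Nat.le_of_dvd hNpos (hdiv i)) (q i).den_pos
    have h3 : 0 < (q i).num.toNat := by omega
    exact Nat.mul_pos h3 h2
  · intro i
    have h1 : 0 < (q i).num := Rat.num_pos.2 (hqpos i)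
    obtain ⟨c, hc⟩ := hdiv i
    have hden : ((q i).den : ℝ) ≠ 0 := by exact_mod_cast (q i).den_nz
    have hcN : N / (q i).den = c := by
      rw [hc]; exact Nat.mul_div_cancel_left _ (q i).den_pos
    have hNr : (N : ℝ) ≠ 0 := by exact_mod_cast hNpos.ne'
    have hNc : (N : ℝ) = (q i).den * c := by rw [hc]; push_cast; ring
    have hc0 : (c : ℝ) ≠ 0 := by
      intro h0; rw [h0, mul_zero] at hNc; exact hNr hNc
    have hlogj : Real.log |r j| ≠ 0 := by have := hneg j; intro h0; linarith
    have hnum : (((q i).num.toNat : ℕ) : ℝ) = ((q i).num : ℝ) := by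
      have : (((q i).num.toNat : ℕ) : ℤ) = (q i).num := Int.toNat_of_nonneg h1.le
      exact_mod_cast this
    have hqr : (q i : ℝ) = (q i).num / (q i).den := by
      exact_mod_cast (Rat.num_div_den (q i)).symm
    have hlog : Real.log |r i| = (q i : ℝ) * Real.log |r j| := by
      rw [hq i]; field_simp
    show -Real.log |r i| = (((q i).num.toNat * (N / (q i).den) : ℕ) : ℝ) * (-Real.log |r j| / N)
    rw [hlog, hqr, hcN]
    push_cast
    rw [hnum, hNc]
    field_simp

/-- The final statement from the two cases. -/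
theorem result_of_cases (hK : KMain.{u}) (hR : RMain.{u})
    {ι : Type u} [Fintype ι] [Nonempty ι] (r t p : ι → ℝ)
    (hr : ∀ i, r i ≠ 0 ∧ |r i| < 1) (hp : ∀ i, 0 < p i) (hp₁ : ∑ i, p i = 1)
    (μ : Measure ℝ) (hμ : IsSelfSimilarMeasure r t p μ) :
    lowerHausdorffDim μ =
      ENNReal.ofReal (min 1 (rwEntropyRate r t p / lyapunovExp r p)) := by
  by_cases h : IrrRatio r
  · exact result_of_entropy hr hp hp₁ hμ (hK ι r t p μ hr hp hp₁ hμ h)
  · exact result_of_entropy hr hp hp₁ hμ (hR ι r t p μ hr hp hp₁ hμ h)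

end Crest.Agent.R98
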