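import Crest.Agent.R98.FDPack

/-!
# Row 98: (F4), class form (helper582)

Entropy of finite words near a real parameter `t`: if words in one class have values within
`K exp(-χ n)` at a parameter `t'` close to `t`, the entropy of the classes is at least
`(α(t) - η) n`.
-/

set_option autoImplicit false
set_option linter.unusedSectionVars false
set_option linter.unusedVariables false

namespace Crest.Agent.R98.FD

open MeasureTheory Real Filter Topology
open Crest.Agent.R098.Upper (pw sw pw_nonneg sum_succ pw_cons sw_cons sum_pw)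
open Crest.Agent.R98 (PP scons isProb_PP PP_cons Part.HS Pi cw cw_cons Pi_scons abs_Pi_le
  measurable_Pi exists_cons)

section One

/-- the flow `exp (-x)` on `ℝ` -/
noncomputable def f4Flow : Flow (Fin 1) where
  A := fun x => exp (-x) • (LinearMap.id : (Fin 1 → ℝ) →ₗ[ℝ] (Fin 1 → ℝ))
  zero := by intro v; simp
  add := by
    intro x y v
    simp only [LinearMap.smul_apply, LinearMap.id_apply, smul_smul]
    rw [← exp_add, neg_add]
  C := 1
  d := 0
  hC := le_rfl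
  hd0 := le_rfl
  hd := by norm_num
  bd := by
    intro x _ v
    simp only [LinearMap.smul_apply, LinearMap.id_apply, norm_smul, Real.norm_eq_abs, abs_exp]
    simp
  bd' := by
    intro x _ v
    simp only [LinearMap.smul_apply, LinearMap.id_apply, norm_smul, Real.norm_eq_abs, abs_exp]
    simp

theorem f4Flow_A (x : ℝ) (v : Fin 1 → ℝ) : f4Flow.A x v = exp (-x) • v := rfl

variable {ι : Type*} [Fintype ι] [Nonempty ι] [MeasurableSpace ι] [DiscreteMeasurableSpace ι]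
  {σ ℓ : ι → ℝ}

/-- the coding map at a real parameter as a process -/
noncomputable def f4Proc {q : ℝ} (hr : ∀ i, |σ i * exp (-(ℓ i))| ≤ q) (hq : q < 1) (t : ι → ℝ) :
    Proc ℓ σ (Fin 1) where
  F := f4Flow
  b := fun i _ => t i
  Φ := fun w _ => Pi (fun i => σ i * exp (-(ℓ i))) t w
  B := (∑ i, |t i|) / (1 - q)
  meas := measurable_pi_lambda _ fun _ => measurable_Pi hr hq t
  hB := by
    intro w
    have h0 : (0 : ℝ) ≤ (∑ i, |t i|) / (1 - q) :=
      div_nonneg (Finset.sum_nonneg fun _ _ => abs_nonneg _) (by linarith)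
    rw [pi_norm_le_iff_of_nonneg h0]
    intro _
    exact abs_Pi_le hr hq t w
  rec' := by
    intro i w
    funext k
    rw [cs_eq_scons, Pi_scons hr hq]
    simp only [f4Flow_A, Pi.add_apply, Pi.smul_apply, smul_eq_mul]
    ring

variable {q : ℝ} (hr : ∀ i, |σ i * exp (-(ℓ i))| ≤ q) (hq : q < 1)

theorem f4Proc_fin (t : ι → ℝ) {n : ℕ} (u : Fin n → ι) :
    (f4Proc hr hq t).fin u = fun _ => ∑ i, cw (fun i => σ i * exp (-(ℓ i))) u i * t i := by
  classical
  induction n with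
  | zero =>
    funext k
    show (0 : ℝ) = _
    simp
  | succ n ih =>
    obtain ⟨a, u, rfl⟩ := exists_cons u
    have h1 : (f4Proc hr hq t).fin (Fin.cons a u : Fin (n + 1) → ι)
        = σ a • f4Flow.A (ℓ a) ((f4Proc hr hq t).fin u) + fun _ => t a := by
      have e1 : (Fin.cons a u : Fin (n + 1) → ι) 0 = a := rfl
      have e2 : Fin.tail (Fin.cons a u : Fin (n + 1) → ι) = u := Fin.tail_cons _ _
      show σ ((Fin.cons a u : Fin (n + 1) → ι) 0) • f4Flow.A (ℓ ((Fin.cons a u : Fin (n + 1) → ι) 0))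
        ((f4Proc hr hq t).fin (Fin.tail (Fin.cons a u : Fin (n + 1) → ι))) + _ = _
      rw [e1, e2]
      rfl
    rw [h1, ih]
    funext k
    simp only [f4Flow_A, Pi.add_apply, Pi.smul_apply, smul_eq_mul, cw_cons, add_mul, ite_mul,
      one_mul, zero_mul, Finset.sum_add_distrib, Finset.sum_ite_eq, Finset.mem_univ, if_true]
    simp only [Finset.mul_sum]
    rw [add_comm]
    congr 1
    refine Finset.sum_congr rfl fun i _ => ?_
    ring

theorem f4_Pi_sub (t t' : ι → ℝ) (w : ℕ → ι) :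
    Pi (fun i => σ i * exp (-(ℓ i))) t' w - Pi (fun i => σ i * exp (-(ℓ i))) t w
      = Pi (fun i => σ i * exp (-(ℓ i))) (t' - t) w := by
  unfold Pi
  rw [← Finset.sum_sub_distrib]
  refine Finset.sum_congr rfl fun i _ => ?_
  simp only [Pi.sub_apply]
  ring

end One

section Main

variable {ι : Type*} [Fintype ι] [Nonempty ι] [MeasurableSpace ι] [DiscreteMeasurableSpace ι]
  {σ ℓ p : ι → ℝ}

theorem f4_rate (hσ : ∀ i, |σ i| = 1) (hl : ∀ i, 0 < ℓ i) :
    ∃ q : ℝ, q < 1 ∧ ∀ i, |σ i * exp (-(ℓ i))| ≤ q := by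
  obtain ⟨i, hi⟩ := Finite.exists_max fun i => |σ i * exp (-(ℓ i))|
  refine ⟨_, ?_, hi⟩
  rw [abs_mul, hσ, one_mul, abs_exp, exp_lt_one_iff]
  linarith [hl i]

/-- **(F4), class form**, with a constant -/
theorem F4K (hp : (∀ i, 0 ≤ p i) ∧ ∑ i, p i = 1) (hσ : ∀ i, |σ i| = 1) (hl : ∀ i, 0 < ℓ i)
    (t : ι → ℝ) {η : ℝ} (hη : 0 < η) (K : ℝ) :
    ∃ ε : ℝ, 0 < ε ∧ ∃ n0 : ℕ, ∀ n : ℕ, n0 ≤ n → ∀ t' : ι → ℝ, ‖t' - t‖ ≤ ε →
      ∀ S : Setoid (Fin n → ι),
      (∀ u v, S u v → |∑ i, (cw (fun i => σ i * exp (-(ℓ i))) u i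
        - cw (fun i => σ i * exp (-(ℓ i))) v i) * t' i| ≤ K * exp (-((∑ i, p i * ℓ i) * n))) →
      (F.alpha p (Pi (fun i => σ i * exp (-(ℓ i))) t) - η) * n ≤ Part.HS (pw p) S := by
  obtain ⟨q, hq, hr⟩ := f4_rate hσ hl
  have := isProb_PP hp
  have hP := WM_PP hp
  set X := f4Proc hr hq t with hX
  have hα : F.alpha p X.Φ = F.alpha p (Pi (fun i => σ i * exp (-(ℓ i))) t) := by
    have h := alpha_coord hp (ContinuousLinearEquiv.funUnique (Fin 1) ℝ ℝ).symm
      (measurable_Pi hr hq t)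
    rw [← h]
    congr 1
  obtain ⟨θ, hθ, hθχ, hF⟩ := X.fcell_lower hP hσ hl hp.1 hp.2
    (fun n => X.exists_MI_cell_ge hp hσ n) (ε := η / 2) (by linarith)
  set B : ℝ := (∑ i, (|t i| + 1)) / (1 - q) with hB
  obtain ⟨x0, n1, hn1⟩ := hF 1 B
  have hq1 : 0 < 1 - q := by linarith
  set c : ℝ := exp (max x0 0) * (Fintype.card ι / (1 - q)) + 1 with hc
  have hc0 : 0 < c := by positivity
  set R : ℝ := |K| with hR
  obtain ⟨n2, hn2⟩ := exists_nat_gt (log (2 * R + 3) / (η / 2))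
  refine ⟨min 1 (1 / c), by positivity, max n1 n2, fun n hn t' ht' S hS => ?_⟩
  have hti : ∀ i, |t' i - t i| ≤ min 1 (1 / c) := fun i =>
    (norm_le_pi_norm (t' - t) i).trans ht'
  set Y := f4Proc hr hq t' with hY
  have hYB : Y.B ≤ B := by
    show (∑ i, |t' i|) / (1 - q) ≤ _
    rw [hB]
    refine div_le_div_of_nonneg_right (Finset.sum_le_sum fun i _ => ?_) hq1.le
    have h1 := (hti i).trans (min_le_left _ _)
    have h2 : |t' i| ≤ |t i| + |t' i - t i| := by
      have := abs_add_le (t i) (t' i - t i)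
      rwa [add_sub_cancel] at this
    linarith
  have hclose : ∀ w, ‖Y.sc x0 w - X.sc x0 w‖ ≤ 1 := by
    intro w
    have e : Y.sc x0 w - X.sc x0 w
        = fun _ => exp x0 * Pi (fun i => σ i * exp (-(ℓ i))) (t' - t) w := by
      funext k
      rw [← f4_Pi_sub]
      show exp (-(-x0)) * _ - exp (-(-x0)) * _ = _
      rw [neg_neg, mul_sub]
      rfl
    rw [e, pi_norm_le_iff_of_nonneg zero_le_one]
    intro _
    rw [Real.norm_eq_abs, abs_mul, abs_exp]
    have h1 := abs_Pi_le hr hq (t' - t) w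
    have h2 : ∑ i, |(t' - t) i| ≤ Fintype.card ι * (1 / c) := by
      refine (Finset.sum_le_sum fun i _ => (hti i).trans (min_le_right _ _)).trans_eq ?_
      simp
    have h3 : |Pi (fun i => σ i * exp (-(ℓ i))) (t' - t) w|
        ≤ Fintype.card ι * (1 / c) / (1 - q) :=
      h1.trans (div_le_div_of_nonneg_right h2 hq1.le)
    have h4 : exp x0 ≤ exp (max x0 0) := exp_le_exp.2 (le_max_left _ _)
    calc exp x0 * |Pi (fun i => σ i * exp (-(ℓ i))) (t' - t) w|
        ≤ exp (max x0 0) * (Fintype.card ι * (1 / c) / (1 - q)) :=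
          mul_le_mul h4 h3 (abs_nonneg _) (exp_pos _).le
      _ = (exp (max x0 0) * (Fintype.card ι / (1 - q))) / c := by ring
      _ ≤ 1 := by
          rw [div_le_one hc0, hc]
          linarith
  have h1 := hn1 Y le_rfl hYB hclose n ((le_max_left _ _).trans hn)
  rw [hα] at h1
  set χ := ∑ i, p i * ℓ i with hχ
  have h2 := Y.fcell_le_HS hP n ((χ - θ) * n) S (R := R) (abs_nonneg _) ?_
  · have h3 : (n2 : ℝ) ≤ n := by exact_mod_cast (le_max_right _ _).trans hn
    have h4 : log (2 * R + 3) ≤ η / 2 * n := by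
      have h5 : log (2 * R + 3) / (η / 2) < n := lt_of_lt_of_le hn2 h3
      rw [div_lt_iff₀ (by linarith)] at h5
      linarith
    have h6 : ((Fintype.card (Fin 1) : ℕ) : ℝ) = 1 := by simp
    rw [h6, one_mul] at h2
    linarith
  · intro u v huv
    have e : Y.F.A (-((χ - θ) * n)) (Y.fin u) - Y.F.A (-((χ - θ) * n)) (Y.fin v)
        = fun _ => exp ((χ - θ) * n) * ∑ i, (cw (fun i => σ i * exp (-(ℓ i))) u i
          - cw (fun i => σ i * exp (-(ℓ i))) v i) * t' i := by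
      rw [hY, f4Proc_fin, f4Proc_fin]
      funext k
      show exp (-(-((χ - θ) * n))) * _ - exp (-(-((χ - θ) * n))) * _ = _
      rw [neg_neg, ← mul_sub]
      simp only [LinearMap.id_apply]
      rw [← Finset.sum_sub_distrib]
      congr 1
      refine Finset.sum_congr rfl fun i _ => ?_
      ring
    rw [e, pi_norm_le_iff_of_nonneg (abs_nonneg _)]
    intro _
    rw [Real.norm_eq_abs, abs_mul, abs_exp]
    calc exp ((χ - θ) * n) * |∑ i, (cw (fun i => σ i * exp (-(ℓ i))) u i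
          - cw (fun i => σ i * exp (-(ℓ i))) v i) * t' i|
        ≤ exp ((χ - θ) * n) * (R * exp (-(χ * n))) := by
          refine mul_le_mul_of_nonneg_left ((hS u v huv).trans ?_) (exp_pos _).le
          exact mul_le_mul_of_nonneg_right (le_abs_self _) (exp_pos _).le
      _ = R * exp (-(θ * n)) := by
          rw [mul_left_comm, ← exp_add]
          congr 2; ring
      _ ≤ R * 1 := by
          refine mul_le_mul_of_nonneg_left ?_ (abs_nonneg _)
          rw [exp_le_one_iff]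
          have : 0 ≤ θ * n := by positivity
          linarith
      _ = R := mul_one _

/-- **(F4), class form** -/
theorem F4 (hp : (∀ i, 0 ≤ p i) ∧ ∑ i, p i = 1) (hσ : ∀ i, |σ i| = 1) (hl : ∀ i, 0 < ℓ i)
    (t : ι → ℝ) {η : ℝ} (hη : 0 < η) :
    ∃ ε : ℝ, 0 < ε ∧ ∀ᶠ n : ℕ in atTop, ∀ t' : ι → ℝ, ‖t' - t‖ < ε →
      ∀ S : Setoid (Fin n → ι),
      (∀ u v, S u v → |∑ i, (cw (fun i => σ i * exp (-(ℓ i))) u i
        - cw (fun i => σ i * exp (-(ℓ i))) v i) * t' i| ≤ exp (-((∑ i, p i * ℓ i) * n))) →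
      (F.alpha p (Pi (fun i => σ i * exp (-(ℓ i))) t) - η) * n ≤ Part.HS (pw p) S := by
  obtain ⟨ε, hε, n0, h⟩ := F4K hp hσ hl t hη 1
  refine ⟨ε, hε, ?_⟩
  filter_upwards [eventually_ge_atTop n0] with n hn t' ht' S hS
  exact h n hn t' ht'.le S (by simpa only [one_mul] using hS)

/-- **(F4), class form**, along sequences, any rate `≥ χ` -/
theorem F4_seq (hp : (∀ i, 0 ≤ p i) ∧ ∑ i, p i = 1) (hσ : ∀ i, |σ i| = 1) (hl : ∀ i, 0 < ℓ i)
    {t : ι → ℝ} {η : ℝ} (hη : 0 < η) {K ξ : ℝ} (hK : 0 ≤ K) (hξ : ∑ i, p i * ℓ i ≤ ξ)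
    {τ : ℕ → ι → ℝ} (hτ : Tendsto τ atTop (𝓝 t)) {N : ℕ → ℕ} (hN : Tendsto N atTop atTop) :
    ∀ᶠ j : ℕ in atTop, ∀ S : Setoid (Fin (N j) → ι),
      (∀ u v, S u v → |∑ i, (cw (fun i => σ i * exp (-(ℓ i))) u i
        - cw (fun i => σ i * exp (-(ℓ i))) v i) * τ j i| ≤ K * exp (-(ξ * N j))) →
      (F.alpha p (Pi (fun i => σ i * exp (-(ℓ i))) t) - η) * N j ≤ Part.HS (pw p) S := by
  obtain ⟨ε, hε, n0, h⟩ := F4K hp hσ hl t hη K
  have h1 : ∀ᶠ j in atTop, ‖τ j - t‖ ≤ ε := by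
    have := (Metric.tendsto_nhds.1 hτ) ε hε
    filter_upwards [this] with j hj
    rw [← dist_eq_norm]; exact hj.le
  filter_upwards [h1, hN.eventually_ge_atTop n0] with j hj hn S hS
  refine h (N j) hn (τ j) hj S fun u v huv => (hS u v huv).trans ?_
  refine mul_le_mul_of_nonneg_left ?_ hK
  rw [exp_le_exp, neg_le_neg_iff]
  exact mul_le_mul_of_nonneg_right hξ (Nat.cast_nonneg _)

/-- **(F4), class form**, for any `r` with `r i = σ i exp (-ℓ i)` -/
theorem F4_ray (hp : (∀ i, 0 ≤ p i) ∧ ∑ i, p i = 1) (hσ : ∀ i, |σ i| = 1) (hl : ∀ i, 0 < ℓ i)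
    {r : ι → ℝ} (hr : ∀ i, r i = σ i * exp (-(ℓ i))) {t : ι → ℝ} {η : ℝ} (hη : 0 < η)
    {K ξ : ℝ} (hK : 0 ≤ K) (hξ : ∑ i, p i * ℓ i ≤ ξ)
    {τ : ℕ → ι → ℝ} (hτ : Tendsto τ atTop (𝓝 t)) {N : ℕ → ℕ} (hN : Tendsto N atTop atTop) :
    ∀ᶠ j : ℕ in atTop, ∀ S : Setoid (Fin (N j) → ι),
      (∀ u v, S u v → |∑ i, (cw r u i - cw r v i) * τ j i| ≤ K * exp (-(ξ * N j))) →
      (F.alpha p (Pi r t) - η) * N j ≤ Part.HS (pw p) S := by
  obtain rfl : r = fun i => σ i * exp (-(ℓ i)) := funext hr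
  exact F4_seq hp hσ hl hη hK hξ hτ hN

end Main

end Crest.Agent.R98.FD
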