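import Crest.Agent.R98.FC
import Crest.Agent.R98.EndDefs

/-!
Row 98, module F (helper893): (F2) in the shape of the ending (`IsProc`, `Fac` of EndDefs).
-/

set_option autoImplicit false
set_option linter.unusedSectionVars false
set_option linter.unusedSimpArgs false

namespace Crest.Agent.R98.F

open MeasureTheory ProbabilityTheory Filter Topology Real
open Crest.Agent.R098.Upper

noncomputable section

variable {ι : Type*} [Fintype ι] [mι : MeasurableSpace ι] [DiscreteMeasurableSpace ι]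

/-- `Fac` = almost everywhere measurability -/
theorem fac_iff {p : ι → ℝ} {Y X : (ℕ → ι) → ℝ} :
    Fac p Y X ↔ AEStronglyMeasurable[MeasurableSpace.comap Y inferInstance] X (PP p) := by
  constructor
  · rintro ⟨f, hf, e⟩
    refine ⟨fun w => f (Y w), ?_, e⟩
    have : Measurable[MeasurableSpace.comap Y inferInstance] (fun w => f (Y w)) :=
      hf.comp (comap_measurable Y)
    exact this.stronglyMeasurable
  · rintro ⟨G, hG, e⟩
    obtain ⟨g, hg, rfl⟩ := hG.exists_eq_measurable_comp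
    exact ⟨g, hg.measurable, e⟩

/-- information decreases -/
theorem alpha_le_of_fac {p : ι → ℝ} (hp : (∀ i, 0 ≤ p i) ∧ ∑ i, p i = 1) {Y X : (ℕ → ι) → ℝ}
    (hY : Measurable Y) (hX : Measurable X) (h : Fac p Y X) : alpha p X ≤ alpha p Y :=
  alpha_mono_aesm hp hY hX (fac_iff.1 h)

/-- vector version -/
theorem alpha_le_of_fac_pi {p : ι → ℝ} (hp : (∀ i, 0 ≤ p i) ∧ ∑ i, p i = 1) {K : Type*}
    [Fintype K] {Y : (ℕ → ι) → ℝ} {X : (ℕ → ι) → K → ℝ} (hY : Measurable Y) (hX : Measurable X)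
    (h : ∀ k, Fac p Y (fun w => X w k)) : alpha p X ≤ alpha p Y :=
  alpha_mono_aesm_pi hp hY hX fun k => fac_iff.1 (h k)

/-- restriction to the words starting with `i` -/
theorem Fac.scons' {p : ι → ℝ} (hp : (∀ i, 0 ≤ p i) ∧ ∑ i, p i = 1) {Y X : (ℕ → ι) → ℝ}
    {B : ι → ℝ → ℝ} (h : IsProc Y B) {i : ι} (hi : 0 < p i) (hX : Fac p Y X) :
    Fac p Y (fun w => X (scons i w)) := fac_iff.2 (aesm_scons hp h hi (fac_iff.1 hX))

section proc

variable {E : Type*} [NormedAddCommGroup E] [NormedSpace ℝ E] [FiniteDimensional ℝ E]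

theorem gen_injective {σ ℓ : ι → ℝ} {L : E →L[ℝ] E} {a : ι} (hσ : σ a ≠ 0) :
    Function.Injective (gen σ ℓ L a) := by
  have : CompleteSpace E := FiniteDimensional.complete ℝ E
  let _ : NormedAlgebra ℚ (E →L[ℝ] E) := NormedAlgebra.restrictScalars ℚ ℝ (E →L[ℝ] E)
  have hu : IsUnit (NormedSpace.exp ((-(ℓ a)) • L) : E →L[ℝ] E) :=
    NormedSpace.isUnit_exp _
  obtain ⟨u, hu⟩ := hu
  intro x y hxy
  have h1 : (NormedSpace.exp ((-(ℓ a)) • L) : E →L[ℝ] E) x =
      (NormedSpace.exp ((-(ℓ a)) • L) : E →L[ℝ] E) y := by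
    have : σ a • (NormedSpace.exp ((-(ℓ a)) • L) : E →L[ℝ] E) x =
        σ a • (NormedSpace.exp ((-(ℓ a)) • L) : E →L[ℝ] E) y := hxy
    exact smul_right_injective E hσ this
  rw [← hu] at h1
  have h2 : ((u⁻¹ : (E →L[ℝ] E)ˣ) : E →L[ℝ] E) ((u : E →L[ℝ] E) x) =
      ((u⁻¹ : (E →L[ℝ] E)ˣ) : E →L[ℝ] E) ((u : E →L[ℝ] E) y) := by rw [h1]
  have h3 : ∀ z : E, ((u⁻¹ : (E →L[ℝ] E)ˣ) : E →L[ℝ] E) ((u : E →L[ℝ] E) z) = z := by
    intro z
    have : (((u⁻¹ : (E →L[ℝ] E)ˣ) : E →L[ℝ] E) * (u : E →L[ℝ] E)) z = z := by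
      rw [Units.inv_mul]; rfl
    exact this
  rwa [h3, h3] at h2

variable [MeasurableSpace E] [BorelSpace E]

theorem proc_measurable {G : ι → E →L[ℝ] E} {b : ι → E} {Φ : (ℕ → ι) → E}
    (h : Crest.Agent.R98.IsProc G b Φ) : Measurable Φ := by
  let e := (Module.finBasis ℝ E).equivFunL
  have h1 : Measurable (fun w => e (Φ w)) := by
    refine measurable_pi_lambda _ fun i => ?_
    exact h.meas ((ContinuousLinearMap.proj (R := ℝ) (φ := fun _ => ℝ) i).comp
      (e : E →L[ℝ] (Fin (Module.finrank ℝ E) → ℝ)))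
  have h2 : Φ = fun w => e.symm (e (Φ w)) := by
    funext w; simp
  rw [h2]
  exact e.symm.continuous.measurable.comp h1

/-- the bridge between the two notions of process -/
theorem proc_bridge {G : ι → E →L[ℝ] E} {b : ι → E} {Φ : (ℕ → ι) → E}
    (h : Crest.Agent.R98.IsProc G b Φ) (hG : ∀ a, Function.Injective (G a)) :
    IsProc Φ (fun a x => b a + G a x) := by
  refine ⟨proc_measurable h, fun a => ?_, fun w => ?_⟩
  · have h1 : IsClosedEmbedding (G a) :=
      LinearMap.isClosedEmbedding_of_injective (f := (G a : E →ₗ[ℝ] E))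
        (LinearMap.ker_eq_bot.2 (hG a))
    have h2 : IsClosedEmbedding (fun x => b a + G a x) :=
      (Homeomorph.addLeft (b a)).isClosedEmbedding.comp h1
    exact h2.measurableEmbedding
  · conv_lhs => rw [← scons_sh w]
    rw [h.eq]

/-- **(F2) in the shape of the ending** -/
theorem fac_of_alpha_le {p : ι → ℝ} (hp : (∀ i, 0 ≤ p i) ∧ ∑ i, p i = 1)
    {G : ι → E →L[ℝ] E} {b : ι → E} {Φ : (ℕ → ι) → E}
    (h : Crest.Agent.R98.IsProc G b Φ) (hG : ∀ a, Function.Injective (G a))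
    {Y : (ℕ → ι) → ℝ} {ρ τ : ι → ℝ} (hρ : ∀ a, ρ a ≠ 0)
    (hY : ∀ a w, Y (scons a w) = τ a + ρ a * Y w) {φ0 : E →L[ℝ] ℝ} (hφ0 : ∀ w, φ0 (Φ w) = Y w)
    (hα : alpha p Φ ≤ alpha p Y) (φ : E →L[ℝ] ℝ) : Fac p Y (fun w => φ (Φ w)) := by
  have := isProb_PP hp
  have hΦ := proc_bridge h hG
  have hYm : Measurable Y := by
    have : Y = fun w => φ0 (Φ w) := by funext w; rw [hφ0]
    rw [this]
    exact h.meas φ0
  have hYp : IsProc Y (fun a x => τ a + ρ a * x) := by
    refine ⟨hYm, fun a => ?_, fun w => ?_⟩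
    · have h2 : IsClosedEmbedding (fun x : ℝ => τ a + ρ a * x) :=
        (Homeomorph.addLeft (τ a)).isClosedEmbedding.comp
          (Homeomorph.mulLeft₀ (ρ a) (hρ a)).isClosedEmbedding
      exact h2.measurableEmbedding
    · conv_lhs => rw [← scons_sh w]
      rw [hY]
  have hle : MeasurableSpace.comap Y inferInstance ≤ MeasurableSpace.comap Φ inferInstance := by
    have e : Y = φ0 ∘ Φ := by funext w; exact (hφ0 w).symm
    rw [e, ← MeasurableSpace.comap_comp]
    exact MeasurableSpace.comap_mono φ0.continuous.measurable.comap_le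
  refine fac_iff.2 (F2_aesm hp hΦ hYp hle hα φ.continuous.measurable ?_)
  obtain ⟨C, hC⟩ := h.bdd
  refine Integrable.of_bound (h.meas φ).aestronglyMeasurable (‖φ‖ * C)
    (Eventually.of_forall fun w => ?_)
  exact (φ.le_opNorm _).trans (mul_le_mul_of_nonneg_left (hC w) (norm_nonneg _))

/-- `α` of a linear image -/
theorem alpha_le_of_image {p : ι → ℝ} (hp : (∀ i, 0 ≤ p i) ∧ ∑ i, p i = 1) {Φ : (ℕ → ι) → E}
    (hΦ : Measurable Φ) {Y : (ℕ → ι) → ℝ} {φ0 : E →L[ℝ] ℝ} (hφ0 : ∀ w, φ0 (Φ w) = Y w) :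
    alpha p Y ≤ alpha p Φ := by
  refine alpha_mono hp hΦ ?_
  have e : Y = φ0 ∘ Φ := by funext w; exact (hφ0 w).symm
  rw [e, ← MeasurableSpace.comap_comp]
  exact MeasurableSpace.comap_mono φ0.continuous.measurable.comap_le

end proc

end

end Crest.Agent.R98.F
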