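import Crest.Agent.R98.EndDefs

/-!
R98 / GenFlow (helper529): uniform exponential bounds for generators close to `1 + nilpotent`,
bounds for `gprod`, existence, boundedness and stability of processes.
-/

set_option autoImplicit false

open MeasureTheory Filter Topology
open scoped Nat

namespace Crest.Agent.R98.GF

section algebra

variable {A : Type*} [NormedRing A]

theorem norm_pow_le_K (x : A) (n : ℕ) : ‖x ^ n‖ ≤ max 1 ‖(1 : A)‖ * ‖x‖ ^ n := by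
  rcases Nat.eq_zero_or_pos n with h | h
  · subst h
    simp
  · have h1 := norm_pow_le' x h
    have h2 : 1 * ‖x‖ ^ n ≤ max 1 ‖(1 : A)‖ * ‖x‖ ^ n :=
      mul_le_mul_of_nonneg_right (le_max_left _ _) (by positivity)
    linarith

theorem norm_pow_le_of_pow {N : A} {k : ℕ} (hk : 0 < k) {d M : ℝ} (hd : 0 < d)
    (h1 : ‖N ^ k‖ ≤ d ^ k) (h2 : ‖N‖ ≤ M) (n : ℕ) :
    ‖N ^ n‖ ≤ (max 1 ‖(1 : A)‖) ^ 2 * (max 1 (M / d)) ^ k * d ^ n := by
  set K := max 1 ‖(1 : A)‖ with hK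
  have hK1 : 1 ≤ K := le_max_left _ _
  set T := max 1 (M / d) with hT
  have hT1 : 1 ≤ T := le_max_left _ _
  have e : N ^ n = (N ^ k) ^ (n / k) * N ^ (n % k) := by
    rw [← pow_mul, ← pow_add, Nat.div_add_mod]
  have hM : M ≤ T * d := by
    have := le_max_right 1 (M / d)
    rw [div_le_iff₀ hd] at this
    exact this
  have a1 : ‖(N ^ k) ^ (n / k)‖ ≤ K * (d ^ k) ^ (n / k) :=
    (norm_pow_le_K _ _).trans (mul_le_mul_of_nonneg_left
      (pow_le_pow_left₀ (norm_nonneg _) h1 _) (by positivity))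
  have a2 : ‖N ^ (n % k)‖ ≤ K * (T ^ k * d ^ (n % k)) := by
    refine (norm_pow_le_K _ _).trans (mul_le_mul_of_nonneg_left ?_ (by positivity))
    calc ‖N‖ ^ (n % k) ≤ (T * d) ^ (n % k) := pow_le_pow_left₀ (norm_nonneg _) (h2.trans hM) _
      _ = T ^ (n % k) * d ^ (n % k) := mul_pow _ _ _
      _ ≤ T ^ k * d ^ (n % k) :=
        mul_le_mul_of_nonneg_right (pow_le_pow_right₀ hT1 (Nat.mod_lt _ hk).le) (by positivity)
  rw [e]
  calc ‖(N ^ k) ^ (n / k) * N ^ (n % k)‖ ≤ ‖(N ^ k) ^ (n / k)‖ * ‖N ^ (n % k)‖ := norm_mul_le _ _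
    _ ≤ (K * (d ^ k) ^ (n / k)) * (K * (T ^ k * d ^ (n % k))) := by gcongr
    _ = K ^ 2 * T ^ k * d ^ n := by
      have : d ^ n = (d ^ k) ^ (n / k) * d ^ (n % k) := by
        rw [← pow_mul, ← pow_add, Nat.div_add_mod]
      rw [this]; ring

variable [NormedAlgebra ℝ A] [CompleteSpace A]

theorem norm_exp_smul_le {N : A} {C d : ℝ} (h : ∀ n, ‖N ^ n‖ ≤ C * d ^ n) (y : ℝ) :
    ‖NormedSpace.exp (y • N)‖ ≤ C * Real.exp (d * |y|) := by
  have h1 : HasSum (fun n : ℕ => C * ((d * |y|) ^ n / n !)) (C * Real.exp (d * |y|)) := by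
    have := NormedSpace.expSeries_div_hasSum_exp (d * |y|)
    rw [← Real.exp_eq_exp_ℝ] at this
    exact this.mul_left C
  rw [NormedSpace.exp_eq_tsum ℝ]
  refine tsum_of_norm_bounded h1 fun n => ?_
  rw [norm_smul, smul_pow, norm_smul, norm_inv, norm_pow, Real.norm_natCast, Real.norm_eq_abs]
  calc ((n ! : ℕ) : ℝ)⁻¹ * (|y| ^ n * ‖N ^ n‖) ≤ ((n ! : ℕ) : ℝ)⁻¹ * (|y| ^ n * (C * d ^ n)) := by
        gcongr
        exact h n
    _ = C * ((d * |y|) ^ n / n !) := by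
        rw [mul_pow]; ring

theorem exp_add_of_commute' {x y : A} (h : Commute x y) :
    NormedSpace.exp (x + y) = NormedSpace.exp x * NormedSpace.exp y := by
  letI : NormedAlgebra ℚ A := NormedAlgebra.restrictScalars ℚ ℝ A
  exact NormedSpace.exp_add_of_commute h

theorem exp_smul_one_add (y : ℝ) (N : A) :
    NormedSpace.exp (y • (1 + N)) = Real.exp y • NormedSpace.exp (y • N) := by
  rw [smul_add, exp_add_of_commute']
  · have h1 : y • (1 : A) = algebraMap ℝ A y := (Algebra.algebraMap_eq_smul_one y).symm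
    rw [h1, ← NormedSpace.algebraMap_exp_comm y, ← Real.exp_eq_exp_ℝ,
      Algebra.algebraMap_eq_smul_one, smul_mul_assoc, one_mul]
  · exact ((Commute.one_left N).smul_left y).smul_right y

theorem exp_smul_add (x y : ℝ) (L : A) :
    NormedSpace.exp ((x + y) • L) = NormedSpace.exp (x • L) * NormedSpace.exp (y • L) := by
  rw [add_smul, exp_add_of_commute']
  exact ((Commute.refl L).smul_left x).smul_right y

/-- **(G1)** -/
theorem exists_exp_bound {L : A} (hL : IsNilpotent (L - 1)) {d : ℝ} (hd : 0 < d) :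
    ∃ C δ : ℝ, 1 ≤ C ∧ 0 < δ ∧ ∀ L' : A, ‖L' - L‖ ≤ δ → ∀ x : ℝ, 0 ≤ x →
      ‖NormedSpace.exp ((-x) • L')‖ ≤ C * Real.exp (-((1 - d) * x)) ∧
      ‖NormedSpace.exp (x • L')‖ ≤ C * Real.exp ((1 + d) * x) := by
  obtain ⟨k₀, hk₀⟩ := hL
  set k := k₀ + 1 with hk
  have hkk : (L - 1) ^ k = 0 := by rw [hk, pow_succ, hk₀, zero_mul]
  have hcont : Continuous fun L' : A => ‖(L' - 1) ^ k‖ := by fun_prop
  have h0 : ‖(L - 1) ^ k‖ < d ^ k := by rw [hkk, norm_zero]; positivity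
  have hev := (hcont.tendsto L).eventually (eventually_lt_nhds h0)
  obtain ⟨δ, hδ, hball⟩ := Metric.eventually_nhds_iff.mp hev
  set M := ‖L - 1‖ + δ with hM
  set C := (max 1 ‖(1 : A)‖) ^ 2 * (max 1 (M / d)) ^ k with hC
  have hC1 : 1 ≤ C := by
    have h1 : (1:ℝ) ≤ (max 1 ‖(1 : A)‖) ^ 2 := one_le_pow₀ (le_max_left _ _)
    have h2 : (1:ℝ) ≤ (max 1 (M / d)) ^ k := one_le_pow₀ (le_max_left _ _)
    nlinarith
  refine ⟨C, δ / 2, hC1, half_pos hδ, fun L' hL' x hx => ?_⟩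
  have hb : ∀ n, ‖(L' - 1) ^ n‖ ≤ C * d ^ n := by
    intro n
    refine norm_pow_le_of_pow (Nat.succ_pos _) hd ?_ ?_ n
    · refine (hball ?_).le
      rw [dist_eq_norm]
      linarith [half_lt_self hδ]
    · have : L' - 1 = (L' - L) + (L - 1) := by abel
      rw [this]
      refine (norm_add_le _ _).trans ?_
      rw [hM]
      linarith [half_lt_self hδ]
  have e : L' = 1 + (L' - 1) := by abel
  constructor
  · rw [e, exp_smul_one_add, norm_smul, Real.norm_eq_abs, abs_of_pos (Real.exp_pos _)]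
    have h1 := norm_exp_smul_le hb (-x)
    rw [abs_neg, abs_of_nonneg hx] at h1
    calc Real.exp (-x) * ‖NormedSpace.exp ((-x) • (L' - 1))‖
        ≤ Real.exp (-x) * (C * Real.exp (d * x)) :=
          mul_le_mul_of_nonneg_left h1 (Real.exp_pos _).le
      _ = C * (Real.exp (-x) * Real.exp (d * x)) := by ring
      _ = C * Real.exp (-((1 - d) * x)) := by
          rw [← Real.exp_add]; congr 2; ring
  · rw [e, exp_smul_one_add, norm_smul, Real.norm_eq_abs, abs_of_pos (Real.exp_pos _)]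
    have h1 := norm_exp_smul_le hb x
    rw [abs_of_nonneg hx] at h1
    calc Real.exp x * ‖NormedSpace.exp (x • (L' - 1))‖
        ≤ Real.exp x * (C * Real.exp (d * x)) :=
          mul_le_mul_of_nonneg_left h1 (Real.exp_pos _).le
      _ = C * (Real.exp x * Real.exp (d * x)) := by ring
      _ = C * Real.exp ((1 + d) * x) := by
          rw [← Real.exp_add]; congr 2; ring

end algebra

section words

variable {ι E : Type*} [NormedAddCommGroup E] [NormedSpace ℝ E]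

/-- composition of the letter maps `σ_a exp(-ℓ_a L)` along a word -/
theorem gprod_gen [CompleteSpace E] (σ ℓ : ι → ℝ) (L : E →L[ℝ] E) {n : ℕ} (u : Fin n → ι) :
    gprod (gen σ ℓ L) u = (∏ j, σ (u j)) • NormedSpace.exp ((-(∑ j, ℓ (u j))) • L) := by
  induction n with
  | zero =>
    simp only [gprod_zero, Finset.univ_eq_empty, Finset.prod_empty, Finset.sum_empty, neg_zero,
      zero_smul, one_smul, NormedSpace.exp_zero]
    rfl
  | succ n ih =>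
    obtain ⟨a, u, rfl⟩ := exists_cons u
    rw [gprod_cons, ih, Fin.prod_univ_succ, Fin.sum_univ_succ]
    simp only [Fin.cons_zero, Fin.cons_succ]
    have h : NormedSpace.exp ((-ℓ a + -∑ j, ℓ (u j)) • L) =
        NormedSpace.exp ((-ℓ a) • L) * NormedSpace.exp ((-∑ j, ℓ (u j)) • L) :=
      exp_smul_add _ _ L
    rw [neg_add, h]
    unfold gen
    rw [ContinuousLinearMap.smul_comp, ContinuousLinearMap.comp_smul, smul_smul]
    rfl

/-- **(G2)**, bound of `gprod` by the total length of the word -/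
theorem norm_gprod_le [CompleteSpace E] {σ ℓ : ι → ℝ} (hσ : ∀ a, |σ a| = 1) {L : E →L[ℝ] E}
    {C c : ℝ} (hL : ∀ x : ℝ, 0 ≤ x → ‖NormedSpace.exp ((-x) • L)‖ ≤ C * Real.exp (-(c * x)))
    (hℓ : ∀ a, 0 ≤ ℓ a) {n : ℕ} (u : Fin n → ι) :
    ‖gprod (gen σ ℓ L) u‖ ≤ C * Real.exp (-(c * ∑ j, ℓ (u j))) := by
  rw [gprod_gen, norm_smul, Real.norm_eq_abs, Finset.abs_prod]
  simp only [hσ, Finset.prod_const_one, one_mul]
  exact hL _ (Finset.sum_nonneg fun j _ => hℓ _)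

/-- **(G2)**, geometric bound -/
theorem norm_gprod_le_pow [CompleteSpace E] {σ ℓ : ι → ℝ} (hσ : ∀ a, |σ a| = 1) {L : E →L[ℝ] E}
    {C c : ℝ} (hC : 0 ≤ C) (hc : 0 ≤ c)
    (hL : ∀ x : ℝ, 0 ≤ x → ‖NormedSpace.exp ((-x) • L)‖ ≤ C * Real.exp (-(c * x)))
    {ℓ₀ : ℝ} (hℓ₀ : 0 ≤ ℓ₀) (hℓ : ∀ a, ℓ₀ ≤ ℓ a) {n : ℕ} (u : Fin n → ι) :
    ‖gprod (gen σ ℓ L) u‖ ≤ C * (Real.exp (-(c * ℓ₀))) ^ n := by
  refine (norm_gprod_le hσ hL (fun a => hℓ₀.trans (hℓ a)) u).trans ?_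
  refine mul_le_mul_of_nonneg_left ?_ hC
  rw [← Real.exp_nat_mul]
  refine Real.exp_le_exp.mpr ?_
  have h1 : (n : ℝ) * ℓ₀ ≤ ∑ j, ℓ (u j) := by
    have := Finset.sum_le_sum fun j (_ : j ∈ (Finset.univ : Finset (Fin n))) => hℓ (u j)
    simpa using this
  nlinarith [mul_le_mul_of_nonneg_left h1 hc]

/-- partial sums -/
theorem pfin_append (G : ι → E →L[ℝ] E) (b : ι → E) (n : ℕ) (w : ℕ → ι) :
    pfin G b (pre (n + 1) w) = pfin G b (pre n w) + gprod G (pre n w) (b (w n)) := by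
  induction n generalizing w with
  | zero =>
    have : pre 1 w = (Fin.cons (w 0) (pre 0 (sh 1 w)) : Fin 1 → ι) := by
      funext j
      rw [Subsingleton.elim j 0]
      rfl
    rw [this, pfin_cons]
    simp
  | succ n ih =>
    have h1 : ∀ m, pre (m + 1) w = (Fin.cons (w 0) (pre m (sh 1 w)) : Fin (m + 1) → ι) := by
      intro m
      conv_lhs => rw [← scons_sh w]
      exact pre_succ_scons m (w 0) (sh 1 w)
    rw [h1 (n + 1), pfin_cons, ih (sh 1 w), h1 n, pfin_cons, gprod_cons, map_add]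
    simp only [ContinuousLinearMap.comp_apply]
    have h2 : sh 1 w n = w (n + 1) := rfl
    rw [h2]
    abel

theorem pfin_eq_sum (G : ι → E →L[ℝ] E) (b : ι → E) (n : ℕ) (w : ℕ → ι) :
    pfin G b (pre n w) = ∑ j ∈ Finset.range n, gprod G (pre j w) (b (w j)) := by
  induction n with
  | zero => simp
  | succ n ih => rw [pfin_append, ih, Finset.sum_range_succ]

/-- the infinite-word functional -/
noncomputable def pinf (G : ι → E →L[ℝ] E) (b : ι → E) (w : ℕ → ι) : E :=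
  ∑' j, gprod G (pre j w) (b (w j))

section

variable {G : ι → E →L[ℝ] E} {b : ι → E} {C q M : ℝ}

theorem norm_term_le (hC : 0 ≤ C) (hq : 0 ≤ q) (hG : ∀ (n : ℕ) (u : Fin n → ι), ‖gprod G u‖ ≤ C * q ^ n)
    (hb : ∀ a, ‖b a‖ ≤ M) (w : ℕ → ι) (j : ℕ) :
    ‖gprod G (pre j w) (b (w j))‖ ≤ C * M * q ^ j := by
  refine ((gprod G (pre j w)).le_opNorm _).trans ?_
  calc ‖gprod G (pre j w)‖ * ‖b (w j)‖ ≤ (C * q ^ j) * M :=
        mul_le_mul (hG j _) (hb _) (norm_nonneg _) (by positivity)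
    _ = C * M * q ^ j := by ring

theorem summable_term [CompleteSpace E] (hC : 0 ≤ C) (hq : 0 ≤ q) (hq1 : q < 1)
    (hG : ∀ (n : ℕ) (u : Fin n → ι), ‖gprod G u‖ ≤ C * q ^ n)
    (hb : ∀ a, ‖b a‖ ≤ M) (w : ℕ → ι) : Summable fun j => gprod G (pre j w) (b (w j)) :=
  Summable.of_norm_bounded ((summable_geometric_of_lt_one hq hq1).mul_left _)
    (norm_term_le hC hq hG hb w)

theorem tendsto_pfin_pinf [CompleteSpace E] (hC : 0 ≤ C) (hq : 0 ≤ q) (hq1 : q < 1)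
    (hG : ∀ (n : ℕ) (u : Fin n → ι), ‖gprod G u‖ ≤ C * q ^ n)
    (hb : ∀ a, ‖b a‖ ≤ M) (w : ℕ → ι) :
    Tendsto (fun n => pfin G b (pre n w)) atTop (𝓝 (pinf G b w)) := by
  simp only [pfin_eq_sum]
  exact (summable_term hC hq hq1 hG hb w).hasSum.tendsto_sum_nat

theorem norm_pinf_le [CompleteSpace E] (hC : 0 ≤ C) (hq : 0 ≤ q) (hq1 : q < 1)
    (hG : ∀ (n : ℕ) (u : Fin n → ι), ‖gprod G u‖ ≤ C * q ^ n)
    (hb : ∀ a, ‖b a‖ ≤ M) (w : ℕ → ι) : ‖pinf G b w‖ ≤ C * M / (1 - q) :=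
  tsum_of_norm_bounded (by
    have := (hasSum_geometric_of_lt_one hq hq1).mul_left (C * M)
    rwa [← div_eq_mul_inv] at this) (norm_term_le hC hq hG hb w)

variable [Finite ι] [MeasurableSpace ι] [DiscreteMeasurableSpace ι]

/-- **(G2)**: existence of the process -/
theorem isProc_pinf [CompleteSpace E] (hC : 0 ≤ C) (hq : 0 ≤ q) (hq1 : q < 1)
    (hG : ∀ (n : ℕ) (u : Fin n → ι), ‖gprod G u‖ ≤ C * q ^ n)
    (hb : ∀ a, ‖b a‖ ≤ M) : IsProc G b (pinf G b) where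
  eq := by
    intro a w
    unfold pinf
    rw [(summable_term hC hq hq1 hG hb (scons a w)).tsum_eq_zero_add,
      ContinuousLinearMap.map_tsum _ (summable_term hC hq hq1 hG hb w)]
    congr 1
  bdd := ⟨_, norm_pinf_le hC hq hq1 hG hb⟩
  meas := by
    intro f
    refine measurable_of_tendsto_metrizable (f := fun n w => f (pfin G b (pre n w)))
      (fun n => ?_) (tendsto_pi_nhds.2 fun w => ?_)
    · have : (fun w : ℕ → ι => f (pfin G b (pre n w))) =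
          (fun u : Fin n → ι => f (pfin G b u)) ∘ pre n := rfl
      rw [this]
      exact (measurable_of_countable _).comp (measurable_pre n)
    · exact (f.continuous.tendsto _).comp (tendsto_pfin_pinf hC hq hq1 hG hb w)

end

section

variable [MeasurableSpace ι] {G : ι → E →L[ℝ] E} {b : ι → E} {Φ : (ℕ → ι) → E} {C q M : ℝ}

theorem norm_pfin_le (hC : 0 ≤ C) (hq : 0 ≤ q) (hq1 : q < 1)
    (hG : ∀ (n : ℕ) (u : Fin n → ι), ‖gprod G u‖ ≤ C * q ^ n)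
    (hb : ∀ a, ‖b a‖ ≤ M) (n : ℕ) (w : ℕ → ι) : ‖pfin G b (pre n w)‖ ≤ C * M / (1 - q) := by
  have hM : 0 ≤ M := (norm_nonneg _).trans (hb (w 0))
  rw [pfin_eq_sum]
  refine (norm_sum_le _ _).trans ?_
  refine (Finset.sum_le_sum fun j _ => norm_term_le hC hq hG hb w j).trans ?_
  rw [← Finset.mul_sum, div_eq_mul_inv]
  refine mul_le_mul_of_nonneg_left ?_ (by positivity)
  rw [← tsum_geometric_of_lt_one hq hq1]
  exact (summable_geometric_of_lt_one hq hq1).sum_le_tsum _ fun j _ => by positivity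

/-- every process satisfies the uniform bound -/
theorem norm_proc_le (h : IsProc G b Φ) (hC : 0 ≤ C) (hq : 0 ≤ q) (hq1 : q < 1)
    (hG : ∀ (n : ℕ) (u : Fin n → ι), ‖gprod G u‖ ≤ C * q ^ n)
    (hb : ∀ a, ‖b a‖ ≤ M) (w : ℕ → ι) : ‖Φ w‖ ≤ C * M / (1 - q) := by
  obtain ⟨B, hB⟩ := h.bdd
  have hlim : Tendsto (fun n : ℕ => C * M / (1 - q) + C * q ^ n * B) atTop
      (𝓝 (C * M / (1 - q) + C * 0 * B)) :=
    tendsto_const_nhds.add (((tendsto_pow_atTop_nhds_zero_of_lt_one hq hq1).const_mul C).mul_const B)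
  rw [mul_zero, zero_mul, add_zero] at hlim
  refine ge_of_tendsto' hlim fun n => ?_
  have h1 := h.cat (pre n w) (sh n w)
  rw [cat_pre_sh] at h1
  rw [h1]
  refine (norm_add_le _ _).trans (add_le_add (norm_pfin_le hC hq hq1 hG hb n w) ?_)
  refine ((gprod G (pre n w)).le_opNorm _).trans ?_
  exact mul_le_mul (hG n _) (hB _) (norm_nonneg _) (by positivity)

/-- distance to the finite words -/
theorem norm_proc_sub_pfin_le (h : IsProc G b Φ) (hC : 0 ≤ C) (hq : 0 ≤ q) (hq1 : q < 1)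
    (hG : ∀ (n : ℕ) (u : Fin n → ι), ‖gprod G u‖ ≤ C * q ^ n)
    (hb : ∀ a, ‖b a‖ ≤ M) (n : ℕ) (w : ℕ → ι) :
    ‖Φ w - pfin G b (pre n w)‖ ≤ C * q ^ n * (C * M / (1 - q)) := by
  have h1 := h.cat (pre n w) (sh n w)
  rw [cat_pre_sh] at h1
  rw [h1, add_sub_cancel_left]
  refine ((gprod G (pre n w)).le_opNorm _).trans ?_
  exact mul_le_mul (hG n _) (norm_proc_le h hC hq hq1 hG hb _) (norm_nonneg _) (by positivity)

theorem proc_unique {Φ' : (ℕ → ι) → E} (h : IsProc G b Φ) (h' : IsProc G b Φ') (hC : 0 ≤ C)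
    (hq : 0 ≤ q) (hq1 : q < 1)
    (hG : ∀ (n : ℕ) (u : Fin n → ι), ‖gprod G u‖ ≤ C * q ^ n) : Φ = Φ' := by
  funext w
  obtain ⟨B, hB⟩ := h.bdd
  obtain ⟨B', hB'⟩ := h'.bdd
  have hlim : Tendsto (fun n : ℕ => C * q ^ n * (B + B')) atTop (𝓝 (C * 0 * (B + B'))) :=
    ((tendsto_pow_atTop_nhds_zero_of_lt_one hq hq1).const_mul C).mul_const _
  rw [mul_zero, zero_mul] at hlim
  have : ‖Φ w - Φ' w‖ ≤ 0 := by
    refine ge_of_tendsto' hlim fun n => ?_
    have h1 := h.cat (pre n w) (sh n w)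
    have h2 := h'.cat (pre n w) (sh n w)
    rw [cat_pre_sh] at h1 h2
    rw [h1, h2, add_sub_add_left_eq_sub, ← map_sub]
    refine ((gprod G (pre n w)).le_opNorm _).trans ?_
    refine mul_le_mul (hG n _) ?_ (norm_nonneg _) (by positivity)
    exact (norm_sub_le _ _).trans (add_le_add (hB _) (hB' _))
  exact sub_eq_zero.mp (norm_le_zero_iff.mp this)

end

end words

section stability

variable {ι E : Type*} [NormedAddCommGroup E] [NormedSpace ℝ E]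

/-- finite words depend continuously on the data -/
theorem tendsto_gprod {α : Type*} {F : Filter α} {G' : α → ι → E →L[ℝ] E} {G : ι → E →L[ℝ] E}
    (hG : ∀ a, Tendsto (fun j => G' j a) F (𝓝 (G a))) {n : ℕ} (u : Fin n → ι) :
    Tendsto (fun j => gprod (G' j) u) F (𝓝 (gprod G u)) := by
  induction n with
  | zero => simpa using tendsto_const_nhds
  | succ n ih =>
    obtain ⟨a, u, rfl⟩ := exists_cons u
    simp only [gprod_cons]
    exact (hG a).mul (ih u)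

theorem tendsto_pfin {α : Type*} {F : Filter α} {G' : α → ι → E →L[ℝ] E} {G : ι → E →L[ℝ] E}
    (hG : ∀ a, Tendsto (fun j => G' j a) F (𝓝 (G a))) {b' : α → ι → E} {b : ι → E}
    (hb : ∀ a, Tendsto (fun j => b' j a) F (𝓝 (b a))) {n : ℕ} (u : Fin n → ι) :
    Tendsto (fun j => pfin (G' j) (b' j) u) F (𝓝 (pfin G b u)) := by
  induction n with
  | zero => simpa using tendsto_const_nhds
  | succ n ih =>
    obtain ⟨a, u, rfl⟩ := exists_cons u
    simp only [pfin_cons]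
    refine (hb a).add ?_
    exact (isBoundedBilinearMap_apply.continuous.tendsto (G a, pfin G b u)).comp
      ((hG a).prodMk_nhds (ih u))

variable [Finite ι] [MeasurableSpace ι]

/-- **(G3)**, abstract form: uniform convergence of the processes -/
theorem tendsto_proc {α : Type*} {F : Filter α} {G' : α → ι → E →L[ℝ] E} {G : ι → E →L[ℝ] E}
    (hG : ∀ a, Tendsto (fun j => G' j a) F (𝓝 (G a))) {b' : α → ι → E} {b : ι → E}
    (hb : ∀ a, Tendsto (fun j => b' j a) F (𝓝 (b a))) {C q : ℝ} (hC : 0 ≤ C) (hq : 0 ≤ q)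
    (hq1 : q < 1) (hGC' : ∀ᶠ j in F, ∀ (n : ℕ) (u : Fin n → ι), ‖gprod (G' j) u‖ ≤ C * q ^ n)
    (hGC : ∀ (n : ℕ) (u : Fin n → ι), ‖gprod G u‖ ≤ C * q ^ n)
    {Φ' : α → (ℕ → ι) → E} {Φ : (ℕ → ι) → E} (hΦ' : ∀ᶠ j in F, IsProc (G' j) (b' j) (Φ' j))
    (hΦ : IsProc G b Φ) {ε : ℝ} (hε : 0 < ε) : ∀ᶠ j in F, ∀ w, ‖Φ' j w - Φ w‖ ≤ ε := by
  classical
  have := Fintype.ofFinite ι
  -- a common bound of the offsets
  obtain ⟨M₀, hM₀⟩ := (Set.finite_range fun a => ‖b a‖).bddAbove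
  set M := M₀ + 1 with hM
  have hbM : ∀ a, ‖b a‖ ≤ M := fun a => (hM₀ ⟨a, rfl⟩).trans (by linarith)
  have hbM' : ∀ᶠ j in F, ∀ a, ‖b' j a‖ ≤ M := by
    rw [eventually_all]
    intro a
    have h1 := (hb a).norm.eventually (eventually_lt_nhds
      (show ‖b a‖ < M from lt_of_le_of_lt (hM₀ ⟨a, rfl⟩) (by linarith)))
    exact h1.mono fun j hj => hj.le
  set B := C * M / (1 - q) with hB
  have hlim : Tendsto (fun n : ℕ => C * q ^ n * B) atTop (𝓝 (C * 0 * B)) :=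
    ((tendsto_pow_atTop_nhds_zero_of_lt_one hq hq1).const_mul C).mul_const B
  rw [mul_zero, zero_mul] at hlim
  obtain ⟨n, hn⟩ := (hlim.eventually (eventually_lt_nhds (show (0:ℝ) < ε / 3 by positivity))).exists
  have hfin : ∀ᶠ j in F, ∀ u : Fin n → ι, ‖pfin (G' j) (b' j) u - pfin G b u‖ < ε / 3 := by
    rw [eventually_all]
    intro u
    have h1 := ((tendsto_pfin hG hb u).sub_const (pfin G b u)).norm
    rw [sub_self, norm_zero] at h1
    exact h1.eventually (eventually_lt_nhds (show (0:ℝ) < ε / 3 by positivity))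
  filter_upwards [hfin, hbM', hGC', hΦ'] with j h1 h2 h3 h4 w
  have e1 := norm_proc_sub_pfin_le h4 hC hq hq1 h3 h2 n w
  have e2 := norm_proc_sub_pfin_le hΦ hC hq hq1 hGC hbM n w
  have e3 := h1 (pre n w)
  rw [← hB] at e1 e2
  have e4 : Φ' j w - Φ w = (Φ' j w - pfin (G' j) (b' j) (pre n w)) -
      (Φ w - pfin G b (pre n w)) + (pfin (G' j) (b' j) (pre n w) - pfin G b (pre n w)) := by abel
  rw [e4]
  refine (norm_add_le _ _).trans ?_
  have e5 := norm_sub_le (Φ' j w - pfin (G' j) (b' j) (pre n w)) (Φ w - pfin G b (pre n w))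
  linarith

end stability

section package

variable {ι E : Type*} [NormedAddCommGroup E] [NormedSpace ℝ E] [CompleteSpace E]

/-- continuity of the letter maps in the generator -/
theorem tendsto_gen {α : Type*} {F : Filter α} (σ ℓ : ι → ℝ) {L' : α → E →L[ℝ] E} {L : E →L[ℝ] E}
    (hL : Tendsto L' F (𝓝 L)) (a : ι) :
    Tendsto (fun j => gen σ ℓ (L' j) a) F (𝓝 (gen σ ℓ L a)) := by
  letI : NormedAlgebra ℚ (E →L[ℝ] E) := NormedAlgebra.restrictScalars ℚ ℝ (E →L[ℝ] E)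
  unfold gen
  exact ((NormedSpace.exp_continuous.tendsto _).comp (hL.const_smul (-(ℓ a)))).const_smul (σ a)

/-- **(G1)+(G2)** for generators near `L` with `L - 1` nilpotent -/
theorem exists_gen_bound [Finite ι] {σ ℓ : ι → ℝ} (hσ : ∀ a, |σ a| = 1) (hℓ : ∀ a, 0 < ℓ a)
    {L : E →L[ℝ] E} (hL : IsNilpotent (L - 1)) {d : ℝ} (hd : 0 < d) (hd1 : d < 1) :
    ∃ C δ q : ℝ, 1 ≤ C ∧ 0 < δ ∧ 0 ≤ q ∧ q < 1 ∧ ∀ L' : E →L[ℝ] E, ‖L' - L‖ ≤ δ →
      (∀ x : ℝ, 0 ≤ x → ‖NormedSpace.exp ((-x) • L')‖ ≤ C * Real.exp (-((1 - d) * x))) ∧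
      (∀ x : ℝ, 0 ≤ x → ‖NormedSpace.exp (x • L')‖ ≤ C * Real.exp ((1 + d) * x)) ∧
      (∀ (n : ℕ) (u : Fin n → ι), ‖gprod (gen σ ℓ L') u‖ ≤
        C * Real.exp (-((1 - d) * ∑ j, ℓ (u j)))) ∧
      (∀ (n : ℕ) (u : Fin n → ι), ‖gprod (gen σ ℓ L') u‖ ≤ C * q ^ n) := by
  obtain ⟨C, δ, hC, hδ, h⟩ := exists_exp_bound hL hd
  -- a positive lower bound of `ℓ`
  obtain ⟨ℓ₀, hℓ₀, hℓℓ⟩ : ∃ ℓ₀ : ℝ, 0 < ℓ₀ ∧ ∀ a, ℓ₀ ≤ ℓ a := by
    rcases isEmpty_or_nonempty ι with hι | hι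
    · exact ⟨1, one_pos, fun a => hι.elim a⟩
    · obtain ⟨a, ha⟩ := Finite.exists_min ℓ
      exact ⟨ℓ a, hℓ a, ha⟩
  refine ⟨C, δ, Real.exp (-((1 - d) * ℓ₀)), hC, hδ, (Real.exp_pos _).le, ?_, fun L' hL' => ?_⟩
  · rw [Real.exp_lt_one_iff, neg_lt_zero]
    exact mul_pos (by linarith) hℓ₀
  · have h1 : ∀ x : ℝ, 0 ≤ x → ‖NormedSpace.exp ((-x) • L')‖ ≤ C * Real.exp (-((1 - d) * x)) :=
      fun x hx => (h L' hL' x hx).1
    refine ⟨h1, fun x hx => (h L' hL' x hx).2, fun n u => ?_, fun n u => ?_⟩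
    · exact norm_gprod_le hσ h1 (fun a => (hℓ a).le) u
    · exact norm_gprod_le_pow hσ (by linarith) (by linarith) h1 hℓ₀.le hℓℓ u

variable [Finite ι] [MeasurableSpace ι] [DiscreteMeasurableSpace ι]

/-- **(G2)**: for generators near `L` the process exists; uniform bound `B` for `‖b' a‖ ≤ M`. -/
theorem exists_process {σ ℓ : ι → ℝ} (hσ : ∀ a, |σ a| = 1) (hℓ : ∀ a, 0 < ℓ a)
    {L : E →L[ℝ] E} (hL : IsNilpotent (L - 1)) (M : ℝ) (hM : 0 ≤ M) :
    ∃ B δ : ℝ, 0 ≤ B ∧ 0 < δ ∧ ∀ L' : E →L[ℝ] E, ‖L' - L‖ ≤ δ → ∀ b' : ι → E, (∀ a, ‖b' a‖ ≤ M) →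
      ∃ Φ', IsProc (gen σ ℓ L') b' Φ' ∧ (∀ w, ‖Φ' w‖ ≤ B) ∧
        ∀ Φ'', IsProc (gen σ ℓ L') b' Φ'' → Φ'' = Φ' := by
  obtain ⟨C, δ, q, hC, hδ, hq, hq1, h⟩ := exists_gen_bound hσ hℓ hL (d := 1 / 2) (by norm_num)
    (by norm_num)
  have hC0 : 0 ≤ C := by linarith
  refine ⟨C * M / (1 - q), δ, by
    have : 0 < 1 - q := by linarith
    positivity, hδ, fun L' hL' b' hb' => ?_⟩
  obtain ⟨-, -, -, h4⟩ := h L' hL'
  have hp := isProc_pinf hC0 hq hq1 h4 hb'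
  exact ⟨_, hp, norm_pinf_le hC0 hq hq1 h4 hb', fun Φ'' h'' =>
    proc_unique h'' hp hC0 hq hq1 h4⟩

/-- **(G3)** -/
theorem tendsto_gen_proc {α : Type*} {F : Filter α} {σ ℓ : ι → ℝ} (hσ : ∀ a, |σ a| = 1)
    (hℓ : ∀ a, 0 < ℓ a) {L : E →L[ℝ] E} (hL : IsNilpotent (L - 1)) {L' : α → E →L[ℝ] E}
    (hLL : Tendsto L' F (𝓝 L)) {b' : α → ι → E} {b : ι → E}
    (hb : ∀ a, Tendsto (fun j => b' j a) F (𝓝 (b a)))
    {Φ' : α → (ℕ → ι) → E} {Φ : (ℕ → ι) → E}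
    (hΦ' : ∀ᶠ j in F, IsProc (gen σ ℓ (L' j)) (b' j) (Φ' j))
    (hΦ : IsProc (gen σ ℓ L) b Φ) {ε : ℝ} (hε : 0 < ε) : ∀ᶠ j in F, ∀ w, ‖Φ' j w - Φ w‖ ≤ ε := by
  obtain ⟨C, δ, q, hC, hδ, hq, hq1, h⟩ := exists_gen_bound hσ hℓ hL (d := 1 / 2) (by norm_num)
    (by norm_num)
  have hev : ∀ᶠ j in F, ‖L' j - L‖ ≤ δ := by
    have h1 := (hLL.sub_const L).norm
    rw [sub_self, norm_zero] at h1
    exact (h1.eventually (eventually_lt_nhds hδ)).mono fun j hj => hj.le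
  exact tendsto_proc (fun a => tendsto_gen σ ℓ hLL a) hb (by linarith) hq hq1
    (hev.mono fun j hj => (h (L' j) hj).2.2.2) (h L (by simpa using hδ.le)).2.2.2 hΦ' hΦ hε

end package

end Crest.Agent.R98.GF
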