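import Crest.Agent.R98.FDPack
import Crest.Agent.R98.FE
import Crest.Agent.R98.GenFlow

/-!
Row 98 (helper893): (F5) + (F2) in the shape of the ending.
-/

set_option autoImplicit false
set_option linter.unusedSectionVars false
set_option linter.unusedSimpArgs false

namespace Crest.Agent.R98.F

open MeasureTheory ProbabilityTheory Filter Topology Real
open Crest.Agent.R98.FD Crest.Agent.R98.Part
open Crest.Agent.R098.Upper (pw sw)

noncomputable section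

/-- uniform bounds near a generator -/
def GBnear {E : Type*} [NormedAddCommGroup E] [NormedSpace ℝ E] (L : E →L[ℝ] E) : Prop :=
  ∀ d : ℝ, 0 < d → d ≤ 1 / 2 → ∃ C δ : ℝ, 1 ≤ C ∧ 0 < δ ∧
    ∀ L' : E →L[ℝ] E, ‖L' - L‖ ≤ δ → GB L' C d

set_option maxHeartbeats 2000000 in
/-- **(F5) + (F2)**, with the approximating processes given -/
theorem F5_core {ι : Type*} [Fintype ι] [Nonempty ι] [MeasurableSpace ι]
    [DiscreteMeasurableSpace ι] {E : Type*} [NormedAddCommGroup E] [NormedSpace ℝ E]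
    [FiniteDimensional ℝ E] {p σ ℓ : ι → ℝ} (hp : (∀ i, 0 ≤ p i) ∧ ∑ i, p i = 1)
    (hσ : ∀ i, |σ i| = 1) (hℓ : ∀ i, 0 < ℓ i)
    {L : E →L[ℝ] E} (hGB : GBnear L) {b : ι → E} {Φ : (ℕ → ι) → E}
    (hΦ : Crest.Agent.R98.IsProc (gen σ ℓ L) b Φ) {Lj : ℕ → E →L[ℝ] E}
    (hL : Tendsto Lj atTop (𝓝 L)) {bj : ℕ → ι → E} {nj : ℕ → ℕ} (hn : Tendsto nj atTop atTop)
    {B : ℝ} {Φj : ℕ → (ℕ → ι) → E}
    (hΦj : ∀ᶠ j in atTop, Crest.Agent.R98.IsProc (gen σ ℓ (Lj j)) (bj j) (Φj j) ∧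
      ∀ w, ‖Φj j w‖ ≤ B)
    (hclose : ∀ ε > 0, ∀ᶠ j in atTop, ∀ w, ‖Φj j w - Φ w‖ ≤ ε)
    {Y : (ℕ → ι) → ℝ} {ρ τ : ι → ℝ} (hρ : ∀ a, ρ a ≠ 0)
    (hY : ∀ a w, Y (scons a w) = τ a + ρ a * Y w) {φ0 : E →L[ℝ] ℝ} (hφ0 : ∀ w, φ0 (Φ w) = Y w)
    (hS : ∀ η > 0, ∀ᶠ j in atTop, ∃ S : Setoid (Fin (nj j) → ι),
      HS (pw p) S ≤ (alpha p Y + η) * nj j ∧
      ∀ u v, S u v → ‖pfin (gen σ ℓ (Lj j)) (bj j) u - pfin (gen σ ℓ (Lj j)) (bj j) v‖ ≤
        exp (-((∑ i, p i * ℓ i) * nj j))) (φ : E →L[ℝ] ℝ) :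
    Fac p Y (fun w => φ (Φ w)) := by
  have hprob := isProb_PP hp
  let _ : MeasurableSpace E := borel E
  have : BorelSpace E := ⟨rfl⟩
  have hσ0 : ∀ a, σ a ≠ 0 := fun a h => by
    have := hσ a; rw [h] at this; simp at this
  refine fac_of_alpha_le hp hΦ (fun a => gen_injective (hσ0 a)) hρ hY hφ0 ?_ φ
  by_contra hcon
  push Not at hcon
  set α := alpha p Y with hα
  set α' := alpha p Φ with hα'
  set ε : ℝ := (α' - α) / 4 with hεd
  have hε : 0 < ε := by rw [hεd]; linarith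
  let e := (Module.finBasis ℝ E).equivFunL
  obtain ⟨B0, hB0⟩ := hΦ.bdd
  obtain ⟨C0, δ0, hC0, hδ0, hGB0⟩ := hGB (1 / 4) (by norm_num) (by norm_num)
  have gb0 : GB L C0 (1 / 4) := hGB0 L (by simp [hδ0.le])
  let X := mkProc e gb0 hΦ hB0
  have hXα : alpha p X.Φ = α' := alpha_coord hp e (proc_measurable hΦ)
  have hXlow : ∀ n : ℕ, ∃ x0, 0 ≤ x0 ∧
      n * α' - (1 + Fintype.card (Fin (Module.finrank ℝ E)) * log 5) ≤
        MI (PP p) n (X.cell x0) := by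
    intro n
    rw [← hXα]
    exact Proc.exists_MI_cell_ge hp hσ X n
  have hWM := FD.WM_PP (p := p) hp
  obtain ⟨η, hη, hηχ, hlow⟩ := X.fcell_lower hWM hσ hℓ hp.1 hp.2 hXlow hε
  set χ := ∑ i, p i * ℓ i with hχ
  have hχ0 : 0 < χ := hη.trans hηχ
  set d : ℝ := min (1 / 2) (η / χ) with hd
  have hd0 : 0 < d := lt_min (by norm_num) (div_pos hη hχ0)
  have hd2 : d ≤ 1 / 2 := min_le_left _ _
  have hdη : d * χ ≤ η := by
    have : d ≤ η / χ := min_le_right _ _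
    rwa [le_div_iff₀ hχ0] at this
  obtain ⟨C, δ, hC, hδ, hGB1⟩ := hGB d hd0 hd2
  set C' : ℝ := max 1 (‖(e : E →L[ℝ] (Fin (Module.finrank ℝ E) → ℝ))‖ * C *
    ‖(e.symm : (Fin (Module.finrank ℝ E) → ℝ) →L[ℝ] E)‖) with hC'
  set ne : ℝ := ‖(e : E →L[ℝ] (Fin (Module.finrank ℝ E) → ℝ))‖ with hne
  have hne0 : 0 ≤ ne := norm_nonneg _
  have hC'0 : 0 < C' := lt_of_lt_of_le one_pos (le_max_left _ _)
  obtain ⟨x0, n0, hlow2⟩ := hlow C' (ne * B)
  -- eventual facts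
  have ev1 : ∀ᶠ j in atTop, ‖Lj j - L‖ ≤ δ := by
    have := (tendsto_iff_norm_sub_tendsto_zero.1 hL)
    exact (this.eventually (gt_mem_nhds hδ)).mono fun j hj => le_of_lt hj
  have hTc : Tendsto (fun j => NormedSpace.exp ((-(-x0)) • Lj j)) atTop
      (𝓝 (NormedSpace.exp ((-(-x0)) • L))) := by
    have : CompleteSpace E := FiniteDimensional.complete ℝ E
    let _ : NormedAlgebra ℚ (E →L[ℝ] E) := NormedAlgebra.restrictScalars ℚ ℝ (E →L[ℝ] E)
    exact (NormedSpace.exp_continuous.tendsto _).comp (hL.const_smul _)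
  set T : E →L[ℝ] E := NormedSpace.exp ((-(-x0)) • L) with hT
  have ev2 : ∀ᶠ j in atTop, ‖NormedSpace.exp ((-(-x0)) • Lj j) - T‖ ≤
      1 / (2 * (ne + 1) * (|B| + 1)) := by
    have h1 := (tendsto_iff_norm_sub_tendsto_zero.1 hTc)
    have h2 : 0 < 1 / (2 * (ne + 1) * (|B| + 1)) := by positivity
    exact (h1.eventually (gt_mem_nhds h2)).mono fun j hj => le_of_lt hj
  have ev3 := hclose (1 / (2 * (ne + 1) * (‖T‖ + 1))) (by positivity)
  have ev4 : ∀ᶠ j in atTop, n0 ≤ nj j := hn.eventually_ge_atTop n0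
  set R : ℝ := C' * ne with hR
  have hR0 : 0 ≤ R := by positivity
  set KR : ℝ := Fintype.card (Fin (Module.finrank ℝ E)) * log (2 * R + 3) with hKR
  have ev5 : ∀ᶠ j in atTop, KR / ε < nj j := by
    have h1 : Tendsto (fun j => ((nj j : ℕ) : ℝ)) atTop atTop :=
      tendsto_natCast_atTop_atTop.comp hn
    exact h1.eventually_gt_atTop _
  have ev6 := hS ε hε
  obtain ⟨j, ⟨hj1, hjB⟩, hj2, hj3, hj4, hj5, hj6, S, hjS, hjS2⟩ :=
    (hΦj.and (ev1.and (ev2.and (ev3.and (ev4.and (ev5.and ev6)))))).exists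
  have gb : GB (Lj j) C d := hGB1 _ hj2
  let Yp := mkProc e gb hj1 hjB
  have hYC : Yp.F.C ≤ C' := le_refl _
  have hYB : Yp.B ≤ ne * B := le_refl _
  have hYclose : ∀ w, ‖Yp.sc x0 w - X.sc x0 w‖ ≤ 1 := by
    intro w
    have e1 : Yp.sc x0 w = e (NormedSpace.exp ((-(-x0)) • Lj j) (Φj j w)) := by
      show (mkFlow e gb).A (-x0) (e (Φj j w)) = _
      rw [mkFlow_A, e.symm_apply_apply]
    have e2 : X.sc x0 w = e (T (Φ w)) := by
      show (mkFlow e gb0).A (-x0) (e (Φ w)) = _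
      rw [mkFlow_A, e.symm_apply_apply]
    rw [e1, e2, ← map_sub]
    have e3 : NormedSpace.exp ((-(-x0)) • Lj j) (Φj j w) - T (Φ w) =
        (NormedSpace.exp ((-(-x0)) • Lj j) - T) (Φj j w) + T (Φj j w - Φ w) := by
      rw [map_sub]
      show _ = (NormedSpace.exp ((-(-x0)) • Lj j)) (Φj j w) - T (Φj j w) + _
      abel
    have h1 : ‖NormedSpace.exp ((-(-x0)) • Lj j) (Φj j w) - T (Φ w)‖ ≤
        1 / (ne + 1) := by
      rw [e3]
      refine (norm_add_le _ _).trans ?_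
      have a1 : ‖(NormedSpace.exp ((-(-x0)) • Lj j) - T) (Φj j w)‖ ≤
          1 / (2 * (ne + 1) * (|B| + 1)) * (|B| + 1) := by
        refine (ContinuousLinearMap.le_opNorm _ _).trans ?_
        refine mul_le_mul hj3 ?_ (norm_nonneg _) (by positivity)
        have := hjB w
        have := le_abs_self B
        linarith
      have a2 : ‖T (Φj j w - Φ w)‖ ≤ (‖T‖ + 1) * (1 / (2 * (ne + 1) * (‖T‖ + 1))) := by
        refine (T.le_opNorm _).trans ?_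
        refine mul_le_mul (by linarith [norm_nonneg T]) (hj4 w) (norm_nonneg _) (by positivity)
      have a3 : 1 / (2 * (ne + 1) * (|B| + 1)) * (|B| + 1) = 1 / (2 * (ne + 1)) := by
        field_simp
      have a4 : (‖T‖ + 1) * (1 / (2 * (ne + 1) * (‖T‖ + 1))) = 1 / (2 * (ne + 1)) := by
        field_simp
      have a5 : 1 / (2 * (ne + 1)) + 1 / (2 * (ne + 1)) = 1 / (ne + 1) := by
        field_simp; norm_num
      rw [a3] at a1
      rw [a4] at a2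
      linarith
    calc ‖e (NormedSpace.exp ((-(-x0)) • Lj j) (Φj j w) - T (Φ w))‖ ≤
          ne * ‖NormedSpace.exp ((-(-x0)) • Lj j) (Φj j w) - T (Φ w)‖ :=
            (e : E →L[ℝ] (Fin (Module.finrank ℝ E) → ℝ)).le_opNorm _
      _ ≤ ne * (1 / (ne + 1)) := mul_le_mul_of_nonneg_left h1 hne0
      _ ≤ 1 := by
            rw [mul_one_div, div_le_one (by positivity)]
            linarith
  have hmain := hlow2 Yp hYC hYB hYclose (nj j) hj5
  have hx : 0 ≤ (χ - η) * (nj j : ℝ) := mul_nonneg (by linarith) (Nat.cast_nonneg _)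
  have hup := Yp.fcell_le_HS hWM (nj j) ((χ - η) * nj j) S hR0 (fun u v huv => by
    have h1 : Yp.fin u - Yp.fin v = e (pfin (gen σ ℓ (Lj j)) (bj j) u -
        pfin (gen σ ℓ (Lj j)) (bj j) v) := by
      rw [mkProc_fin e gb hj1 hjB u, mkProc_fin e gb hj1 hjB v, map_sub]
    rw [← map_sub, h1]
    have h2 := Yp.F.bd' ((χ - η) * nj j) hx (e (pfin (gen σ ℓ (Lj j)) (bj j) u -
        pfin (gen σ ℓ (Lj j)) (bj j) v))
    refine h2.trans ?_
    have h3 : ‖e (pfin (gen σ ℓ (Lj j)) (bj j) u - pfin (gen σ ℓ (Lj j)) (bj j) v)‖ ≤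
        ne * exp (-(χ * nj j)) := by
      refine ((e : E →L[ℝ] (Fin (Module.finrank ℝ E) → ℝ)).le_opNorm _).trans ?_
      exact mul_le_mul_of_nonneg_left (hjS2 u v huv) hne0
    have h4 : Yp.F.d = d := rfl
    have h5 : Yp.F.C = C' := rfl
    rw [h4, h5]
    calc C' * exp ((1 + d) * ((χ - η) * nj j)) *
          ‖e (pfin (gen σ ℓ (Lj j)) (bj j) u - pfin (gen σ ℓ (Lj j)) (bj j) v)‖ ≤
          C' * exp ((1 + d) * ((χ - η) * nj j)) * (ne * exp (-(χ * nj j))) :=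
            mul_le_mul_of_nonneg_left h3 (by positivity)
      _ = C' * ne * exp ((1 + d) * ((χ - η) * nj j) + -(χ * nj j)) := by
            rw [exp_add]; ring
      _ ≤ C' * ne * 1 := by
            refine mul_le_mul_of_nonneg_left ?_ hR0
            rw [exp_le_one_iff]
            have h6 : (1 + d) * (χ - η) ≤ χ := by nlinarith
            have h7 : (0:ℝ) ≤ nj j := Nat.cast_nonneg _
            nlinarith
      _ = R := by rw [mul_one])
  have h8 : KR < ε * nj j := by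
    rwa [div_lt_iff₀ hε, mul_comm] at hj6
  have h9 : (α' - ε) * nj j ≤ (α + ε) * nj j + KR := hmain.trans (hup.trans (by linarith))
  have h10 : α' - α = 4 * ε := by rw [hεd]; ring
  have h11 : (0:ℝ) ≤ nj j := Nat.cast_nonneg _
  nlinarith

theorem gbnear {E : Type*} [NormedAddCommGroup E] [NormedSpace ℝ E] [FiniteDimensional ℝ E]
    {L : E →L[ℝ] E} (hL : IsNilpotent (L - 1)) : GBnear L := by
  have : CompleteSpace E := FiniteDimensional.complete ℝ E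
  intro d hd hd2
  obtain ⟨C, δ, hC, hδ, h⟩ := GF.exists_exp_bound hL hd
  exact ⟨C, δ, hC, hδ, fun L' hL' => ⟨hC, hd.le, hd2, fun x hx => (h L' hL' x hx).1,
    fun x hx => (h L' hL' x hx).2⟩⟩

/-- **(F5) + (F2)** in the shape of the ending (note 10133 and mail of helper549) -/
theorem F5 {ι : Type*} [Fintype ι] [Nonempty ι] [MeasurableSpace ι]
    [DiscreteMeasurableSpace ι] {E : Type*} [NormedAddCommGroup E] [NormedSpace ℝ E]
    [FiniteDimensional ℝ E] {p σ ℓ : ι → ℝ} (hp : (∀ i, 0 ≤ p i) ∧ ∑ i, p i = 1)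
    (hσ : ∀ i, |σ i| = 1) (hℓ : ∀ i, 0 < ℓ i)
    {L : E →L[ℝ] E} (hN : IsNilpotent (L - 1)) {b : ι → E} {Φ : (ℕ → ι) → E}
    (hΦ : Crest.Agent.R98.IsProc (gen σ ℓ L) b Φ) {Lj : ℕ → E →L[ℝ] E}
    (hL : Tendsto Lj atTop (𝓝 L)) {bj : ℕ → ι → E}
    (hb : ∀ a, Tendsto (fun j => bj j a) atTop (𝓝 (b a))) {nj : ℕ → ℕ}
    (hn : Tendsto nj atTop atTop)
    {Y : (ℕ → ι) → ℝ} {ρ τ : ι → ℝ} (hρ : ∀ a, ρ a ≠ 0)
    (hY : ∀ a w, Y (scons a w) = τ a + ρ a * Y w) {φ0 : E →L[ℝ] ℝ} (hφ0 : ∀ w, φ0 (Φ w) = Y w)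
    (hS : ∀ η > 0, ∀ᶠ j in atTop, ∃ S : Setoid (Fin (nj j) → ι),
      HS (pw p) S ≤ (alpha p Y + η) * nj j ∧
      ∀ u v, S u v → ‖pfin (gen σ ℓ (Lj j)) (bj j) u - pfin (gen σ ℓ (Lj j)) (bj j) v‖ ≤
        exp (-((∑ i, p i * ℓ i) * nj j))) (φ : E →L[ℝ] ℝ) :
    Fac p Y (fun w => φ (Φ w)) := by
  classical
  have : CompleteSpace E := FiniteDimensional.complete ℝ E
  set M : ℝ := ∑ a, (‖b a‖ + 1) with hM
  have hM0 : 0 ≤ M := Finset.sum_nonneg fun a _ => by positivity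
  obtain ⟨B, δ, hB, hδ, h⟩ := GF.exists_process hσ hℓ hN M hM0
  have ev1 : ∀ᶠ j in atTop, ‖Lj j - L‖ ≤ δ := by
    have := (tendsto_iff_norm_sub_tendsto_zero.1 hL)
    exact (this.eventually (gt_mem_nhds hδ)).mono fun j hj => le_of_lt hj
  have ev2 : ∀ᶠ j in atTop, ∀ a, ‖bj j a‖ ≤ M := by
    rw [eventually_all]
    intro a
    have h1 : ∀ᶠ j in atTop, ‖bj j a‖ < ‖b a‖ + 1 :=
      (hb a).norm.eventually (gt_mem_nhds (by linarith))
    filter_upwards [h1] with j hj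
    refine hj.le.trans ?_
    exact Finset.single_le_sum (f := fun a => ‖b a‖ + 1) (fun a _ => by positivity)
      (Finset.mem_univ a)
  let Φj : ℕ → (ℕ → ι) → E := fun j =>
    if hj : ‖Lj j - L‖ ≤ δ ∧ ∀ a, ‖bj j a‖ ≤ M then (h (Lj j) hj.1 (bj j) hj.2).choose else 0
  have hΦj : ∀ᶠ j in atTop, Crest.Agent.R98.IsProc (gen σ ℓ (Lj j)) (bj j) (Φj j) ∧
      ∀ w, ‖Φj j w‖ ≤ B := by
    filter_upwards [ev1, ev2] with j h1 h2
    have e : Φj j = (h (Lj j) h1 (bj j) h2).choose := dif_pos ⟨h1, h2⟩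
    rw [e]
    exact ⟨(h (Lj j) h1 (bj j) h2).choose_spec.1, (h (Lj j) h1 (bj j) h2).choose_spec.2.1⟩
  have hclose : ∀ ε > 0, ∀ᶠ j in atTop, ∀ w, ‖Φj j w - Φ w‖ ≤ ε := fun ε hε =>
    GF.tendsto_gen_proc hσ hℓ hN hL hb (hΦj.mono fun j hj => hj.1) hΦ hε
  exact F5_core hp hσ hℓ (gbnear hN) hΦ hL hn hΦj hclose hρ hY hφ0 hS φ

end

end Crest.Agent.R98.F
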