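import Mathlib

/-!
Row 98, module F (helper893): conditional entropy of a finite-valued variable given a σ-algebra.
-/

set_option autoImplicit false

namespace Crest.Agent.R98.F

open MeasureTheory ProbabilityTheory Filter Topology Real

noncomputable section

/-! ### elementary inequalities -/

theorem negMulLog_bd {x : ℝ} (h0 : 0 ≤ x) (h1 : x ≤ 1) : |negMulLog x| ≤ 1 := by
  have h2 : 0 ≤ negMulLog x := negMulLog_nonneg h0 h1
  rw [abs_of_nonneg h2]
  rcases h0.eq_or_lt with h | h
  · rw [← h]; simp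
  · have h3 : 1 - x⁻¹ ≤ log x := one_sub_inv_le_log_of_pos h
    unfold negMulLog
    have h4 : x * (1 - x⁻¹) ≤ x * log x := mul_le_mul_of_nonneg_left h3 h0
    have h5 : x * (1 - x⁻¹) = x - 1 := by field_simp
    linarith

/-- strict convexity of `x log x` -/
theorem breg {a c : ℝ} (ha : 0 ≤ a) (ha1 : a ≤ 1) (hc : 0 < c) (hc2 : c ≤ 2) :
    a * log c + (a - c) + (a - c) ^ 2 / 8 ≤ a * log a := by
  rcases ha.eq_or_lt with h | h
  · subst h
    simp only [zero_mul, zero_add, zero_sub]
    nlinarith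
  · have hs : 0 < √(a / c) := Real.sqrt_pos.2 (by positivity)
    have h1 : log (a / c) = 2 * log (√(a / c)) := by
      rw [Real.log_sqrt (by positivity)]; ring
    have h2 : 1 - (√(a / c))⁻¹ ≤ log (√(a / c)) := one_sub_inv_le_log_of_pos hs
    have h3 : (√(a / c))⁻¹ = √c / √a := by
      rw [Real.sqrt_div ha, inv_div]
    have hsa : 0 < √a := Real.sqrt_pos.2 h
    have hsc : 0 < √c := Real.sqrt_pos.2 hc
    have haa : √a * √a = a := Real.mul_self_sqrt ha
    have hcc : √c * √c = c := Real.mul_self_sqrt hc.le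
    have h4 : a * log (a / c) ≥ 2 * a - 2 * (√a * √c) := by
      rw [h1]
      have h5 : a * (1 - √c / √a) ≤ a * log (√(a / c)) := by
        rw [← h3]; exact mul_le_mul_of_nonneg_left h2 ha
      have h6 : a * (1 - √c / √a) = a - √a * √c := by
        have : a * (√c / √a) = √a * √c := by
          have : a * (√c / √a) = (√a * √a) * (√c / √a) := by rw [haa]
          rw [this]
          field_simp
        rw [mul_sub, mul_one, this]
      linarith
    have h7 : log (a / c) = log a - log c := Real.log_div h.ne' hc.ne'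
    rw [h7] at h4
    have h8 : (a - c) ^ 2 ≤ 8 * (√a - √c) ^ 2 := by
      have e : a - c = (√a - √c) * (√a + √c) := by
        have : (√a - √c) * (√a + √c) = √a * √a - √c * √c := by ring
        rw [this, haa, hcc]
      rw [e, mul_pow]
      have h9 : (√a + √c) ^ 2 ≤ 8 := by
        nlinarith [sq_nonneg (√a - √c)]
      nlinarith [sq_nonneg (√a - √c)]
    have h10 : (√a - √c) ^ 2 = a - 2 * (√a * √c) + c := by
      have : (√a - √c) ^ 2 = √a * √a - 2 * (√a * √c) + √c * √c := by ring
      rw [this, haa, hcc]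
    nlinarith

variable {Ω : Type*} {Z : Type*} {m m1 m2 m0 : MeasurableSpace Ω} {μ : Measure Ω}

/-- conditional probability of `f = z` given `m` -/
def cp (μ : Measure Ω) (m : MeasurableSpace Ω) (f : Ω → Z) (z : Z) : Ω → ℝ :=
  μ[(f ⁻¹' {z}).indicator (fun _ => (1 : ℝ)) | m]

/-- conditional entropy of `f` given `m` -/
def Hc [Fintype Z] (μ : Measure Ω) (m : MeasurableSpace Ω) (f : Ω → Z) : ℝ :=
  ∑ z, ∫ ω, negMulLog (cp μ m f z ω) ∂μ

section basic

variable [MeasurableSpace Z] [MeasurableSingletonClass Z] {f : Ω → Z} (z : Z)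

theorem meas_pre (hf : Measurable f) : MeasurableSet (f ⁻¹' {z}) :=
  hf (measurableSet_singleton z)

theorem ind_int [IsFiniteMeasure μ] (hf : Measurable f) :
    Integrable ((f ⁻¹' {z}).indicator (fun _ => (1 : ℝ))) μ :=
  (integrable_const 1).indicator (meas_pre z hf)

theorem cp_int : Integrable (cp μ m f z) μ := integrable_condExp

theorem cp_sm : StronglyMeasurable[m] (cp μ m f z) := stronglyMeasurable_condExp

theorem cp_nonneg : 0 ≤ᵐ[μ] cp μ m f z := by
  refine condExp_nonneg ?_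
  exact Eventually.of_forall fun ω => Set.indicator_nonneg (fun _ _ => zero_le_one) ω

theorem cp_le_one [IsProbabilityMeasure μ] (hm : m ≤ m0) (hf : Measurable f) :
    ∀ᵐ ω ∂μ, cp μ m f z ω ≤ 1 := by
  have h := condExp_mono (m := m) (ind_int (μ := μ) z hf) (integrable_const (1 : ℝ))
    (Eventually.of_forall fun ω => Set.indicator_le_self' (fun _ _ => zero_le_one) ω)
  rw [condExp_const hm] at h
  filter_upwards [h] with ω hω using hω

theorem cp_bd [IsProbabilityMeasure μ] (hm : m ≤ m0) (hf : Measurable f) :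
    ∀ᵐ ω ∂μ, 0 ≤ cp μ m f z ω ∧ cp μ m f z ω ≤ 1 := by
  filter_upwards [cp_nonneg (μ := μ) (m := m) (f := f) z, cp_le_one z hm hf] with ω h1 h2
  exact ⟨h1, h2⟩

theorem cp_sum [IsProbabilityMeasure μ] [Fintype Z] (hm : m ≤ m0) (hf : Measurable f) :
    ∀ᵐ ω ∂μ, ∑ z, cp μ m f z ω = 1 := by
  have h := condExp_finsetSum (μ := μ) (s := (Finset.univ : Finset Z))
    (f := fun z => (f ⁻¹' {z}).indicator (fun _ => (1 : ℝ))) (fun z _ => ind_int z hf) m
  have e : ∑ z : Z, (f ⁻¹' {z}).indicator (fun _ => (1 : ℝ)) = fun _ => (1 : ℝ) := by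
    funext ω
    rw [Finset.sum_apply]
    rw [Finset.sum_eq_single (f ω)]
    · simp
    · intro z _ hz
      rw [Set.indicator_of_notMem]
      intro h
      exact hz h.symm
    · intro h; exact absurd (Finset.mem_univ _) h
  rw [e, condExp_const hm] at h
  filter_upwards [h] with ω hω
  rw [Finset.sum_apply] at hω
  exact hω.symm

theorem cp_integral [IsProbabilityMeasure μ] (hm : m ≤ m0) (hf : Measurable f) :
    ∫ ω, cp μ m f z ω ∂μ = μ.real (f ⁻¹' {z}) := by
  unfold cp
  rw [integral_condExp hm]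
  exact integral_indicator_one (meas_pre z hf)

theorem cp_tower (h12 : m1 ≤ m2) (h2 : m2 ≤ m0) [IsProbabilityMeasure μ] :
    μ[cp μ m2 f z | m1] =ᵐ[μ] cp μ m1 f z := condExp_condExp_of_le h12 h2

theorem cp_self (hm : m ≤ m0) [IsProbabilityMeasure μ] (hf : Measurable[m] f) :
    cp μ m f z = (f ⁻¹' {z}).indicator (fun _ => (1 : ℝ)) := by
  unfold cp
  refine condExp_of_stronglyMeasurable hm ?_ ?_
  · exact stronglyMeasurable_const.indicator (hf (measurableSet_singleton z))
  · exact ind_int z (hf.mono hm le_rfl)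

theorem eta_int [IsProbabilityMeasure μ] (hm : m ≤ m0) (hf : Measurable f) :
    Integrable (fun ω => negMulLog (cp μ m f z ω)) μ := by
  refine Integrable.of_bound
    (continuous_negMulLog.comp_aestronglyMeasurable (cp_int z).aestronglyMeasurable) 1 ?_
  filter_upwards [cp_bd (μ := μ) z hm hf] with ω hω
  exact negMulLog_bd hω.1 hω.2

theorem Hc_nonneg [IsProbabilityMeasure μ] [Fintype Z] (hm : m ≤ m0) (hf : Measurable f) :
    0 ≤ Hc μ m f := by
  unfold Hc
  refine Finset.sum_nonneg fun z _ => integral_nonneg_of_ae ?_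
  filter_upwards [cp_bd (μ := μ) z hm hf] with ω hω
  exact negMulLog_nonneg hω.1 hω.2

/-- **quantitative monotonicity** -/
theorem eta_mono [IsProbabilityMeasure μ] (h12 : m1 ≤ m2) (h2 : m2 ≤ m0) (hf : Measurable f) :
    (∫ ω, (cp μ m2 f z ω - cp μ m1 f z ω) ^ 2 ∂μ) / 8 ≤
      ∫ ω, negMulLog (cp μ m1 f z ω) ∂μ - ∫ ω, negMulLog (cp μ m2 f z ω) ∂μ := by
  have h1 : m1 ≤ m0 := h12.trans h2
  set a := cp μ m2 f z with ha
  set b := cp μ m1 f z with hb
  have hab := cp_bd (μ := μ) z h2 hf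
  have hbb := cp_bd (μ := μ) z h1 hf
  rw [← ha] at hab
  rw [← hb] at hbb
  have hai : Integrable a μ := cp_int z
  have hbi : Integrable b μ := cp_int z
  have hbm : StronglyMeasurable[m1] b := cp_sm z
  have hEab : ∫ ω, a ω ∂μ = ∫ ω, b ω ∂μ := by
    rw [ha, hb, cp_integral z h2 hf, cp_integral z h1 hf]
  -- for every ε
  have key : ∀ ε : ℝ, 0 < ε → ε ≤ 1 → ∫ ω, b ω * log (b ω + ε) ∂μ - ε +
      (∫ ω, (a ω - b ω - ε) ^ 2 ∂μ) / 8 ≤ -∫ ω, negMulLog (a ω) ∂μ := by
    intro ε hε hε1
    have hlm : StronglyMeasurable[m1] (fun ω => log (b ω + ε)) := by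
      have : Measurable[m1] (fun ω => log (b ω + ε)) :=
        Real.measurable_log.comp (hbm.measurable.add_const ε)
      exact this.stronglyMeasurable
    have hlb : ∀ᵐ ω ∂μ, |log (b ω + ε)| ≤ |log ε| + 1 := by
      filter_upwards [hbb] with ω hω
      have h1 : log ε ≤ log (b ω + ε) := Real.log_le_log hε (by linarith [hω.1])
      have h2 : log (b ω + ε) ≤ 1 := by
        have := Real.log_le_sub_one_of_pos (show 0 < b ω + ε by linarith [hω.1])
        linarith [hω.2]
      rw [abs_le]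
      constructor
      · have := neg_abs_le (log ε); linarith
      · have := abs_nonneg (log ε); linarith
    have hali : Integrable (fun ω => log (b ω + ε) * a ω) μ := by
      refine (hai.bdd_mul (c := |log ε| + 1) (hlm.mono h1).aestronglyMeasurable ?_)
      filter_upwards [hlb] with ω hω using hω
    have hbli : Integrable (fun ω => log (b ω + ε) * b ω) μ := by
      refine (hbi.bdd_mul (c := |log ε| + 1) (hlm.mono h1).aestronglyMeasurable ?_)
      filter_upwards [hlb] with ω hω using hω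
    have hpull : ∫ ω, log (b ω + ε) * a ω ∂μ = ∫ ω, log (b ω + ε) * b ω ∂μ := by
      have h3 : μ[(fun ω => log (b ω + ε)) * a | m1] =ᵐ[μ]
          (fun ω => log (b ω + ε)) * μ[a | m1] :=
        condExp_mul_of_stronglyMeasurable_left hlm hali hai
      have h4 : μ[a | m1] =ᵐ[μ] b := cp_tower z h12 h2
      have h5 : ∫ ω, ((fun ω => log (b ω + ε)) * a) ω ∂μ =
          ∫ ω, (μ[(fun ω => log (b ω + ε)) * a | m1]) ω ∂μ := (integral_condExp h1).symm
      have h6 : ∫ ω, (μ[(fun ω => log (b ω + ε)) * a | m1]) ω ∂μ =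
          ∫ ω, log (b ω + ε) * b ω ∂μ := by
        refine integral_congr_ae ?_
        filter_upwards [h3, h4] with ω h7 h8
        rw [h7, Pi.mul_apply, h8]
      exact h5.trans h6
    have hsqi : Integrable (fun ω => (a ω - b ω - ε) ^ 2) μ := by
      refine Integrable.of_bound ((((hai.sub hbi).sub
        (integrable_const ε)).aestronglyMeasurable).pow 2) 4 ?_
      filter_upwards [hab, hbb] with ω h3 h4
      rw [Real.norm_eq_abs, abs_of_nonneg (sq_nonneg _)]
      nlinarith [h3.1, h3.2, h4.1, h4.2]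
    have hpt : ∀ᵐ ω ∂μ, log (b ω + ε) * a ω + (a ω - b ω - ε) + (a ω - b ω - ε) ^ 2 / 8 ≤
        -negMulLog (a ω) := by
      filter_upwards [hab, hbb] with ω h3 h4
      have := breg h3.1 h3.2 (show 0 < b ω + ε by linarith [h4.1]) (by linarith [h4.2])
      unfold negMulLog
      have e : a ω - (b ω + ε) = a ω - b ω - ε := by ring
      rw [e] at this
      linarith [mul_comm (a ω) (log (b ω + ε))]
    have i0 : Integrable (fun ω => a ω - b ω) μ := hai.sub hbi
    have i1 : Integrable (fun ω => a ω - b ω - ε) μ := i0.sub (integrable_const ε)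
    have i2 : Integrable (fun ω => log (b ω + ε) * a ω + (a ω - b ω - ε)) μ := hali.add i1
    have i3 : Integrable (fun ω => (a ω - b ω - ε) ^ 2 / 8) μ := hsqi.div_const 8
    have i4 : Integrable (fun ω => -negMulLog (a ω)) μ := (eta_int (μ := μ) z h2 hf).neg
    have e3 := integral_mono_ae (i2.add i3) i4 hpt
    rw [integral_add' i2 i3, integral_add hali i1, integral_sub i0
      (integrable_const ε), integral_sub hai hbi, hEab, integral_div, hpull, integral_neg] at e3
    simp only [sub_self, integral_const, probReal_univ, one_smul, smul_eq_mul, one_mul,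
      zero_sub] at e3
    have e4 : ∫ ω, log (b ω + ε) * b ω ∂μ = ∫ ω, b ω * log (b ω + ε) ∂μ :=
      integral_congr_ae (Eventually.of_forall fun ω => mul_comm _ _)
    rw [e4] at e3
    linarith
  -- the limit
  have hu : Tendsto (fun n : ℕ => (1 : ℝ) / (n + 1)) atTop (𝓝 0) :=
    tendsto_one_div_add_atTop_nhds_zero_nat
  have hun : ∀ n : ℕ, (0:ℝ) < 1 / (n + 1) := fun n => by positivity
  have hun1 : ∀ n : ℕ, (1:ℝ) / (n + 1) ≤ 1 := fun n => by
    rw [div_le_one (by positivity)]
    have : (0:ℝ) ≤ n := Nat.cast_nonneg n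
    linarith
  have L1 : Tendsto (fun n : ℕ => ∫ ω, b ω * log (b ω + 1 / (n + 1)) ∂μ) atTop
      (𝓝 (∫ ω, b ω * log (b ω) ∂μ)) := by
    refine tendsto_integral_of_dominated_convergence (fun _ => 1) ?_ (integrable_const 1) ?_ ?_
    · intro n
      have hb0 : Measurable b := (hbm.mono h1).measurable
      exact (hb0.mul (Real.measurable_log.comp (hb0.add_const _))).aestronglyMeasurable
    · intro n
      filter_upwards [hbb] with ω hω
      rw [Real.norm_eq_abs]
      rcases hω.1.eq_or_lt with h | h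
      · rw [← h]; simp
      · have a1 : log (b ω) ≤ log (b ω + 1 / (n + 1)) :=
          Real.log_le_log h (by linarith [hun n])
        have a2 : log (b ω + 1 / (n + 1)) ≤ 1 := by
          have := Real.log_le_sub_one_of_pos (show 0 < b ω + 1 / ((n:ℝ) + 1) by linarith [hun n])
          linarith [hω.2, hun1 n]
        have a3 := (abs_le.1 (negMulLog_bd hω.1 hω.2)).2
        unfold negMulLog at a3
        rw [abs_le]
        constructor
        · nlinarith
        · nlinarith [hω.2]
    · filter_upwards [hbb] with ω hω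
      rcases hω.1.eq_or_lt with h | h
      · rw [← h]; simp
      · have h3 : Tendsto (fun n : ℕ => b ω + 1 / ((n:ℝ) + 1)) atTop (𝓝 (b ω + 0)) :=
          tendsto_const_nhds.add hu
        rw [add_zero] at h3
        exact (h3.log h.ne').const_mul _
  have L2 : Tendsto (fun n : ℕ => ∫ ω, (a ω - b ω - 1 / ((n:ℝ) + 1)) ^ 2 ∂μ) atTop
      (𝓝 (∫ ω, (a ω - b ω) ^ 2 ∂μ)) := by
    refine tendsto_integral_of_dominated_convergence (fun _ => 4) ?_ (integrable_const 4) ?_ ?_
    · intro n
      exact (((hai.sub hbi).sub (integrable_const _)).aestronglyMeasurable.pow 2)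
    · intro n
      filter_upwards [hab, hbb] with ω h3 h4
      rw [Real.norm_eq_abs, abs_of_nonneg (sq_nonneg _)]
      nlinarith [h3.1, h3.2, h4.1, h4.2, hun n, hun1 n]
    · refine Eventually.of_forall fun ω => ?_
      have h3 : Tendsto (fun n : ℕ => (a ω - b ω - 1 / ((n:ℝ) + 1)) ^ 2) atTop
          (𝓝 ((a ω - b ω - 0) ^ 2)) := (tendsto_const_nhds.sub hu).pow 2
      rwa [sub_zero] at h3
  have L := (L1.sub hu).add (L2.div_const 8)
  have hfin : ∫ ω, b ω * log (b ω) ∂μ - 0 + (∫ ω, (a ω - b ω) ^ 2 ∂μ) / 8 ≤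
      -∫ ω, negMulLog (a ω) ∂μ :=
    le_of_tendsto L (Eventually.of_forall fun n => key _ (hun n) (hun1 n))
  have e : ∫ ω, b ω * log (b ω) ∂μ = -∫ ω, negMulLog (b ω) ∂μ := by
    rw [← integral_neg]
    refine integral_congr_ae (Eventually.of_forall fun ω => ?_)
    show b ω * log (b ω) = -negMulLog (b ω)
    unfold negMulLog; ring
  rw [e] at hfin
  linarith

/-- monotonicity of the conditional entropy -/
theorem Hc_anti [IsProbabilityMeasure μ] [Fintype Z] (h12 : m1 ≤ m2) (h2 : m2 ≤ m0)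
    (hf : Measurable f) : Hc μ m2 f ≤ Hc μ m1 f := by
  unfold Hc
  refine Finset.sum_le_sum fun z _ => ?_
  have h := eta_mono (μ := μ) z h12 h2 hf
  have h0 : 0 ≤ ∫ ω, (cp μ m2 f z ω - cp μ m1 f z ω) ^ 2 ∂μ :=
    integral_nonneg fun ω => sq_nonneg _
  linarith

/-- **equality case** -/
theorem cp_eq_of_Hc_le [IsProbabilityMeasure μ] [Fintype Z] (h12 : m1 ≤ m2) (h2 : m2 ≤ m0)
    (hf : Measurable f) (h : Hc μ m1 f ≤ Hc μ m2 f) (z : Z) :
    cp μ m2 f z =ᵐ[μ] cp μ m1 f z := by
  have hz : ∀ z : Z, 0 ≤ ∫ ω, (cp μ m2 f z ω - cp μ m1 f z ω) ^ 2 ∂μ :=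
    fun z => integral_nonneg fun ω => sq_nonneg _
  have hs : ∑ z : Z, (∫ ω, (cp μ m2 f z ω - cp μ m1 f z ω) ^ 2 ∂μ) / 8 ≤ 0 := by
    have h3 := Finset.sum_le_sum fun z (_ : z ∈ (Finset.univ : Finset Z)) =>
      eta_mono (μ := μ) z h12 h2 hf
    rw [Finset.sum_sub_distrib] at h3
    unfold Hc at h
    linarith
  have h4 : (∫ ω, (cp μ m2 f z ω - cp μ m1 f z ω) ^ 2 ∂μ) / 8 ≤ 0 :=
    (Finset.single_le_sum (f := fun z => (∫ ω, (cp μ m2 f z ω - cp μ m1 f z ω) ^ 2 ∂μ) / 8)
      (fun z _ => div_nonneg (hz z) (by norm_num)) (Finset.mem_univ z)).trans hs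
  have h5 : ∫ ω, (cp μ m2 f z ω - cp μ m1 f z ω) ^ 2 ∂μ = 0 := le_antisymm (by linarith) (hz z)
  have hi : Integrable (fun ω => (cp μ m2 f z ω - cp μ m1 f z ω) ^ 2) μ := by
    refine Integrable.of_bound
      (((cp_int (μ := μ) (m := m2) (f := f) z).sub (cp_int z)).aestronglyMeasurable.pow 2) 1 ?_
    filter_upwards [cp_bd (μ := μ) z h2 hf, cp_bd (μ := μ) z (h12.trans h2) hf] with ω h3 h4
    rw [Real.norm_eq_abs, abs_of_nonneg (sq_nonneg _)]
    nlinarith [h3.1, h3.2, h4.1, h4.2]
  rw [integral_eq_zero_iff_of_nonneg (fun ω => sq_nonneg _) hi] at h5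
  filter_upwards [h5] with ω hω
  have : (cp μ m2 f z ω - cp μ m1 f z ω) ^ 2 = 0 := hω
  have := pow_eq_zero_iff (two_ne_zero) |>.1 this
  linarith

end basic

end

end Crest.Agent.R98.F
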