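import Crest.Agent.R98.FA

/-!
Row 98, module F (helper893): chain rule for the conditional entropy given a σ-algebra,
invariance, independent augmentation.
-/

set_option autoImplicit false
set_option linter.unusedSectionVars false
set_option linter.unusedSimpArgs false

namespace Crest.Agent.R98.F

open MeasureTheory ProbabilityTheory Filter Topology Real

noncomputable section

variable {Ω : Type*} {Y : Type*} {Z : Type*} {m m1 m2 m0 : MeasurableSpace Ω} {μ : Measure Ω}

section join

variable [mY : MeasurableSpace Y] [mZ : MeasurableSpace Z]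

/-- description of the sets of `m ⊔ σ(f)` -/
theorem split_set {f : Ω → Y} {A : Set Ω}
    (hA : MeasurableSet[m ⊔ MeasurableSpace.comap f mY] A) :
    ∃ Az : Y → Set Ω, (∀ y, MeasurableSet[m] (Az y)) ∧ ∀ ω, ω ∈ A ↔ ω ∈ Az (f ω) := by
  have e : m ⊔ MeasurableSpace.comap f mY =
      @MeasurableSpace.comap Ω (Ω × Y) (fun ω => (ω, f ω)) (m.prod mY) := by
    have h := @MeasurableSpace.comap_prodMk Ω Ω Y m mY id f
    rw [MeasurableSpace.comap_id] at h
    exact h.symm
  rw [e] at hA
  obtain ⟨B, hB, rfl⟩ := hA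
  refine ⟨fun y => (fun ω => (ω, y)) ⁻¹' B, fun y => ?_, fun ω => Iff.rfl⟩
  have hmk : @Measurable Ω (Ω × Y) m (m.prod mY) (fun ω => (ω, y)) :=
    @measurable_prodMk_right Ω Y m mY y
  exact hmk hB

end join

section chain

variable [Fintype Y] [Fintype Z] [mY : MeasurableSpace Y] [MeasurableSingletonClass Y]
  [mZ : MeasurableSpace Z] [MeasurableSingletonClass Z] {f : Ω → Y} {g : Ω → Z}

/-- the conditional law of the pair is dominated by the one of the first component -/
theorem cp_pair_le [IsProbabilityMeasure μ] (hf : @Measurable Ω Y m0 mY f)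
    (hg : @Measurable Ω Z m0 mZ g) (y : Y) (z : Z) :
    ∀ᵐ ω ∂μ, cp μ m (fun ω => (f ω, g ω)) (y, z) ω ≤ cp μ m f y ω := by
  refine condExp_mono (ind_int (μ := μ) (y, z) (hf.prodMk hg)) (ind_int (μ := μ) y hf) ?_
  refine Eventually.of_forall fun ω => ?_
  refine Set.indicator_le_indicator_of_subset ?_ (fun _ => zero_le_one) ω
  intro ω h
  have h1 : (f ω, g ω) = (y, z) := h
  exact congrArg Prod.fst h1

/-- marginal -/
theorem cp_pair_sum [IsProbabilityMeasure μ] (hf : @Measurable Ω Y m0 mY f)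
    (hg : @Measurable Ω Z m0 mZ g) (y : Y) :
    ∀ᵐ ω ∂μ, ∑ z, cp μ m (fun ω => (f ω, g ω)) (y, z) ω = cp μ m f y ω := by
  have h := condExp_finsetSum (μ := μ) (s := (Finset.univ : Finset Z))
    (f := fun z => ((fun ω => (f ω, g ω)) ⁻¹' {(y, z)}).indicator (fun _ => (1 : ℝ)))
    (fun z _ => ind_int (y, z) (hf.prodMk hg)) m
  have e : ∑ z : Z, ((fun ω => (f ω, g ω)) ⁻¹' {(y, z)}).indicator (fun _ => (1 : ℝ)) =
      (f ⁻¹' {y}).indicator (fun _ => (1 : ℝ)) := by
    funext ω
    rw [Finset.sum_apply]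
    rw [Finset.sum_eq_single (g ω)]
    · by_cases h : f ω = y
      · rw [Set.indicator_of_mem, Set.indicator_of_mem]
        · exact h
        · show (f ω, g ω) = (y, g ω)
          rw [h]
      · rw [Set.indicator_of_notMem, Set.indicator_of_notMem]
        · exact h
        · intro h1
          exact h (congrArg Prod.fst h1)
    · intro z _ hz
      rw [Set.indicator_of_notMem]
      intro h
      exact hz (congrArg Prod.snd h).symm
    · intro h; exact absurd (Finset.mem_univ _) h
  rw [e] at h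
  filter_upwards [h] with ω hω
  rw [Finset.sum_apply] at hω
  exact hω.symm

/-- ratio of conditional probabilities -/
def rt (μ : Measure Ω) (m : MeasurableSpace Ω) (f : Ω → Y) (g : Ω → Z) (y : Y) (z : Z) (ω : Ω) :
    ℝ := cp μ m (fun ω => (f ω, g ω)) (y, z) ω / cp μ m f y ω

theorem rt_sm (y : Y) (z : Z) : StronglyMeasurable[m] (rt μ m f g y z) := by
  have h1 : StronglyMeasurable[m] (cp μ m (fun ω => (f ω, g ω)) (y, z)) := cp_sm (y, z)
  have h2 : StronglyMeasurable[m] (cp μ m f y) := cp_sm y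
  exact (h1.measurable.div h2.measurable).stronglyMeasurable

theorem rt_bd [IsProbabilityMeasure μ] (hf : @Measurable Ω Y m0 mY f)
    (hg : @Measurable Ω Z m0 mZ g) (hm : m ≤ m0) (y : Y) (z : Z) :
    ∀ᵐ ω ∂μ, 0 ≤ rt μ m f g y z ω ∧ rt μ m f g y z ω ≤ 1 ∧
      cp μ m f y ω * rt μ m f g y z ω = cp μ m (fun ω => (f ω, g ω)) (y, z) ω := by
  filter_upwards [cp_pair_le (μ := μ) (m := m) hf hg y z, cp_bd (μ := μ) y hm hf,
    cp_nonneg (μ := μ) (m := m) (f := fun ω => (f ω, g ω)) (y, z)] with ω h1 h2 h3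
  have h3' : 0 ≤ cp μ m (fun ω => (f ω, g ω)) (y, z) ω := h3
  unfold rt
  rcases h2.1.eq_or_lt with h | h
  · rw [← h]
    have h4 : cp μ m (fun ω => (f ω, g ω)) (y, z) ω = 0 := by
      rw [← h] at h1; exact le_antisymm h1 h3'
    rw [h4]
    simp
  · refine ⟨div_nonneg h3' h.le, (div_le_one h).2 h1, ?_⟩
    field_simp

/-- pulling out the ratio -/
theorem int_rt [IsProbabilityMeasure μ] (hf : @Measurable Ω Y m0 mY f)
    (hm : m ≤ m0) (y : Y) {F : Ω → ℝ} (hF : StronglyMeasurable[m] F) {C : ℝ}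
    (hFb : ∀ᵐ ω ∂μ, |F ω| ≤ C) :
    ∫ ω, (f ⁻¹' {y}).indicator F ω ∂μ = ∫ ω, cp μ m f y ω * F ω ∂μ := by
  have i1 : Integrable ((f ⁻¹' {y}).indicator (fun _ => (1 : ℝ))) μ := ind_int (μ := μ) y hf
  have i2 : Integrable ((f ⁻¹' {y}).indicator (fun _ => (1 : ℝ)) * F) μ := by
    refine (i1.mul_bdd (c := C) (hF.mono hm).aestronglyMeasurable ?_)
    filter_upwards [hFb] with ω hω using hω
  have h := condExp_mul_of_stronglyMeasurable_right hF i2 i1
  have h2 := integral_condExp hm (μ := μ) (f := (f ⁻¹' {y}).indicator (fun _ => (1 : ℝ)) * F)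
  have h3 : ∫ ω, ((f ⁻¹' {y}).indicator (fun _ => (1 : ℝ)) * F) ω ∂μ =
      ∫ ω, (f ⁻¹' {y}).indicator F ω ∂μ := by
    refine integral_congr_ae (Eventually.of_forall fun ω => ?_)
    show (f ⁻¹' {y}).indicator (fun _ => (1 : ℝ)) ω * F ω = _
    by_cases hω : ω ∈ f ⁻¹' {y}
    · rw [Set.indicator_of_mem hω, Set.indicator_of_mem hω, one_mul]
    · rw [Set.indicator_of_notMem hω, Set.indicator_of_notMem hω, zero_mul]
  rw [← h3, ← h2]
  refine integral_congr_ae ?_
  filter_upwards [h] with ω hω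
  rw [hω]; rfl

/-- **conditional law given `m ⊔ σ(f)`** -/
theorem cp_join [IsProbabilityMeasure μ] (hf : @Measurable Ω Y m0 mY f)
    (hg : @Measurable Ω Z m0 mZ g) (hm : m ≤ m0) (z : Z) :
    (fun ω => ∑ y, (f ⁻¹' {y}).indicator (rt μ m f g y z) ω) =ᵐ[μ]
      cp μ (m ⊔ MeasurableSpace.comap f mY) g z := by
  have hj : m ⊔ MeasurableSpace.comap f mY ≤ m0 := sup_le hm hf.comap_le
  have hi : ∀ y, Integrable ((f ⁻¹' {y}).indicator (rt μ m f g y z)) μ := by
    intro y
    refine Integrable.indicator ?_ (hf (measurableSet_singleton y))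
    refine Integrable.of_bound ((rt_sm y z).mono hm).aestronglyMeasurable 1 ?_
    filter_upwards [rt_bd (μ := μ) hf hg hm y z] with ω hω
    rw [Real.norm_eq_abs, abs_of_nonneg hω.1]
    exact hω.2.1
  have hsum : Integrable (fun ω => ∑ y, (f ⁻¹' {y}).indicator (rt μ m f g y z) ω) μ :=
    integrable_finsetSum _ fun y _ => hi y
  unfold cp
  refine ae_eq_condExp_of_forall_setIntegral_eq hj (ind_int z hg)
    (fun s _ _ => hsum.integrableOn) ?_ ?_
  · intro A hA _
    obtain ⟨Az, hAz, hAf⟩ := split_set hA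
    have hA0 : MeasurableSet[m0] A := hj _ hA
    rw [integral_finsetSum _ (fun y _ => (hi y).integrableOn)]
    -- each piece
    have hp : ∀ y, ∫ ω in A, (f ⁻¹' {y}).indicator (rt μ m f g y z) ω ∂μ =
        μ.real (A ∩ ((fun ω => (f ω, g ω)) ⁻¹' {(y, z)})) := by
      intro y
      have hAy : MeasurableSet[m0] (Az y) := hm _ (hAz y)
      have hfy : MeasurableSet[m0] (f ⁻¹' {y}) := hf (measurableSet_singleton y)
      have hpy : MeasurableSet[m0] ((fun ω => (f ω, g ω)) ⁻¹' {(y, z)}) :=
        (hf.prodMk hg) (measurableSet_singleton _)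
      have e1 : ∫ ω in A, (f ⁻¹' {y}).indicator (rt μ m f g y z) ω ∂μ =
          ∫ ω, (f ⁻¹' {y}).indicator ((Az y).indicator (rt μ m f g y z)) ω ∂μ := by
        rw [← integral_indicator hA0]
        refine integral_congr_ae (Eventually.of_forall fun ω => ?_)
        show A.indicator ((f ⁻¹' {y}).indicator (rt μ m f g y z)) ω = _
        rw [Set.indicator_indicator, Set.indicator_indicator]
        congr 1
        ext ω
        constructor
        · rintro ⟨h1, h2⟩
          refine ⟨h2, ?_⟩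
          have h3 : f ω = y := h2
          have := (hAf ω).1 h1
          rwa [h3] at this
        · rintro ⟨h1, h2⟩
          refine ⟨?_, h1⟩
          have h3 : f ω = y := h1
          rw [hAf ω, h3]
          exact h2
      rw [e1, int_rt (μ := μ) (C := 1) hf hm y ((rt_sm y z).indicator (hAz y))]
      · have e2 : ∫ ω, cp μ m f y ω * (Az y).indicator (rt μ m f g y z) ω ∂μ =
            ∫ ω in Az y, cp μ m (fun ω => (f ω, g ω)) (y, z) ω ∂μ := by
          rw [← integral_indicator hAy]
          refine integral_congr_ae ?_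
          filter_upwards [rt_bd (μ := μ) hf hg hm y z] with ω hω
          by_cases h : ω ∈ Az y
          · rw [Set.indicator_of_mem h, Set.indicator_of_mem h]
            exact hω.2.2
          · rw [Set.indicator_of_notMem h, Set.indicator_of_notMem h, mul_zero]
        rw [e2]
        unfold cp
        rw [setIntegral_condExp hm (ind_int (μ := μ) (y, z) (hf.prodMk hg)) (hAz y),
          integral_indicator hpy, Measure.restrict_restrict hpy, setIntegral_const, smul_eq_mul,
          mul_one]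
        congr 1
        ext ω
        constructor
        · rintro ⟨h1, h2⟩
          refine ⟨?_, h1⟩
          have h3 : (f ω, g ω) = (y, z) := h1
          have h4 : f ω = y := congrArg Prod.fst h3
          rw [hAf ω, h4]
          exact h2
        · rintro ⟨h1, h2⟩
          refine ⟨h2, ?_⟩
          have h3 : (f ω, g ω) = (y, z) := h2
          have h4 : f ω = y := congrArg Prod.fst h3
          have := (hAf ω).1 h1
          rwa [h4] at this
      · filter_upwards [rt_bd (μ := μ) hf hg hm y z] with ω hω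
        by_cases h : ω ∈ Az y
        · rw [Set.indicator_of_mem h, abs_of_nonneg hω.1]
          exact hω.2.1
        · rw [Set.indicator_of_notMem h, abs_zero]
          exact zero_le_one
    rw [Finset.sum_congr rfl fun y _ => hp y]
    have hgz : MeasurableSet[m0] (g ⁻¹' {z}) := hg (measurableSet_singleton z)
    rw [integral_indicator hgz, Measure.restrict_restrict hgz, setIntegral_const, smul_eq_mul,
      mul_one]
    rw [← measureReal_biUnion_finset]
    · congr 1
      ext ω
      simp only [Finset.mem_univ, Set.iUnion_true, Set.mem_iUnion, Set.mem_inter_iff,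
        Set.mem_preimage, Set.mem_singleton_iff, Prod.mk.injEq]
      constructor
      · rintro ⟨y, h1, h2, h3⟩
        exact ⟨h3, h1⟩
      · rintro ⟨h1, h2⟩
        exact ⟨f ω, h2, rfl, h1⟩
    · intro y _ y' _ hyy
      rw [Function.onFun, Set.disjoint_left]
      rintro ω ⟨_, h2⟩ ⟨_, h4⟩
      have h2' : (f ω, g ω) = (y, z) := h2
      have h4' : (f ω, g ω) = (y', z) := h4
      exact hyy ((congrArg Prod.fst h2').symm.trans (congrArg Prod.fst h4'))
    · intro y _
      exact hA0.inter ((hf.prodMk hg) (measurableSet_singleton _))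
  · have : StronglyMeasurable[m ⊔ MeasurableSpace.comap f mY]
        (fun ω => ∑ y, (f ⁻¹' {y}).indicator (rt μ m f g y z) ω) := by
      refine Finset.stronglyMeasurable_fun_sum _ fun y _ => ?_
      have h1 : StronglyMeasurable[m ⊔ MeasurableSpace.comap f mY] (rt μ m f g y z) :=
        (rt_sm y z).mono le_sup_left
      refine StronglyMeasurable.indicator h1 ?_
      have : MeasurableSet[MeasurableSpace.comap f mY] (f ⁻¹' {y}) :=
        ⟨{y}, measurableSet_singleton y, rfl⟩
      exact (le_sup_right : MeasurableSpace.comap f mY ≤ m ⊔ MeasurableSpace.comap f mY) _ this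
    exact this.aestronglyMeasurable

/-- **chain rule** -/
theorem Hc_chain [IsProbabilityMeasure μ] (hf : @Measurable Ω Y m0 mY f)
    (hg : @Measurable Ω Z m0 mZ g) (hm : m ≤ m0) :
    Hc μ m (fun ω => (f ω, g ω)) =
      Hc μ m f + Hc μ (m ⊔ MeasurableSpace.comap f mY) g := by
  have h1 : ∀ z, ∫ ω, negMulLog (cp μ (m ⊔ MeasurableSpace.comap f mY) g z ω) ∂μ =
      ∑ y, ∫ ω, cp μ m f y ω * negMulLog (rt μ m f g y z ω) ∂μ := by
    intro z
    have e1 : ∫ ω, negMulLog (cp μ (m ⊔ MeasurableSpace.comap f mY) g z ω) ∂μ =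
        ∫ ω, ∑ y, (f ⁻¹' {y}).indicator (fun ω => negMulLog (rt μ m f g y z ω)) ω ∂μ := by
      refine integral_congr_ae ?_
      filter_upwards [cp_join (μ := μ) hf hg hm z] with ω hω
      rw [← hω]
      rw [Finset.sum_eq_single (f ω), Finset.sum_eq_single (f ω)]
      · rw [Set.indicator_of_mem (show ω ∈ f ⁻¹' {f ω} from rfl),
          Set.indicator_of_mem (show ω ∈ f ⁻¹' {f ω} from rfl)]
      · intro y _ hy
        have h : ω ∉ f ⁻¹' {y} := fun h => hy (Eq.symm h)
        exact Set.indicator_of_notMem h _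
      · intro h; exact absurd (Finset.mem_univ _) h
      · intro y _ hy
        have h : ω ∉ f ⁻¹' {y} := fun h => hy (Eq.symm h)
        exact Set.indicator_of_notMem h _
      · intro h; exact absurd (Finset.mem_univ _) h
    have hsm : ∀ y, StronglyMeasurable[m] (fun ω => negMulLog (rt μ m f g y z ω)) := fun y =>
      continuous_negMulLog.comp_stronglyMeasurable (rt_sm y z)
    have hbd : ∀ y, ∀ᵐ ω ∂μ, |negMulLog (rt μ m f g y z ω)| ≤ 1 := fun y => by
      filter_upwards [rt_bd (μ := μ) hf hg hm y z] with ω hω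
      exact negMulLog_bd hω.1 hω.2.1
    rw [e1, integral_finsetSum]
    · exact Finset.sum_congr rfl fun y _ => int_rt (μ := μ) hf hm y (hsm y) (hbd y)
    · intro y _
      refine Integrable.indicator ?_ (hf (measurableSet_singleton y))
      refine Integrable.of_bound ((hsm y).mono hm).aestronglyMeasurable 1 ?_
      filter_upwards [hbd y] with ω hω using hω
  have h2 : ∀ y z, ∫ ω, cp μ m f y ω * negMulLog (rt μ m f g y z ω) ∂μ =
      ∫ ω, (negMulLog (cp μ m (fun ω => (f ω, g ω)) (y, z) ω) +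
        cp μ m (fun ω => (f ω, g ω)) (y, z) ω * log (cp μ m f y ω)) ∂μ := by
    intro y z
    refine integral_congr_ae ?_
    filter_upwards [rt_bd (μ := μ) hf hg hm y z, cp_bd (μ := μ) y hm hf,
      cp_pair_le (μ := μ) (m := m) hf hg y z,
      cp_nonneg (μ := μ) (m := m) (f := fun ω => (f ω, g ω)) (y, z)] with ω h3 h4 h5 h6
    have h6' : 0 ≤ cp μ m (fun ω => (f ω, g ω)) (y, z) ω := h6
    rcases h6'.eq_or_lt with h7 | h7
    · have : rt μ m f g y z ω = 0 := by unfold rt; rw [← h7]; simp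
      rw [this, ← h7]
      simp
    · have h8 : 0 < cp μ m f y ω := lt_of_lt_of_le h7 h5
      have h9 : 0 < rt μ m f g y z ω := by unfold rt; positivity
      have h10 := h3.2.2
      rw [← h10]
      unfold negMulLog
      rw [Real.log_mul h8.ne' h9.ne']
      ring
  have hci : ∀ y z, Integrable (fun ω =>
      cp μ m (fun ω => (f ω, g ω)) (y, z) ω * log (cp μ m f y ω)) μ := by
    intro y z
    refine Integrable.of_bound (C := 1) ?_ ?_
    · have a1 : StronglyMeasurable[m] (cp μ m (fun ω => (f ω, g ω)) (y, z)) := cp_sm (y, z)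
      have a2 : StronglyMeasurable[m] (cp μ m f y) := cp_sm y
      exact ((a1.measurable.mul (Real.measurable_log.comp a2.measurable)).stronglyMeasurable.mono
        hm).aestronglyMeasurable
    · filter_upwards [cp_bd (μ := μ) y hm hf, cp_pair_le (μ := μ) (m := m) hf hg y z,
        cp_nonneg (μ := μ) (m := m) (f := fun ω => (f ω, g ω)) (y, z)] with ω h4 h5 h6
      have h6' : 0 ≤ cp μ m (fun ω => (f ω, g ω)) (y, z) ω := h6
      have h7 := negMulLog_bd h4.1 h4.2
      unfold negMulLog at h7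
      rw [Real.norm_eq_abs, abs_mul, abs_of_nonneg h6']
      have h8 : |-(cp μ m f y ω) * log (cp μ m f y ω)| = cp μ m f y ω * |log (cp μ m f y ω)| := by
        rw [neg_mul, abs_neg, abs_mul, abs_of_nonneg h4.1]
      rw [h8] at h7
      exact (mul_le_mul_of_nonneg_right h5 (abs_nonneg _)).trans h7
  have h3 : ∀ y, ∑ z, ∫ ω, cp μ m (fun ω => (f ω, g ω)) (y, z) ω * log (cp μ m f y ω) ∂μ =
      - ∫ ω, negMulLog (cp μ m f y ω) ∂μ := by
    intro y
    rw [← integral_finsetSum _ (fun z _ => hci y z), ← integral_neg]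
    refine integral_congr_ae ?_
    filter_upwards [cp_pair_sum (μ := μ) (m := m) hf hg y] with ω hω
    rw [← Finset.sum_mul, hω]
    unfold negMulLog
    ring
  unfold Hc
  rw [Fintype.sum_prod_type]
  have h4 : ∑ z, ∫ ω, negMulLog (cp μ (m ⊔ MeasurableSpace.comap f mY) g z ω) ∂μ =
      ∑ y, (∑ z, ∫ ω, negMulLog (cp μ m (fun ω => (f ω, g ω)) (y, z) ω) ∂μ -
        ∫ ω, negMulLog (cp μ m f y ω) ∂μ) := by
    rw [Finset.sum_congr rfl fun z _ => h1 z, Finset.sum_comm]
    refine Finset.sum_congr rfl fun y _ => ?_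
    rw [sub_eq_add_neg, ← h3 y, ← Finset.sum_add_distrib]
    refine Finset.sum_congr rfl fun z _ => ?_
    rw [h2 y z]
    exact integral_add (eta_int (μ := μ) (y, z) hm (hf.prodMk hg)) (hci y z)
  rw [h4, Finset.sum_sub_distrib]
  ring

end chain

section more

variable [Fintype Z] [mZ : MeasurableSpace Z] [MeasurableSingletonClass Z] {f : Ω → Z}

/-- entropy given the trivial σ-algebra -/
theorem Hc_bot [IsProbabilityMeasure μ] (hf : @Measurable Ω Z m0 mZ f) :
    Hc μ ⊥ f = ∑ z, negMulLog (μ.real (f ⁻¹' {z})) := by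
  unfold Hc
  refine Finset.sum_congr rfl fun z _ => ?_
  have e : cp μ ⊥ f z = fun _ => μ.real (f ⁻¹' {z}) := by
    unfold cp
    rw [condExp_bot]
    funext _
    exact integral_indicator_one (meas_pre z hf)
  rw [e]
  simp

/-- entropy of a measurable function -/
theorem Hc_self [IsProbabilityMeasure μ] (hm : m ≤ m0) (hf : @Measurable Ω Z m mZ f) :
    Hc μ m f = 0 := by
  unfold Hc
  refine Finset.sum_eq_zero fun z _ => ?_
  rw [cp_self (μ := μ) z hm hf]
  have : (fun ω => negMulLog ((f ⁻¹' {z}).indicator (fun _ => (1 : ℝ)) ω)) = fun _ => 0 := by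
    funext ω
    by_cases h : ω ∈ f ⁻¹' {z}
    · rw [Set.indicator_of_mem h]; simp
    · rw [Set.indicator_of_notMem h]; simp
  rw [this]
  simp

/-- relabelling -/
theorem Hc_equiv {Z' : Type*} [Fintype Z'] (e : Z ≃ Z') (f : Ω → Z) :
    Hc μ m (fun ω => e (f ω)) = Hc μ m f := by
  unfold Hc
  rw [← Equiv.sum_comp e]
  refine Finset.sum_congr rfl fun z _ => ?_
  have : cp μ m (fun ω => e (f ω)) (e z) = cp μ m f z := by
    unfold cp
    congr 2
    ext ω
    simp
  rw [this]

theorem Hc_congr_ae {f' : Ω → Z} (h : f =ᵐ[μ] f') : Hc μ m f = Hc μ m f' := by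
  unfold Hc
  refine Finset.sum_congr rfl fun z _ => integral_congr_ae ?_
  have : cp μ m f z =ᵐ[μ] cp μ m f' z := by
    refine condExp_congr_ae ?_
    filter_upwards [h] with ω hω
    have e : ω ∈ f ⁻¹' {z} ↔ ω ∈ f' ⁻¹' {z} := by
      simp only [Set.mem_preimage, hω]
    by_cases h1 : ω ∈ f ⁻¹' {z}
    · rw [Set.indicator_of_mem h1, Set.indicator_of_mem (e.1 h1)]
    · rw [Set.indicator_of_notMem h1, Set.indicator_of_notMem (fun h => h1 (e.2 h))]
  filter_upwards [this] with ω hω
  rw [hω]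

/-- adding a component that is determined costs nothing -/
theorem Hc_pair_of_meas {Y : Type*} [Fintype Y] [mY : MeasurableSpace Y]
    [MeasurableSingletonClass Y] {g : Ω → Y} [IsProbabilityMeasure μ] (hm : m ≤ m0)
    (hg : @Measurable Ω Y m mY g) (hf : @Measurable Ω Z m0 mZ f) :
    Hc μ m (fun ω => (g ω, f ω)) = Hc μ m f := by
  rw [Hc_chain (hg.mono hm le_rfl) hf hm, Hc_self hm hg, zero_add]
  congr 1
  exact sup_eq_left.2 hg.comap_le

/-- data processing -/
theorem Hc_comp_le {Y : Type*} [Fintype Y] [mY : MeasurableSpace Y]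
    [MeasurableSingletonClass Y] {φ : Z → Y} [IsProbabilityMeasure μ] (hm : m ≤ m0)
    (hf : @Measurable Ω Z m0 mZ f) :
    Hc μ m (fun ω => φ (f ω)) ≤ Hc μ m f := by
  have hφ : Measurable φ := measurable_of_finite φ
  have h1 := Hc_chain (μ := μ) (hφ.comp hf) hf hm
  have h2 := Hc_chain (μ := μ) hf (hφ.comp hf) hm
  have h3 : Hc μ m (fun ω => ((φ ∘ f) ω, f ω)) = Hc μ m (fun ω => (f ω, (φ ∘ f) ω)) :=
    Hc_equiv (Equiv.prodComm Z Y) (fun ω => (f ω, (φ ∘ f) ω))
  have hj : m ⊔ MeasurableSpace.comap f mZ ≤ m0 := sup_le hm hf.comap_le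
  have h4 : Hc μ (m ⊔ MeasurableSpace.comap f mZ) (φ ∘ f) = 0 := by
    refine Hc_self hj ?_
    have : @Measurable Ω Z (m ⊔ MeasurableSpace.comap f mZ) mZ f :=
      (comap_measurable f).mono le_sup_right le_rfl
    exact hφ.comp this
  have h5 := Hc_nonneg (μ := μ) (m := m ⊔ MeasurableSpace.comap (φ ∘ f) mY) (f := f)
    (sup_le hm (hφ.comp hf).comap_le) hf
  have : Hc μ m (fun ω => φ (f ω)) = Hc μ m (φ ∘ f) := rfl
  rw [this]
  linarith

/-- conditional probability after a measure preserving map -/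
theorem cp_comap {Ω' : Type*} {n0 : MeasurableSpace Ω'} {ν : Measure Ω'} {T : Ω' → Ω}
    [IsProbabilityMeasure μ] [IsProbabilityMeasure ν]
    (hT : @MeasurePreserving Ω' Ω n0 m0 T ν μ) (hm : m ≤ m0) (hf : @Measurable Ω Z m0 mZ f)
    (z : Z) :
    (fun w => cp μ m f z (T w)) =ᵐ[ν] cp ν (MeasurableSpace.comap T m) (fun w => f (T w)) z := by
  have hTm : @Measurable Ω' Ω n0 m0 T := hT.measurable
  have hc : MeasurableSpace.comap T m ≤ n0 := by
    rintro _ ⟨B, hB, rfl⟩
    exact hTm (hm _ hB)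
  have hci : Integrable (cp μ m f z) μ := cp_int z
  have hci' : Integrable (fun w => cp μ m f z (T w)) ν := by
    have := hT.integrable_comp (g := cp μ m f z) hci.aestronglyMeasurable
    exact this.2 hci
  unfold cp
  refine ae_eq_condExp_of_forall_setIntegral_eq hc (ind_int z (hf.comp hTm))
    (fun s _ _ => hci'.integrableOn) ?_ ?_
  · rintro _ ⟨B, hB, rfl⟩ _
    have hB0 : MeasurableSet[m0] B := hm _ hB
    have hz : MeasurableSet[m0] (f ⁻¹' {z}) := hf (measurableSet_singleton z)
    have e1 : ∫ w in T ⁻¹' B, (μ[(f ⁻¹' {z}).indicator (fun _ => (1 : ℝ)) | m]) (T w) ∂ν =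
        ∫ ω in B, (μ[(f ⁻¹' {z}).indicator (fun _ => (1 : ℝ)) | m]) ω ∂μ := by
      rw [← hT.map_eq]
      rw [setIntegral_map hB0 _ hTm.aemeasurable]
      rw [hT.map_eq]
      exact hci.aestronglyMeasurable
    have e2 : ∫ ω in B, (μ[(f ⁻¹' {z}).indicator (fun _ => (1 : ℝ)) | m]) ω ∂μ =
        ∫ ω in B, (f ⁻¹' {z}).indicator (fun _ => (1 : ℝ)) ω ∂μ :=
      setIntegral_condExp hm (ind_int z hf) hB
    have e3 : ∫ ω in B, (f ⁻¹' {z}).indicator (fun _ => (1 : ℝ)) ω ∂μ =
        ∫ w in T ⁻¹' B, (f ⁻¹' {z}).indicator (fun _ => (1 : ℝ)) (T w) ∂ν := by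
      have i : Integrable ((f ⁻¹' {z}).indicator (fun _ => (1 : ℝ))) μ := ind_int z hf
      rw [← hT.map_eq]
      rw [setIntegral_map hB0 _ hTm.aemeasurable]
      rw [hT.map_eq]
      exact i.aestronglyMeasurable
    rw [e1, e2, e3]
    rfl
  · have h1 : StronglyMeasurable[m] (cp μ m f z) := cp_sm z
    have h2 : @Measurable Ω' Ω (MeasurableSpace.comap T m) m T := comap_measurable T
    exact (h1.comp_measurable h2).aestronglyMeasurable

/-- invariance under a measure preserving map -/
theorem Hc_comap {Ω' : Type*} {n0 : MeasurableSpace Ω'} {ν : Measure Ω'} {T : Ω' → Ω}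
    [IsProbabilityMeasure μ] [IsProbabilityMeasure ν]
    (hT : @MeasurePreserving Ω' Ω n0 m0 T ν μ) (hm : m ≤ m0) (hf : @Measurable Ω Z m0 mZ f) :
    Hc ν (MeasurableSpace.comap T m) (fun w => f (T w)) = Hc μ m f := by
  unfold Hc
  refine Finset.sum_congr rfl fun z _ => ?_
  have e1 : ∫ w, negMulLog (cp ν (MeasurableSpace.comap T m) (fun w => f (T w)) z w) ∂ν =
      ∫ w, negMulLog (cp μ m f z (T w)) ∂ν := by
    refine integral_congr_ae ?_
    filter_upwards [cp_comap hT hm hf z] with w hw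
    rw [hw]
  have e2 : ∫ w, negMulLog (cp μ m f z (T w)) ∂ν = ∫ ω, negMulLog (cp μ m f z ω) ∂μ := by
    rw [← hT.map_eq]
    rw [integral_map hT.measurable.aemeasurable]
    rw [hT.map_eq]
    exact (eta_int (μ := μ) z hm hf).aestronglyMeasurable
  rw [e1, e2]

end more

section prod

variable [Fintype Z] [mZ : MeasurableSpace Z] [MeasurableSingletonClass Z]

/-- conditional probability on a product, independent first coordinate revealed -/
theorem cp_prod {A B : Type*} [mA : MeasurableSpace A] {mB' : MeasurableSpace B} [mB : MeasurableSpace B]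
    {κ : Measure A} {ρ : Measure B} [IsProbabilityMeasure κ] [IsProbabilityMeasure ρ]
    (hB : mB' ≤ mB) {g : B → Z} (hg : @Measurable B Z mB mZ g) (z : Z) :
    (fun w : A × B => cp ρ mB' g z w.2) =ᵐ[κ.prod ρ]
      cp (κ.prod ρ) (mA.prod mB') (fun w => g w.2) z := by
  have hle : mA.prod mB' ≤ (inferInstance : MeasurableSpace (A × B)) := by
    refine sup_le_sup le_rfl ?_
    exact MeasurableSpace.comap_mono hB
  have hci : Integrable (cp ρ mB' g z) ρ := cp_int z
  have hci' : Integrable (fun w : A × B => cp ρ mB' g z w.2) (κ.prod ρ) := hci.comp_snd κ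
  have hgi : Integrable ((g ⁻¹' {z}).indicator (fun _ => (1 : ℝ))) ρ := ind_int z hg
  have hgi' : Integrable (fun w : A × B => (g ⁻¹' {z}).indicator (fun _ => (1 : ℝ)) w.2)
      (κ.prod ρ) := hgi.comp_snd κ
  unfold cp
  refine ae_eq_condExp_of_forall_setIntegral_eq hle
    (ind_int z (hg.comp measurable_snd)) (fun s _ _ => hci'.integrableOn) ?_ ?_
  · intro S hS _
    have hS0 : MeasurableSet S := hle _ hS
    have hsec : ∀ a, MeasurableSet[mB'] (Prod.mk a ⁻¹' S) := fun a => by
      have : @Measurable B (A × B) mB' (mA.prod mB') (Prod.mk a) :=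
        @measurable_prodMk_left A B mA mB' a
      exact this hS
    have key : ∀ F : B → ℝ, Integrable F ρ → ∫ w in S, F w.2 ∂(κ.prod ρ) =
        ∫ a, ∫ b in Prod.mk a ⁻¹' S, F b ∂ρ ∂κ := by
      intro F hF
      rw [← integral_indicator hS0, integral_prod _ ((hF.comp_snd κ).indicator hS0)]
      refine integral_congr_ae (Eventually.of_forall fun a => ?_)
      show ∫ b, S.indicator (fun w : A × B => F w.2) (a, b) ∂ρ = ∫ b in Prod.mk a ⁻¹' S, F b ∂ρ
      rw [← integral_indicator (hB _ (hsec a))]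
      rfl
    have k1 := key _ (integrable_condExp (m := mB') (μ := ρ)
      (f := (g ⁻¹' {z}).indicator (fun _ => (1 : ℝ))))
    have k2 := key _ hgi
    rw [k1]
    have e : ∫ w in S, ((fun w : A × B => g w.2) ⁻¹' {z}).indicator (fun _ => (1 : ℝ)) w
        ∂(κ.prod ρ) = ∫ w in S, (g ⁻¹' {z}).indicator (fun _ => (1 : ℝ)) w.2 ∂(κ.prod ρ) := rfl
    rw [e, k2]
    refine integral_congr_ae (Eventually.of_forall fun a => ?_)
    exact setIntegral_condExp hB hgi (hsec a)
  · have h1 : StronglyMeasurable[mB'] (cp ρ mB' g z) := cp_sm z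
    have h2 : @Measurable (A × B) B (mA.prod mB') mB' Prod.snd := @measurable_snd A B mA mB'
    exact (h1.comp_measurable h2).aestronglyMeasurable

/-- **independent augmentation** -/
theorem Hc_prod {A B : Type*} [mA : MeasurableSpace A] {mB' : MeasurableSpace B} [mB : MeasurableSpace B]
    {κ : Measure A} {ρ : Measure B} [IsProbabilityMeasure κ] [IsProbabilityMeasure ρ]
    (hB : mB' ≤ mB) {g : B → Z} (hg : @Measurable B Z mB mZ g) :
    Hc (κ.prod ρ) (mA.prod mB') (fun w => g w.2) = Hc ρ mB' g := by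
  unfold Hc
  refine Finset.sum_congr rfl fun z _ => ?_
  have e1 : ∫ w, negMulLog (cp (κ.prod ρ) (mA.prod mB') (fun w => g w.2) z w) ∂(κ.prod ρ) =
      ∫ w, negMulLog (cp ρ mB' g z w.2) ∂(κ.prod ρ) := by
    refine integral_congr_ae ?_
    filter_upwards [cp_prod (κ := κ) hB hg z] with w hw
    rw [hw]
  rw [e1]
  exact (integral_fun_snd (fun b => negMulLog (cp ρ mB' g z b))).trans (by simp)

end prod

section levy

variable [Fintype Z] [mZ : MeasurableSpace Z] [MeasurableSingletonClass Z] {f : Ω → Z}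

/-- **Lévy upward** -/
theorem Hc_tendsto [IsProbabilityMeasure μ] (ℱ : Filtration ℕ m0)
    (hf : @Measurable Ω Z m0 mZ f) :
    Tendsto (fun n => Hc μ (ℱ n) f) atTop (𝓝 (Hc μ (⨆ n, ℱ n) f)) := by
  unfold Hc
  refine tendsto_finsetSum _ fun z _ => ?_
  refine tendsto_integral_of_dominated_convergence (fun _ => 1) ?_ (integrable_const 1) ?_ ?_
  · intro n
    exact (eta_int (μ := μ) z (ℱ.le n) hf).aestronglyMeasurable
  · intro n
    filter_upwards [cp_bd (μ := μ) z (ℱ.le n) hf] with ω hω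
    exact negMulLog_bd hω.1 hω.2
  · have h := tendsto_ae_condExp (μ := μ) (ℱ := ℱ) ((f ⁻¹' {z}).indicator (fun _ => (1 : ℝ)))
    filter_upwards [h] with ω hω
    exact (continuous_negMulLog.tendsto _).comp hω

end levy

end

end Crest.Agent.R98.F
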