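import Crest.Agent.R98.FA2
import Crest.Agent.R98.Word2

/-!
Row 98, module F (helper893): the information of a prefix about a process
`Φ (i w) = B_i (Φ w)`; monotonicity and the equality case.
-/

set_option autoImplicit false
set_option linter.unusedSectionVars false
set_option linter.unusedSimpArgs false

namespace Crest.Agent.R98.F

open MeasureTheory ProbabilityTheory Filter Topology Real
open Crest.Agent.R098.Upper

noncomputable section

section soft

variable {Ω : Type*} {m m1 m2 m0 : MeasurableSpace Ω} {μ : Measure Ω}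

/-- an integrable function with vanishing integrals over a generating π-system vanishes -/
theorem ae_zero_of_pi [IsProbabilityMeasure μ] (C : Set (Set Ω)) (hC : IsPiSystem C)
    (hg : m0 = MeasurableSpace.generateFrom C) (hu : Set.univ ∈ C) {h : Ω → ℝ}
    (hh : Integrable h μ) (h0 : ∀ A ∈ C, ∫ ω in A, h ω ∂μ = 0) : h =ᵐ[μ] 0 := by
  refine hh.ae_eq_zero_of_forall_setIntegral_eq_zero fun A hA _ => ?_
  refine MeasurableSpace.induction_on_inter (C := fun (A : Set Ω) _ => ∫ ω in A, h ω ∂μ = 0)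
    hg hC ?_ ?_ ?_ ?_ A hA
  · simp
  · intro t ht; exact h0 t ht
  · intro t ht hh0
    have h1 := integral_add_compl ht hh
    have h2 := h0 _ hu
    rw [setIntegral_univ] at h2
    rw [hh0, h2, zero_add] at h1
    exact h1
  · intro f hd hm hz
    rw [integral_iUnion hm hd hh.integrableOn]
    simp [hz]

/-- self-adjointness of the conditional expectation -/
theorem condExp_adj [IsProbabilityMeasure μ] (hm : m ≤ m0) {F g : Ω → ℝ}
    (hF : Integrable F μ) (hg : AEStronglyMeasurable g μ) (hgb : ∀ᵐ ω ∂μ, |g ω| ≤ 1) :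
    ∫ ω, g ω * (μ[F | m]) ω ∂μ = ∫ ω, (μ[g | m]) ω * F ω ∂μ := by
  have hgi : Integrable g μ := Integrable.of_bound hg 1 hgb
  have hEb : ∀ᵐ ω ∂μ, |(μ[g | m]) ω| ≤ 1 := by
    have a1 := condExp_mono (m := m) hgi (integrable_const (1 : ℝ))
      (by filter_upwards [hgb] with ω hω using (abs_le.1 hω).2)
    have a2 := condExp_mono (m := m) (integrable_const (-1 : ℝ)) hgi
      (by filter_upwards [hgb] with ω hω using (abs_le.1 hω).1)
    rw [condExp_const hm] at a1 a2
    filter_upwards [a1, a2] with ω b1 b2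
    exact abs_le.2 ⟨b2, b1⟩
  have hEi : Integrable (μ[F | m]) μ := integrable_condExp
  have hEg : Integrable (μ[g | m]) μ := integrable_condExp
  have i1 : Integrable (g * μ[F | m]) μ := by
    refine hEi.bdd_mul (c := 1) hg ?_
    filter_upwards [hgb] with ω hω using hω
  have i2 : Integrable (μ[g | m] * F) μ := by
    refine hF.bdd_mul (c := 1) hEg.aestronglyMeasurable ?_
    filter_upwards [hEb] with ω hω using hω
  have e1 := condExp_mul_of_stronglyMeasurable_right (m := m)
    (stronglyMeasurable_condExp (f := F) (m := m) (μ := μ)) i1 hgi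
  have e2 := condExp_mul_of_stronglyMeasurable_left (m := m)
    (stronglyMeasurable_condExp (f := g) (m := m) (μ := μ)) i2 hF
  have e3 := integral_condExp hm (μ := μ) (f := g * μ[F | m])
  have e4 := integral_condExp hm (μ := μ) (f := μ[g | m] * F)
  have e5 : ∫ ω, (μ[g * μ[F | m] | m]) ω ∂μ = ∫ ω, (μ[μ[g | m] * F | m]) ω ∂μ := by
    refine integral_congr_ae ?_
    filter_upwards [e1, e2] with ω b1 b2
    rw [b1, b2]
  have e6 : ∫ ω, g ω * (μ[F | m]) ω ∂μ = ∫ ω, (g * μ[F | m]) ω ∂μ := rfl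
  have e7 : ∫ ω, (μ[g | m]) ω * F ω ∂μ = ∫ ω, (μ[g | m] * F) ω ∂μ := rfl
  rw [e6, e7, ← e3, ← e4, e5]

/-- if all sets of a generating π-system have the same conditional probability given `m1 ≤ m2`,
then every integrable `m2`-measurable function is a.e. `m1`-measurable -/
theorem condExp_eq_self_of_pi [IsProbabilityMeasure μ] (h1 : m1 ≤ m0) (h2 : m2 ≤ m0)
    (C : Set (Set Ω)) (hC : IsPiSystem C)
    (hg : m0 = MeasurableSpace.generateFrom C) (hu : Set.univ ∈ C)
    (h : ∀ A ∈ C, μ[A.indicator (fun _ => (1 : ℝ)) | m2] =ᵐ[μ]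
      μ[A.indicator (fun _ => (1 : ℝ)) | m1]) {F : Ω → ℝ} (hF : Integrable F μ)
    (hFm : StronglyMeasurable[m2] F) : μ[F | m1] =ᵐ[μ] F := by
  have hE : Integrable (μ[F | m1]) μ := integrable_condExp
  have key : (fun ω => (μ[F | m1]) ω - F ω) =ᵐ[μ] 0 := by
    refine ae_zero_of_pi C hC hg hu (hE.sub hF) fun A hA => ?_
    have hAm : MeasurableSet[m0] A := by
      rw [hg]; exact MeasurableSpace.measurableSet_generateFrom hA
    have hgm : AEStronglyMeasurable (A.indicator (fun _ => (1 : ℝ))) μ :=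
      (stronglyMeasurable_const.indicator hAm).aestronglyMeasurable
    have hgb : ∀ᵐ ω ∂μ, |A.indicator (fun _ => (1 : ℝ)) ω| ≤ 1 :=
      Eventually.of_forall fun ω => by
        by_cases hω : ω ∈ A <;> simp [hω]
    have e1 := condExp_adj (μ := μ) h1 hF hgm hgb
    have e2 := condExp_adj (μ := μ) h2 hF hgm hgb
    have e3 : μ[F | m2] = F := condExp_of_stronglyMeasurable h2 hFm hF
    rw [e3] at e2
    have e4 : ∫ ω, (μ[A.indicator (fun _ => (1 : ℝ)) | m2]) ω * F ω ∂μ =
        ∫ ω, (μ[A.indicator (fun _ => (1 : ℝ)) | m1]) ω * F ω ∂μ := by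
      refine integral_congr_ae ?_
      filter_upwards [h A hA] with ω hω
      rw [hω]
    have e5 : ∀ G : Ω → ℝ, ∫ ω in A, G ω ∂μ =
        ∫ ω, A.indicator (fun _ => (1 : ℝ)) ω * G ω ∂μ := by
      intro G
      rw [← integral_indicator hAm]
      refine integral_congr_ae (Eventually.of_forall fun ω => ?_)
      by_cases hω : ω ∈ A <;> simp [hω]
    rw [integral_sub hE.integrableOn hF.integrableOn, e5, e5, e1, e2, e4, sub_self]
  filter_upwards [key] with ω hω
  have : (μ[F | m1]) ω - F ω = 0 := hω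
  linarith

end soft

section seq

variable {ι : Type*} [Fintype ι] [mι : MeasurableSpace ι] [DiscreteMeasurableSpace ι]

/-- the cylinders -/
def Cyl (ι : Type*) : Set (Set (ℕ → ι)) := {A | ∃ n, ∃ u : Fin n → ι, A = pre n ⁻¹' {u}}

theorem cyl_pi : IsPiSystem (Cyl ι) := by
  rintro s ⟨n, u, rfl⟩ t ⟨k, v, rfl⟩ ⟨w, hw1, hw2⟩
  have hu : pre n w = u := hw1
  have hv : pre k w = v := hw2
  rcases le_total n k with h | h
  · refine ⟨k, v, ?_⟩
    ext x
    constructor
    · intro hx; exact hx.2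
    · intro hx
      refine ⟨?_, hx⟩
      have hx' : pre k x = pre k w := by rw [hv]; exact hx
      show pre n x = u
      rw [← hu]
      funext j
      exact congrFun hx' ⟨j, lt_of_lt_of_le j.2 h⟩
  · refine ⟨n, u, ?_⟩
    ext x
    constructor
    · intro hx; exact hx.1
    · intro hx
      refine ⟨hx, ?_⟩
      have hx' : pre n x = pre n w := by rw [hu]; exact hx
      show pre k x = v
      rw [← hv]
      funext j
      exact congrFun hx' ⟨j, lt_of_lt_of_le j.2 h⟩

theorem cyl_univ : Set.univ ∈ Cyl ι := by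
  refine ⟨0, fun j => j.elim0, ?_⟩
  ext x
  simp only [Set.mem_univ, Set.mem_preimage, Set.mem_singleton_iff, true_iff]
  funext j; exact j.elim0

theorem cyl_gen : (MeasurableSpace.pi : MeasurableSpace (ℕ → ι)) =
    MeasurableSpace.generateFrom (Cyl ι) := by
  refine le_antisymm ?_ ?_
  · refine iSup_le fun j => ?_
    rintro _ ⟨B, _, rfl⟩
    have e : (fun w : ℕ → ι => w j) ⁻¹' B =
        ⋃ u ∈ {u : Fin (j + 1) → ι | u (Fin.last j) ∈ B}, pre (j + 1) ⁻¹' {u} := by
      ext w
      simp only [Set.mem_preimage, Set.mem_iUnion, Set.mem_singleton_iff, exists_prop,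
        Set.mem_ofPred_eq]
      constructor
      · intro h
        exact ⟨pre (j + 1) w, h, rfl⟩
      · rintro ⟨u, hu, rfl⟩
        exact hu
    rw [e]
    refine MeasurableSet.biUnion (Set.to_countable _) fun u _ => ?_
    exact MeasurableSpace.measurableSet_generateFrom ⟨_, u, rfl⟩
  · refine MeasurableSpace.generateFrom_le ?_
    rintro _ ⟨n, u, rfl⟩
    exact measurable_pre n (measurableSet_singleton u)

/-- the first letter and the tail are independent -/
theorem mp_head_tail {p : ι → ℝ} (hp : (∀ i, 0 ≤ p i) ∧ ∑ i, p i = 1) :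
    MeasurePreserving (fun w : ℕ → ι => (w 0, sh 1 w)) (PP p) ((letterMeas p).prod (PP p)) := by
  have := isProb_letterMeas hp
  have := isProb_PP hp
  have hm : Measurable (fun w : ℕ → ι => (w 0, sh 1 w)) :=
    (measurable_pi_apply 0).prodMk (measurable_sh 1)
  refine ⟨hm, ?_⟩
  symm
  refine Measure.prod_eq fun s t hs ht => ?_
  classical
  rw [Measure.map_apply hm (hs.prod ht)]
  have hms : MeasurableSet ((fun w : ℕ → ι => (w 0, sh 1 w)) ⁻¹' s ×ˢ t) := hm (hs.prod ht)
  conv_lhs => rw [PP_cons hp]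
  simp only [Measure.coe_finsetSum, Finset.sum_apply, Measure.smul_apply, smul_eq_mul]
  rw [letterMeas_apply p s, Finset.sum_mul]
  refine Finset.sum_congr rfl fun a _ => ?_
  rw [Measure.map_apply (measurable_scons a) hms]
  by_cases ha : a ∈ s
  · rw [if_pos ha]
    congr 2
    ext w
    simp [ha]
  · rw [if_neg ha, zero_mul]
    have : (scons a) ⁻¹' ((fun w : ℕ → ι => (w 0, sh 1 w)) ⁻¹' s ×ˢ t) = ∅ := by
      ext w
      simp [ha]
    rw [this]
    simp

variable {E : Type*} [mE : MeasurableSpace E]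

/-- a process: `Φ (i w) = B_i (Φ w)` with measurable embeddings `B_i` -/
structure IsProc (Φ : (ℕ → ι) → E) (B : ι → E → E) : Prop where
  meas : Measurable Φ
  emb : ∀ i, MeasurableEmbedding (B i)
  eq : ∀ w, Φ w = B (w 0) (Φ (sh 1 w))

/-- information of the first letter about `Φ` -/
def alpha (p : ι → ℝ) (Φ : (ℕ → ι) → E) : ℝ :=
  ∑ i, negMulLog (p i) - Hc (PP p) (MeasurableSpace.comap Φ mE) (fun w => w 0)

/-- `σ(Φ, w_0) = σ(Φ ∘ T, w_0)` -/
theorem comap_proc {Φ : (ℕ → ι) → E} {B : ι → E → E} (h : IsProc Φ B) :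
    MeasurableSpace.comap Φ mE ⊔ MeasurableSpace.comap (fun w : ℕ → ι => w 0) mι =
      MeasurableSpace.comap (fun w : ℕ → ι => (w 0, sh 1 w))
        (mι.prod (MeasurableSpace.comap Φ mE)) := by
  have e1 : MeasurableSpace.comap (fun w : ℕ → ι => (w 0, sh 1 w))
        (mι.prod (MeasurableSpace.comap Φ mE)) =
      MeasurableSpace.comap (fun w : ℕ → ι => (w 0, Φ (sh 1 w))) (mι.prod mE) := by
    rw [MeasurableSpace.comap_prodMk, MeasurableSpace.comap_comp,
      @MeasurableSpace.comap_prodMk (ℕ → ι) ι E mι mE]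
    rfl
  have hG : MeasurableEmbedding (fun x : ι × E => (x.1, B x.1 x.2)) := by
    refine ⟨?_, ?_, ?_⟩
    · rintro ⟨a, x⟩ ⟨b, y⟩ hab
      have h1 : a = b := congrArg Prod.fst hab
      subst h1
      have h2 : B a x = B a y := congrArg Prod.snd hab
      rw [(h.emb a).injective h2]
    · refine measurable_from_prod_countable_right fun a => ?_
      exact measurable_const.prodMk (h.emb a).measurable
    · intro s hs
      have e : (fun x : ι × E => (x.1, B x.1 x.2)) '' s =
          ⋃ a : ι, {a} ×ˢ (B a '' ((fun x : E => (a, x)) ⁻¹' s)) := by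
        ext ⟨a, y⟩
        simp only [Set.mem_image, Set.mem_iUnion, Set.mem_prod, Set.mem_singleton_iff,
          Set.mem_preimage, Prod.mk.injEq, Prod.exists]
        constructor
        · rintro ⟨b, x, hx, rfl, rfl⟩
          exact ⟨b, rfl, x, hx, rfl⟩
        · rintro ⟨b, rfl, x, hx, rfl⟩
          exact ⟨a, x, hx, rfl, rfl⟩
      rw [e]
      refine MeasurableSet.iUnion fun a => ?_
      refine (measurableSet_singleton a).prod ?_
      exact (h.emb a).measurableSet_image.2 (measurable_prodMk_left hs)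
  have e2 : (fun w : ℕ → ι => (w 0, Φ w)) =
      (fun x : ι × E => (x.1, B x.1 x.2)) ∘ fun w : ℕ → ι => (w 0, Φ (sh 1 w)) := by
    funext w
    show (w 0, Φ w) = (w 0, B (w 0) (Φ (sh 1 w)))
    rw [← h.eq w]
  rw [e1, sup_comm, ← MeasurableSpace.comap_prodMk, e2, ← MeasurableSpace.comap_comp]
  congr 1
  exact hG.comap_eq

theorem pre_succ_eq (n : ℕ) (w : ℕ → ι) :
    pre (n + 1) w = (Fin.cons (w 0) (pre n (sh 1 w)) : Fin (n + 1) → ι) := by
  conv_lhs => rw [← scons_sh w]
  rw [pre_succ_scons]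

/-- **the conditional entropy of the prefix is linear** -/
theorem Hc_pre {p : ι → ℝ} (hp : (∀ i, 0 ≤ p i) ∧ ∑ i, p i = 1) {Φ : (ℕ → ι) → E}
    {B : ι → E → E} (h : IsProc Φ B) (n : ℕ) :
    Hc (PP p) (MeasurableSpace.comap Φ mE) (pre n) =
      n * Hc (PP p) (MeasurableSpace.comap Φ mE) (fun w => w 0) := by
  have := isProb_letterMeas hp
  have := isProb_PP hp
  have hm : MeasurableSpace.comap Φ mE ≤ MeasurableSpace.pi := h.meas.comap_le
  induction n with
  | zero =>
    rw [Nat.cast_zero, zero_mul]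
    refine Hc_self hm ?_
    have : (pre 0 : (ℕ → ι) → Fin 0 → ι) = fun _ => fun j => j.elim0 := by
      funext w j; exact j.elim0
    rw [this]
    exact measurable_const
  | succ n ih =>
    have e1 : Hc (PP p) (MeasurableSpace.comap Φ mE) (pre (n + 1)) =
        Hc (PP p) (MeasurableSpace.comap Φ mE) (fun w : ℕ → ι => (w 0, pre n (sh 1 w))) := by
      rw [← Hc_equiv (Fin.consEquiv fun _ : Fin (n + 1) => ι)]
      congr 1
      funext w
      exact pre_succ_eq n w
    have hpn : Measurable (fun w : ℕ → ι => pre n (sh 1 w)) :=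
      (measurable_pre n).comp (measurable_sh 1)
    rw [e1, Hc_chain (measurable_pi_apply 0) hpn hm]
    have e2 := comap_proc h
    have e3 : Hc (PP p) (MeasurableSpace.comap Φ mE ⊔
        MeasurableSpace.comap (fun w : ℕ → ι => w 0) mι) (fun w => pre n (sh 1 w)) =
        Hc (PP p) (MeasurableSpace.comap Φ mE) (pre n) := by
      rw [e2]
      have hle : mι.prod (MeasurableSpace.comap Φ mE) ≤
          (inferInstance : MeasurableSpace (ι × (ℕ → ι))) :=
        sup_le_sup le_rfl (MeasurableSpace.comap_mono hm)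
      have e4 := Hc_comap (mp_head_tail hp) hle ((measurable_pre n).comp measurable_snd)
      have e5 := Hc_prod (κ := letterMeas p) (ρ := PP p) hm (measurable_pre (ι := ι) n)
      exact e4.trans e5
    rw [e3, ih]
    push_cast
    ring

/-- entropy of the prefix -/
theorem Hc_pre_bot {p : ι → ℝ} (hp : (∀ i, 0 ≤ p i) ∧ ∑ i, p i = 1) (n : ℕ) :
    Hc (PP p) ⊥ (pre n) = n * ∑ i, negMulLog (p i) := by
  have := isProb_letterMeas hp
  have := isProb_PP hp
  have h : IsProc (ι := ι) (fun _ => ()) (fun _ x => x) :=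
    ⟨measurable_const, fun _ => MeasurableEmbedding.id, fun _ => rfl⟩
  have e : MeasurableSpace.comap (fun _ : ℕ → ι => ()) inferInstance = ⊥ :=
    MeasurableSpace.comap_const ()
  have h1 := Hc_pre hp h n
  rw [e] at h1
  have h00 : Measurable (fun w : ℕ → ι => w 0) := measurable_pi_apply 0
  rw [h1, Hc_bot (μ := PP p) h00]
  congr 1
  refine Finset.sum_congr rfl fun i _ => ?_
  congr 1
  have h2 : (fun w : ℕ → ι => w 0) ⁻¹' {i} = {w | pre 1 w = fun _ => i} := by
    ext w
    simp only [Set.mem_preimage, Set.mem_singleton_iff, Set.mem_ofPred_eq]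
    constructor
    · intro h
      funext j
      have : j = 0 := Subsingleton.elim _ _
      subst this
      exact h
    · intro h
      exact congrFun h 0
  rw [h2, Measure.real, PP_pre hp]
  have h3 : pw p (fun _ : Fin 1 => i) = p i := by simp [pw]
  rw [h3, ENNReal.toReal_ofReal (hp.1 i)]

/-- **`I(w|_n; Φ) = n α_Φ`** -/
theorem info_pre {p : ι → ℝ} (hp : (∀ i, 0 ≤ p i) ∧ ∑ i, p i = 1) {Φ : (ℕ → ι) → E}
    {B : ι → E → E} (h : IsProc Φ B) (n : ℕ) :
    Hc (PP p) ⊥ (pre n) - Hc (PP p) (MeasurableSpace.comap Φ mE) (pre n) = n * alpha p Φ := by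
  rw [Hc_pre hp h, Hc_pre_bot hp]
  unfold alpha
  ring

theorem alpha_eq {p : ι → ℝ} (hp : (∀ i, 0 ≤ p i) ∧ ∑ i, p i = 1) (Φ : (ℕ → ι) → E) :
    alpha p Φ = Hc (PP p) ⊥ (fun w => w 0) -
      Hc (PP p) (MeasurableSpace.comap Φ mE) (fun w => w 0) := by
  have e0 : Hc (PP p) ⊥ (fun w : ℕ → ι => w 0) = ∑ i, negMulLog (p i) := by
    have h1 := Hc_pre_bot (p := p) hp 1
    have e1 : Hc (PP p) ⊥ (pre (ι := ι) 1) = Hc (PP p) ⊥ (fun w : ℕ → ι => w 0) := by
      rw [← Hc_equiv (Equiv.funUnique (Fin 1) ι)]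
      rfl
    rw [← e1, h1]
    simp
  unfold alpha
  rw [e0]

theorem alpha_nonneg {p : ι → ℝ} (hp : (∀ i, 0 ≤ p i) ∧ ∑ i, p i = 1) {Φ : (ℕ → ι) → E}
    (h : Measurable Φ) : 0 ≤ alpha p Φ := by
  have := isProb_PP hp
  rw [alpha_eq hp]
  have := Hc_anti (μ := PP p) (m1 := ⊥) (m2 := MeasurableSpace.comap Φ mE) bot_le h.comap_le
    (measurable_pi_apply (X := fun _ : ℕ => ι) 0)
  linarith

theorem alpha_le {p : ι → ℝ} (hp : (∀ i, 0 ≤ p i) ∧ ∑ i, p i = 1) {Φ : (ℕ → ι) → E}
    (h : Measurable Φ) : alpha p Φ ≤ ∑ i, negMulLog (p i) := by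
  have := isProb_PP hp
  have := Hc_nonneg (μ := PP p) (m := MeasurableSpace.comap Φ mE) h.comap_le
    (measurable_pi_apply (X := fun _ : ℕ => ι) 0)
  unfold alpha
  linarith

variable {E' : Type*} [mE' : MeasurableSpace E']

/-- monotonicity of `α` -/
theorem alpha_mono {p : ι → ℝ} (hp : (∀ i, 0 ≤ p i) ∧ ∑ i, p i = 1) {Φ : (ℕ → ι) → E}
    {Φ₁ : (ℕ → ι) → E'} (h : Measurable Φ)
    (hle : MeasurableSpace.comap Φ₁ mE' ≤ MeasurableSpace.comap Φ mE) :
    alpha p Φ₁ ≤ alpha p Φ := by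
  have := isProb_PP hp
  have := Hc_anti (μ := PP p) hle h.comap_le
    (measurable_pi_apply (X := fun _ : ℕ => ι) 0)
  unfold alpha
  linarith

/-- **(F2)**: equal information rates: `Φ` is a.e. a function of `Φ₁` -/
theorem F2 {p : ι → ℝ} (hp : (∀ i, 0 ≤ p i) ∧ ∑ i, p i = 1) {Φ : (ℕ → ι) → E} {B : ι → E → E}
    (h : IsProc Φ B) {Φ₁ : (ℕ → ι) → E'} {B₁ : ι → E' → E'} (h₁ : IsProc Φ₁ B₁)
    (hle : MeasurableSpace.comap Φ₁ mE' ≤ MeasurableSpace.comap Φ mE)
    (hα : alpha p Φ ≤ alpha p Φ₁) {F : (ℕ → ι) → ℝ} (hF : Integrable F (PP p))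
    (hFm : StronglyMeasurable[MeasurableSpace.comap Φ mE] F) :
    (PP p)[F | MeasurableSpace.comap Φ₁ mE'] =ᵐ[PP p] F := by
  have := isProb_PP hp
  refine condExp_eq_self_of_pi h₁.meas.comap_le h.meas.comap_le (Cyl ι) cyl_pi cyl_gen cyl_univ
    ?_ hF hFm
  rintro _ ⟨n, u, rfl⟩
  have h1 : Hc (PP p) (MeasurableSpace.comap Φ₁ mE') (pre n) ≤
      Hc (PP p) (MeasurableSpace.comap Φ mE) (pre n) := by
    rw [Hc_pre hp h, Hc_pre hp h₁]
    refine mul_le_mul_of_nonneg_left ?_ (Nat.cast_nonneg n)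
    unfold alpha at hα
    linarith
  exact cp_eq_of_Hc_le hle h.meas.comap_le (measurable_pre n) h1 u

/-- (F2) with a conclusion in terms of almost everywhere measurability -/
theorem F2_aesm {p : ι → ℝ} (hp : (∀ i, 0 ≤ p i) ∧ ∑ i, p i = 1) {Φ : (ℕ → ι) → E}
    {B : ι → E → E}
    (h : IsProc Φ B) {Φ₁ : (ℕ → ι) → E'} {B₁ : ι → E' → E'} (h₁ : IsProc Φ₁ B₁)
    (hle : MeasurableSpace.comap Φ₁ mE' ≤ MeasurableSpace.comap Φ mE)
    (hα : alpha p Φ ≤ alpha p Φ₁) {G : E → ℝ} (hG : Measurable G)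
    (hF : Integrable (fun w => G (Φ w)) (PP p)) :
    AEStronglyMeasurable[MeasurableSpace.comap Φ₁ mE'] (fun w => G (Φ w)) (PP p) := by
  have hFm : StronglyMeasurable[MeasurableSpace.comap Φ mE] (fun w => G (Φ w)) := by
    have : Measurable[MeasurableSpace.comap Φ mE] (fun w => G (Φ w)) :=
      hG.comp (comap_measurable Φ)
    exact this.stronglyMeasurable
  exact ⟨_, stronglyMeasurable_condExp, (F2 hp h h₁ hle hα hF hFm).symm⟩

end seq

end

end Crest.Agent.R98.F
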