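import Crest.Agent.R98.FDEnt
import Crest.Agent.R098.UpperA

/-!
# Row 98: cells, flows, word measure, self-similar processes (helper896, module FD)
-/

set_option autoImplicit false
set_option linter.unusedSectionVars false
set_option linter.unusedVariables false

namespace Crest.Agent.R98.FD

open MeasureTheory Real
open Crest.Agent.R098.Upper (pw sw pw_nonneg sum_succ pw_cons sw_cons sum_pw)

/-! ### integer vectors -/

section Cells

variable {Ω : Type*} [MeasurableSpace Ω] {κ : Type*} [Fintype κ] {γ δ : Type*}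

theorem ncard_int_box {κ : Type*} [Fintype κ] (c : κ → ℤ) {R : ℝ} (hR : 0 ≤ R)
    (S : Set (κ → ℤ)) (hS : ∀ v ∈ S, ∀ k, |((v k - c k : ℤ) : ℝ)| ≤ R) :
    (S.ncard : ℝ) ≤ (2 * R + 1) ^ Fintype.card κ := by
  classical
  have hsub : S ⊆ ((Fintype.piFinset fun k => Finset.Icc (c k - ⌊R⌋) (c k + ⌊R⌋) : Finset (κ → ℤ)) :
      Set (κ → ℤ)) := by
    intro v hv
    rw [Finset.mem_coe, Fintype.mem_piFinset]
    intro k
    have h := abs_le.1 (hS v hv k)
    rw [Finset.mem_Icc]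
    have h1 : v k - c k ≤ ⌊R⌋ := Int.le_floor.2 h.2
    have h2 : -(v k - c k) ≤ ⌊R⌋ := Int.le_floor.2 (by push_cast; push_cast at h; linarith [h.1])
    constructor <;> linarith
  have h1 : (S.ncard : ℝ) ≤
      ((Fintype.piFinset fun k => Finset.Icc (c k - ⌊R⌋) (c k + ⌊R⌋) : Finset (κ → ℤ)).card : ℝ) := by
    rw [Nat.cast_le, ← Set.ncard_coe_finset]
    exact Set.ncard_le_ncard hsub (Finset.finite_toSet _)
  refine h1.trans ?_
  rw [Fintype.card_piFinset]
  push_cast
  rw [← Finset.card_univ (α := κ), ← Finset.prod_const]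
  refine Finset.prod_le_prod (fun _ _ => Nat.cast_nonneg _) fun k _ => ?_
  rw [Int.card_Icc]
  have h0 : (0:ℤ) ≤ ⌊R⌋ := Int.floor_nonneg.2 hR
  have h2 : (((c k + ⌊R⌋ + 1 - (c k - ⌊R⌋)).toNat : ℕ) : ℝ)
      = ((c k + ⌊R⌋ + 1 - (c k - ⌊R⌋) : ℤ) : ℝ) := by
    rw [← Int.cast_natCast, Int.toNat_of_nonneg (by linarith)]
  rw [h2]
  push_cast
  have := Int.floor_le R
  linarith

/-- cell vector -/
noncomputable def fl (Y : Ω → κ → ℝ) : Ω → κ → ℤ := fun ω k => ⌊Y ω k⌋

theorem FV_fl {Y : Ω → κ → ℝ} (hY : Measurable Y) {B : ℝ} (hB : ∀ ω, ‖Y ω‖ ≤ B) : FV (fl Y) := by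
  classical
  constructor
  · refine Set.Finite.subset (Finset.finite_toSet
      (Fintype.piFinset fun _ : κ => Finset.Icc (⌊-B⌋) (⌊B⌋) : Finset (κ → ℤ))) ?_
    rintro _ ⟨ω, rfl⟩
    rw [Finset.mem_coe, Fintype.mem_piFinset]
    intro k
    have h := abs_le.1 (((norm_le_pi_norm (Y ω) k).trans (hB ω)))
    rw [Finset.mem_Icc]
    exact ⟨Int.floor_le_floor h.1, Int.floor_le_floor h.2⟩
  · intro v
    have : Measurable (fl Y) := by
      rw [measurable_pi_iff]
      intro k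
      exact ((measurable_pi_iff.1 hY) k).floor
    exact this (measurableSet_singleton v)

theorem fl_eq_dist {Y : Ω → κ → ℝ} {ω ω' : Ω} (h : fl Y ω = fl Y ω') : ‖Y ω - Y ω'‖ ≤ 1 := by
  rw [pi_norm_le_iff_of_nonneg zero_le_one]
  intro k
  have hk : ⌊Y ω k⌋ = ⌊Y ω' k⌋ := congrFun h k
  have := Int.abs_sub_lt_one_of_floor_eq_floor hk
  exact this.le

variable (P : Measure Ω) [IsProbabilityMeasure P]

/-- **comparison lemma** -/
theorem HP_fl_pair_le {Y : Ω → κ → ℝ} {g : Ω → δ} (hY : FV (fl Y)) (hg : FV g) {R : ℝ}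
    (hR : 0 ≤ R) (h : ∀ ω ω', g ω = g ω' → ‖Y ω - Y ω'‖ ≤ R) :
    HP P (pr (fl Y) g) ≤ HP P g + Fintype.card κ * log (2 * R + 3) := by
  have e : (Fintype.card κ : ℝ) * log (2 * R + 3) = log ((2 * R + 3) ^ Fintype.card κ) := by
    rw [log_pow]
  rw [e]
  refine HP_pair_le_log P hY hg (one_le_pow₀ (by linarith)) fun b => ?_
  rcases (g ⁻¹' {b}).eq_empty_or_nonempty with h0 | ⟨ω0, hω0⟩
  · rw [h0]
    simp only [Set.image_empty, Set.ncard_empty, Nat.cast_zero]
    positivity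
  · have := ncard_int_box (fl Y ω0) (R := R + 1) (by linarith) (fl Y '' (g ⁻¹' {b})) ?_
    · refine this.trans_eq ?_
      congr 1; ring
    · rintro _ ⟨ω, hω, rfl⟩ k
      have h1 : g ω = g ω0 := by
        rw [Set.mem_preimage, Set.mem_singleton_iff] at hω hω0
        rw [hω, hω0]
      have h2 := (norm_le_pi_norm (Y ω - Y ω0) k).trans (h ω ω0 h1)
      rw [Pi.sub_apply, Real.norm_eq_abs, abs_le] at h2
      have h3 := Int.floor_le (Y ω k)
      have h4 := Int.lt_floor_add_one (Y ω k)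
      have h5 := Int.floor_le (Y ω0 k)
      have h6 := Int.lt_floor_add_one (Y ω0 k)
      show |((⌊Y ω k⌋ - ⌊Y ω0 k⌋ : ℤ) : ℝ)| ≤ R + 1
      push_cast
      rw [abs_le]
      constructor <;> linarith

theorem HP_fl_le {Y : Ω → κ → ℝ} {g : Ω → δ} (hY : FV (fl Y)) (hg : FV g) {R : ℝ}
    (hR : 0 ≤ R) (h : ∀ ω ω', g ω = g ω' → ‖Y ω - Y ω'‖ ≤ R) :
    HP P (fl Y) ≤ HP P g + Fintype.card κ * log (2 * R + 3) :=
  (HP_le_pair_left P hY hg).trans (HP_fl_pair_le P hY hg hR h)

/-- trivial bound -/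
theorem HP_fl_le_log {Y : Ω → κ → ℝ} (hY : FV (fl Y)) {R : ℝ} (hR : 0 ≤ R)
    (h : ∀ ω, ‖Y ω‖ ≤ R) : HP P (fl Y) ≤ Fintype.card κ * log (4 * R + 3) := by
  have := HP_fl_le P hY (FV.const (Ω := Ω) ()) (R := 2 * R) (by linarith) fun ω ω' _ =>
    (norm_sub_le _ _).trans (by linarith [h ω, h ω'])
  rw [HP_const, zero_add] at this
  refine this.trans_eq ?_
  congr 2; ring

end Cells

/-! ### words -/

section Words

variable {ι : Type*}

/-- prepend a letter -/
def cs (i : ι) (w : ℕ → ι) : ℕ → ι := fun n => Nat.casesOn n i w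

/-- shift -/
def sh (w : ℕ → ι) : ℕ → ι := fun n => w (n + 1)

@[simp] theorem cs_zero (i : ι) (w : ℕ → ι) : cs i w 0 = i := rfl
@[simp] theorem cs_succ (i : ι) (w : ℕ → ι) (n : ℕ) : cs i w (n + 1) = w n := rfl
@[simp] theorem sh_cs (i : ι) (w : ℕ → ι) : sh (cs i w) = w := rfl
theorem cs_sh (w : ℕ → ι) : cs (w 0) (sh w) = w := by
  funext n; cases n <;> rfl

/-- prepend a word -/
def app : {n : ℕ} → (Fin n → ι) → (ℕ → ι) → (ℕ → ι)
  | 0, _, w => w
  | _ + 1, u, w => cs (u 0) (app (Fin.tail u) w)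

/-- first letters -/
def pre (n : ℕ) (w : ℕ → ι) : Fin n → ι := fun j => w j

theorem app_zero (u : Fin 0 → ι) (w : ℕ → ι) : app u w = w := rfl
theorem app_cons {n : ℕ} (i : ι) (u : Fin n → ι) (w : ℕ → ι) :
    app (Fin.cons i u : Fin (n + 1) → ι) w = cs i (app u w) := by
  simp [app]

theorem pre_succ (n : ℕ) (w : ℕ → ι) :
    pre (n + 1) w = (Fin.cons (w 0) (pre n (sh w)) : Fin (n + 1) → ι) := by
  funext j
  refine Fin.cases ?_ (fun j => ?_) j
  · simp [pre]
  · simp [pre, sh]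

theorem pre_app {n : ℕ} (u : Fin n → ι) (w : ℕ → ι) : pre n (app u w) = u := by
  induction n with
  | zero => exact Subsingleton.elim _ _
  | succ n ih =>
    rw [pre_succ]
    have h : app u w = cs (u 0) (app (Fin.tail u) w) := rfl
    rw [h, cs_zero, sh_cs, ih]
    exact Fin.cons_self_tail u

theorem sh_app {n : ℕ} (u : Fin n → ι) (w : ℕ → ι) : sh^[n] (app u w) = w := by
  induction n with
  | zero => rfl
  | succ n ih =>
    have h : app u w = cs (u 0) (app (Fin.tail u) w) := rfl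
    rw [h, Function.iterate_succ_apply, sh_cs, ih]

theorem app_pre (n : ℕ) (w : ℕ → ι) : app (pre n w) (sh^[n] w) = w := by
  induction n generalizing w with
  | zero => rfl
  | succ n ih =>
    rw [pre_succ, app_cons, Function.iterate_succ_apply, ih, cs_sh]

variable [MeasurableSpace ι]

theorem measurable_cs (i : ι) : Measurable (cs i : (ℕ → ι) → (ℕ → ι)) := by
  rw [measurable_pi_iff]
  intro n
  cases n with
  | zero => exact measurable_const
  | succ n => exact measurable_pi_apply n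

theorem measurable_sh : Measurable (sh : (ℕ → ι) → (ℕ → ι)) := by
  rw [measurable_pi_iff]
  intro n
  exact measurable_pi_apply (n + 1)

theorem measurable_app {n : ℕ} (u : Fin n → ι) : Measurable (app u : (ℕ → ι) → (ℕ → ι)) := by
  induction n with
  | zero => exact measurable_id
  | succ n ih => exact (measurable_cs (u 0)).comp (ih (Fin.tail u))

theorem measurable_pre (n : ℕ) : Measurable (pre n : (ℕ → ι) → (Fin n → ι)) := by
  rw [measurable_pi_iff]
  intro j
  exact measurable_pi_apply _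

variable [Fintype ι]

/-- the word measure -/
def WM (p : ι → ℝ) (P : Measure (ℕ → ι)) : Prop :=
  ∀ A, MeasurableSet A → P.real A = ∑ i, p i * P.real (cs i ⁻¹' A)

variable {p : ι → ℝ} {P : Measure (ℕ → ι)}

theorem WM.words (hP : WM p P) (n : ℕ) {A : Set (ℕ → ι)} (hA : MeasurableSet A) :
    P.real A = ∑ u : Fin n → ι, pw p u * P.real (app u ⁻¹' A) := by
  induction n generalizing A with
  | zero =>
    have e : ∀ u : Fin 0 → ι, (app u : (ℕ → ι) → ℕ → ι) ⁻¹' A = A := fun u => rfl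
    simp [pw, e]
  | succ n ih =>
    rw [sum_succ, hP A hA]
    refine Finset.sum_congr rfl fun i _ => ?_
    rw [ih (A := cs i ⁻¹' A) (measurable_cs i hA), Finset.mul_sum]
    refine Finset.sum_congr rfl fun u _ => ?_
    rw [pw_cons, mul_assoc]
    rfl

variable {γ δ : Type*} [MeasurableSingletonClass ι]

theorem FV_pre (n : ℕ) : FV (pre n : (ℕ → ι) → (Fin n → ι)) :=
  ⟨Set.toFinite _, fun v => measurable_pre n (measurableSet_singleton v)⟩

theorem FV.app {f : (ℕ → ι) → γ} (hf : FV f) {n : ℕ} (u : Fin n → ι) :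
    FV (fun w => f (app u w)) :=
  ⟨hf.fin.subset (by rintro _ ⟨w, rfl⟩; exact ⟨_, rfl⟩), fun v => measurable_app u (hf.meas v)⟩

theorem FV.sh {f : (ℕ → ι) → γ} (hf : FV f) (n : ℕ) : FV (fun w => f (sh^[n] w)) :=
  ⟨hf.fin.subset (by rintro _ ⟨w, rfl⟩; exact ⟨_, rfl⟩), fun v =>
    (measurable_sh.iterate n) (hf.meas v)⟩

/-- probability of a finite-word event and an event -/
theorem WM.real_pre_inter (hP : WM p P) {n : ℕ} (u : Fin n → ι) {A : Set (ℕ → ι)}
    (hA : MeasurableSet A) : P.real (pre n ⁻¹' {u} ∩ A) = pw p u * P.real (Crest.Agent.R98.FD.app u ⁻¹' A) := by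
  classical
  rw [hP.words n ((measurable_pre n (measurableSet_singleton u)).inter hA)]
  rw [Finset.sum_eq_single u]
  · congr 2
    ext w
    simp [pre_app]
  · intro v _ hv
    have : Crest.Agent.R98.FD.app v ⁻¹' (pre n ⁻¹' {u} ∩ A) = ∅ := by
      ext w
      simp only [Set.mem_preimage, Set.mem_inter_iff, Set.mem_singleton_iff, pre_app,
        Set.mem_empty_iff_false, iff_false, not_and]
      intro h; exact absurd h hv
    rw [this]; simp
  · intro h; exact absurd (Finset.mem_univ _) h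

variable [IsProbabilityMeasure P]

theorem WM.real_pre (hP : WM p P) {n : ℕ} (u : Fin n → ι) : P.real (pre n ⁻¹' {u}) = pw p u := by
  have := hP.real_pre_inter u MeasurableSet.univ
  simpa using this

theorem WM.HP_pre (hP : WM p P) (n : ℕ) :
    HP P (pre n : (ℕ → ι) → (Fin n → ι)) = ∑ u : Fin n → ι, negMulLog (pw p u) := by
  rw [HP_eq P Finset.univ fun _ => Finset.mem_univ _]
  exact Finset.sum_congr rfl fun u _ => by rw [hP.real_pre u]

/-- chain rule with respect to the first letters -/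
theorem WM.HP_pre_pair (hP : WM p P) (n : ℕ) {f : (ℕ → ι) → γ} (hf : FV f) :
    HP P (pr (pre n) f) = HP P (pre n : (ℕ → ι) → (Fin n → ι))
      + ∑ u : Fin n → ι, pw p u * HP P (fun w => f (Crest.Agent.R98.FD.app u w)) := by
  obtain ⟨s, hs⟩ := hf.exists_finset
  rw [HP_pair_eq P Finset.univ s (fun _ => Finset.mem_univ _) hs, hP.HP_pre n,
    ← Finset.sum_add_distrib]
  refine Finset.sum_congr rfl fun u _ => ?_
  rw [HP_eq P s (f := fun w => f (Crest.Agent.R98.FD.app u w)) (fun w => hs _)]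
  have h1 := sum_real_univ P (hf.app u) s fun w => hs _
  calc ∑ b ∈ s, negMulLog (P.real (pre n ⁻¹' {u} ∩ f ⁻¹' {b}))
      = ∑ b ∈ s, (negMulLog (pw p u) *
          P.real ((fun w => f (Crest.Agent.R98.FD.app u w)) ⁻¹' {b})
          + pw p u * negMulLog (P.real ((fun w => f (Crest.Agent.R98.FD.app u w)) ⁻¹' {b}))) := by
        refine Finset.sum_congr rfl fun b _ => ?_
        rw [hP.real_pre_inter u (hf.meas b), negMulLog_mul]
        have : Crest.Agent.R98.FD.app u ⁻¹' (f ⁻¹' {b}) = (fun w => f (Crest.Agent.R98.FD.app u w)) ⁻¹' {b} := rfl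
        rw [this]
        ring
    _ = _ := by
        rw [Finset.sum_add_distrib, ← Finset.mul_sum, ← Finset.mul_sum, h1, mul_one]

/-- mutual information of the first letters with `f` -/
noncomputable def MI (P : Measure (ℕ → ι)) (n : ℕ) (f : (ℕ → ι) → γ) : ℝ :=
  HP P (pre n : (ℕ → ι) → (Fin n → ι)) + HP P f - HP P (pr (pre n) f)

theorem WM.HP_eq_MI (hP : WM p P) (n : ℕ) {f : (ℕ → ι) → γ} (hf : FV f) :
    HP P f = MI P n f + ∑ u : Fin n → ι, pw p u * HP P (fun w => f (Crest.Agent.R98.FD.app u w)) := by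
  rw [MI, hP.HP_pre_pair n hf]; ring

theorem MI_le (n : ℕ) {f : (ℕ → ι) → γ} (hf : FV f) :
    MI P n f ≤ HP P (pre n : (ℕ → ι) → (Fin n → ι)) := by
  have := HP_le_pair_right P (FV_pre (ι := ι) n) hf
  rw [MI]; linarith

theorem MI_nonneg (n : ℕ) {f : (ℕ → ι) → γ} (hf : FV f) : 0 ≤ MI P n f := by
  have := HP_pair_le_add P (FV_pre (ι := ι) n) hf
  rw [MI]; linarith

/-- if `g` is determined by `f` up to entropy `c`, then `MI n g ≤ MI n f + c` -/
theorem MI_le_of_pair (n : ℕ) {f : (ℕ → ι) → γ} {g : (ℕ → ι) → δ} (hf : FV f) (hg : FV g)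
    {c : ℝ} (h : HP P (pr g f) ≤ HP P f + c) : MI P n g ≤ MI P n f + c := by
  have h1 := HP_submod P (FV_pre (ι := ι) n) hf hg
  -- HP (g, (pre, f)) + HP g ≤ HP (g, pre) + HP (g, f)
  have h2 : HP P (pr (pre n) f) ≤ HP P (pr g (pr (pre n) f)) :=
    HP_le_pair_right P hg ((FV_pre n).pair hf)
  have h3 : HP P (pr g (pre n)) = HP P (pr (pre n) g) := HP_comm P hg (FV_pre n)
  rw [MI, MI]
  linarith

end Words

end Crest.Agent.R98.FD
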