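import Mathlib

/-!
# Row 98: entropy of finite-valued maps on a probability space (helper896, module FD)
-/

set_option autoImplicit false
set_option linter.unusedSectionVars false
set_option linter.unusedVariables false

namespace Crest.Agent.R98.FD

open MeasureTheory Real

section Table

variable {α β : Type*}

/-- table inequality (submodularity of entropy, one conditioning value) -/
theorem table (s : Finset α) (t : Finset β) (m : α → β → ℝ) (hm : ∀ a b, 0 ≤ m a b) :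
    ∑ a ∈ s, ∑ b ∈ t, negMulLog (m a b) + negMulLog (∑ a ∈ s, ∑ b ∈ t, m a b) ≤
      ∑ a ∈ s, negMulLog (∑ b ∈ t, m a b) + ∑ b ∈ t, negMulLog (∑ a ∈ s, m a b) := by
  set R : α → ℝ := fun a => ∑ b ∈ t, m a b with hR
  set C : β → ℝ := fun b => ∑ a ∈ s, m a b with hC
  set M : ℝ := ∑ a ∈ s, ∑ b ∈ t, m a b with hM
  have hR0 : ∀ a, 0 ≤ R a := fun a => Finset.sum_nonneg fun b _ => hm a b
  have hC0 : ∀ b, 0 ≤ C b := fun b => Finset.sum_nonneg fun a _ => hm a b
  have hM0 : 0 ≤ M := Finset.sum_nonneg fun a _ => hR0 a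
  have hsumR : ∑ a ∈ s, R a = M := rfl
  have hsumC : ∑ b ∈ t, C b = M := Finset.sum_comm
  rcases hM0.eq_or_lt with h0 | hpos
  · -- everything vanishes
    have hRz : ∀ a ∈ s, R a = 0 := by
      intro a ha
      exact (Finset.sum_eq_zero_iff_of_nonneg (fun a _ => hR0 a)).1 (hsumR.trans h0.symm) a ha
    have hmz : ∀ a ∈ s, ∀ b ∈ t, m a b = 0 := by
      intro a ha b hb
      exact (Finset.sum_eq_zero_iff_of_nonneg (fun b _ => hm a b)).1 (hRz a ha) b hb
    have hCz : ∀ b ∈ t, C b = 0 := by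
      intro b hb
      exact Finset.sum_eq_zero fun a ha => hmz a ha b hb
    have e1 : ∑ a ∈ s, ∑ b ∈ t, negMulLog (m a b) = 0 :=
      Finset.sum_eq_zero fun a ha => Finset.sum_eq_zero fun b hb => by rw [hmz a ha b hb]; simp
    have e2 : ∑ a ∈ s, negMulLog (R a) = 0 :=
      Finset.sum_eq_zero fun a ha => by rw [hRz a ha]; simp
    have e3 : ∑ b ∈ t, negMulLog (C b) = 0 :=
      Finset.sum_eq_zero fun b hb => by rw [hCz b hb]; simp
    rw [e1, e2, e3, ← h0]; simp
  · have hterm : ∀ a ∈ s, ∀ b ∈ t,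
        negMulLog (m a b) + m a b * log (R a) + m a b * log (C b) - m a b * log M
          ≤ R a * C b / M - m a b := by
      intro a ha b hb
      rcases (hm a b).eq_or_lt with h | h
      · rw [← h]
        simp only [negMulLog_zero, zero_mul, add_zero, sub_zero]
        exact div_nonneg (mul_nonneg (hR0 a) (hC0 b)) hM0
      · have hRp : 0 < R a := lt_of_lt_of_le h
          (Finset.single_le_sum (f := fun b => m a b) (fun b _ => hm a b) hb)
        have hCp : 0 < C b := lt_of_lt_of_le h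
          (Finset.single_le_sum (f := fun a => m a b) (fun a _ => hm a b) ha)
        have hx : 0 < R a * C b / (m a b * M) := by positivity
        have hlog := log_le_sub_one_of_pos hx
        have e : log (R a * C b / (m a b * M)) = log (R a) + log (C b) - log (m a b) - log M := by
          rw [log_div (by positivity) (by positivity), log_mul hRp.ne' hCp.ne',
            log_mul h.ne' hpos.ne']
          ring
        rw [e] at hlog
        have := mul_le_mul_of_nonneg_left hlog h.le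
        have e2 : m a b * (R a * C b / (m a b * M) - 1) = R a * C b / M - m a b := by
          field_simp
        rw [e2] at this
        rw [negMulLog]
        linarith
    have hsum := Finset.sum_le_sum fun a ha => Finset.sum_le_sum fun b hb => hterm a ha b hb
    have eR : ∑ a ∈ s, negMulLog (R a) = - ∑ a ∈ s, ∑ b ∈ t, m a b * log (R a) := by
      rw [← Finset.sum_neg_distrib]
      refine Finset.sum_congr rfl fun a _ => ?_
      rw [← Finset.sum_mul, negMulLog]; ring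
    have eC : ∑ b ∈ t, negMulLog (C b) = - ∑ a ∈ s, ∑ b ∈ t, m a b * log (C b) := by
      rw [Finset.sum_comm, ← Finset.sum_neg_distrib]
      refine Finset.sum_congr rfl fun b _ => ?_
      rw [← Finset.sum_mul, negMulLog]; ring
    have eM : negMulLog M = - ∑ a ∈ s, ∑ b ∈ t, m a b * log M := by
      have : ∑ a ∈ s, ∑ b ∈ t, m a b * log M = M * log M := by
        rw [hM, Finset.sum_mul]
        exact Finset.sum_congr rfl fun a _ => (Finset.sum_mul _ _ _).symm
      rw [this, negMulLog]; ring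
    have eRHS : ∑ a ∈ s, ∑ b ∈ t, (R a * C b / M - m a b) = 0 := by
      have h1 : ∑ a ∈ s, ∑ b ∈ t, (R a * C b / M - m a b)
          = (∑ a ∈ s, R a) * (∑ b ∈ t, C b) / M - M := by
        rw [Finset.sum_mul_sum, Finset.sum_div, hM, ← Finset.sum_sub_distrib]
        refine Finset.sum_congr rfl fun a _ => ?_
        rw [Finset.sum_div, ← Finset.sum_sub_distrib]
      rw [h1, hsumR, hsumC]
      field_simp
      ring
    have eLHS : ∑ a ∈ s, ∑ b ∈ t,
        (negMulLog (m a b) + m a b * log (R a) + m a b * log (C b) - m a b * log M)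
        = ∑ a ∈ s, ∑ b ∈ t, negMulLog (m a b) + ∑ a ∈ s, ∑ b ∈ t, m a b * log (R a)
          + ∑ a ∈ s, ∑ b ∈ t, m a b * log (C b) - ∑ a ∈ s, ∑ b ∈ t, m a b * log M := by
      simp only [Finset.sum_add_distrib, Finset.sum_sub_distrib]
    rw [eLHS, eRHS] at hsum
    rw [eR, eC, eM]
    linarith

/-- conditional cardinality bound -/
theorem sum_negMulLog_le_log_card (s : Finset α) (m : α → ℝ) (hm : ∀ a ∈ s, 0 ≤ m a) {M : ℝ}
    (hM : 1 ≤ M) (hcard : ((s.filter fun a => m a ≠ 0).card : ℝ) ≤ M) :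
    ∑ a ∈ s, negMulLog (m a) ≤ negMulLog (∑ a ∈ s, m a) + (∑ a ∈ s, m a) * log M := by
  set T : ℝ := ∑ a ∈ s, m a with hT
  have hT0 : 0 ≤ T := Finset.sum_nonneg hm
  rcases hT0.eq_or_lt with h0 | hpos
  · have hz : ∀ a ∈ s, m a = 0 := (Finset.sum_eq_zero_iff_of_nonneg hm).1 h0.symm
    rw [← h0, Finset.sum_eq_zero fun a ha => by rw [hz a ha]; simp]
    simp
  · have hMpos : 0 < M := by linarith
    have hterm : ∀ a ∈ s, negMulLog (m a) + m a * log T - m a * log M
        ≤ (if m a ≠ 0 then T / M else 0) - m a := by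
      intro a ha
      split_ifs with h
      · have hp : 0 < m a := lt_of_le_of_ne (hm a ha) (Ne.symm h)
        have hx : 0 < T / (m a * M) := by positivity
        have hlog := log_le_sub_one_of_pos hx
        have e : log (T / (m a * M)) = log T - log (m a) - log M := by
          rw [log_div (by positivity) (by positivity), log_mul hp.ne' hMpos.ne']; ring
        rw [e] at hlog
        have := mul_le_mul_of_nonneg_left hlog hp.le
        have e2 : m a * (T / (m a * M) - 1) = T / M - m a := by field_simp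
        rw [e2] at this
        rw [negMulLog]; linarith
      · rw [not_not.1 h]; simp
    have hsum := Finset.sum_le_sum hterm
    have e1 : ∑ a ∈ s, ((if m a ≠ 0 then T / M else 0) - m a)
        = (s.filter fun a => m a ≠ 0).card * (T / M) - T := by
      rw [Finset.sum_sub_distrib, ← Finset.sum_filter, Finset.sum_const, nsmul_eq_mul]
    have e2 : ∑ a ∈ s, (negMulLog (m a) + m a * log T - m a * log M)
        = ∑ a ∈ s, negMulLog (m a) + T * log T - T * log M := by
      rw [Finset.sum_sub_distrib, Finset.sum_add_distrib, ← Finset.sum_mul, ← Finset.sum_mul]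
    rw [e1, e2] at hsum
    have h3 : ((s.filter fun a => m a ≠ 0).card : ℝ) * (T / M) - T ≤ 0 := by
      have : ((s.filter fun a => m a ≠ 0).card : ℝ) * (T / M) ≤ M * (T / M) :=
        mul_le_mul_of_nonneg_right hcard (by positivity)
      have e : M * (T / M) = T := by field_simp
      linarith
    rw [negMulLog]
    linarith

end Table

section HPdef

variable {Ω : Type*} [MeasurableSpace Ω] {γ δ ε : Type*}

/-- finite range, measurable fibres -/
structure FV (f : Ω → γ) : Prop where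
  fin : (Set.range f).Finite
  meas : ∀ v, MeasurableSet (f ⁻¹' {v})

/-- entropy of a finite-valued map -/
noncomputable def HP (P : Measure Ω) (f : Ω → γ) : ℝ := ∑' v, negMulLog (P.real (f ⁻¹' {v}))

/-- pairing -/
def pr (f : Ω → γ) (g : Ω → δ) : Ω → γ × δ := fun ω => (f ω, g ω)

theorem pr_preimage (f : Ω → γ) (g : Ω → δ) (a : γ) (b : δ) :
    pr f g ⁻¹' {(a, b)} = f ⁻¹' {a} ∩ g ⁻¹' {b} := by
  ext ω; simp [pr, Prod.ext_iff]

theorem FV.pair {f : Ω → γ} {g : Ω → δ} (hf : FV f) (hg : FV g) : FV (pr f g) := by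
  refine ⟨(hf.fin.prod hg.fin).subset ?_, ?_⟩
  · rintro _ ⟨ω, rfl⟩
    exact ⟨⟨ω, rfl⟩, ⟨ω, rfl⟩⟩
  · rintro ⟨a, b⟩
    rw [pr_preimage]
    exact (hf.meas a).inter (hg.meas b)

theorem preimage_eq_empty_of_notMem {f : Ω → γ} {v : γ} (h : v ∉ Set.range f) :
    f ⁻¹' {v} = ∅ := by
  ext ω
  simp only [Set.mem_preimage, Set.mem_singleton_iff, Set.mem_empty_iff_false, iff_false]
  intro h'
  exact h ⟨ω, h'⟩

theorem FV.meas_set {f : Ω → γ} (hf : FV f) (S : Set γ) : MeasurableSet (f ⁻¹' S) := by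
  have : f ⁻¹' S = ⋃ v ∈ Set.range f ∩ S, f ⁻¹' {v} := by
    ext ω
    simp only [Set.mem_preimage, Set.mem_iUnion, Set.mem_singleton_iff, exists_prop]
    constructor
    · intro h; exact ⟨f ω, ⟨⟨ω, rfl⟩, h⟩, rfl⟩
    · rintro ⟨v, ⟨_, hv⟩, rfl⟩; exact hv
  rw [this]
  exact (hf.fin.inter_of_left S).measurableSet_biUnion fun v _ => hf.meas v

theorem FV.comp {f : Ω → γ} (hf : FV f) (φ : γ → δ) : FV (fun ω => φ (f ω)) := by
  refine ⟨?_, fun v => ?_⟩
  · have : Set.range (fun ω => φ (f ω)) = φ '' Set.range f := by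
      rw [← Set.range_comp]; rfl
    rw [this]
    exact hf.fin.image φ
  · exact hf.meas_set (φ ⁻¹' {v})

/-- `g` is a function of `f` -/
def Det (f : Ω → γ) (g : Ω → δ) : Prop := ∀ ω ω', f ω = f ω' → g ω = g ω'

theorem Det.fac {f : Ω → γ} {g : Ω → δ} [Nonempty Ω] (h : Det f g) :
    ∃ φ : γ → δ, ∀ ω, g ω = φ (f ω) := by
  classical
  obtain ⟨ω0⟩ := ‹Nonempty Ω›
  refine ⟨fun v => if hv : ∃ ω, f ω = v then g hv.choose else g ω0, fun ω => ?_⟩
  have hv : ∃ ω', f ω' = f ω := ⟨ω, rfl⟩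
  show g ω = if hv : ∃ ω', f ω' = f ω then g hv.choose else g ω0
  rw [dif_pos hv]
  exact (h _ _ hv.choose_spec).symm

theorem HP_eq (P : Measure Ω) {f : Ω → γ} (s : Finset γ) (hs : ∀ ω, f ω ∈ s) :
    HP P f = ∑ v ∈ s, negMulLog (P.real (f ⁻¹' {v})) := by
  unfold HP
  refine tsum_eq_sum fun v hv => ?_
  rw [preimage_eq_empty_of_notMem]
  · simp
  · rintro ⟨ω, rfl⟩; exact hv (hs ω)

theorem FV.exists_finset {f : Ω → γ} (hf : FV f) : ∃ s : Finset γ, ∀ ω, f ω ∈ s :=
  ⟨hf.fin.toFinset, fun ω => by simp⟩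

theorem HP_pair_eq (P : Measure Ω) {f : Ω → γ} {g : Ω → δ} (s : Finset γ) (t : Finset δ)
    (hs : ∀ ω, f ω ∈ s) (ht : ∀ ω, g ω ∈ t) :
    HP P (pr f g) = ∑ a ∈ s, ∑ b ∈ t, negMulLog (P.real (f ⁻¹' {a} ∩ g ⁻¹' {b})) := by
  rw [HP_eq P (s ×ˢ t) (fun ω => Finset.mem_product.2 ⟨hs ω, ht ω⟩), Finset.sum_product]
  refine Finset.sum_congr rfl fun a _ => Finset.sum_congr rfl fun b _ => ?_
  rw [pr_preimage]

theorem sum_real (P : Measure Ω) [IsFiniteMeasure P] {g : Ω → δ} (hg : FV g) (t : Finset δ)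
    (ht : ∀ ω, g ω ∈ t) (A : Set Ω) : ∑ b ∈ t, P.real (A ∩ g ⁻¹' {b}) = P.real A := by
  have h1 : A = ⋃ b ∈ t, A ∩ g ⁻¹' {b} := by
    ext ω
    simp only [Set.mem_iUnion, Set.mem_inter_iff, Set.mem_preimage, Set.mem_singleton_iff,
      exists_prop]
    exact ⟨fun h => ⟨g ω, ht ω, h, rfl⟩, fun ⟨_, _, h, _⟩ => h⟩
  have h2 : P.restrict A Set.univ = P A := by simp
  have h3 : (Set.univ : Set Ω) = ⋃ b ∈ t, g ⁻¹' {b} := by
    ext ω
    simp only [Set.mem_iUnion, Set.mem_preimage, Set.mem_singleton_iff, exists_prop]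
    exact ⟨fun _ => ⟨g ω, ht ω, rfl⟩, fun _ => Set.mem_univ ω⟩
  have h4 : (P.restrict A).real Set.univ = ∑ b ∈ t, (P.restrict A).real (g ⁻¹' {b}) := by
    conv_lhs => rw [h3]
    refine measureReal_biUnion_finset ?_ fun b _ => hg.meas b
    intro a _ b _ hab
    refine Set.disjoint_left.2 fun ω ha hb => hab ?_
    simp only [Set.mem_preimage, Set.mem_singleton_iff] at ha hb
    rw [← ha, ← hb]
  have h5 : ∀ b, (P.restrict A).real (g ⁻¹' {b}) = P.real (A ∩ g ⁻¹' {b}) := by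
    intro b
    rw [measureReal_restrict_apply (hg.meas b), Set.inter_comm]
  rw [← Finset.sum_congr rfl fun b _ => h5 b, ← h4, measureReal_def, h2, measureReal_def]

theorem HP_nonneg (P : Measure Ω) [IsProbabilityMeasure P] (f : Ω → γ) : 0 ≤ HP P f :=
  tsum_nonneg fun _ => negMulLog_nonneg measureReal_nonneg measureReal_le_one

theorem negMulLog_sum_le (s : Finset γ) (m : γ → ℝ) (hm : ∀ a ∈ s, 0 ≤ m a) :
    negMulLog (∑ a ∈ s, m a) ≤ ∑ a ∈ s, negMulLog (m a) := by
  rw [negMulLog, ← neg_mul_eq_neg_mul, Finset.sum_mul, ← Finset.sum_neg_distrib]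
  refine Finset.sum_le_sum fun a ha => ?_
  rcases (hm a ha).eq_or_lt with h | h
  · rw [← h]; simp
  · rw [negMulLog, neg_mul, neg_le_neg_iff]
    exact mul_le_mul_of_nonneg_left
      (log_le_log h (Finset.single_le_sum hm ha)) h.le

variable (P : Measure Ω) [IsProbabilityMeasure P]

theorem HP_le_pair_right {f : Ω → γ} {g : Ω → δ} (hf : FV f) (hg : FV g) :
    HP P g ≤ HP P (pr f g) := by
  obtain ⟨s, hs⟩ := hf.exists_finset
  obtain ⟨t, ht⟩ := hg.exists_finset
  rw [HP_pair_eq P s t hs ht, HP_eq P t ht, Finset.sum_comm]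
  refine Finset.sum_le_sum fun b _ => ?_
  rw [← sum_real P hf s hs (g ⁻¹' {b})]
  refine (negMulLog_sum_le _ _ fun _ _ => measureReal_nonneg).trans_eq ?_
  exact Finset.sum_congr rfl fun a _ => by rw [Set.inter_comm]

/-- two maps with the same fibres have the same entropy -/
theorem HP_congr {f : Ω → γ} {g : Ω → δ} (hf : FV f) (hg : FV g)
    (h : ∀ ω ω', f ω = f ω' ↔ g ω = g ω') : HP P f = HP P g := by
  classical
  obtain ⟨ω0⟩ : Nonempty Ω := ⟨(nonempty_of_isProbabilityMeasure P).some⟩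
  have : Nonempty Ω := ⟨ω0⟩
  obtain ⟨φ, hφ⟩ := Det.fac (f := f) (g := g) fun ω ω' hh => (h ω ω').1 hh
  set s := hf.fin.toFinset with hs
  have hsm : ∀ ω, f ω ∈ s := fun ω => by simp [hs]
  have hinj : Set.InjOn φ s := by
    intro a ha b hb hab
    rw [hs, Set.Finite.coe_toFinset] at ha hb
    obtain ⟨ω, rfl⟩ := ha
    obtain ⟨ω', rfl⟩ := hb
    rw [← hφ, ← hφ] at hab
    exact (h ω ω').2 hab
  rw [HP_eq P s hsm, HP_eq P (s.image φ) (fun ω => by
    rw [hφ]; exact Finset.mem_image_of_mem _ (hsm ω)), Finset.sum_image hinj]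
  refine Finset.sum_congr rfl fun a ha => ?_
  rw [hs, Set.Finite.mem_toFinset] at ha
  obtain ⟨ω, rfl⟩ := ha
  congr 2
  ext ω'
  simp only [Set.mem_preimage, Set.mem_singleton_iff]
  rw [h ω' ω, hφ ω]

theorem HP_le_of_det {f : Ω → γ} {g : Ω → δ} (hf : FV f) (hg : FV g) (h : Det f g) :
    HP P g ≤ HP P f := by
  refine (HP_le_pair_right P hf hg).trans_eq (HP_congr P (hf.pair hg) hf fun ω ω' => ?_)
  simp only [pr, Prod.mk.injEq]
  exact ⟨fun hh => hh.1, fun hh => ⟨hh, h _ _ hh⟩⟩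

/-- **submodularity** -/
theorem HP_submod {f : Ω → γ} {g : Ω → δ} {k : Ω → ε} (hf : FV f) (hg : FV g) (hk : FV k) :
    HP P (pr k (pr f g)) + HP P k ≤ HP P (pr k f) + HP P (pr k g) := by
  obtain ⟨s, hs⟩ := hf.exists_finset
  obtain ⟨t, ht⟩ := hg.exists_finset
  obtain ⟨r, hr⟩ := hk.exists_finset
  have e1 : HP P (pr k (pr f g)) = ∑ c ∈ r, ∑ a ∈ s, ∑ b ∈ t,
      negMulLog (P.real (k ⁻¹' {c} ∩ (f ⁻¹' {a} ∩ g ⁻¹' {b}))) := by
    rw [HP_pair_eq P r (s ×ˢ t) hr fun ω => Finset.mem_product.2 ⟨hs ω, ht ω⟩]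
    refine Finset.sum_congr rfl fun c _ => ?_
    rw [Finset.sum_product]
    refine Finset.sum_congr rfl fun a _ => Finset.sum_congr rfl fun b _ => ?_
    rw [pr_preimage]
  rw [e1, HP_eq P r hr, HP_pair_eq P r s hr hs, HP_pair_eq P r t hr ht, ← Finset.sum_add_distrib,
    ← Finset.sum_add_distrib]
  refine Finset.sum_le_sum fun c _ => ?_
  have h := table s t (fun a b => P.real (k ⁻¹' {c} ∩ (f ⁻¹' {a} ∩ g ⁻¹' {b})))
    fun _ _ => measureReal_nonneg
  have h1 : ∀ a, ∑ b ∈ t, P.real (k ⁻¹' {c} ∩ (f ⁻¹' {a} ∩ g ⁻¹' {b}))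
      = P.real (k ⁻¹' {c} ∩ f ⁻¹' {a}) := by
    intro a
    rw [← sum_real P hg t ht (k ⁻¹' {c} ∩ f ⁻¹' {a})]
    exact Finset.sum_congr rfl fun b _ => by rw [Set.inter_assoc]
  have h2 : ∀ b, ∑ a ∈ s, P.real (k ⁻¹' {c} ∩ (f ⁻¹' {a} ∩ g ⁻¹' {b}))
      = P.real (k ⁻¹' {c} ∩ g ⁻¹' {b}) := by
    intro b
    rw [← sum_real P hf s hs (k ⁻¹' {c} ∩ g ⁻¹' {b})]
    refine Finset.sum_congr rfl fun a _ => ?_
    congr 1
    ext ω
    simp only [Set.mem_inter_iff]
    tauto
  simp only [h1, h2] at h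
  rw [sum_real P hf s hs] at h
  exact h

/-- **conditional cardinality bound** -/
theorem HP_pair_le_card {f : Ω → γ} {g : Ω → δ} (hf : FV f) (hg : FV g) (t : Finset δ)
    (ht : ∀ ω, g ω ∈ t) (M : δ → ℝ) (hM : ∀ b ∈ t, 1 ≤ M b)
    (h : ∀ b ∈ t, ((f '' (g ⁻¹' {b})).ncard : ℝ) ≤ M b) :
    HP P (pr f g) ≤ HP P g + ∑ b ∈ t, P.real (g ⁻¹' {b}) * log (M b) := by
  classical
  obtain ⟨s, hs⟩ := hf.exists_finset
  rw [HP_pair_eq P s t hs ht, HP_eq P t ht, Finset.sum_comm, ← Finset.sum_add_distrib]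
  refine Finset.sum_le_sum fun b hb => ?_
  have h1 : ∑ a ∈ s, P.real (f ⁻¹' {a} ∩ g ⁻¹' {b}) = P.real (g ⁻¹' {b}) := by
    rw [← sum_real P hf s hs (g ⁻¹' {b})]
    exact Finset.sum_congr rfl fun a _ => by rw [Set.inter_comm]
  have hcard : (((s.filter fun a => P.real (f ⁻¹' {a} ∩ g ⁻¹' {b}) ≠ 0).card : ℕ) : ℝ)
      ≤ M b := by
    refine le_trans ?_ (h b hb)
    rw [Nat.cast_le, ← Set.ncard_coe_finset]
    refine Set.ncard_le_ncard ?_ (hf.fin.subset (Set.image_subset_range _ _))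
    intro a ha
    rw [Finset.mem_coe, Finset.mem_filter] at ha
    have : (f ⁻¹' {a} ∩ g ⁻¹' {b}).Nonempty := by
      by_contra hne
      rw [Set.not_nonempty_iff_eq_empty] at hne
      exact ha.2 (by rw [hne]; simp)
    obtain ⟨ω, hω1, hω2⟩ := this
    exact ⟨ω, hω2, hω1⟩
  have := sum_negMulLog_le_log_card s (fun a => P.real (f ⁻¹' {a} ∩ g ⁻¹' {b}))
    (fun _ _ => measureReal_nonneg) (hM b hb) hcard
  rw [h1] at this
  exact this

theorem sum_real_univ {g : Ω → δ} (hg : FV g) (t : Finset δ) (ht : ∀ ω, g ω ∈ t) :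
    ∑ b ∈ t, P.real (g ⁻¹' {b}) = 1 := by
  have := sum_real P hg t ht Set.univ
  simpa using this

/-- uniform conditional cardinality bound -/
theorem HP_pair_le_log {f : Ω → γ} {g : Ω → δ} (hf : FV f) (hg : FV g) {M : ℝ} (hM : 1 ≤ M)
    (h : ∀ b, ((f '' (g ⁻¹' {b})).ncard : ℝ) ≤ M) :
    HP P (pr f g) ≤ HP P g + log M := by
  obtain ⟨t, ht⟩ := hg.exists_finset
  have := HP_pair_le_card P hf hg t ht (fun _ => M) (fun _ _ => hM) fun b _ => h b
  rwa [← Finset.sum_mul, sum_real_univ P hg t ht, one_mul] at this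

theorem HP_const (c : γ) : HP P (fun _ : Ω => c) = 0 := by
  classical
  rw [HP_eq P {c} fun _ => by simp, Finset.sum_singleton]
  have : (fun _ : Ω => c) ⁻¹' {c} = Set.univ := by ext; simp
  rw [this]; simp

theorem FV.const (c : γ) : FV (fun _ : Ω => c) :=
  ⟨(Set.finite_singleton c).subset (by rintro _ ⟨_, rfl⟩; rfl), fun v => by
    by_cases h : c = v
    · have : (fun _ : Ω => c) ⁻¹' {v} = Set.univ := by ext; simp [h]
      rw [this]; exact MeasurableSet.univ
    · have : (fun _ : Ω => c) ⁻¹' {v} = ∅ := by ext; simp [h]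
      rw [this]; exact MeasurableSet.empty⟩

theorem HP_comm {f : Ω → γ} {g : Ω → δ} (hf : FV f) (hg : FV g) :
    HP P (pr f g) = HP P (pr g f) :=
  HP_congr P (hf.pair hg) (hg.pair hf) fun ω ω' => by
    simp only [pr, Prod.mk.injEq]; tauto

theorem HP_pair_le_add {f : Ω → γ} {g : Ω → δ} (hf : FV f) (hg : FV g) :
    HP P (pr f g) ≤ HP P f + HP P g := by
  have h := HP_submod P hf hg (FV.const (Ω := Ω) ())
  rw [HP_const, add_zero] at h
  have e1 : HP P (pr (fun _ : Ω => ()) (pr f g)) = HP P (pr f g) :=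
    HP_congr P ((FV.const ()).pair (hf.pair hg)) (hf.pair hg) fun ω ω' => by simp [pr]
  have e2 : HP P (pr (fun _ : Ω => ()) f) = HP P f :=
    HP_congr P ((FV.const ()).pair hf) hf fun ω ω' => by simp [pr]
  have e3 : HP P (pr (fun _ : Ω => ()) g) = HP P g :=
    HP_congr P ((FV.const ()).pair hg) hg fun ω ω' => by simp [pr]
  rw [e1, e2, e3] at h
  exact h

theorem HP_le_pair_left {f : Ω → γ} {g : Ω → δ} (hf : FV f) (hg : FV g) :
    HP P f ≤ HP P (pr f g) := by
  rw [HP_comm P hf hg]; exact HP_le_pair_right P hg hf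

/-- entropy of an independent pair -/
theorem HP_indep {f : Ω → γ} {g : Ω → δ} (hf : FV f) (hg : FV g)
    (h : ∀ a b, P.real (f ⁻¹' {a} ∩ g ⁻¹' {b}) = P.real (f ⁻¹' {a}) * P.real (g ⁻¹' {b})) :
    HP P (pr f g) = HP P f + HP P g := by
  obtain ⟨s, hs⟩ := hf.exists_finset
  obtain ⟨t, ht⟩ := hg.exists_finset
  rw [HP_pair_eq P s t hs ht, HP_eq P s hs, HP_eq P t ht]
  have h1 := sum_real_univ P hf s hs
  have h2 := sum_real_univ P hg t ht
  calc ∑ a ∈ s, ∑ b ∈ t, negMulLog (P.real (f ⁻¹' {a} ∩ g ⁻¹' {b}))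
      = ∑ a ∈ s, ∑ b ∈ t, (negMulLog (P.real (f ⁻¹' {a})) * P.real (g ⁻¹' {b})
          + P.real (f ⁻¹' {a}) * negMulLog (P.real (g ⁻¹' {b}))) := by
        refine Finset.sum_congr rfl fun a _ => Finset.sum_congr rfl fun b _ => ?_
        rw [h, negMulLog_mul]; ring
    _ = ∑ a ∈ s, (negMulLog (P.real (f ⁻¹' {a}))
          + P.real (f ⁻¹' {a}) * ∑ b ∈ t, negMulLog (P.real (g ⁻¹' {b}))) := by
        refine Finset.sum_congr rfl fun a _ => ?_
        rw [Finset.sum_add_distrib, ← Finset.mul_sum, ← Finset.mul_sum, h2, mul_one]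
    _ = _ := by
        rw [Finset.sum_add_distrib, ← Finset.sum_mul, h1, one_mul]

end HPdef

end Crest.Agent.R98.FD
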