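import Crest.Agent.R98.FDJoint
import Crest.Agent.R98.Word5

/-!
# Row 98: (F3) in the class form of the ending (helper896, FD)
-/

set_option autoImplicit false
set_option linter.unusedSectionVars false
set_option linter.unusedVariables false

namespace Crest.Agent.R98.FD

open MeasureTheory Real Filter Topology
open Crest.Agent.R098.Upper (pw sw pw_nonneg sum_succ pw_cons sw_cons sum_pw)
open Crest.Agent.R98 (PP scons isProb_PP PP_cons rayR gen pfin wtype cw rho Fac)

/-- the one-dimensional flow -/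
noncomputable def eFlow : Flow Unit where
  A := fun x => exp (-x) • LinearMap.id
  zero := by intro v; simp
  add := by
    intro x y v
    simp only [LinearMap.smul_apply, LinearMap.id_apply, smul_smul]
    rw [neg_add, exp_add]
  C := 1
  d := 0
  hC := le_rfl
  hd0 := le_rfl
  hd := by norm_num
  bd := by
    intro x hx v
    simp only [LinearMap.smul_apply, LinearMap.id_apply]
    rw [norm_smul, Real.norm_eq_abs, abs_of_pos (exp_pos _)]
    simp
  bd' := by
    intro x hx v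
    simp only [LinearMap.smul_apply, LinearMap.id_apply]
    rw [norm_smul, Real.norm_eq_abs, abs_of_pos (exp_pos _)]
    simp

theorem eFlow_A (x : ℝ) (v : Unit → ℝ) : eFlow.A x v = exp (-x) • v := rfl

section One

variable {ι : Type*} [Fintype ι] [Nonempty ι] [MeasurableSpace ι] [DiscreteMeasurableSpace ι]
  {σ ℓ : ι → ℝ}

theorem rayR0_eq (σ ℓ : ι → ℝ) (i : ι) : rayR σ ℓ 0 i = σ i * exp (-(ℓ i)) := by
  simp [rayR]

theorem abs_rayR0_le (hσ : ∀ i, |σ i| = 1) {ℓ0 : ℝ} (h0 : ∀ i, ℓ0 ≤ ℓ i) (i : ι) :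
    |rayR σ ℓ 0 i| ≤ exp (-ℓ0) := by
  rw [rayR0_eq, abs_mul, hσ, one_mul, abs_of_pos (exp_pos _), exp_le_exp]
  linarith [h0 i]

/-- the real process `Π_ω` -/
noncomputable def oneProc (hσ : ∀ i, |σ i| = 1) {ℓ0 : ℝ} (hpos : 0 < ℓ0) (h0 : ∀ i, ℓ0 ≤ ℓ i)
    (t : ι → ℝ) : Proc ℓ σ Unit where
  F := eFlow
  b := fun i _ => t i
  Φ := fun w _ => Crest.Agent.R98.Pi (rayR σ ℓ 0) t w
  B := (∑ i, |t i|) / (1 - exp (-ℓ0))
  meas := by
    rw [measurable_pi_iff]
    intro _
    exact Crest.Agent.R98.measurable_Pi (abs_rayR0_le hσ h0) (by rw [exp_lt_one_iff]; linarith) t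
  hB := by
    intro w
    have h1 : exp (-ℓ0) < 1 := by rw [exp_lt_one_iff]; linarith
    have h2 := Crest.Agent.R98.abs_Pi_le (abs_rayR0_le hσ h0) h1 t w
    rw [pi_norm_le_iff_of_nonneg ((abs_nonneg _).trans h2)]
    intro _
    exact h2
  rec' := by
    intro i w
    have h1 : exp (-ℓ0) < 1 := by rw [exp_lt_one_iff]; linarith
    funext k
    rw [cs_eq_scons]
    show Crest.Agent.R98.Pi (rayR σ ℓ 0) t (scons i w) = _
    rw [Crest.Agent.R98.Pi_scons (abs_rayR0_le hσ h0) h1, rayR0_eq, eFlow_A]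
    simp only [Pi.add_apply, Pi.smul_apply, smul_eq_mul]
    ring

theorem oneProc_fin (hσ : ∀ i, |σ i| = 1) {ℓ0 : ℝ} (hpos : 0 < ℓ0) (h0 : ∀ i, ℓ0 ≤ ℓ i)
    (t : ι → ℝ) {n : ℕ} (u : Fin n → ι) :
    (oneProc hσ hpos h0 t).fin u = fun _ => ∑ i, cw (rayR σ ℓ 0) u i * t i := by
  classical
  induction n with
  | zero =>
    show (0 : Unit → ℝ) = _
    funext _
    simp
  | succ n ih =>
    have h1 : (oneProc hσ hpos h0 t).fin u = σ (u 0) • eFlow.A (ℓ (u 0))
      ((oneProc hσ hpos h0 t).fin (Fin.tail u)) + fun _ => t (u 0) := rfl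
    rw [h1, ih, eFlow_A]
    funext k
    have h2 : ∀ i, cw (rayR σ ℓ 0) u i = (if u 0 = i then 1 else 0)
        + rayR σ ℓ 0 (u 0) * cw (rayR σ ℓ 0) (Fin.tail u) i := by
      intro i
      have h3 := Crest.Agent.R98.cw_cons (rayR σ ℓ 0) (u 0) (Fin.tail u) i
      rw [Fin.cons_self_tail] at h3
      rw [h3]
    simp only [h2, add_mul, Finset.sum_add_distrib, ite_mul, one_mul, zero_mul,
      Finset.sum_ite_eq, Finset.mem_univ, if_true, Pi.add_apply, Pi.smul_apply, smul_eq_mul]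
    rw [rayR0_eq]
    simp only [mul_assoc, ← Finset.mul_sum]
    ring

end One

section Main

variable {ι : Type*} [Fintype ι] [Nonempty ι] [MeasurableSpace ι] [DiscreteMeasurableSpace ι]
  {σ ℓ p : ι → ℝ} {E : Type*} [NormedAddCommGroup E] [NormedSpace ℝ E] [FiniteDimensional ℝ E]

theorem sw_eq_of_wtype {n : ℕ} {u v : Fin n → ι} (h : wtype u = wtype v) (l : ι → ℝ) :
    sw l u = sw l v := by
  classical
  have key : ∀ u : Fin n → ι, sw l u = ∑ i, wtype u i * l i := by
    intro u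
    unfold sw wtype
    rw [← Finset.sum_fiberwise_of_maps_to (s := Finset.univ) (t := Finset.univ) (g := u)
      (fun _ _ => Finset.mem_univ _)]
    refine Finset.sum_congr rfl fun i _ => ?_
    rw [Finset.sum_congr rfl fun j hj => by rw [(Finset.mem_filter.1 hj).2]]
    rw [Finset.sum_const, nsmul_eq_mul]
  rw [key, key, h]

/-- **(F3)**: collapse is inherited by the functionals which are measurable with respect to the
projection -/
theorem F3 (hσ : ∀ i, |σ i| = 1) (hℓ : ∀ i, 0 < ℓ i) (hp : (∀ i, 0 ≤ p i) ∧ ∑ i, p i = 1)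
    (t : ι → ℝ) {L : E →L[ℝ] E} {C d : ℝ} (hL : GB L C d) {b : ι → E} {Φ : (ℕ → ι) → E}
    (hΦ : Crest.Agent.R98.IsProc (gen σ ℓ L) b Φ)
    (hfac : ∀ φ : E →L[ℝ] ℝ, Fac p (Crest.Agent.R98.Pi (rayR σ ℓ 0) t) (fun w => φ (Φ w)))
    (hcol : ∀ q > 0, ∀ η > 0, ∀ᶠ n : ℕ in atTop, ∃ S : Setoid (Fin n → ι),
      Part.HS (pw p) S ≤ (F.alpha p (Crest.Agent.R98.Pi (rayR σ ℓ 0) t) + η) * n ∧
      ∀ u v, S u v → wtype u = wtype v ∧
        |∑ i, (cw (rayR σ ℓ 0) u i - cw (rayR σ ℓ 0) v i) * t i| ≤ exp (-q * n))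
    {q : ℝ} (hq : 0 < q) {η : ℝ} (hη : 0 < η) :
    ∀ᶠ n : ℕ in atTop, ∃ S : Setoid (Fin n → ι),
      Part.HS (pw p) S ≤ (F.alpha p (Crest.Agent.R98.Pi (rayR σ ℓ 0) t) + η) * n ∧
      ∀ u v, S u v → wtype u = wtype v ∧
        ‖pfin (gen σ ℓ L) b u - pfin (gen σ ℓ L) b v‖ ≤ exp (-q * n) := by
  classical
  have hprob := isProb_PP hp
  have hP := WM_PP hp
  obtain ⟨ℓ0, M, h0, hal, hM⟩ := exists_bounds hℓ
  obtain ⟨B, hB⟩ := hΦ.bdd
  set e := (Module.finBasis ℝ E).equivFunL with he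
  set X := mkProc e hL hΦ hB with hX
  set Y := oneProc hσ h0 hal t with hY
  set α := F.alpha p (Crest.Agent.R98.Pi (rayR σ ℓ 0) t) with hα
  have hr : ∀ i, |rayR σ ℓ 0 i| ≤ exp (-ℓ0) := abs_rayR0_le hσ hal
  have h1 : exp (-ℓ0) < 1 := by rw [exp_lt_one_iff]; linarith
  have hPim : Measurable (Crest.Agent.R98.Pi (rayR σ ℓ 0) t) :=
    Crest.Agent.R98.measurable_Pi hr h1 t
  -- the rate of the joint process
  have hαj : F.alpha p (X.joint Y).Φ ≤ F.alpha p Y.Φ := by
    have h2 : F.alpha p (X.joint Y).Φ ≤ α := by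
      refine F.alpha_le_of_fac_pi hp hPim (X.joint Y).meas fun k => ?_
      rcases k with k | k
      · have h3 := hfac ((ContinuousLinearMap.proj (R := ℝ) (φ := fun _ => ℝ) k).comp
          (e : E →L[ℝ] (Fin (Module.finrank ℝ E) → ℝ)))
        exact h3
      · exact Fac.self p _
    have h3 : α ≤ F.alpha p Y.Φ := by
      refine F.alpha_mono hp Y.meas ?_
      have e1 : Crest.Agent.R98.Pi (rayR σ ℓ 0) t = (fun v : Unit → ℝ => v ()) ∘ Y.Φ := rfl
      rw [e1, ← MeasurableSpace.comap_comp]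
      exact MeasurableSpace.comap_mono (measurable_pi_apply ()).comap_le
    exact h2.trans h3
  set q' : ℝ := 2 * q + 2 with hq'
  have hq'0 : 0 < q' := by positivity
  obtain ⟨D, hD⟩ := Proc.cond_small hp hσ hℓ X Y hαj (ε := η / (3 * q')) (by positivity)
  -- eventually
  set K1 : ℝ := Fintype.card (Fin (Module.finrank ℝ E)) * log (2 * (1 + X.F.C) + 3)
    + Fintype.card Unit * log (2 * (1 + Y.F.C) + 3) with hK1
  set Q : ℝ := ‖(e.symm : (Fin (Module.finrank ℝ E) → ℝ) →L[ℝ] E)‖ * X.F.C with hQ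
  have hev1 : ∀ᶠ n : ℕ in atTop, D + K1 + log 5 ≤ η / 3 * n := by
    have : Tendsto (fun n : ℕ => η / 3 * (n : ℝ)) atTop atTop :=
      tendsto_natCast_atTop_atTop.const_mul_atTop (by positivity)
    exact this.eventually_ge_atTop _
  have hev2 : ∀ᶠ n : ℕ in atTop, Q ≤ exp (n : ℝ) := by
    have : Tendsto (fun n : ℕ => exp (n : ℝ)) atTop atTop :=
      tendsto_exp_atTop.comp tendsto_natCast_atTop_atTop
    exact this.eventually_ge_atTop _
  filter_upwards [hcol q' hq'0 (η / 3) (by positivity), hev1, hev2] with n hn h2 h3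
  obtain ⟨S', hS', hS'c⟩ := hn
  set x : ℝ := q' * n with hx
  have hx0 : 0 ≤ x := by positivity
  set g : (Fin n → ι) → (Fin (Module.finrank ℝ E) → ℤ) × (ι → ℕ) :=
    fun u => ((fun k => ⌊X.F.A (-x) (X.fin u) k⌋), wtype u) with hg
  refine ⟨Setoid.ker g, ?_, ?_⟩
  · have e1 : Part.HS (pw p) (Setoid.ker g)
        = HP (PP p) (pr (X.fcell n x) fun w => wtype (pre n w)) := by
      rw [← HP_word hP g]; rfl
    have h4 := Proc.transfer (P := PP p) hP hℓ hσ X Y n x (fun u : Fin n → ι => wtype u)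
      (fun u v huv => ⟨sw_eq_of_wtype huv ℓ, Crest.Agent.R98.rho_congr_wtype σ huv⟩)
    have h5 := hD x hx0
    have h6 : HP (PP p) (pr (Y.fcell n x) fun w => wtype (pre n w))
        ≤ Part.HS (pw p) S' + log 5 := by
      have h7 : HP (PP p) (pr (Y.fcell n x) fun w => (Quotient.mk S' (pre n w) : Quotient S'))
          ≤ HP (PP p) (fun w => (Quotient.mk S' (pre n w) : Quotient S'))
            + Fintype.card Unit * log (2 * 1 + 3) := by
        refine HP_fl_pair_le (PP p) (Y.FV_fcell n x) (FV_word _) zero_le_one fun w w' hw => ?_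
        have h8 := (hS'c _ _ (Quotient.eq.1 hw)).2
        rw [hY, oneProc_fin, oneProc_fin]
        have e2 : (oneProc hσ h0 hal t).F = eFlow := rfl
        rw [e2, ← map_sub, eFlow_A, neg_neg, norm_smul, Real.norm_eq_abs, abs_of_pos (exp_pos _)]
        have e3 : ‖(fun _ : Unit => ∑ i, cw (rayR σ ℓ 0) (pre n w) i * t i)
            - fun _ => ∑ i, cw (rayR σ ℓ 0) (pre n w') i * t i‖ ≤ exp (-q' * n) := by
          rw [pi_norm_le_iff_of_nonneg (exp_pos _).le]
          intro _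
          rw [Pi.sub_apply, ← Finset.sum_sub_distrib, Real.norm_eq_abs]
          simp only [← sub_mul]
          exact h8
        calc exp x * _ ≤ exp x * exp (-q' * n) := mul_le_mul_of_nonneg_left e3 (exp_pos _).le
          _ = 1 := by rw [← exp_add, hx]; ring_nf; simp
      rw [HP_setoid hP S'] at h7
      have h9 : HP (PP p) (pr (Y.fcell n x) fun w => wtype (pre n w))
          ≤ HP (PP p) (pr (Y.fcell n x) fun w => (Quotient.mk S' (pre n w) : Quotient S')) :=
        HP_le_of_det (PP p) ((Y.FV_fcell n x).pair (FV_word _))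
          ((Y.FV_fcell n x).pair (FV_word (fun u : Fin n → ι => wtype u))) fun w w' hw => by
            simp only [pr, Prod.mk.injEq] at hw ⊢
            exact ⟨hw.1, (hS'c _ _ (Quotient.eq.1 hw.2)).1⟩
      have e4 : (Fintype.card Unit : ℝ) * log (2 * 1 + 3) = log 5 := by
        rw [Fintype.card_unit]; norm_num
      rw [e4] at h7
      linarith
    rw [e1]
    have h10 : η / (3 * q') * x = η / 3 * n := by rw [hx]; field_simp
    rw [h10] at h5
    have h11 : (α + η) * n = (α + η / 3) * n + η / 3 * n + η / 3 * n := by ring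
    rw [h11]
    linarith
  · intro u v huv
    have h4 : g u = g v := huv
    have h5 : wtype u = wtype v := congrArg Prod.snd h4
    refine ⟨h5, ?_⟩
    have h6 : (fun k => ⌊X.F.A (-x) (X.fin u) k⌋) = fun k => ⌊X.F.A (-x) (X.fin v) k⌋ :=
      congrArg Prod.fst h4
    have h7 : ‖X.F.A (-x) (X.fin u) - X.F.A (-x) (X.fin v)‖ ≤ 1 := by
      rw [pi_norm_le_iff_of_nonneg zero_le_one]
      intro k
      exact (Int.abs_sub_lt_one_of_floor_eq_floor (congrFun h6 k)).le
    have h8 : ‖X.fin u - X.fin v‖ ≤ X.F.C * exp (-((q + 1) * n)) := by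
      have e1 : X.fin u - X.fin v = X.F.A x (X.F.A (-x) (X.fin u) - X.F.A (-x) (X.fin v)) := by
        rw [map_sub, X.F.cancel, X.F.cancel]
      rw [e1]
      refine (X.F.bd x hx0 _).trans ?_
      have h9 : exp (-((1 - X.F.d) * x)) ≤ exp (-((q + 1) * n)) := by
        rw [exp_le_exp]
        have h10 := X.F.hd
        have h11 : (q + 1) * (n : ℝ) = x / 2 := by rw [hx, hq']; ring
        rw [h11]
        nlinarith
      calc X.F.C * exp (-((1 - X.F.d) * x)) * _ ≤ X.F.C * exp (-((q + 1) * n)) * 1 := by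
            refine mul_le_mul (mul_le_mul_of_nonneg_left h9 X.F.hC0.le) h7 (norm_nonneg _) ?_
            exact mul_nonneg X.F.hC0.le (exp_pos _).le
        _ = _ := mul_one _
    have h9 : pfin (gen σ ℓ L) b u - pfin (gen σ ℓ L) b v = e.symm (X.fin u - X.fin v) := by
      rw [hX, mkProc_fin, mkProc_fin, ← map_sub, e.symm_apply_apply]
    rw [h9]
    refine ((e.symm : (Fin (Module.finrank ℝ E) → ℝ) →L[ℝ] E).le_opNorm _).trans ?_
    calc _ ≤ ‖(e.symm : (Fin (Module.finrank ℝ E) → ℝ) →L[ℝ] E)‖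
          * (X.F.C * exp (-((q + 1) * n))) := mul_le_mul_of_nonneg_left h8 (norm_nonneg _)
      _ = Q * exp (-((q + 1) * n)) := by rw [hQ]; ring
      _ ≤ exp n * exp (-((q + 1) * n)) := mul_le_mul_of_nonneg_right h3 (exp_pos _).le
      _ = exp (-q * n) := by rw [← exp_add]; ring_nf

end Main

end Crest.Agent.R98.FD
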