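import Crest.Agent.R98.FDPack

/-!
# Row 98: joint processes and the transfer of collapse, (F3) (helper896, FD)
-/

set_option autoImplicit false
set_option linter.unusedSectionVars false
set_option linter.unusedVariables false

namespace Crest.Agent.R98.FD

open MeasureTheory Real Filter Topology
open Crest.Agent.R098.Upper (pw sw pw_nonneg sum_succ pw_cons sw_cons sum_pw)
open Crest.Agent.R98 (PP scons isProb_PP PP_cons)

section JointFlow

variable {κ κ' : Type*} [Fintype κ] [Fintype κ']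

theorem norm_sumElim_le {a : κ → ℝ} {b : κ' → ℝ} {r : ℝ} (hr : 0 ≤ r) (ha : ‖a‖ ≤ r)
    (hb : ‖b‖ ≤ r) : ‖(Sum.elim a b : κ ⊕ κ' → ℝ)‖ ≤ r := by
  rw [pi_norm_le_iff_of_nonneg hr]
  rintro (i | i)
  · exact (norm_le_pi_norm a i).trans ha
  · exact (norm_le_pi_norm b i).trans hb

theorem norm_inl_le (v : κ ⊕ κ' → ℝ) : ‖fun i => v (Sum.inl i)‖ ≤ ‖v‖ := by
  rw [pi_norm_le_iff_of_nonneg (norm_nonneg _)]
  intro i
  exact norm_le_pi_norm v _

theorem norm_inr_le (v : κ ⊕ κ' → ℝ) : ‖fun i => v (Sum.inr i)‖ ≤ ‖v‖ := by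
  rw [pi_norm_le_iff_of_nonneg (norm_nonneg _)]
  intro i
  exact norm_le_pi_norm v _

/-- the joint flow -/
noncomputable def jFlow (F : Flow κ) (F' : Flow κ') : Flow (κ ⊕ κ') where
  A := fun x =>
    { toFun := fun v => Sum.elim (F.A x fun i => v (Sum.inl i)) (F'.A x fun i => v (Sum.inr i))
      map_add' := by
        intro v w
        funext i
        rcases i with i | i
        · have : (fun i => (v + w) (Sum.inl i)) = (fun i => v (Sum.inl i)) + fun i => w (Sum.inl i) :=
            rfl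
          simp only [Sum.elim_inl, Pi.add_apply]
          have h := congrFun (map_add (F.A x) (fun i => v (Sum.inl i)) fun i => w (Sum.inl i)) i
          exact h
        · have h := congrFun (map_add (F'.A x) (fun i => v (Sum.inr i)) fun i => w (Sum.inr i)) i
          exact h
      map_smul' := by
        intro c v
        funext i
        rcases i with i | i
        · exact congrFun (map_smul (F.A x) c fun i => v (Sum.inl i)) i
        · exact congrFun (map_smul (F'.A x) c fun i => v (Sum.inr i)) i }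
  zero := by
    intro v
    funext i
    rcases i with i | i
    · exact congrFun (F.zero fun i => v (Sum.inl i)) i
    · exact congrFun (F'.zero fun i => v (Sum.inr i)) i
  add := by
    intro x y v
    funext i
    rcases i with i | i
    · exact congrFun (F.add x y fun i => v (Sum.inl i)) i
    · exact congrFun (F'.add x y fun i => v (Sum.inr i)) i
  C := max F.C F'.C
  d := max F.d F'.d
  hC := F.hC.trans (le_max_left _ _)
  hd0 := F.hd0.trans (le_max_left _ _)
  hd := max_le F.hd F'.hd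
  bd := by
    intro x hx v
    have h0 : 0 ≤ max F.C F'.C * exp (-((1 - max F.d F'.d) * x)) * ‖v‖ := by
      have := F.hC0.le.trans (le_max_left F.C F'.C)
      positivity
    refine norm_sumElim_le h0 ?_ ?_
    · refine (F.bd x hx _).trans ?_
      have h1 : exp (-((1 - F.d) * x)) ≤ exp (-((1 - max F.d F'.d) * x)) := by
        rw [exp_le_exp]
        have := le_max_left F.d F'.d
        nlinarith
      exact mul_le_mul (mul_le_mul (le_max_left _ _) h1 (exp_pos _).le
        (F.hC0.le.trans (le_max_left _ _))) (norm_inl_le v) (norm_nonneg _)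
        (mul_nonneg (F.hC0.le.trans (le_max_left _ _)) (exp_pos _).le)
    · refine (F'.bd x hx _).trans ?_
      have h1 : exp (-((1 - F'.d) * x)) ≤ exp (-((1 - max F.d F'.d) * x)) := by
        rw [exp_le_exp]
        have := le_max_right F.d F'.d
        nlinarith
      exact mul_le_mul (mul_le_mul (le_max_right _ _) h1 (exp_pos _).le
        (F.hC0.le.trans (le_max_left _ _))) (norm_inr_le v) (norm_nonneg _)
        (mul_nonneg (F.hC0.le.trans (le_max_left _ _)) (exp_pos _).le)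
  bd' := by
    intro x hx v
    have h0 : 0 ≤ max F.C F'.C * exp ((1 + max F.d F'.d) * x) * ‖v‖ := by
      have := F.hC0.le.trans (le_max_left F.C F'.C)
      positivity
    refine norm_sumElim_le h0 ?_ ?_
    · refine (F.bd' x hx _).trans ?_
      have h1 : exp ((1 + F.d) * x) ≤ exp ((1 + max F.d F'.d) * x) := by
        rw [exp_le_exp]
        have := le_max_left F.d F'.d
        nlinarith
      exact mul_le_mul (mul_le_mul (le_max_left _ _) h1 (exp_pos _).le
        (F.hC0.le.trans (le_max_left _ _))) (norm_inl_le v) (norm_nonneg _)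
        (mul_nonneg (F.hC0.le.trans (le_max_left _ _)) (exp_pos _).le)
    · refine (F'.bd' x hx _).trans ?_
      have h1 : exp ((1 + F'.d) * x) ≤ exp ((1 + max F.d F'.d) * x) := by
        rw [exp_le_exp]
        have := le_max_right F.d F'.d
        nlinarith
      exact mul_le_mul (mul_le_mul (le_max_right _ _) h1 (exp_pos _).le
        (F.hC0.le.trans (le_max_left _ _))) (norm_inr_le v) (norm_nonneg _)
        (mul_nonneg (F.hC0.le.trans (le_max_left _ _)) (exp_pos _).le)

theorem jFlow_A (F : Flow κ) (F' : Flow κ') (x : ℝ) (v : κ ⊕ κ' → ℝ) :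
    (jFlow F F').A x v
      = Sum.elim (F.A x fun i => v (Sum.inl i)) (F'.A x fun i => v (Sum.inr i)) := rfl

end JointFlow

namespace Proc

variable {ι : Type*} [Fintype ι] [Nonempty ι] [MeasurableSpace ι] [DiscreteMeasurableSpace ι]
  {l sg : ι → ℝ} {κ κ' : Type*} [Fintype κ] [Fintype κ']
  {p : ι → ℝ} {P : Measure (ℕ → ι)} [IsProbabilityMeasure P]

/-- the joint process -/
noncomputable def joint (X : Proc l sg κ) (Y : Proc l sg κ') : Proc l sg (κ ⊕ κ') where
  F := jFlow X.F Y.F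
  b := fun i => Sum.elim (X.b i) (Y.b i)
  Φ := fun w => Sum.elim (X.Φ w) (Y.Φ w)
  B := max X.B Y.B
  meas := by
    rw [measurable_pi_iff]
    rintro (i | i)
    · exact (measurable_pi_iff.1 X.meas) i
    · exact (measurable_pi_iff.1 Y.meas) i
  hB := fun w => norm_sumElim_le (X.B_nonneg.trans (le_max_left _ _))
    ((X.hB w).trans (le_max_left _ _)) ((Y.hB w).trans (le_max_right _ _))
  rec' := by
    intro i w
    funext j
    rcases j with j | j
    · exact congrFun (X.rec' i w) j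
    · exact congrFun (Y.rec' i w) j

theorem HP_joint_cell (X : Proc l sg κ) (Y : Proc l sg κ') (x : ℝ) :
    (X.joint Y).h P x = HP P (pr (X.cell x) (Y.cell x)) := by
  refine HP_congr P ((X.joint Y).FV_cell x) ((X.FV_cell x).pair (Y.FV_cell x)) fun w w' => ?_
  have h1 : ∀ w, (X.joint Y).sc x w = Sum.elim (X.sc x w) (Y.sc x w) := fun w => rfl
  simp only [pr, Prod.mk.injEq]
  constructor
  · intro h
    constructor
    · funext k
      have := congrFun h (Sum.inl k)
      exact this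
    · funext k
      have := congrFun h (Sum.inr k)
      exact this
  · rintro ⟨h2, h3⟩
    funext k
    rcases k with k | k
    · exact congrFun h2 k
    · exact congrFun h3 k

/-- conditional entropy of the joint cells is `o(x)` when the rates agree -/
theorem cond_small (hp : (∀ i, 0 ≤ p i) ∧ ∑ i, p i = 1) (hsg : ∀ i, |sg i| = 1)
    (hl : ∀ i, 0 < l i) (X : Proc l sg κ) (Y : Proc l sg κ')
    (hα : F.alpha p (X.joint Y).Φ ≤ F.alpha p Y.Φ) {ε : ℝ} (hε : 0 < ε) :
    ∃ D : ℝ, ∀ x, 0 ≤ x → HP (PP p) (pr (X.cell x) (Y.cell x)) ≤ HP (PP p) (Y.cell x) + ε * x + D := by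
  have := isProb_PP hp
  have hP := WM_PP hp
  obtain ⟨a, M, ha, hal, hM⟩ := exists_bounds hl
  have hχ : 0 < ∑ i, p i * l i := by
    have h1 : ∑ i, p i * a ≤ ∑ i, p i * l i :=
      Finset.sum_le_sum fun i _ => mul_le_mul_of_nonneg_left (hal i) (hp.1 i)
    rw [← Finset.sum_mul, hp.2, one_mul] at h1
    linarith
  set χ := ∑ i, p i * l i with hχd
  obtain ⟨D1, hD1⟩ := (X.joint Y).h_upper hP hsg hl hp.1 hp.2
    (fun n x => (X.joint Y).MI_cell_le hp hsg n x) (ε := ε * χ / 2) (by positivity)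
  obtain ⟨x0, D2, hD2⟩ := Y.h_lower_unif hP hsg hl hp.1 hp.2
    (fun n => Y.exists_MI_cell_ge hp hsg n) (ε := ε * χ / 2) (by positivity) Y.F.C
  refine ⟨D1 + D2, fun x hx => ?_⟩
  have h1 := hD1 x hx
  have h2 := hD2 Y le_rfl (fun w => by rw [sub_self, norm_zero]; exact zero_le_one) x hx
  rw [HP_joint_cell] at h1
  have h3 : Y.h (PP p) x = HP (PP p) (Y.cell x) := rfl
  rw [h3] at h2
  have h4 : (F.alpha p (X.joint Y).Φ + ε * χ / 2) / χ * x
      ≤ (F.alpha p Y.Φ + ε * χ / 2) / χ * x := by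
    gcongr
  have h5 : (F.alpha p Y.Φ + ε * χ / 2) / χ * x = (F.alpha p Y.Φ - ε * χ / 2) / χ * x + ε * x := by
    field_simp
    ring
  linarith

/-- functions of the prefix and of the tail are independent -/
theorem indep_pre_sh (hP : WM p P) {n : ℕ} {γ δ : Type*} (a : (Fin n → ι) → γ)
    {f : (ℕ → ι) → δ} (hf : FV f) (c : γ) (v : δ) :
    P.real ((fun w => a (pre n w)) ⁻¹' {c} ∩ (fun w => f (sh^[n] w)) ⁻¹' {v})
      = P.real ((fun w => a (pre n w)) ⁻¹' {c}) * P.real ((fun w => f (sh^[n] w)) ⁻¹' {v}) := by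
  classical
  have key : ∀ S : Finset (Fin n → ι), P.real (pre n ⁻¹' (S : Set (Fin n → ι)) ∩
      (fun w => f (sh^[n] w)) ⁻¹' {v}) = (∑ u ∈ S, pw p u) * P.real (f ⁻¹' {v}) := by
    intro S
    have e : pre n ⁻¹' (S : Set (Fin n → ι)) ∩ (fun w => f (sh^[n] w)) ⁻¹' {v}
        = ⋃ u ∈ S, (pre n ⁻¹' {u} ∩ (fun w => f (sh^[n] w)) ⁻¹' {v} : Set (ℕ → ι)) := by
      ext w; simp
    rw [e, measureReal_biUnion_finset]
    · rw [Finset.sum_mul]
      refine Finset.sum_congr rfl fun u _ => ?_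
      rw [hP.real_pre_inter u ((hf.sh n).meas v)]
      congr 2
      ext w
      simp [sh_app]
    · intro x _ y _ hxy
      refine Set.disjoint_left.2 fun w hx hy => hxy ?_
      have h1 : pre n w = x := hx.1
      have h2 : pre n w = y := hy.1
      rw [← h1, ← h2]
    · intro u _
      exact ((FV_pre (ι := ι) n).meas u).inter ((hf.sh n).meas v)
  have e1 : (fun w : ℕ → ι => a (pre n w)) ⁻¹' {c}
      = pre n ⁻¹' ((Finset.univ.filter fun u => a u = c : Finset (Fin n → ι)) : Set (Fin n → ι)) := by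
    ext w; simp
  have h1 := key (Finset.univ.filter fun u => a u = c)
  have h2 := key Finset.univ
  have h3 := real_pre_set hP (Finset.univ.filter fun u : Fin n → ι => a u = c)
  have h4 := real_pre_set hP (Finset.univ : Finset (Fin n → ι))
  have e2 : (pre n ⁻¹' ((Finset.univ : Finset (Fin n → ι)) : Set (Fin n → ι))) =
      (Set.univ : Set (ℕ → ι)) := by ext w; simp
  rw [e2, Set.univ_inter] at h2
  rw [e2] at h4
  have h5 : ∑ u : Fin n → ι, pw p u = 1 := by rw [← h4]; simp
  rw [h5, one_mul] at h2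
  rw [e1, h1, h3, h2]

theorem sc_tail (X : Proc l sg κ) (n : ℕ) (x : ℝ) (w : ℕ → ι) :
    X.sc x w = X.F.A (-x) (X.fin (pre n w))
      + pw sg (pre n w) • X.F.A (sw l (pre n w)) (X.sc x (sh^[n] w)) := by
  have h1 : X.Φ w = X.fin (pre n w) + pw sg (pre n w) • X.F.A (sw l (pre n w)) (X.Φ (sh^[n] w)) := by
    conv_lhs => rw [← app_pre n w]
    rw [X.Φ_app]
  unfold sc
  rw [h1, map_add, map_smul, ← X.F.add, ← X.F.add]
  congr 4
  ring

/-- comparison of the finite cell with the infinite cell, given the tail -/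
theorem fin_osc (hl : ∀ i, 0 < l i) (hsg : ∀ i, |sg i| = 1) (X : Proc l sg κ) {n : ℕ} {x : ℝ}
    {w w' : ℕ → ι}
    (h1 : X.cell x w = X.cell x w') (h2 : sw l (pre n w) = sw l (pre n w'))
    (h3 : pw sg (pre n w) = pw sg (pre n w')) (h4 : X.cell x (sh^[n] w) = X.cell x (sh^[n] w')) :
    ‖X.F.A (-x) (X.fin (pre n w)) - X.F.A (-x) (X.fin (pre n w'))‖ ≤ 1 + X.F.C := by
  have e1 : X.F.A (-x) (X.fin (pre n w)) - X.F.A (-x) (X.fin (pre n w'))
      = (X.sc x w - X.sc x w') - pw sg (pre n w) •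
        X.F.A (sw l (pre n w)) (X.sc x (sh^[n] w) - X.sc x (sh^[n] w')) := by
    rw [X.sc_tail n x w, X.sc_tail n x w', map_sub, smul_sub, ← h2, ← h3]
    abel
  rw [e1]
  have hsw : 0 ≤ sw l (pre n w) := Finset.sum_nonneg fun j _ => (hl _).le
  refine (norm_sub_le _ _).trans (add_le_add (fl_eq_dist h1) ?_)
  rw [norm_smul, Real.norm_eq_abs, abs_pw hsg, one_mul]
  refine (X.F.bd1 hsw _).trans ?_
  have := fl_eq_dist h4
  have h5 : ‖X.sc x (sh^[n] w) - X.sc x (sh^[n] w')‖ ≤ 1 := this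
  have := X.F.hC0
  nlinarith

theorem inf_osc (hl : ∀ i, 0 < l i) (hsg : ∀ i, |sg i| = 1) (X : Proc l sg κ) {n : ℕ} {x : ℝ}
    {w w' : ℕ → ι}
    (h1 : X.fcell n x w = X.fcell n x w') (h2 : sw l (pre n w) = sw l (pre n w'))
    (h3 : pw sg (pre n w) = pw sg (pre n w')) (h4 : X.cell x (sh^[n] w) = X.cell x (sh^[n] w')) :
    ‖X.sc x w - X.sc x w'‖ ≤ 1 + X.F.C := by
  have e1 : X.sc x w - X.sc x w' = (X.F.A (-x) (X.fin (pre n w)) - X.F.A (-x) (X.fin (pre n w')))
      + pw sg (pre n w) • X.F.A (sw l (pre n w)) (X.sc x (sh^[n] w) - X.sc x (sh^[n] w')) := by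
    rw [X.sc_tail n x w, X.sc_tail n x w', map_sub, smul_sub, ← h2, ← h3]
    abel
  rw [e1]
  have hsw : 0 ≤ sw l (pre n w) := Finset.sum_nonneg fun j _ => (hl _).le
  refine (norm_add_le _ _).trans (add_le_add (fl_eq_dist h1) ?_)
  rw [norm_smul, Real.norm_eq_abs, abs_pw hsg, one_mul]
  refine (X.F.bd1 hsw _).trans ?_
  have h5 : ‖X.sc x (sh^[n] w) - X.sc x (sh^[n] w')‖ ≤ 1 := fl_eq_dist h4
  have := X.F.hC0
  nlinarith

/-- **(F3), cell form** -/
theorem transfer (hP : WM p P) (hl : ∀ i, 0 < l i) (hsg : ∀ i, |sg i| = 1) (X : Proc l sg κ)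
    (Y : Proc l sg κ') (n : ℕ) (x : ℝ) {T : Type*} (τ : (Fin n → ι) → T)
    (hτ : ∀ u v, τ u = τ v → sw l u = sw l v ∧ pw sg u = pw sg v) :
    HP P (pr (X.fcell n x) fun w => τ (pre n w)) ≤ HP P (pr (Y.fcell n x) fun w => τ (pre n w))
      + (HP P (pr (X.cell x) (Y.cell x)) - HP P (Y.cell x))
      + Fintype.card κ * log (2 * (1 + X.F.C) + 3) + Fintype.card κ' * log (2 * (1 + Y.F.C) + 3) := by
  set f := X.cell x with hf
  set g := Y.cell x with hg
  set f' := X.fcell n x with hf'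
  set g' := Y.fcell n x with hg'
  set t : (ℕ → ι) → T := fun w => τ (pre n w) with ht
  set D : (ℕ → ι) → (κ → ℤ) × (κ' → ℤ) := fun w => pr f g (sh^[n] w) with hD
  have Ff : FV f := X.FV_cell x
  have Fg : FV g := Y.FV_cell x
  have Ff' : FV f' := X.FV_fcell n x
  have Fg' : FV g' := Y.FV_fcell n x
  have Ft : FV t := FV_word τ
  have FD : FV D := (Ff.pair Fg).sh n
  -- (1) submodularity
  have h1 := HP_submod P Ff (Ft.pair FD) Fg
  -- HP (g,(f,(t,D))) + HP g ≤ HP (g,f) + HP (g,(t,D))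
  have e1 : HP P (pr g f) = HP P (pr f g) := HP_comm P Fg Ff
  -- (2) finite cells from infinite cells
  have h2 : HP P (pr f' (pr g (pr f (pr t D)))) ≤ HP P (pr g (pr f (pr t D)))
      + Fintype.card κ * log (2 * (1 + X.F.C) + 3) := by
    refine HP_fl_pair_le P (X.FV_fcell n x) (Fg.pair (Ff.pair (Ft.pair FD)))
      (by linarith [X.F.hC0]) fun w w' hw => ?_
    simp only [pr, Prod.mk.injEq] at hw
    obtain ⟨_, hw2, hw3, hw4⟩ := hw
    have h5 := hτ _ _ hw3
    simp only [hD, pr, Prod.mk.injEq] at hw4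
    exact X.fin_osc hl hsg hw2 h5.1 h5.2 hw4.1
  -- (3) infinite cell of Y from the finite cell
  have h3 : HP P (pr g (pr g' (pr t D))) ≤ HP P (pr g' (pr t D))
      + Fintype.card κ' * log (2 * (1 + Y.F.C) + 3) := by
    refine HP_fl_pair_le P (Y.FV_cell x) (Fg'.pair (Ft.pair FD))
      (by linarith [Y.F.hC0]) fun w w' hw => ?_
    simp only [pr, Prod.mk.injEq] at hw
    obtain ⟨hw2, hw3, hw4⟩ := hw
    have h5 := hτ _ _ hw3
    simp only [hD, pr, Prod.mk.injEq] at hw4
    exact Y.inf_osc hl hsg hw2 h5.1 h5.2 hw4.2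
  have h4 : HP P (pr g (pr t D)) ≤ HP P (pr g (pr g' (pr t D))) :=
    HP_le_of_det P (Fg.pair (Fg'.pair (Ft.pair FD))) (Fg.pair (Ft.pair FD)) fun w w' hw => by
      simp only [pr, Prod.mk.injEq] at hw ⊢
      exact ⟨hw.1, hw.2.2⟩
  have h5 : HP P (pr g' (pr t D)) ≤ HP P (pr g' t) + HP P D := by
    have h6 := HP_pair_le_add P (Fg'.pair Ft) FD
    have e : HP P (pr (pr g' t) D) = HP P (pr g' (pr t D)) :=
      HP_congr P ((Fg'.pair Ft).pair FD) (Fg'.pair (Ft.pair FD)) fun w w' => by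
        simp only [pr, Prod.mk.injEq]; tauto
    rw [e] at h6
    exact h6
  -- (4) independence
  have h6 : HP P (pr (pr f' t) D) = HP P (pr f' t) + HP P D := by
    refine HP_indep P (Ff'.pair Ft) FD fun a b => ?_
    exact indep_pre_sh hP (fun u => ((fun k => ⌊X.F.A (-x) (X.fin u) k⌋ : κ → ℤ), τ u))
      (Ff.pair Fg) a b
  have h7 : HP P (pr (pr f' t) D) ≤ HP P (pr f' (pr g (pr f (pr t D)))) :=
    HP_le_of_det P (Ff'.pair (Fg.pair (Ff.pair (Ft.pair FD)))) ((Ff'.pair Ft).pair FD)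
      fun w w' hw => by
        simp only [pr, Prod.mk.injEq] at hw ⊢
        exact ⟨⟨hw.1, hw.2.2.2.1⟩, hw.2.2.2.2⟩
  rw [e1] at h1
  linarith

end Proc

end Crest.Agent.R98.FD
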