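import Crest.Agent.R98.FDLim
import Crest.Agent.R98.FB

/-!
# Row 98: the information rate of a process and the entropies of the cells (helper896, FD)
-/

set_option autoImplicit false
set_option linter.unusedSectionVars false
set_option linter.unusedVariables false

namespace Crest.Agent.R98.FD

open MeasureTheory Real Filter Topology
open Crest.Agent.R098.Upper (pw sw pw_nonneg sum_succ pw_cons sw_cons sum_pw)
open Crest.Agent.R98 (PP scons isProb_PP PP_cons)

section WMPP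

variable {ι : Type*}

theorem cs_eq_scons (i : ι) (w : ℕ → ι) : cs i w = scons i w := by
  funext n; cases n <;> rfl

theorem pre_eq (n : ℕ) : (pre n : (ℕ → ι) → Fin n → ι) = Crest.Agent.R98.pre n := rfl

theorem sh_iter_eq (n : ℕ) (w : ℕ → ι) : sh^[n] w = Crest.Agent.R98.sh n w := by
  induction n generalizing w with
  | zero => rfl
  | succ n ih =>
    rw [Function.iterate_succ_apply, ih]
    funext j
    simp [Crest.Agent.R98.sh, sh, add_assoc]

theorem app_eq_cat {n : ℕ} (u : Fin n → ι) (w : ℕ → ι) : app u w = Crest.Agent.R98.cat u w := by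
  induction n with
  | zero => rfl
  | succ n ih =>
    have h1 : app u w = cs (u 0) (app (Fin.tail u) w) := rfl
    have h2 : Crest.Agent.R98.cat u w = scons (u 0) (Crest.Agent.R98.cat (Fin.tail u) w) := rfl
    rw [h1, h2, ih, cs_eq_scons]

variable [Fintype ι] [MeasurableSpace ι] [DiscreteMeasurableSpace ι]

theorem WM_PP {p : ι → ℝ} (hp : (∀ i, 0 ≤ p i) ∧ ∑ i, p i = 1) : WM p (PP p) := by
  intro A hA
  have := isProb_PP hp
  have h : (PP p) A = ∑ a, ENNReal.ofReal (p a) * (PP p) (scons a ⁻¹' A) := by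
    conv_lhs => rw [PP_cons hp]
    simp only [Measure.coe_finsetSum, Finset.sum_apply, Measure.smul_apply, smul_eq_mul]
    refine Finset.sum_congr rfl fun a _ => ?_
    rw [Measure.map_apply (Crest.Agent.R98.measurable_scons a) hA]
  rw [measureReal_def, h, ENNReal.toReal_sum]
  · refine Finset.sum_congr rfl fun a _ => ?_
    rw [ENNReal.toReal_mul, ENNReal.toReal_ofReal (hp.1 a), measureReal_def]
    have : (cs a : (ℕ → ι) → ℕ → ι) = scons a := by funext w; exact cs_eq_scons a w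
    rw [this]
  · intro a _
    exact ENNReal.mul_ne_top ENNReal.ofReal_ne_top (measure_ne_top _ _)

end WMPP

/-! ### conditional entropy given a finite-valued map -/

section Link

variable {Ω : Type*} [mΩ : MeasurableSpace Ω] {γ T : Type*} [Fintype T] [mT : MeasurableSpace T]
  [MeasurableSingletonClass T] (P : Measure Ω) [IsProbabilityMeasure P]

/-- the corestriction of a finite-range map -/
noncomputable def cor {Ω γ : Type*} {f : Ω → γ} (hf : (Set.range f).Finite) (ω : Ω) :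
    {v // v ∈ hf.toFinset} :=
  ⟨f ω, by simp⟩

theorem measurable_cor {f : Ω → γ} (hf : FV f) : @Measurable _ _ mΩ ⊤ (cor hf.fin) := by
  intro S _
  have : cor hf.fin ⁻¹' S = f ⁻¹' (Subtype.val '' S) := by
    ext ω
    simp only [Set.mem_preimage, Set.mem_image]
    constructor
    · intro h; exact ⟨_, h, rfl⟩
    · rintro ⟨x, hx, hxe⟩
      have : x = cor hf.fin ω := Subtype.ext hxe
      rwa [this] at hx
  rw [this]
  exact hf.meas_set _

theorem comap_cor_le {Ω γ : Type*} {f : Ω → γ} (hf : (Set.range f).Finite)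
    {m : MeasurableSpace Ω}
    (h : ∀ v, MeasurableSet[m] (f ⁻¹' {v})) : MeasurableSpace.comap (cor hf) ⊤ ≤ m := by
  rintro _ ⟨S, -, rfl⟩
  have : cor hf ⁻¹' S = ⋃ v ∈ Set.range f ∩ (Subtype.val '' S), f ⁻¹' {v} := by
    ext ω
    simp only [Set.mem_preimage, Set.mem_iUnion, Set.mem_singleton_iff, exists_prop,
      Set.mem_inter_iff, Set.mem_image]
    constructor
    · intro h; exact ⟨f ω, ⟨⟨ω, rfl⟩, ⟨_, h, rfl⟩⟩, rfl⟩
    · rintro ⟨v, ⟨_, ⟨x, hx, hxe⟩⟩, hv⟩
      have : x = cor hf ω := Subtype.ext (hxe.trans hv.symm)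
      rwa [this] at hx
  rw [this]
  exact (hf.inter_of_left _).measurableSet_biUnion fun v _ => h v

theorem HP_eq_sum_cor {f : Ω → γ} (hf : FV f) :
    HP P f = ∑ v : {v // v ∈ hf.fin.toFinset}, negMulLog (P.real (cor hf.fin ⁻¹' {v})) := by
  rw [HP_eq P hf.fin.toFinset fun ω => by simp, ← Finset.sum_coe_sort]
  refine Finset.sum_congr rfl fun v _ => ?_
  congr 2
  ext ω
  simp only [Set.mem_preimage, Set.mem_singleton_iff]
  constructor
  · intro h; exact Subtype.ext h
  · intro h; exact congrArg Subtype.val h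

/-- conditional entropy given a finite-valued map -/
theorem Hc_cor {f : Ω → γ} (hf : FV f) {Z : Ω → T} (hZ : Measurable Z) :
    F.Hc P (MeasurableSpace.comap (cor hf.fin) ⊤) Z = HP P (pr Z f) - HP P f := by
  let _ : MeasurableSpace {v // v ∈ hf.fin.toFinset} := ⊤
  have hc : Measurable (cor hf.fin) := measurable_cor hf
  have hFZ : FV Z := ⟨Set.toFinite _, fun v => hZ (measurableSet_singleton v)⟩
  have h1 := F.Hc_chain (μ := P) (m := ⊥) (f := cor hf.fin) (g := Z) hc hZ bot_le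
  rw [bot_sup_eq, F.Hc_bot hc, F.Hc_bot (hc.prodMk hZ)] at h1
  have e1 : ∑ z : {v // v ∈ hf.fin.toFinset}, negMulLog (P.real (cor hf.fin ⁻¹' {z})) = HP P f :=
    (HP_eq_sum_cor P hf).symm
  have e2 : ∑ z : {v // v ∈ hf.fin.toFinset} × T,
      negMulLog (P.real ((fun ω => (cor hf.fin ω, Z ω)) ⁻¹' {z})) = HP P (pr Z f) := by
    have hcf : FV (cor hf.fin) := ⟨Set.toFinite _, fun v => hc (measurableSet_singleton v)⟩
    rw [← HP_eq P (f := fun ω => (cor hf.fin ω, Z ω)) Finset.univ fun _ => Finset.mem_univ _]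
    refine HP_congr P (hcf.pair hFZ) (hFZ.pair hf) fun ω ω' => ?_
    simp only [pr, Prod.mk.injEq, cor, Subtype.mk.injEq]
    tauto
  rw [e1, e2] at h1
  linarith

end Link

section MIlink

variable {ι : Type*} [Fintype ι] [MeasurableSpace ι] [DiscreteMeasurableSpace ι] {p : ι → ℝ}
  {γ : Type*}

theorem HP_pre_eq_Hc (hp : (∀ i, 0 ≤ p i) ∧ ∑ i, p i = 1) (n : ℕ) :
    F.Hc (PP p) ⊥ (Crest.Agent.R98.pre n) = HP (PP p) (pre n : (ℕ → ι) → Fin n → ι) := by
  have := isProb_PP hp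
  rw [F.Hc_bot (Crest.Agent.R98.measurable_pre n), HP_eq (PP p) Finset.univ fun _ => Finset.mem_univ _]
  rfl

theorem MI_eq (hp : (∀ i, 0 ≤ p i) ∧ ∑ i, p i = 1) (n : ℕ) {f : (ℕ → ι) → γ} (hf : FV f) :
    MI (PP p) n f = F.Hc (PP p) ⊥ (Crest.Agent.R98.pre n)
      - F.Hc (PP p) (MeasurableSpace.comap (cor hf.fin) ⊤) (Crest.Agent.R98.pre n) := by
  have := isProb_PP hp
  rw [HP_pre_eq_Hc hp, Hc_cor (PP p) hf (Crest.Agent.R98.measurable_pre n), MI]
  have : pr (Crest.Agent.R98.pre n) f = pr (pre n : (ℕ → ι) → Fin n → ι) f := rfl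
  rw [this]
  ring

variable {E : Type*} [mE : MeasurableSpace E]

/-- upper bound by data processing -/
theorem MI_le_alpha (hp : (∀ i, 0 ≤ p i) ∧ ∑ i, p i = 1) {Φ : (ℕ → ι) → E} {B : ι → E → E}
    (h : F.IsProc Φ B) (n : ℕ) {f : (ℕ → ι) → γ} (hf : FV f)
    (hm : ∀ v, MeasurableSet[MeasurableSpace.comap Φ mE] (f ⁻¹' {v})) :
    MI (PP p) n f ≤ n * F.alpha p Φ := by
  have := isProb_PP hp
  rw [MI_eq hp n hf, ← F.info_pre hp h n]
  have := F.Hc_anti (μ := PP p) (comap_cor_le hf.fin hm) h.meas.comap_le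
    (f := (Crest.Agent.R98.pre n : (ℕ → ι) → Fin n → ι)) (measurable_pre n)
  linarith

end MIlink

/-! ### dyadic cells -/

section Dyadic

variable {ι : Type*} [Fintype ι] [MeasurableSpace ι] [DiscreteMeasurableSpace ι] {p : ι → ℝ}
  {κ : Type*} [Fintype κ]

/-- dyadic cells -/
noncomputable def dy (Φ : (ℕ → ι) → κ → ℝ) (m : ℕ) : (ℕ → ι) → κ → ℤ :=
  fl fun w => (2:ℝ) ^ m • Φ w

theorem measurable_dy_comap (Φ : (ℕ → ι) → κ → ℝ) (m : ℕ) :
    Measurable[MeasurableSpace.comap Φ MeasurableSpace.pi] (dy Φ m) := by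
  have h1 : Measurable[MeasurableSpace.comap Φ MeasurableSpace.pi] Φ := comap_measurable Φ
  have h2 : Measurable fun v : κ → ℝ => fun k => ⌊(2:ℝ) ^ m * v k⌋ := by
    rw [measurable_pi_iff]
    intro k
    exact ((measurable_pi_apply k).const_mul _).floor
  exact h2.comp h1

theorem floor_half (y : ℝ) (m : ℕ) : ⌊(2:ℝ) ^ m * y⌋ = ⌊(2:ℝ) ^ (m + 1) * y⌋ / 2 := by
  have h := Int.floor_div_natCast ((2:ℝ) ^ (m + 1) * y) 2
  have e : (2:ℝ) ^ (m + 1) * y / ((2:ℕ):ℝ) = (2:ℝ) ^ m * y := by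
    push_cast; rw [pow_succ]; ring
  rw [e] at h
  exact_mod_cast h

/-- the dyadic filtration of a bounded process -/
noncomputable def dyF (Φ : (ℕ → ι) → κ → ℝ) (hΦ : Measurable Φ) :
    Filtration ℕ (MeasurableSpace.pi : MeasurableSpace (ℕ → ι)) where
  seq := fun m => MeasurableSpace.comap (dy Φ m) MeasurableSpace.pi
  mono' := by
    refine monotone_nat_of_le_succ fun m => ?_
    have h1 : dy Φ m = (fun v : κ → ℤ => fun k => v k / 2) ∘ dy Φ (m + 1) := by
      funext w k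
      exact floor_half (Φ w k) m
    have h2 : Measurable fun v : κ → ℤ => fun k => v k / 2 := by
      rw [measurable_pi_iff]
      intro k
      exact (measurable_of_countable (fun z : ℤ => z / 2)).comp (measurable_pi_apply k)
    rw [h1, ← MeasurableSpace.comap_comp]
    exact MeasurableSpace.comap_mono h2.comap_le
  le' := fun m => ((measurable_dy_comap Φ m).mono hΦ.comap_le le_rfl).comap_le

theorem iSup_dyF (Φ : (ℕ → ι) → κ → ℝ) (hΦ : Measurable Φ) :
    ⨆ m, dyF Φ hΦ m = MeasurableSpace.comap Φ MeasurableSpace.pi := by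
  refine le_antisymm (iSup_le fun m => (measurable_dy_comap Φ m).comap_le) ?_
  have hm : ∀ m, Measurable[⨆ m, dyF Φ hΦ m] (dy Φ m) := fun m =>
    (comap_measurable (dy Φ m)).mono (le_iSup (fun m => dyF Φ hΦ m) m) le_rfl
  have h1 : ∀ m : ℕ, Measurable[⨆ m, dyF Φ hΦ m]
      (fun w => fun k => ((dy Φ m w k : ℤ) : ℝ) / 2 ^ m) := by
    intro m
    have h2 : Measurable fun v : κ → ℤ => fun k => ((v k : ℤ) : ℝ) / 2 ^ m := by
      rw [measurable_pi_iff]
      intro k
      exact (measurable_of_countable (fun z : ℤ => (z : ℝ) / 2 ^ m)).comp (measurable_pi_apply k)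
    exact h2.comp (hm m)
  have h3 : Tendsto (fun m : ℕ => fun w => fun k => ((dy Φ m w k : ℤ) : ℝ) / 2 ^ m) atTop
      (𝓝 Φ) := by
    rw [tendsto_pi_nhds]
    intro w
    rw [tendsto_pi_nhds]
    intro k
    have h4 : Tendsto (fun m : ℕ => ((1:ℝ) / 2) ^ m) atTop (𝓝 0) :=
      tendsto_pow_atTop_nhds_zero_of_lt_one (by norm_num) (by norm_num)
    rw [tendsto_iff_dist_tendsto_zero]
    refine squeeze_zero (fun _ => dist_nonneg) (fun m => ?_) h4
    rw [Real.dist_eq]
    have h5 : dy Φ m w k = ⌊(2:ℝ) ^ m * Φ w k⌋ := rfl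
    have h6 := Int.floor_le ((2:ℝ) ^ m * Φ w k)
    have h7 := Int.lt_floor_add_one ((2:ℝ) ^ m * Φ w k)
    have h8 : (0:ℝ) < 2 ^ m := by positivity
    rw [h5]
    have e : ((⌊(2:ℝ) ^ m * Φ w k⌋ : ℤ) : ℝ) / 2 ^ m - Φ w k
        = (((⌊(2:ℝ) ^ m * Φ w k⌋ : ℤ) : ℝ) - 2 ^ m * Φ w k) / 2 ^ m := by field_simp
    rw [e, abs_div, abs_of_pos h8, one_div, inv_pow, div_le_iff₀ h8,
      inv_mul_cancel₀ h8.ne', abs_le]
    constructor <;> linarith
  have := @measurable_of_tendsto_metrizable (ℕ → ι) (κ → ℝ) (⨆ m, dyF Φ hΦ m) _ _ _ _ _ _ h1 h3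
  exact this.comap_le

/-- the dyadic cells carry almost all the information -/
theorem exists_dy (hp : (∀ i, 0 ≤ p i) ∧ ∑ i, p i = 1) {Φ : (ℕ → ι) → κ → ℝ}
    {B : ι → (κ → ℝ) → (κ → ℝ)} (h : F.IsProc Φ B) (hfv : ∀ m, FV (dy Φ m)) (n : ℕ) {ε : ℝ}
    (hε : 0 < ε) : ∃ m : ℕ, n * F.alpha p Φ - ε ≤ MI (PP p) n (dy Φ m) := by
  have := isProb_PP hp
  have ht := F.Hc_tendsto (μ := PP p) (dyF Φ h.meas)
    (f := (Crest.Agent.R98.pre n : (ℕ → ι) → Fin n → ι)) (measurable_pre n)
  rw [iSup_dyF] at ht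
  have hev := (tendsto_order.1 ht).2 (F.Hc (PP p) (MeasurableSpace.comap Φ MeasurableSpace.pi)
    (Crest.Agent.R98.pre n) + ε) (by linarith)
  obtain ⟨m, hm⟩ := hev.exists
  refine ⟨m, ?_⟩
  rw [MI_eq hp n (hfv m), ← F.info_pre hp h n]
  have hle : dyF Φ h.meas m ≤ MeasurableSpace.comap (cor (hfv m).fin) ⊤ := by
    have h2 : Measurable[MeasurableSpace.comap (cor (hfv m).fin) ⊤] (dy Φ m) := by
      intro S _
      exact ⟨Subtype.val ⁻¹' S, trivial, rfl⟩
    exact h2.comap_le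
  have hcl : MeasurableSpace.comap (cor (hfv m).fin) ⊤ ≤
      (MeasurableSpace.pi : MeasurableSpace (ℕ → ι)) :=
    comap_cor_le (hfv m).fin (hfv m).meas
  have := F.Hc_anti (μ := PP p) hle hcl
    (f := (Crest.Agent.R98.pre n : (ℕ → ι) → Fin n → ι)) (measurable_pre n)
  linarith

end Dyadic

namespace Proc

variable {ι : Type*} [Fintype ι] [Nonempty ι] [MeasurableSpace ι] [DiscreteMeasurableSpace ι]
  {l sg : ι → ℝ} {κ : Type*} [Fintype κ] {p : ι → ℝ}

/-- letter maps -/
noncomputable def Bm (X : Proc l sg κ) (i : ι) (v : κ → ℝ) : κ → ℝ := sg i • X.F.A (l i) v + X.b i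

theorem isProc (hsg : ∀ i, |sg i| = 1) (X : Proc l sg κ) : F.IsProc X.Φ X.Bm where
  meas := X.meas
  emb := by
    intro i
    have hsi : sg i ≠ 0 := by
      intro h; have := hsg i; rw [h] at this; simp at this
    have hc : ∀ x, Continuous (X.F.A x) := fun x => (X.F.A x).continuous_of_finiteDimensional
    let e : (κ → ℝ) ≃ₜ (κ → ℝ) :=
      { toFun := X.Bm i
        invFun := fun v => X.F.A (-(l i)) ((sg i)⁻¹ • (v - X.b i))
        left_inv := fun v => by
          show X.F.A (-(l i)) ((sg i)⁻¹ • (X.Bm i v - X.b i)) = v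
          unfold Bm
          rw [add_sub_cancel_right, smul_smul, inv_mul_cancel₀ hsi, one_smul, X.F.cancel']
        right_inv := fun v => by
          show X.Bm i (X.F.A (-(l i)) ((sg i)⁻¹ • (v - X.b i))) = v
          unfold Bm
          rw [X.F.cancel, smul_smul, mul_inv_cancel₀ hsi, one_smul, sub_add_cancel]
        continuous_toFun := by
          have h1 : Continuous fun v : κ → ℝ => sg i • v + X.b i := by fun_prop
          exact h1.comp (hc (l i))
        continuous_invFun := by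
          have h1 : Continuous fun v : κ → ℝ => (sg i)⁻¹ • (v - X.b i) := by fun_prop
          exact (hc (-(l i))).comp h1 }
    exact e.measurableEmbedding
  eq := by
    intro w
    have h1 : w = cs (w 0) (Crest.Agent.R98.sh 1 w) := by
      rw [cs_eq_scons, Crest.Agent.R98.scons_sh]
    conv_lhs => rw [h1]
    rw [X.rec']
    rfl

theorem FV_dy (X : Proc l sg κ) (m : ℕ) : FV (dy X.Φ m) := by
  refine FV_fl (B := 2 ^ m * X.B) ?_ ?_
  · have h1 : Measurable fun v : κ → ℝ => (2:ℝ) ^ m • v := by fun_prop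
    exact h1.comp X.meas
  · intro w
    rw [norm_smul, norm_pow, Real.norm_eq_abs, abs_two]
    exact mul_le_mul_of_nonneg_left (X.hB w) (by positivity)

/-- **upper information bound** -/
theorem MI_cell_le (hp : (∀ i, 0 ≤ p i) ∧ ∑ i, p i = 1) (hsg : ∀ i, |sg i| = 1)
    (X : Proc l sg κ) (n : ℕ) (x : ℝ) : MI (PP p) n (X.cell x) ≤ n * F.alpha p X.Φ := by
  refine MI_le_alpha hp (X.isProc hsg) n (X.FV_cell x) fun v => ?_
  have h1 : Measurable[MeasurableSpace.comap X.Φ MeasurableSpace.pi] (X.cell x) := by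
    have h2 : Measurable fun v : κ → ℝ => fun k => ⌊X.F.A (-x) v k⌋ := by
      rw [measurable_pi_iff]
      intro k
      exact ((measurable_pi_apply k).comp (X.F.measurable (-x))).floor
    exact h2.comp (comap_measurable X.Φ)
  exact h1 (measurableSet_singleton v)

/-- **lower information bound** -/
theorem exists_MI_cell_ge (hp : (∀ i, 0 ≤ p i) ∧ ∑ i, p i = 1) (hsg : ∀ i, |sg i| = 1)
    (X : Proc l sg κ) (n : ℕ) : ∃ x0, 0 ≤ x0 ∧
      n * F.alpha p X.Φ - (1 + Fintype.card κ * log 5) ≤ MI (PP p) n (X.cell x0) := by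
  have := isProb_PP hp
  obtain ⟨m, hm⟩ := exists_dy hp (X.isProc hsg) X.FV_dy n one_pos
  -- choose the level
  have hC := X.F.hC0
  set x0 : ℝ := max 0 (2 * log (2 ^ m * X.F.C)) with hx0
  have hx00 : 0 ≤ x0 := le_max_left _ _
  refine ⟨x0, hx00, ?_⟩
  have h1 : HP (PP p) (pr (dy X.Φ m) (X.cell x0)) ≤ HP (PP p) (X.cell x0)
      + Fintype.card κ * log 5 := by
    have h2 := HP_fl_pair_le (PP p) (Y := fun w => (2:ℝ) ^ m • X.Φ w) (X.FV_dy m) (X.FV_cell x0)
      zero_le_one (fun w w' hw => by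
        have h3 : ‖X.sc x0 w - X.sc x0 w'‖ ≤ 1 := fl_eq_dist hw
        have h4 : ∀ w, X.Φ w = X.F.A x0 (X.sc x0 w) := fun w => (X.F.cancel x0 _).symm
        show ‖(2:ℝ) ^ m • X.Φ w - (2:ℝ) ^ m • X.Φ w'‖ ≤ 1
        rw [← smul_sub, h4 w, h4 w', ← map_sub, norm_smul, norm_pow, Real.norm_eq_abs, abs_two]
        have h5 := X.F.bd x0 hx00 (X.sc x0 w - X.sc x0 w')
        have h6 : exp (-((1 - X.F.d) * x0)) ≤ exp (-(log (2 ^ m * X.F.C))) := by
          rw [exp_le_exp, neg_le_neg_iff]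
          have h7 : 2 * log (2 ^ m * X.F.C) ≤ x0 := le_max_right _ _
          have h8 := X.F.hd
          nlinarith
        have h9 : exp (-(log (2 ^ m * X.F.C))) = (2 ^ m * X.F.C)⁻¹ := by
          rw [exp_neg, exp_log (by positivity)]
        rw [h9] at h6
        calc (2:ℝ) ^ m * ‖X.F.A x0 (X.sc x0 w - X.sc x0 w')‖
            ≤ 2 ^ m * (X.F.C * (2 ^ m * X.F.C)⁻¹ * 1) := by
              refine mul_le_mul_of_nonneg_left (h5.trans ?_) (by positivity)
              refine mul_le_mul (mul_le_mul_of_nonneg_left h6 hC.le) h3 (norm_nonneg _)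
                (by positivity)
          _ = 1 := by field_simp)
    have e : (2 * 1 + 3 : ℝ) = 5 := by norm_num
    rw [e] at h2
    exact h2
  have h10 := MI_le_of_pair (P := PP p) n (X.FV_cell x0) (X.FV_dy m) h1
  linarith

end Proc

end Crest.Agent.R98.FD
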