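import Crest.Agent.R98.FDMesh
import Crest.Agent.R98.FE

/-!
# Row 98: packaging of the processes of `EndDefs` (helper896, FD)
-/

set_option autoImplicit false
set_option linter.unusedSectionVars false
set_option linter.unusedVariables false

namespace Crest.Agent.R98.FD

open MeasureTheory Real Filter Topology
open Crest.Agent.R098.Upper (pw sw pw_nonneg sum_succ pw_cons sw_cons sum_pw)
open Crest.Agent.R98 (PP scons isProb_PP PP_cons gen pfin Part.HS)

/-! ### entropy of a partition of the words -/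

section HSlink

variable {ι : Type*} [Fintype ι] [MeasurableSpace ι] [DiscreteMeasurableSpace ι] {p : ι → ℝ}
  {P : Measure (ℕ → ι)} [IsProbabilityMeasure P]

theorem FV_word {n : ℕ} {γ : Type*} (g : (Fin n → ι) → γ) :
    FV (fun w : ℕ → ι => g (pre n w)) := (FV_pre (ι := ι) n).comp g

theorem real_word [Nonempty ι] (hP : WM p P) {n : ℕ} {γ : Type*} [DecidableEq γ]
    (g : (Fin n → ι) → γ) (c : γ) :
    P.real ((fun w : ℕ → ι => g (pre n w)) ⁻¹' {c})
      = ∑ u ∈ Finset.univ.filter (fun u => g u = c), pw p u := by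
  have := Proc.real_pre_set hP (Finset.univ.filter (fun u : Fin n → ι => g u = c))
  rw [← this]
  congr 1
  ext w
  simp

theorem HP_word [Nonempty ι] (hP : WM p P) {n : ℕ} {γ : Type*} (g : (Fin n → ι) → γ) :
    HP P (fun w : ℕ → ι => g (pre n w)) = Part.HS (pw p) (Setoid.ker g) := by
  classical
  have h1 : HP P (fun w : ℕ → ι => g (pre n w)) = ∑ c ∈ Finset.univ.image g,
      negMulLog (∑ u ∈ Finset.univ.filter (fun u => g u = c), pw p u) := by
    rw [HP_eq P (Finset.univ.image g) fun w => Finset.mem_image_of_mem _ (Finset.mem_univ _)]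
    exact Finset.sum_congr rfl fun c _ => by rw [real_word hP g c]
  rw [h1]
  unfold Part.HS
  have hcm : ∀ a, Part.cm (pw p) (Setoid.ker g) a
      = ∑ u ∈ Finset.univ.filter (fun u => g u = g a), pw p u := by
    intro a
    unfold Part.cm
    rw [Finset.sum_filter]
    refine Finset.sum_congr rfl fun b _ => ?_
    by_cases h : g b = g a
    · rw [if_pos h, Set.indicator_of_mem (show b ∈ {b | (Setoid.ker g) b a} from h)]
    · rw [if_neg h, Set.indicator_of_notMem (show b ∉ {b | (Setoid.ker g) b a} from h)]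
  simp only [hcm]
  rw [← Finset.sum_neg_distrib]
  rw [← Finset.sum_fiberwise_of_maps_to (s := (Finset.univ : Finset (Fin n → ι)))
    (t := Finset.univ.image g) (g := g) fun u _ => Finset.mem_image_of_mem _ (Finset.mem_univ _)]
  refine Finset.sum_congr rfl fun c _ => ?_
  rw [negMulLog, neg_mul, Finset.sum_mul, ← Finset.sum_neg_distrib]
  refine Finset.sum_congr rfl fun u hu => ?_
  rw [Finset.mem_filter] at hu
  rw [hu.2]

theorem HP_setoid [Nonempty ι] (hP : WM p P) {n : ℕ} (S : Setoid (Fin n → ι)) :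
    HP P (fun w : ℕ → ι => (Quotient.mk S (pre n w) : Quotient S)) = Part.HS (pw p) S := by
  have h := HP_word hP (fun u : Fin n → ι => (Quotient.mk S u : Quotient S))
  rw [h]
  congr 1
  ext a b
  exact Quotient.eq

end HSlink

/-! ### class bounds for the cells of finite words -/

namespace Proc

variable {ι : Type*} [Fintype ι] [Nonempty ι] [MeasurableSpace ι] [DiscreteMeasurableSpace ι]
  {l sg : ι → ℝ} {κ : Type*} [Fintype κ] {p : ι → ℝ}
  {P : Measure (ℕ → ι)} [IsProbabilityMeasure P]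

theorem fcell_le_HS (hP : WM p P) (X : Proc l sg κ) (n : ℕ) (x : ℝ) (S : Setoid (Fin n → ι))
    {R : ℝ} (hR : 0 ≤ R) (h : ∀ u v, S u v → ‖X.F.A (-x) (X.fin u) - X.F.A (-x) (X.fin v)‖ ≤ R) :
    HP P (X.fcell n x) ≤ Part.HS (pw p) S + Fintype.card κ * log (2 * R + 3) := by
  rw [← HP_setoid hP S]
  refine HP_fl_le P (X.FV_fcell n x) (FV_word _) hR fun w w' hw => ?_
  exact h _ _ (Quotient.eq.1 hw)

end Proc

/-! ### processes of `EndDefs` -/

section Pack

variable {E : Type*} [NormedAddCommGroup E] [NormedSpace ℝ E] [FiniteDimensional ℝ E]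
  {κ : Type*} [Fintype κ]

/-- bounds for the flow of a generator -/
structure GB (L : E →L[ℝ] E) (C d : ℝ) : Prop where
  hC : 1 ≤ C
  hd0 : 0 ≤ d
  hd : d ≤ 1 / 2
  bd : ∀ x, 0 ≤ x → ‖NormedSpace.exp ((-x) • L)‖ ≤ C * exp (-((1 - d) * x))
  bd' : ∀ x, 0 ≤ x → ‖NormedSpace.exp (x • L)‖ ≤ C * exp ((1 + d) * x)

theorem exp_add_gen (L : E →L[ℝ] E) (x y : ℝ) :
    NormedSpace.exp ((x + y) • L) = NormedSpace.exp (x • L) * NormedSpace.exp (y • L) := by
  have : CompleteSpace E := FiniteDimensional.complete ℝ E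
  let _ : NormedAlgebra ℚ (E →L[ℝ] E) := NormedAlgebra.restrictScalars ℚ ℝ (E →L[ℝ] E)
  rw [add_smul]
  exact NormedSpace.exp_add_of_commute ((Commute.refl L).smul_left x |>.smul_right y)

/-- the flow of a generator in coordinates -/
noncomputable def mkFlow (e : E ≃L[ℝ] (κ → ℝ)) {L : E →L[ℝ] E} {C d : ℝ} (h : GB L C d) :
    Flow κ where
  A := fun x => ((e : E →L[ℝ] (κ → ℝ)).comp
    ((NormedSpace.exp ((-x) • L)).comp (e.symm : (κ → ℝ) →L[ℝ] E)) : (κ → ℝ) →L[ℝ] (κ → ℝ))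
  zero := by
    intro v
    simp only [neg_zero, zero_smul, NormedSpace.exp_zero]
    show e ((1 : E →L[ℝ] E) (e.symm v)) = v
    simp
  add := by
    intro x y v
    show e ((NormedSpace.exp ((-(x + y)) • L)) (e.symm v)) =
      e ((NormedSpace.exp ((-x) • L)) (e.symm (e ((NormedSpace.exp ((-y) • L)) (e.symm v)))))
    rw [e.symm_apply_apply, neg_add, exp_add_gen]
    rfl
  C := max 1 (‖(e : E →L[ℝ] (κ → ℝ))‖ * C * ‖(e.symm : (κ → ℝ) →L[ℝ] E)‖)
  d := d
  hC := le_max_left _ _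
  hd0 := h.hd0
  hd := h.hd
  bd := by
    intro x hx v
    have h1 : ‖e ((NormedSpace.exp ((-x) • L)) (e.symm v))‖
        ≤ ‖(e : E →L[ℝ] (κ → ℝ))‖ * (C * exp (-((1 - d) * x)) *
          (‖(e.symm : (κ → ℝ) →L[ℝ] E)‖ * ‖v‖)) := by
      refine ((e : E →L[ℝ] (κ → ℝ)).le_opNorm _).trans ?_
      refine mul_le_mul_of_nonneg_left ?_ (norm_nonneg _)
      refine (ContinuousLinearMap.le_opNorm _ _).trans ?_
      exact mul_le_mul (h.bd x hx) ((e.symm : (κ → ℝ) →L[ℝ] E).le_opNorm v) (norm_nonneg _)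
        (by have := h.hC; positivity)
    refine h1.trans ?_
    have h2 := le_max_right 1 (‖(e : E →L[ℝ] (κ → ℝ))‖ * C * ‖(e.symm : (κ → ℝ) →L[ℝ] E)‖)
    calc _ = (‖(e : E →L[ℝ] (κ → ℝ))‖ * C * ‖(e.symm : (κ → ℝ) →L[ℝ] E)‖)
          * exp (-((1 - d) * x)) * ‖v‖ := by ring
      _ ≤ _ := by gcongr
  bd' := by
    intro x hx v
    have h1 : ‖e ((NormedSpace.exp ((-(-x)) • L)) (e.symm v))‖
        ≤ ‖(e : E →L[ℝ] (κ → ℝ))‖ * (C * exp ((1 + d) * x) *
          (‖(e.symm : (κ → ℝ) →L[ℝ] E)‖ * ‖v‖)) := by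
      rw [neg_neg]
      refine ((e : E →L[ℝ] (κ → ℝ)).le_opNorm _).trans ?_
      refine mul_le_mul_of_nonneg_left ?_ (norm_nonneg _)
      refine (ContinuousLinearMap.le_opNorm _ _).trans ?_
      exact mul_le_mul (h.bd' x hx) ((e.symm : (κ → ℝ) →L[ℝ] E).le_opNorm v) (norm_nonneg _)
        (by have := h.hC; positivity)
    refine h1.trans ?_
    have h2 := le_max_right 1 (‖(e : E →L[ℝ] (κ → ℝ))‖ * C * ‖(e.symm : (κ → ℝ) →L[ℝ] E)‖)
    calc _ = (‖(e : E →L[ℝ] (κ → ℝ))‖ * C * ‖(e.symm : (κ → ℝ) →L[ℝ] E)‖)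
          * exp ((1 + d) * x) * ‖v‖ := by ring
      _ ≤ _ := by gcongr

theorem mkFlow_A (e : E ≃L[ℝ] (κ → ℝ)) {L : E →L[ℝ] E} {C d : ℝ} (h : GB L C d) (x : ℝ)
    (v : κ → ℝ) : (mkFlow e h).A x v = e (NormedSpace.exp ((-x) • L) (e.symm v)) := rfl

theorem mkFlow_C (e : E ≃L[ℝ] (κ → ℝ)) {L : E →L[ℝ] E} {C d : ℝ} (h : GB L C d) :
    (mkFlow e h).C = max 1 (‖(e : E →L[ℝ] (κ → ℝ))‖ * C * ‖(e.symm : (κ → ℝ) →L[ℝ] E)‖) := rfl

theorem mkFlow_d (e : E ≃L[ℝ] (κ → ℝ)) {L : E →L[ℝ] E} {C d : ℝ} (h : GB L C d) :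
    (mkFlow e h).d = d := rfl

variable {ι : Type*} [Fintype ι] [Nonempty ι] [MeasurableSpace ι] [DiscreteMeasurableSpace ι]
  {σ ℓ : ι → ℝ}

/-- the process in coordinates -/
noncomputable def mkProc (e : E ≃L[ℝ] (κ → ℝ)) {L : E →L[ℝ] E} {C d : ℝ} (h : GB L C d)
    {b : ι → E} {Φ : (ℕ → ι) → E} (hΦ : Crest.Agent.R98.IsProc (gen σ ℓ L) b Φ) {B : ℝ}
    (hB : ∀ w, ‖Φ w‖ ≤ B) : Proc ℓ σ κ where
  F := mkFlow e h
  b := fun i => e (b i)
  Φ := fun w => e (Φ w)
  B := ‖(e : E →L[ℝ] (κ → ℝ))‖ * B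
  meas := by
    refine measurable_pi_lambda _ fun i => ?_
    exact hΦ.meas ((ContinuousLinearMap.proj (R := ℝ) (φ := fun _ => ℝ) i).comp
      (e : E →L[ℝ] (κ → ℝ)))
  hB := fun w => ((e : E →L[ℝ] (κ → ℝ)).le_opNorm _).trans
    (mul_le_mul_of_nonneg_left (hB w) (norm_nonneg _))
  rec' := by
    intro i w
    rw [cs_eq_scons, hΦ.eq, map_add, mkFlow_A, e.symm_apply_apply, add_comm]
    congr 1
    show e ((σ i • NormedSpace.exp ((-(ℓ i)) • L)) (Φ w)) = _
    rw [smul_apply, map_smul]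

theorem mkProc_fin (e : E ≃L[ℝ] (κ → ℝ)) {L : E →L[ℝ] E} {C d : ℝ} (h : GB L C d)
    {b : ι → E} {Φ : (ℕ → ι) → E} (hΦ : Crest.Agent.R98.IsProc (gen σ ℓ L) b Φ) {B : ℝ}
    (hB : ∀ w, ‖Φ w‖ ≤ B) {n : ℕ} (u : Fin n → ι) :
    (mkProc e h hΦ hB).fin u = e (pfin (gen σ ℓ L) b u) := by
  induction n with
  | zero =>
    show (0 : κ → ℝ) = e 0
    simp
  | succ n ih =>
    have h1 : (mkProc e h hΦ hB).fin u = σ (u 0) • (mkFlow e h).A (ℓ (u 0))
      ((mkProc e h hΦ hB).fin (Fin.tail u)) + e (b (u 0)) := rfl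
    have h2 : pfin (gen σ ℓ L) b u = b (u 0) + gen σ ℓ L (u 0) (pfin (gen σ ℓ L) b (Fin.tail u)) :=
      rfl
    rw [h1, h2, ih, mkFlow_A, e.symm_apply_apply, map_add, add_comm]
    congr 1
    show _ = e ((σ (u 0) • NormedSpace.exp ((-(ℓ (u 0))) • L)) _)
    rw [smul_apply, map_smul]

variable {p : ι → ℝ}

theorem alpha_coord [MeasurableSpace E] [BorelSpace E] (hp : (∀ i, 0 ≤ p i) ∧ ∑ i, p i = 1)
    (e : E ≃L[ℝ] (κ → ℝ)) {Φ : (ℕ → ι) → E} (hΦ : Measurable Φ) :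
    F.alpha p (fun w => e (Φ w)) = F.alpha p Φ := by
  have he : Measurable e := e.continuous.measurable
  have hes : Measurable e.symm := e.symm.continuous.measurable
  refine le_antisymm (F.alpha_mono hp hΦ ?_) (F.alpha_mono hp (he.comp hΦ) ?_)
  · have : (fun w => e (Φ w)) = e ∘ Φ := rfl
    rw [this, ← MeasurableSpace.comap_comp]
    exact MeasurableSpace.comap_mono he.comap_le
  · have : Φ = e.symm ∘ (fun w => e (Φ w)) := by funext w; simp
    conv_lhs => rw [this]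
    rw [← MeasurableSpace.comap_comp]
    exact MeasurableSpace.comap_mono hes.comap_le

end Pack

end Crest.Agent.R98.FD
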