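import Crest.Agent.R98.FDCell

/-!
# Row 98: flows, self-similar processes, the renewal inequality (helper896, module FD)
-/

set_option autoImplicit false
set_option linter.unusedSectionVars false
set_option linter.unusedVariables false

namespace Crest.Agent.R98.FD

open MeasureTheory Real
open Crest.Agent.R098.Upper (pw sw pw_nonneg sum_succ pw_cons sw_cons sum_pw)

/-- a linear flow, close to `exp (-x)` -/
structure Flow (κ : Type*) [Fintype κ] where
  A : ℝ → (κ → ℝ) →ₗ[ℝ] (κ → ℝ)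
  zero : ∀ v, A 0 v = v
  add : ∀ x y v, A (x + y) v = A x (A y v)
  C : ℝ
  d : ℝ
  hC : 1 ≤ C
  hd0 : 0 ≤ d
  hd : d ≤ 1 / 2
  bd : ∀ x, 0 ≤ x → ∀ v, ‖A x v‖ ≤ C * exp (-((1 - d) * x)) * ‖v‖
  bd' : ∀ x, 0 ≤ x → ∀ v, ‖A (-x) v‖ ≤ C * exp ((1 + d) * x) * ‖v‖

namespace Flow

variable {κ : Type*} [Fintype κ] (F : Flow κ)

theorem hC0 : 0 < F.C := lt_of_lt_of_le one_pos F.hC

theorem cancel (x : ℝ) (v : κ → ℝ) : F.A x (F.A (-x) v) = v := by
  rw [← F.add, add_neg_cancel, F.zero]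

theorem cancel' (x : ℝ) (v : κ → ℝ) : F.A (-x) (F.A x v) = v := by
  rw [← F.add, neg_add_cancel, F.zero]

theorem bd1 {x : ℝ} (hx : 0 ≤ x) (v : κ → ℝ) : ‖F.A x v‖ ≤ F.C * ‖v‖ := by
  refine (F.bd x hx v).trans ?_
  have h : exp (-((1 - F.d) * x)) ≤ 1 := by
    rw [exp_le_one_iff]
    have : 0 ≤ (1 - F.d) * x := mul_nonneg (by linarith [F.hd]) hx
    linarith
  calc F.C * exp (-((1 - F.d) * x)) * ‖v‖ ≤ F.C * 1 * ‖v‖ := by
        gcongr
        exact F.hC0.le
    _ = _ := by ring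

theorem bd2 {x : ℝ} (hx : 0 ≤ x) (v : κ → ℝ) : ‖F.A (-x) v‖ ≤ F.C * exp (2 * x) * ‖v‖ := by
  refine (F.bd' x hx v).trans ?_
  have h : exp ((1 + F.d) * x) ≤ exp (2 * x) := by
    rw [exp_le_exp]
    nlinarith [F.hd]
  gcongr
  exact F.hC0.le

theorem bd3 (x : ℝ) (v : κ → ℝ) : ‖F.A (-x) v‖ ≤ F.C * exp (2 * max x 0) * ‖v‖ := by
  rcases le_total 0 x with hx | hx
  · rw [max_eq_left hx]; exact F.bd2 hx v
  · rw [max_eq_right hx, mul_zero, exp_zero, mul_one]
    exact F.bd1 (by linarith) v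

theorem measurable (x : ℝ) : Measurable (F.A x) :=
  ((F.A x).continuous_of_finiteDimensional).measurable

end Flow

/-- a self-similar process -/
structure Proc {ι : Type*} [MeasurableSpace ι] (l sg : ι → ℝ) (κ : Type*) [Fintype κ] where
  F : Flow κ
  b : ι → κ → ℝ
  Φ : (ℕ → ι) → κ → ℝ
  B : ℝ
  meas : Measurable Φ
  hB : ∀ w, ‖Φ w‖ ≤ B
  rec' : ∀ i w, Φ (cs i w) = sg i • F.A (l i) (Φ w) + b i

namespace Proc

variable {ι : Type*} [Fintype ι] [MeasurableSpace ι] [MeasurableSingletonClass ι]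
  {l sg : ι → ℝ} {κ : Type*} [Fintype κ] (X : Proc l sg κ)

/-- finite words -/
def fin (X : Proc l sg κ) : {n : ℕ} → (Fin n → ι) → κ → ℝ
  | 0, _ => 0
  | _ + 1, u => sg (u 0) • X.F.A (l (u 0)) (X.fin (Fin.tail u)) + X.b (u 0)

theorem Φ_app {n : ℕ} (u : Fin n → ι) (w : ℕ → ι) :
    X.Φ (app u w) = X.fin u + pw sg u • X.F.A (sw l u) (X.Φ w) := by
  induction n with
  | zero => simp [app, fin, pw, sw, X.F.zero]
  | succ n ih =>
    have hcons : u = (Fin.cons (u 0) (Fin.tail u) : Fin (n + 1) → ι) :=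
      (Fin.cons_self_tail u).symm
    have e1 : pw sg u = sg (u 0) * pw sg (Fin.tail u) := by
      conv_lhs => rw [hcons]
      rw [pw_cons]
    have e2 : sw l u = l (u 0) + sw l (Fin.tail u) := by
      conv_lhs => rw [hcons]
      rw [sw_cons]
    have e3 : app u w = cs (u 0) (app (Fin.tail u) w) := rfl
    have e4 : X.fin u = sg (u 0) • X.F.A (l (u 0)) (X.fin (Fin.tail u)) + X.b (u 0) := rfl
    rw [e3, X.rec', ih, e1, e2, e4, X.F.add, map_add, map_smul, smul_add, smul_smul]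
    abel

/-- scaled process -/
noncomputable def sc (x : ℝ) (w : ℕ → ι) : κ → ℝ := X.F.A (-x) (X.Φ w)

/-- cells -/
noncomputable def cell (x : ℝ) : (ℕ → ι) → κ → ℤ := fl (X.sc x)

theorem B_nonneg [Nonempty ι] : 0 ≤ X.B := by
  obtain ⟨i⟩ := ‹Nonempty ι›
  exact (norm_nonneg _).trans (X.hB fun _ => i)

theorem meas_sc (x : ℝ) : Measurable (X.sc x) := (X.F.measurable (-x)).comp X.meas

theorem norm_sc_le (x : ℝ) (w : ℕ → ι) : ‖X.sc x w‖ ≤ X.F.C * exp (2 * max x 0) * X.B := by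
  refine (X.F.bd3 x _).trans ?_
  have := X.hB w
  have := X.F.hC0
  gcongr

theorem FV_cell (x : ℝ) : FV (X.cell x) := FV_fl (X.meas_sc x) (X.norm_sc_le x)

variable {p : ι → ℝ} {P : Measure (ℕ → ι)} [IsProbabilityMeasure P]

/-- entropy of the cell at level `x` -/
noncomputable def h (P : Measure (ℕ → ι)) (x : ℝ) : ℝ := HP P (X.cell x)

theorem h_nonneg (x : ℝ) : 0 ≤ X.h P x := HP_nonneg P _

theorem h_le [Nonempty ι] (x : ℝ) :
    X.h P x ≤ Fintype.card κ * (log (4 * (X.F.C * X.B) + 3) + 2 * max x 0) := by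
  have hCB : 0 ≤ X.F.C * X.B := mul_nonneg X.F.hC0.le X.B_nonneg
  refine (HP_fl_le_log P (X.FV_cell x) (R := X.F.C * exp (2 * max x 0) * X.B) ?_
    (X.norm_sc_le x)).trans ?_
  · have := X.F.hC0; have := X.B_nonneg; positivity
  · refine mul_le_mul_of_nonneg_left ?_ (Nat.cast_nonneg _)
    have h1 : 1 ≤ exp (2 * max x 0) := one_le_exp (by positivity)
    have h2 : 4 * (X.F.C * exp (2 * max x 0) * X.B) + 3
        ≤ (4 * (X.F.C * X.B) + 3) * exp (2 * max x 0) := by nlinarith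
    have h3 : 0 < 4 * (X.F.C * exp (2 * max x 0) * X.B) + 3 := by
      have := X.F.hC0; have := X.B_nonneg; positivity
    refine (log_le_log h3 h2).trans_eq ?_
    rw [log_mul (by positivity) (exp_pos _).ne', log_exp]

/-- **monotonicity**: the cell at level `y` is almost determined by the cell at level `x ≥ y` -/
theorem mono {x y : ℝ} (hxy : y ≤ x) :
    HP P (pr (X.cell y) (X.cell x)) ≤ X.h P x + Fintype.card κ * log (2 * X.F.C + 3) := by
  refine HP_fl_pair_le P (X.FV_cell y) (X.FV_cell x) X.F.hC0.le fun w w' hw => ?_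
  have h1 : ‖X.sc x w - X.sc x w'‖ ≤ 1 := fl_eq_dist hw
  have h2 : ∀ w, X.sc y w = X.F.A (x - y) (X.sc x w) := by
    intro w
    unfold sc
    rw [← X.F.add]; congr 2; ring
  rw [h2, h2, ← map_sub]
  refine (X.F.bd1 (by linarith) _).trans ?_
  have := X.F.hC0
  nlinarith

theorem h_mono {x y : ℝ} (hxy : y ≤ x) :
    X.h P y ≤ X.h P x + Fintype.card κ * log (2 * X.F.C + 3) :=
  (HP_le_pair_left P (X.FV_cell y) (X.FV_cell x)).trans (X.mono hxy)

/-- the information about the first letters is almost monotone -/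
theorem MI_mono (n : ℕ) {x y : ℝ} (hxy : y ≤ x) :
    MI P n (X.cell y) ≤ MI P n (X.cell x) + Fintype.card κ * log (2 * X.F.C + 3) :=
  MI_le_of_pair n (X.FV_cell x) (X.FV_cell y) (X.mono hxy)

theorem abs_pw (hsg : ∀ i, |sg i| = 1) {n : ℕ} (u : Fin n → ι) : |pw sg u| = 1 := by
  rw [pw, Finset.abs_prod]
  exact Finset.prod_eq_one fun j _ => hsg _

/-- **renewal inequality** -/
theorem core (hP : WM p P) (hsg : ∀ i, |sg i| = 1) (hp : ∀ i, 0 ≤ p i) (hp1 : ∑ i, p i = 1)
    (n : ℕ) (x : ℝ) :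
    |X.h P x - (MI P n (X.cell x) + ∑ u : Fin n → ι, pw p u * X.h P (x - sw l u))|
      ≤ Fintype.card κ * log 5 := by
  have hlog : (Fintype.card κ : ℝ) * log 5 = Fintype.card κ * log (2 * 1 + 3) := by norm_num
  have key : ∀ u : Fin n → ι, |HP P (fun w => X.cell x (app u w)) - X.h P (x - sw l u)|
      ≤ Fintype.card κ * log 5 := by
    intro u
    have hY : FV (fl fun w => X.sc x (app u w)) := (X.FV_cell x).app u
    have hd : ∀ w w', ‖X.sc x (app u w) - X.sc x (app u w')‖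
        = ‖X.sc (x - sw l u) w - X.sc (x - sw l u) w'‖ := by
      intro w w'
      have e : X.sc x (app u w) - X.sc x (app u w')
          = pw sg u • (X.sc (x - sw l u) w - X.sc (x - sw l u) w') := by
        unfold sc
        rw [← map_sub, X.Φ_app, X.Φ_app, add_sub_add_left_eq_sub, ← smul_sub, ← map_sub,
          map_smul, ← X.F.add, ← map_sub]
        congr 3; ring
      rw [e, norm_smul, Real.norm_eq_abs, abs_pw hsg, one_mul]
    have e1 : (fun w => X.cell x (app u w)) = fl fun w => X.sc x (app u w) := rfl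
    rw [e1, hlog, abs_le]
    constructor
    · have := HP_fl_le P (X.FV_cell (x - sw l u)) hY zero_le_one fun w w' hw => by
        rw [← hd]; exact fl_eq_dist hw
      have e2 : X.h P (x - sw l u) = HP P (fl (X.sc (x - sw l u))) := rfl
      rw [e2]; linarith
    · have := HP_fl_le P hY (X.FV_cell (x - sw l u)) zero_le_one fun w w' hw => by
        show ‖X.sc x (app u w) - X.sc x (app u w')‖ ≤ 1
        rw [hd]; exact fl_eq_dist hw
      have e2 : X.h P (x - sw l u) = HP P (X.cell (x - sw l u)) := rfl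
      rw [e2]; linarith
  have e := hP.HP_eq_MI n (X.FV_cell x)
  have e3 : X.h P x = HP P (X.cell x) := rfl
  rw [e3, e, add_sub_add_left_eq_sub, ← Finset.sum_sub_distrib]
  refine (Finset.abs_sum_le_sum_abs _ _).trans ?_
  calc ∑ u : Fin n → ι, |pw p u * HP P (fun w => X.cell x (app u w))
        - pw p u * X.h P (x - sw l u)|
      ≤ ∑ u : Fin n → ι, pw p u * (Fintype.card κ * log 5) := by
        refine Finset.sum_le_sum fun u _ => ?_
        rw [← mul_sub, abs_mul, abs_of_nonneg (pw_nonneg hp u)]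
        exact mul_le_mul_of_nonneg_left (key u) (pw_nonneg hp u)
    _ = _ := by rw [← Finset.sum_mul, sum_pw hp1, one_mul]

end Proc

end Crest.Agent.R98.FD
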