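import Crest.Agent.R98.FE
import Crest.Agent.R98.FDCell

/-!
Row 98, module F (helper893): conditional entropy given fine cells of `Φ` tends to the conditional
entropy given `Φ`; relation with the finite entropies `HP`.
-/

set_option autoImplicit false
set_option linter.unusedSectionVars false
set_option linter.unusedSimpArgs false

namespace Crest.Agent.R98.F

open MeasureTheory ProbabilityTheory Filter Topology Real

noncomputable section

/-- `η` modulus -/
theorem eta_modulus {ε : ℝ} (hε : 0 < ε) : ∃ K : ℝ, 0 < K ∧ ∀ a b : ℝ, 0 ≤ a → a ≤ 1 → 0 ≤ b →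
    b ≤ 1 → |negMulLog a - negMulLog b| ≤ ε + K * |a - b| := by
  have huc : UniformContinuousOn negMulLog (Set.Icc 0 1) :=
    isCompact_Icc.uniformContinuousOn_of_continuous continuous_negMulLog.continuousOn
  rw [Metric.uniformContinuousOn_iff] at huc
  obtain ⟨δ, hδ, h⟩ := huc ε hε
  refine ⟨1 / δ, by positivity, fun a b ha ha1 hb hb1 => ?_⟩
  by_cases hab : |a - b| < δ
  · have h1 := h a ⟨ha, ha1⟩ b ⟨hb, hb1⟩ hab
    rw [Real.dist_eq] at h1
    have : 0 ≤ 1 / δ * |a - b| := by positivity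
    linarith
  · have hab' : δ ≤ |a - b| := not_lt.1 hab
    have h1 : |negMulLog a - negMulLog b| ≤ 1 := by
      have e1 := (abs_le.1 (negMulLog_bd ha ha1)).2
      have e2 := (abs_le.1 (negMulLog_bd hb hb1)).2
      have e3 := negMulLog_nonneg ha ha1
      have e4 := negMulLog_nonneg hb hb1
      rw [abs_le]; constructor <;> linarith
    have h2 : 1 ≤ 1 / δ * |a - b| := by
      rw [one_div, ← div_eq_inv_mul, le_div_iff₀ hδ]
      linarith
    linarith

section mesh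

variable {Ω : Type*} [m0 : MeasurableSpace Ω] {μ : Measure Ω} [IsProbabilityMeasure μ]
  {Z : Type*} [Fintype Z] [MeasurableSpace Z] [MeasurableSingletonClass Z]
  {E : Type*} [PseudoMetricSpace E] [SecondCountableTopology E] [LocallyCompactSpace E]
  [mE : MeasurableSpace E] [BorelSpace E] [CompleteSpace E]

/-- `L¹` closeness of the conditional expectations given fine cells -/
theorem condExp_mesh {Φ : Ω → E} (hΦ : Measurable Φ) {F : Ω → ℝ} (hF : Integrable F μ)
    (hFm : StronglyMeasurable[MeasurableSpace.comap Φ mE] F) {ε : ℝ} (hε : 0 < ε) :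
    ∃ δ > 0, ∀ m : MeasurableSpace Ω, m ≤ MeasurableSpace.comap Φ mE →
      (∃ ψ : Ω → Ω, (∀ A, MeasurableSet[m0] A → MeasurableSet[m] (ψ ⁻¹' A)) ∧
        ∀ ω, dist (Φ (ψ ω)) (Φ ω) ≤ δ) →
      ∫ ω, |(μ[F | m]) ω - F ω| ∂μ ≤ ε := by
  obtain ⟨G, hG, rfl⟩ := hFm.exists_eq_measurable_comp
  have hGi : Integrable G (μ.map Φ) := by
    rw [integrable_map_measure hG.aestronglyMeasurable hΦ.aemeasurable]
    exact hF
  have : IsProbabilityMeasure (μ.map Φ) := Measure.isProbabilityMeasure_map hΦ.aemeasurable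
  obtain ⟨H, hHc, hH, hHcont, hHi⟩ := hGi.exists_hasCompactSupport_integral_sub_le
    (show 0 < ε / 4 by positivity)
  have hmap : ∫ x, ‖G x - H x‖ ∂(μ.map Φ) = ∫ ω, ‖G (Φ ω) - H (Φ ω)‖ ∂μ :=
    integral_map hΦ.aemeasurable (hGi.sub hHi).norm.aestronglyMeasurable
  rw [hmap] at hH
  have hHuc : UniformContinuous H := hHc.uniformContinuous_of_continuous hHcont
  rw [Metric.uniformContinuous_iff] at hHuc
  obtain ⟨δ, hδ, hHδ⟩ := hHuc (ε / 4) (by positivity)
  refine ⟨δ / 2, by positivity, fun m hm ⟨ψ, hψm, hψ⟩ => ?_⟩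
  have hmm : m ≤ m0 := hm.trans hΦ.comap_le
  -- the approximating function
  set k : Ω → ℝ := fun ω => H (Φ (ψ ω)) with hk
  have hkm : StronglyMeasurable[m] k := by
    have : Measurable[m] k := by
      have h1 : Measurable[m0] (fun ω => H (Φ ω)) := hHcont.measurable.comp hΦ
      intro B hB
      exact hψm _ (h1 hB)
    exact this.stronglyMeasurable
  obtain ⟨C, hC⟩ : ∃ C, ∀ x, |H x| ≤ C := by
    obtain ⟨C, hC⟩ := hHc.exists_bound_of_continuous hHcont
    exact ⟨C, hC⟩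
  have hki : Integrable k μ :=
    Integrable.of_bound (hkm.mono hmm).aestronglyMeasurable C
      (Eventually.of_forall fun ω => hC _)
  have hHΦi : Integrable (fun ω => H (Φ ω)) μ :=
    Integrable.of_bound (hHcont.measurable.comp hΦ).aestronglyMeasurable C
      (Eventually.of_forall fun ω => hC _)
  have e1 : ∫ ω, |k ω - H (Φ ω)| ∂μ ≤ ε / 4 := by
    have h1 : ∀ ω, |k ω - H (Φ ω)| ≤ ε / 4 := by
      intro ω
      have h2 := hHδ (lt_of_le_of_lt (hψ ω) (by linarith))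
      rw [Real.dist_eq] at h2
      exact h2.le
    calc ∫ ω, |k ω - H (Φ ω)| ∂μ ≤ ∫ _, ε / 4 ∂μ :=
          integral_mono (hki.sub hHΦi).abs (integrable_const _) h1
      _ = ε / 4 := by simp
  have e2 : ∫ ω, |H (Φ ω) - G (Φ ω)| ∂μ ≤ ε / 4 := by
    refine le_trans (le_of_eq ?_) hH
    refine integral_congr_ae (Eventually.of_forall fun ω => ?_)
    show |H (Φ ω) - G (Φ ω)| = ‖G (Φ ω) - H (Φ ω)‖
    rw [Real.norm_eq_abs, abs_sub_comm]
  have hFi : Integrable (fun ω => G (Φ ω)) μ := hF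
  have e3 : ∫ ω, |k ω - G (Φ ω)| ∂μ ≤ ε / 2 := by
    calc ∫ ω, |k ω - G (Φ ω)| ∂μ ≤
          ∫ ω, (|k ω - H (Φ ω)| + |H (Φ ω) - G (Φ ω)|) ∂μ := by
            refine integral_mono (hki.sub hFi).abs
              ((hki.sub hHΦi).abs.add (hHΦi.sub hFi).abs) fun ω => ?_
            exact abs_sub_le _ _ _
      _ = ∫ ω, |k ω - H (Φ ω)| ∂μ + ∫ ω, |H (Φ ω) - G (Φ ω)| ∂μ :=
            integral_add (hki.sub hHΦi).abs (hHΦi.sub hFi).abs
      _ ≤ ε / 2 := by linarith
  have e4 : ∫ ω, |(μ[G ∘ Φ | m]) ω - k ω| ∂μ ≤ ε / 2 := by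
    have h1 : μ[(fun ω => G (Φ ω) - k ω) | m] =ᵐ[μ] fun ω => (μ[G ∘ Φ | m]) ω - k ω := by
      have h2 := condExp_sub (μ := μ) hF hki m
      have h3 : μ[k | m] = k := condExp_of_stronglyMeasurable hmm hkm hki
      rw [h3] at h2
      exact h2
    have h4 : ∫ ω, |(μ[G ∘ Φ | m]) ω - k ω| ∂μ =
        ∫ ω, |(μ[(fun ω => G (Φ ω) - k ω) | m]) ω| ∂μ := by
      refine integral_congr_ae ?_
      filter_upwards [h1] with ω hω
      rw [hω]
    rw [h4]
    refine (integral_abs_condExp_le _).trans ?_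
    refine le_trans (le_of_eq ?_) e3
    refine integral_congr_ae (Eventually.of_forall fun ω => ?_)
    show |G (Φ ω) - k ω| = |k ω - G (Φ ω)|
    rw [abs_sub_comm]
  have hEi : Integrable (μ[G ∘ Φ | m]) μ := integrable_condExp
  calc ∫ ω, |(μ[G ∘ Φ | m]) ω - (G ∘ Φ) ω| ∂μ ≤
        ∫ ω, (|(μ[G ∘ Φ | m]) ω - k ω| + |k ω - G (Φ ω)|) ∂μ := by
          refine integral_mono (hEi.sub hF).abs
            ((hEi.sub hki).abs.add (hki.sub hFi).abs) fun ω => ?_
          exact abs_sub_le _ _ _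
    _ = ∫ ω, |(μ[G ∘ Φ | m]) ω - k ω| ∂μ + ∫ ω, |k ω - G (Φ ω)| ∂μ :=
          integral_add (hEi.sub hki).abs (hki.sub hFi).abs
    _ ≤ ε := by linarith

/-- **mesh → 0**: the conditional entropy given fine cells of `Φ` is close to the one given `Φ` -/
theorem Hc_mesh {Φ : Ω → E} (hΦ : Measurable Φ) {g : Ω → Z} (hg : Measurable g) {ε : ℝ}
    (hε : 0 < ε) :
    ∃ δ > 0, ∀ m : MeasurableSpace Ω, m ≤ MeasurableSpace.comap Φ mE →
      (∃ ψ : Ω → Ω, (∀ A, MeasurableSet[m0] A → MeasurableSet[m] (ψ ⁻¹' A)) ∧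
        ∀ ω, dist (Φ (ψ ω)) (Φ ω) ≤ δ) →
      Hc μ m g ≤ Hc μ (MeasurableSpace.comap Φ mE) g + ε := by
  classical
  set N : ℝ := (Fintype.card Z : ℝ) + 1 with hN
  have hN0 : 0 < N := by positivity
  obtain ⟨K, hK, hKη⟩ := eta_modulus (show 0 < ε / (2 * N) by positivity)
  have h1 : ∀ z : Z, ∃ δ > 0, ∀ m : MeasurableSpace Ω, m ≤ MeasurableSpace.comap Φ mE →
      (∃ ψ : Ω → Ω, (∀ A, MeasurableSet[m0] A → MeasurableSet[m] (ψ ⁻¹' A)) ∧
        ∀ ω, dist (Φ (ψ ω)) (Φ ω) ≤ δ) →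
      ∫ ω, |(μ[cp μ (MeasurableSpace.comap Φ mE) g z | m]) ω -
        cp μ (MeasurableSpace.comap Φ mE) g z ω| ∂μ ≤ ε / (2 * N * K) := fun z =>
    condExp_mesh hΦ (cp_int z) (cp_sm z) (by positivity)
  choose δ hδ hδ' using h1
  obtain ⟨δ0, hδ0, hδ1⟩ : ∃ δ0 > 0, ∀ z, δ0 ≤ δ z := by
    rcases isEmpty_or_nonempty Z with h | h
    · exact ⟨1, one_pos, fun z => isEmptyElim z⟩
    · refine ⟨Finset.univ.inf' Finset.univ_nonempty δ, ?_, fun z => Finset.inf'_le _ (Finset.mem_univ z)⟩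
      rw [gt_iff_lt, Finset.lt_inf'_iff]
      exact fun z _ => hδ z
  refine ⟨δ0, hδ0, fun m hm ⟨ψ, hψm, hψ⟩ => ?_⟩
  have hmm : m ≤ m0 := hm.trans hΦ.comap_le
  have h2 : ∀ z : Z, ∫ ω, negMulLog (cp μ m g z ω) ∂μ ≤
      ∫ ω, negMulLog (cp μ (MeasurableSpace.comap Φ mE) g z ω) ∂μ + ε / N := by
    intro z
    have h3 := hδ' z m hm ⟨ψ, hψm, fun ω => (hψ ω).trans (hδ1 z)⟩
    have h4 : μ[cp μ (MeasurableSpace.comap Φ mE) g z | m] =ᵐ[μ] cp μ m g z :=
      cp_tower z hm hΦ.comap_le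
    have h5 : ∫ ω, |cp μ m g z ω - cp μ (MeasurableSpace.comap Φ mE) g z ω| ∂μ ≤
        ε / (2 * N * K) := by
      refine le_trans (le_of_eq ?_) h3
      refine integral_congr_ae ?_
      filter_upwards [h4] with ω hω
      rw [hω]
    have i1 := eta_int (μ := μ) (m := m) z hmm hg
    have i2 := eta_int (μ := μ) (m := MeasurableSpace.comap Φ mE) z hΦ.comap_le hg
    have i3 : Integrable (fun ω => |cp μ m g z ω - cp μ (MeasurableSpace.comap Φ mE) g z ω|) μ :=
      ((cp_int (μ := μ) (m := m) (f := g) z).sub (cp_int z)).abs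
    have h6 : ∫ ω, negMulLog (cp μ m g z ω) ∂μ ≤
        ∫ ω, (negMulLog (cp μ (MeasurableSpace.comap Φ mE) g z ω) + (ε / (2 * N) +
          K * |cp μ m g z ω - cp μ (MeasurableSpace.comap Φ mE) g z ω|)) ∂μ := by
      refine integral_mono_ae i1 (i2.add ((integrable_const _).add (i3.const_mul K))) ?_
      filter_upwards [cp_bd (μ := μ) z hmm hg, cp_bd (μ := μ) z hΦ.comap_le hg] with ω b1 b2
      have b3 := (abs_le.1 (hKη _ _ b1.1 b1.2 b2.1 b2.2)).2
      linarith
    have i4 : Integrable (fun ω => ε / (2 * N) +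
          K * |cp μ m g z ω - cp μ (MeasurableSpace.comap Φ mE) g z ω|) μ :=
      (integrable_const _).add (i3.const_mul K)
    rw [integral_add i2 i4, integral_add (integrable_const _) (i3.const_mul K),
      integral_const_mul] at h6
    simp only [integral_const, probReal_univ, smul_eq_mul, one_mul] at h6
    have h7 : K * ∫ ω, |cp μ m g z ω - cp μ (MeasurableSpace.comap Φ mE) g z ω| ∂μ ≤
        ε / (2 * N) := by
      calc _ ≤ K * (ε / (2 * N * K)) := mul_le_mul_of_nonneg_left h5 hK.le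
        _ = ε / (2 * N) := by field_simp
    have h8 : ε / (2 * N) + ε / (2 * N) = ε / N := by field_simp; norm_num
    linarith
  unfold Hc
  calc ∑ z, ∫ ω, negMulLog (cp μ m g z ω) ∂μ ≤
        ∑ z, (∫ ω, negMulLog (cp μ (MeasurableSpace.comap Φ mE) g z ω) ∂μ + ε / N) :=
          Finset.sum_le_sum fun z _ => h2 z
    _ = ∑ z, ∫ ω, negMulLog (cp μ (MeasurableSpace.comap Φ mE) g z ω) ∂μ +
        Fintype.card Z * (ε / N) := by
          rw [Finset.sum_add_distrib, Finset.sum_const, Finset.card_univ, nsmul_eq_mul]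
    _ ≤ _ := by
          have : (Fintype.card Z : ℝ) * (ε / N) ≤ ε := by
            rw [← mul_div_assoc, div_le_iff₀ hN0]
            nlinarith
          linarith

end mesh

section link

variable {Ω : Type*} [m0 : MeasurableSpace Ω] {μ : Measure Ω} [IsProbabilityMeasure μ]
  {Z : Type*} [Fintype Z] [MeasurableSpace Z] [MeasurableSingletonClass Z] {γ : Type*}

theorem FV.comap_le {f : Ω → γ} (hf : FD.FV f) : MeasurableSpace.comap f ⊤ ≤ m0 := by
  rintro _ ⟨S, _, rfl⟩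
  exact hf.meas_set S

/-- entropy of a finite-valued map with values in a finite type -/
theorem HP_eq_Hc {g : Ω → Z} (hg : Measurable g) : FD.HP μ g = Hc μ ⊥ g := by
  rw [Hc_bot hg, FD.HP_eq μ Finset.univ fun _ => Finset.mem_univ _]

/-- conditional entropy given a finite-valued map -/
theorem Hc_of_FV {f : Ω → γ} (hf : FD.FV f) {g : Ω → Z} (hg : Measurable g) :
    Hc μ (MeasurableSpace.comap f ⊤) g = FD.HP μ (FD.pr g f) - FD.HP μ f := by
  classical
  obtain ⟨S, hS⟩ := hf.exists_finset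
  let f' : Ω → S := fun ω => ⟨f ω, hS ω⟩
  let _ : MeasurableSpace S := ⊤
  have hf' : Measurable f' := by
    intro B _
    have : f' ⁻¹' B = f ⁻¹' (Subtype.val '' B) := by
      ext ω
      simp only [Set.mem_preimage, Set.mem_image, Subtype.exists, exists_and_right,
        exists_eq_right]
      constructor
      · intro h; exact ⟨hS ω, h⟩
      · rintro ⟨_, h⟩; exact h
    rw [this]
    exact hf.meas_set _
  have e1 : MeasurableSpace.comap f' ⊤ = MeasurableSpace.comap f ⊤ := by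
    refine le_antisymm ?_ ?_
    · rintro _ ⟨B, _, rfl⟩
      refine ⟨Subtype.val '' B, trivial, ?_⟩
      ext ω
      simp only [Set.mem_preimage, Set.mem_image, Subtype.exists, exists_and_right,
        exists_eq_right]
      constructor
      · rintro ⟨_, h⟩; exact h
      · intro h; exact ⟨hS ω, h⟩
    · rintro _ ⟨B, _, rfl⟩
      exact ⟨Subtype.val ⁻¹' B, trivial, rfl⟩
  have h1 := Hc_chain (μ := μ) (m := ⊥) hf' hg bot_le
  rw [bot_sup_eq, e1] at h1
  have h2 : FD.FV f' := ⟨Set.toFinite _, fun v => hf' (measurableSet_singleton v)⟩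
  have hgFV : FD.FV g := ⟨Set.toFinite _, fun v => hg (measurableSet_singleton v)⟩
  have h3 : FD.HP μ f' = Hc μ ⊥ f' := HP_eq_Hc hf'
  have h4 : FD.HP μ (fun ω => (f' ω, g ω)) = Hc μ ⊥ (fun ω => (f' ω, g ω)) :=
    HP_eq_Hc (hf'.prodMk hg)
  have hd : ∀ ω ω', f' ω = f' ω' ↔ f ω = f ω' := by
    intro ω ω'
    constructor
    · intro h; exact congrArg Subtype.val h
    · intro h; exact Subtype.ext h
  have h5 : FD.HP μ f' = FD.HP μ f :=
    le_antisymm (FD.HP_le_of_det μ hf h2 fun ω ω' h => (hd ω ω').2 h)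
      (FD.HP_le_of_det μ h2 hf fun ω ω' h => (hd ω ω').1 h)
  have h6 : FD.HP μ (fun ω => (f' ω, g ω)) = FD.HP μ (FD.pr g f) := by
    have a1 : FD.FV (fun ω => (f' ω, g ω)) := h2.pair hgFV
    have a2 : FD.FV (FD.pr g f) := hgFV.pair hf
    refine le_antisymm (FD.HP_le_of_det μ a2 a1 fun ω ω' h => ?_)
      (FD.HP_le_of_det μ a1 a2 fun ω ω' h => ?_)
    · have b1 : g ω = g ω' := congrArg Prod.fst h
      have b2 : f ω = f ω' := congrArg Prod.snd h
      show (f' ω, g ω) = (f' ω', g ω')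
      rw [(hd ω ω').2 b2, b1]
    · have b1 : f' ω = f' ω' := congrArg Prod.fst h
      have b2 : g ω = g ω' := congrArg Prod.snd h
      show (g ω, f ω) = (g ω', f ω')
      rw [(hd ω ω').1 b1, b2]
  linarith

end link

section words

variable {ι : Type*} [Fintype ι] [mι : MeasurableSpace ι] [DiscreteMeasurableSpace ι]
variable {γ : Type*}

theorem cs_eq_scons (i : ι) : (FD.cs i : (ℕ → ι) → ℕ → ι) = scons i := by
  funext w n; cases n <;> rfl

theorem WM_PP {p : ι → ℝ} (hp : (∀ i, 0 ≤ p i) ∧ ∑ i, p i = 1) : FD.WM p (PP p) := by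
  have := isProb_PP hp
  intro A hA
  have h1 : PP p A = ∑ a, ENNReal.ofReal (p a) * PP p (scons a ⁻¹' A) := by
    conv_lhs => rw [PP_cons hp]
    simp only [Measure.coe_finsetSum, Finset.sum_apply, Measure.smul_apply, smul_eq_mul]
    refine Finset.sum_congr rfl fun a _ => ?_
    rw [Measure.map_apply (measurable_scons a) hA]
  unfold Measure.real
  rw [h1, ENNReal.toReal_sum]
  · refine Finset.sum_congr rfl fun a _ => ?_
    rw [ENNReal.toReal_mul, ENNReal.toReal_ofReal (hp.1 a), cs_eq_scons]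
  · intro a _
    exact ENNReal.mul_ne_top ENNReal.ofReal_ne_top (measure_ne_top _ _)

theorem MI_eq {p : ι → ℝ} (hp : (∀ i, 0 ≤ p i) ∧ ∑ i, p i = 1) (n : ℕ) {f : (ℕ → ι) → γ}
    (hf : FD.FV f) : FD.MI (PP p) n f =
      Hc (PP p) ⊥ (pre n) - Hc (PP p) (MeasurableSpace.comap f ⊤) (pre n) := by
  have := isProb_PP hp
  have h1 := Hc_of_FV (μ := PP p) hf (measurable_pre (ι := ι) n)
  have h2 : FD.HP (PP p) (pre (ι := ι) n) = Hc (PP p) ⊥ (pre n) := HP_eq_Hc (measurable_pre n)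
  have h3 : FD.MI (PP p) n f = FD.HP (PP p) (pre (ι := ι) n) + FD.HP (PP p) f -
    FD.HP (PP p) (FD.pr (pre (ι := ι) n) f) := rfl
  rw [h3, h2, h1]
  ring

variable {E : Type*} [mE : MeasurableSpace E]

/-- information of the cells is at most `n α` -/
theorem MI_le_alpha {p : ι → ℝ} (hp : (∀ i, 0 ≤ p i) ∧ ∑ i, p i = 1) {Φ : (ℕ → ι) → E}
    {B : ι → E → E} (h : IsProc Φ B) (n : ℕ) {f : (ℕ → ι) → γ} (hf : FD.FV f)
    (hle : MeasurableSpace.comap f ⊤ ≤ MeasurableSpace.comap Φ mE) :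
    FD.MI (PP p) n f ≤ n * alpha p Φ := by
  have := isProb_PP hp
  rw [MI_eq hp n hf, ← info_pre hp h n]
  have := Hc_anti (μ := PP p) hle h.meas.comap_le (measurable_pre (ι := ι) n)
  linarith

/-- information of fine cells is almost `n α` -/
theorem MI_ge_alpha {E : Type*} [PseudoMetricSpace E] [SecondCountableTopology E]
    [LocallyCompactSpace E] [mE : MeasurableSpace E] [BorelSpace E] [CompleteSpace E]
    {p : ι → ℝ} (hp : (∀ i, 0 ≤ p i) ∧ ∑ i, p i = 1) {Φ : (ℕ → ι) → E}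
    {B : ι → E → E} (h : IsProc Φ B) (n : ℕ) {ε : ℝ} (hε : 0 < ε) :
    ∃ δ > 0, ∀ {γ : Type*} (f : (ℕ → ι) → γ), FD.FV f →
      MeasurableSpace.comap f ⊤ ≤ MeasurableSpace.comap Φ mE →
      (∀ w w', f w = f w' → dist (Φ w) (Φ w') ≤ δ) →
      n * alpha p Φ - ε ≤ FD.MI (PP p) n f := by
  have := isProb_PP hp
  obtain ⟨δ, hδ, hδ'⟩ := Hc_mesh (μ := PP p) h.meas (measurable_pre (ι := ι) n) hε
  refine ⟨δ, hδ, fun {γ} f hf hle hd => ?_⟩
  rw [MI_eq hp n hf, ← info_pre hp h n]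
  rcases isEmpty_or_nonempty (ℕ → ι) with he | he
  · exfalso
    have h1 : PP p Set.univ = 0 := by
      rw [Set.univ_eq_empty_iff.2 he, measure_empty]
    rw [measure_univ] at h1
    exact one_ne_zero h1
  have h1 := hδ' (MeasurableSpace.comap f ⊤) hle
    ⟨fun w => Function.invFun f (f w), ?_, ?_⟩
  · linarith
  · intro A _
    exact ⟨Function.invFun f ⁻¹' A, trivial, rfl⟩
  · intro w
    exact hd _ _ (Function.invFun_eq ⟨w, rfl⟩)

end words

end

end Crest.Agent.R98.F
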