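import Crest.Agent.R98.GenFlow
import Crest.Agent.R98.FDPack

/-!
R98 / GenFlow2 (helper529): `exists_GB`, `exists_procs` in the shape used by F5.
-/

set_option autoImplicit false

open MeasureTheory Filter Topology

namespace Crest.Agent.R98.GF

section GB

variable {E : Type*} [NormedAddCommGroup E] [NormedSpace ℝ E] [FiniteDimensional ℝ E]

/-- (G1) in the form `GB` -/
theorem exists_GB {L : E →L[ℝ] E} (hN : IsNilpotent (L - 1)) {d : ℝ} (hd : 0 < d)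
    (hd2 : d ≤ 1 / 2) :
    ∃ C δ : ℝ, 1 ≤ C ∧ 0 < δ ∧ ∀ L' : E →L[ℝ] E, ‖L' - L‖ ≤ δ → FD.GB L' C d := by
  have : CompleteSpace E := FiniteDimensional.complete ℝ E
  obtain ⟨C, δ, hC, hδ, h⟩ := exists_exp_bound hN hd
  refine ⟨C, δ, hC, hδ, fun L' hL' => ?_⟩
  exact ⟨hC, hd.le, hd2, fun x hx => (h L' hL' x hx).1, fun x hx => (h L' hL' x hx).2⟩

variable {ι : Type*} [Finite ι] [MeasurableSpace ι] [DiscreteMeasurableSpace ι]

/-- (G2), (G3) along a sequence -/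
theorem exists_procs {σ ℓ : ι → ℝ} (hσ : ∀ i, |σ i| = 1) (hℓ : ∀ i, 0 < ℓ i)
    {L : E →L[ℝ] E} (hN : IsNilpotent (L - 1)) {b : ι → E} {Φ : (ℕ → ι) → E}
    (hΦ : IsProc (gen σ ℓ L) b Φ) {Lj : ℕ → E →L[ℝ] E} (hL : Tendsto Lj atTop (𝓝 L))
    {bj : ℕ → ι → E} (hb : Tendsto bj atTop (𝓝 b)) :
    ∃ B : ℝ, ∃ Φj : ℕ → (ℕ → ι) → E,
      (∀ᶠ j in atTop, IsProc (gen σ ℓ (Lj j)) (bj j) (Φj j) ∧ ∀ w, ‖Φj j w‖ ≤ B) ∧
      ∀ ε : ℝ, 0 < ε → ∀ᶠ j in atTop, ∀ w, ‖Φj j w - Φ w‖ ≤ ε := by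
  have : CompleteSpace E := FiniteDimensional.complete ℝ E
  have := Fintype.ofFinite ι
  have hb' : ∀ a, Tendsto (fun j => bj j a) atTop (𝓝 (b a)) := fun a => (tendsto_pi_nhds.mp hb) a
  obtain ⟨M₀, hM₀⟩ := (Set.finite_range fun a => ‖b a‖).bddAbove
  set M := max M₀ 0 + 1 with hM
  have hM0 : 0 ≤ M := by positivity
  have hbM' : ∀ᶠ j in atTop, ∀ a, ‖bj j a‖ ≤ M := by
    rw [eventually_all]
    intro a
    have h1 := (hb' a).norm.eventually (eventually_lt_nhds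
      (show ‖b a‖ < M from lt_of_le_of_lt ((hM₀ ⟨a, rfl⟩).trans (le_max_left _ 0))
        (by linarith)))
    exact h1.mono fun j hj => hj.le
  obtain ⟨C, δ, q, hC, hδ, hq, hq1, h⟩ := exists_gen_bound hσ hℓ hN (d := 1 / 2) (by norm_num)
    (by norm_num)
  have hC0 : 0 ≤ C := by linarith
  have hev : ∀ᶠ j in atTop, ‖Lj j - L‖ ≤ δ := by
    have h1 := (hL.sub_const L).norm
    rw [sub_self, norm_zero] at h1
    exact (h1.eventually (eventually_lt_nhds hδ)).mono fun j hj => hj.le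
  have hproc : ∀ᶠ j in atTop, IsProc (gen σ ℓ (Lj j)) (bj j) (pinf (gen σ ℓ (Lj j)) (bj j)) ∧
      ∀ w, ‖pinf (gen σ ℓ (Lj j)) (bj j) w‖ ≤ C * M / (1 - q) := by
    filter_upwards [hev, hbM'] with j h1 h2
    have h4 := (h (Lj j) h1).2.2.2
    exact ⟨isProc_pinf hC0 hq hq1 h4 h2, norm_pinf_le hC0 hq hq1 h4 h2⟩
  refine ⟨C * M / (1 - q), fun j => pinf (gen σ ℓ (Lj j)) (bj j), hproc, fun ε hε => ?_⟩
  exact tendsto_gen_proc hσ hℓ hN hL hb' (hproc.mono fun j hj => hj.1) hΦ hε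

end GB

end Crest.Agent.R98.GF
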