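import Crest.Agent.R98.HsCell
import Crest.Agent.R98.DimLower

/-!
R98 / HsHd (helper529): helper193's dyadic entropy `Hd μ n` is the cell entropy at scale `2⁻ⁿ`.
-/

set_option autoImplicit false

open MeasureTheory Set Real

namespace Crest.Agent.R98.HsCell

theorem Hd_eq (μ : Measure ℝ) (n : ℕ) : Hd μ n = Hc μ (1 / 2 ^ n) 0 := by
  unfold Hd Hc Hz
  refine tsum_congr fun k => ?_
  congr 2
  ext x
  change ⌊(2:ℝ) ^ n * x⌋ = k ↔ ⌊(x - 0) / (1 / 2 ^ n)⌋ = k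
  rw [show (x - 0) / (1 / 2 ^ n) = (2:ℝ) ^ n * x by field_simp; ring]

theorem abs_Hs_sub_Hd_le {μ : Measure ℝ} [IsProbabilityMeasure μ] (hμ : BSupp μ) (n : ℕ) :
    |Hs μ (1 / 2 ^ n) - Hd μ n| ≤ Real.log 2 := by
  rw [Hd_eq]
  exact abs_Hs_sub_Hc_le hμ (by positivity) 0

end Crest.Agent.R98.HsCell
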