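import Crest.Agent.R98.MultNT

/-!
R98 / KConv (helper399): infinitely many denominators `q` such that `|u l₁ + v l₂| ≥ l₂/(2q)` for all
integers `(u, v) ≠ 0`, `|u| < q`.
-/

set_option autoImplicit false

namespace Crest.Agent.R98.K

open Crest.Agent.R98.Mult

/-- arbitrarily large `q` with all the multiples `h θ`, `0 < |h| < q`, at distance `≥ 1/(2q)` from
the integers -/
theorem exists_conv_mod {θ : ℝ} (hθ : Irrational θ) (Q₀ : ℕ) :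
    ∃ q : ℕ, Q₀ ≤ q ∧ 1 ≤ q ∧
      (∀ h k : ℤ, h ≠ 0 → |h| < (q : ℤ) → 1 / (2 * (q : ℝ)) ≤ |(h : ℝ) * θ - k|) := by
  classical
  -- the minimum over the small multiples
  have hmin : ∃ η₀ : ℝ, 0 < η₀ ∧ ∀ (q : ℕ) (P : ℤ), 1 ≤ q → q ≤ Q₀ → η₀ ≤ |(q : ℝ) * θ - P| := by
    rcases Nat.eq_zero_or_pos Q₀ with h0 | h0
    · exact ⟨1, one_pos, fun q P h1 h2 => by omega⟩
    obtain ⟨q₁, P₁, h1, h2, h3, h4, h5, h6⟩ := exists_best hθ (W := Q₀) h0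
    refine ⟨_, h3, fun q P hq1 hq2 => ?_⟩
    have := h5 q P (by omega) (by
      rw [abs_of_nonneg (by omega)]; omega)
    simpa using this
  obtain ⟨η₀, hη₀, hsmall⟩ := hmin
  obtain ⟨W₀, hW₀⟩ := exists_nat_gt (1 / η₀)
  obtain ⟨q, P, h1, h2, h3, h4, h5, h6⟩ := exists_best hθ (W := W₀ + 1) (by omega)
  refine ⟨q, ?_, h1, h6⟩
  by_contra hcon
  have h7 := hsmall q P h1 (by omega)
  have h8 : (1 : ℝ) / ((W₀ + 1 : ℕ) + 1) < η₀ := by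
    rw [div_lt_iff₀ (by positivity)]
    rw [div_lt_iff₀ hη₀] at hW₀
    push_cast
    nlinarith
  linarith

/-- **arbitrarily large denominators**: `|u l₁ + v l₂| ≥ l₂/(2q)` for all integers `(u,v) ≠ 0` with
`|u| < q` (no condition on `v`) -/
theorem exists_conv {l₁ l₂ : ℝ} (hl₂ : 0 < l₂) (hθ : Irrational (l₁ / l₂)) (Q₀ : ℕ) :
    ∃ q : ℕ, Q₀ ≤ q ∧ 1 ≤ q ∧
      ∀ u v : ℤ, (u ≠ 0 ∨ v ≠ 0) → |u| < (q : ℤ) → l₂ / (2 * (q : ℝ)) ≤ |(u : ℝ) * l₁ + v * l₂| := by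
  obtain ⟨q, h1, h2, h3⟩ := exists_conv_mod hθ Q₀
  refine ⟨q, h1, h2, ?_⟩
  intro u v huv hu
  have hq0 : (0 : ℝ) < q := by exact_mod_cast h2
  have hq1 : (1 : ℝ) ≤ q := by exact_mod_cast h2
  have e : (u : ℝ) * l₁ + v * l₂ = l₂ * (u * (l₁ / l₂) - ((-v : ℤ) : ℝ)) := by
    push_cast; field_simp; ring
  rw [e, abs_mul, abs_of_pos hl₂]
  by_cases hu0 : u = 0
  · have hv : v ≠ 0 := by tauto
    have h4 : (1 : ℝ) ≤ |(v : ℝ)| := by exact_mod_cast Int.one_le_abs hv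
    rw [hu0]
    have h5 : ((0 : ℤ) : ℝ) * (l₁ / l₂) - ((-v : ℤ) : ℝ) = v := by push_cast; ring
    rw [h5, div_le_iff₀ (by positivity)]
    have : l₂ * 1 ≤ l₂ * |(v : ℝ)| * (2 * q) := by
      rw [mul_assoc]
      refine mul_le_mul_of_nonneg_left ?_ hl₂.le
      nlinarith
    linarith
  · have h4 := h3 u (-v) hu0 hu
    have h5 := mul_le_mul_of_nonneg_left h4 hl₂.le
    refine le_trans (le_of_eq ?_) h5
    ring

end Crest.Agent.R98.K
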