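import Mathlib

/-!
# Row 98: the lemma (CUT) of note 10295

`q ≥ 0` weights of total mass `≤ 1` on a finite type, `v` real values. `ms x y` is the mass of the
points with `x ≤ v < y`. There are cuts `τ i`, one in each interval `[a + i d/2, a + i d/2 + d/4)`,
such that every piece `[τ i, τ (i+1))` either has mass `< δ`, or the two end zones of width `b` have
each mass at most `η` times the mass of the piece.
-/

set_option autoImplicit false

open Finset

namespace Crest.Agent.R98.KCut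

variable {Ω : Type*} [Fintype Ω]

open Classical in
/-- mass of the points with value in `[x, y)` -/
noncomputable def ms (q v : Ω → ℝ) (x y : ℝ) : ℝ := ∑ ω, if x ≤ v ω ∧ v ω < y then q ω else 0

section ms

variable {q v : Ω → ℝ}

theorem ms_nonneg (hq : ∀ ω, 0 ≤ q ω) (x y : ℝ) : 0 ≤ ms q v x y :=
  Finset.sum_nonneg fun ω _ => by split_ifs <;> simp [hq ω]

theorem ms_mono (hq : ∀ ω, 0 ≤ q ω) {x y x' y' : ℝ} (hx : x' ≤ x) (hy : y ≤ y') :
    ms q v x y ≤ ms q v x' y' := by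
  refine Finset.sum_le_sum fun ω _ => ?_
  split_ifs with h1 h2 h2
  · exact le_rfl
  · exact absurd ⟨hx.trans h1.1, h1.2.trans_le hy⟩ h2
  · exact hq ω
  · exact le_rfl

theorem ms_add (q v : Ω → ℝ) {x y z : ℝ} (hxy : x ≤ y) (hyz : y ≤ z) :
    ms q v x y + ms q v y z = ms q v x z := by
  unfold ms
  rw [← Finset.sum_add_distrib]
  refine Finset.sum_congr rfl fun ω _ => ?_
  by_cases h1 : v ω < y
  · have h2 : ¬ (y ≤ v ω ∧ v ω < z) := fun h => absurd h.1 (not_le.2 h1)
    rw [if_neg h2, add_zero]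
    by_cases h3 : x ≤ v ω
    · rw [if_pos ⟨h3, h1⟩, if_pos ⟨h3, h1.trans_le hyz⟩]
    · rw [if_neg (fun h => h3 h.1), if_neg (fun h => h3 h.1)]
  · have h2 : ¬ (x ≤ v ω ∧ v ω < y) := fun h => h1 h.2
    rw [if_neg h2, zero_add]
    have h4 : y ≤ v ω := not_lt.1 h1
    by_cases h3 : v ω < z
    · rw [if_pos ⟨h4, h3⟩, if_pos ⟨hxy.trans h4, h3⟩]
    · rw [if_neg (fun h => h3 h.2), if_neg (fun h => h3 h.2)]

theorem ms_le_sum (hq : ∀ ω, 0 ≤ q ω) (x y : ℝ) : ms q v x y ≤ ∑ ω, q ω :=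
  Finset.sum_le_sum fun ω _ => by split_ifs <;> simp [hq ω]

end ms

/-- counting lemma: a nonincreasing sequence `≤ 1` that is multiplied by a factor `≤ 1 - η` at each
bad index and is `> η δ` at bad indices has few bad indices. -/
theorem card_bad_le {F : ℕ → ℝ} {η δ : ℝ} (hη : 0 < η) (hη1 : η ≤ 1) (hδ : 0 < δ) (hδ1 : δ ≤ 1)
    (hF0 : F 0 ≤ 1) (hmono : ∀ k, F (k + 1) ≤ F k) (bad : Finset ℕ)
    (h1 : ∀ k ∈ bad, F (k + 1) ≤ (1 - η) * F k) (h2 : ∀ k ∈ bad, η * δ < F k) :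
    (bad.card : ℝ) ≤ 1 + Real.log (1 / (η * δ)) / η := by
  classical
  have hηδ : 0 < η * δ := mul_pos hη hδ
  have hkey : ∀ k, F k ≤ (1 - η) ^ (bad.filter (· < k)).card := by
    intro k
    induction k with
    | zero => simpa using hF0
    | succ k ih =>
      by_cases hk : k ∈ bad
      · have hins : bad.filter (· < k + 1) = insert k (bad.filter (· < k)) := by
          ext j
          simp only [mem_filter, mem_insert]
          constructor
          · rintro ⟨hj, hjk⟩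
            rcases Nat.lt_succ_iff_lt_or_eq.1 hjk with h | h
            · exact Or.inr ⟨hj, h⟩
            · exact Or.inl h
          · rintro (rfl | ⟨hj, h⟩)
            · exact ⟨hk, Nat.lt_succ_self _⟩
            · exact ⟨hj, h.trans (Nat.lt_succ_self _)⟩
        rw [hins, Finset.card_insert_of_notMem (by simp), pow_succ]
        calc F (k + 1) ≤ (1 - η) * F k := h1 k hk
          _ ≤ (1 - η) * (1 - η) ^ (bad.filter (· < k)).card :=
              mul_le_mul_of_nonneg_left ih (by linarith)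
          _ = _ := by ring
      · have hins : bad.filter (· < k + 1) = bad.filter (· < k) := by
          ext j
          simp only [mem_filter]
          constructor
          · rintro ⟨hj, hjk⟩
            rcases Nat.lt_succ_iff_lt_or_eq.1 hjk with h | h
            · exact ⟨hj, h⟩
            · exact absurd (h ▸ hj) hk
          · rintro ⟨hj, h⟩
            exact ⟨hj, h.trans (Nat.lt_succ_self _)⟩
        rw [hins]
        exact (hmono k).trans ih
  rcases bad.eq_empty_or_nonempty with rfl | hne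
  · have h1 : 0 ≤ Real.log (1 / (η * δ)) := by
      apply Real.log_nonneg
      rw [le_div_iff₀ hηδ, one_mul]
      nlinarith
    have h2 : 0 ≤ Real.log (1 / (η * δ)) / η := div_nonneg h1 hη.le
    simp only [card_empty, Nat.cast_zero]
    linarith
  · set K := bad.max' hne with hK
    have hKb : K ∈ bad := bad.max'_mem hne
    have hcard : (bad.filter (· < K)).card = bad.card - 1 := by
      have : bad.filter (· < K) = bad.erase K := by
        ext j
        simp only [mem_filter, mem_erase]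
        constructor
        · rintro ⟨hj, h⟩; exact ⟨h.ne, hj⟩
        · rintro ⟨hne', hj⟩; exact ⟨hj, lt_of_le_of_ne (bad.le_max' j hj) hne'⟩
      rw [this, Finset.card_erase_of_mem hKb]
    have h3 : η * δ < (1 - η) ^ (bad.card - 1) := by
      rw [← hcard]; exact (h2 K hKb).trans_le (hkey K)
    have h4 : (1 - η) ^ (bad.card - 1) ≤ Real.exp (-(η * ((bad.card - 1 : ℕ) : ℝ))) := by
      have h5 : 1 - η ≤ Real.exp (-η) := by
        have := Real.add_one_le_exp (-η); linarith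
      calc (1 - η) ^ (bad.card - 1) ≤ (Real.exp (-η)) ^ (bad.card - 1) :=
            pow_le_pow_left₀ (by linarith) h5 _
        _ = Real.exp (-(η * ((bad.card - 1 : ℕ) : ℝ))) := by
            rw [← Real.exp_nat_mul]; congr 1; ring
    have h6 : Real.log (η * δ) < -(η * ((bad.card - 1 : ℕ) : ℝ)) := by
      have := Real.log_lt_log hηδ (h3.trans_le h4)
      rwa [Real.log_exp] at this
    have h7 : ((bad.card - 1 : ℕ) : ℝ) = (bad.card : ℝ) - 1 := by
      rw [Nat.cast_sub (Finset.card_pos.2 hne)]; simp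
    rw [h7] at h6
    rw [one_div, Real.log_inv]
    have h8 : (bad.card : ℝ) - 1 ≤ -Real.log (η * δ) / η := by
      rw [le_div_iff₀ hη]; linarith
    linarith

/-- one cut -/
theorem exists_cut {q v : Ω → ℝ} (hq : ∀ ω, 0 ≤ q ω) (hq1 : ∑ ω, q ω ≤ 1)
    {s d b η δ : ℝ} (hd : 0 < d) (hb : 0 < b) (hη : 0 < η) (hη1 : η ≤ 1) (hδ : 0 < δ)
    (hδ1 : δ ≤ 1) {K : ℕ} (hK : 2 * b * K ≤ d / 4)
    (hK2 : 2 * (1 + Real.log (1 / (η * δ)) / η) < K) :
    ∃ τ : ℝ, s ≤ τ ∧ τ < s + d / 4 ∧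
      ms q v τ (τ + b) ≤ η * max (ms q v τ (s + d / 2)) δ ∧
      ms q v (τ - b) τ ≤ η * max (ms q v (s - d / 4) τ) δ := by
  classical
  have hηδ : 0 < η * δ := mul_pos hη hδ
  let c : ℕ → ℝ := fun k => s + 2 * b * k
  have hc : ∀ k, c (k + 1) = c k + 2 * b := fun k => by simp only [c]; push_cast; ring
  have hc0 : ∀ k, s ≤ c k := fun k => by
    simp only [c]
    have : 0 ≤ 2 * b * (k : ℝ) := by positivity
    linarith
  have hck : ∀ k, k < K → c k + 2 * b ≤ s + d / 4 := fun k hk => by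
    have h1 : ((k : ℝ) + 1) ≤ K := by exact_mod_cast hk
    have h2 : 2 * b * ((k : ℝ) + 1) ≤ 2 * b * K := mul_le_mul_of_nonneg_left h1 (by positivity)
    simp only [c]; nlinarith
  -- right bad
  let badR : Finset ℕ := (range K).filter fun k =>
    η * max (ms q v (c k) (s + d / 2)) δ < ms q v (c k) (c k + b)
  let badL : Finset ℕ := (range K).filter fun k =>
    η * max (ms q v (s - d / 4) (c k)) δ < ms q v (c k - b) (c k)
  have hR : (badR.card : ℝ) ≤ 1 + Real.log (1 / (η * δ)) / η := by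
    refine card_bad_le (F := fun k => ms q v (c k) (s + d / 2)) hη hη1 hδ hδ1
      ((ms_le_sum hq _ _).trans hq1) (fun k => ?_) badR (fun k hk => ?_) (fun k hk => ?_)
    · exact ms_mono hq (by rw [hc]; linarith) le_rfl
    · obtain ⟨hkK, hbad⟩ := mem_filter.1 hk
      have hkK' := mem_range.1 hkK
      have h1 := ms_add q v (x := c k) (y := c k + b) (z := s + d / 2) (by linarith)
        (by have := hck k hkK'; linarith)
      have h2 : ms q v (c (k + 1)) (s + d / 2) ≤ ms q v (c k + b) (s + d / 2) :=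
        ms_mono hq (by rw [hc]; linarith) le_rfl
      have h3 : η * ms q v (c k) (s + d / 2) ≤ ms q v (c k) (c k + b) :=
        (mul_le_mul_of_nonneg_left (le_max_left _ _) hη.le).trans hbad.le
      show ms q v (c (k + 1)) (s + d / 2) ≤ (1 - η) * ms q v (c k) (s + d / 2)
      linarith
    · obtain ⟨hkK, hbad⟩ := mem_filter.1 hk
      have hkK' := mem_range.1 hkK
      have h3 : η * δ < ms q v (c k) (c k + b) :=
        (mul_le_mul_of_nonneg_left (le_max_right _ _) hη.le).trans_lt hbad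
      exact h3.trans_le (ms_mono hq le_rfl (by have := hck k hkK'; linarith))
  have hL : (badL.card : ℝ) ≤ 1 + Real.log (1 / (η * δ)) / η := by
    -- reversed sequence
    let c' : ℕ → ℝ := fun j => s + 2 * b * ((K : ℝ) - 1 - j)
    have hcc' : ∀ k, k < K → c' (K - 1 - k) = c k := fun k hk => by
      simp only [c', c]
      have h1 : ((K - 1 - k : ℕ) : ℝ) = (K : ℝ) - 1 - k := by
        rw [Nat.cast_sub (by omega), Nat.cast_sub (by omega)]; simp
      rw [h1]; ring
    let bad' : Finset ℕ := badL.image fun k => K - 1 - k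
    have hcard : bad'.card = badL.card := by
      refine Finset.card_image_of_injOn ?_
      intro x hx y hy hxy
      have hx' := mem_range.1 (mem_filter.1 hx).1
      have hy' := mem_range.1 (mem_filter.1 hy).1
      simp only at hxy
      omega
    rw [← hcard]
    have hc'succ : ∀ j, c' (j + 1) = c' j - 2 * b := fun j => by
      simp only [c']; push_cast; ring
    refine card_bad_le (F := fun j => ms q v (s - d / 4) (c' j)) hη hη1 hδ hδ1
      ((ms_le_sum hq _ _).trans hq1) (fun k => ?_) bad' (fun j hj => ?_) (fun j hj => ?_)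
    · exact ms_mono hq le_rfl (by rw [hc'succ]; linarith)
    · obtain ⟨k, hk, rfl⟩ := mem_image.1 hj
      obtain ⟨hkK, hbad⟩ := mem_filter.1 hk
      have hkK' := mem_range.1 hkK
      show ms q v (s - d / 4) (c' (K - 1 - k + 1)) ≤ (1 - η) * ms q v (s - d / 4) (c' (K - 1 - k))
      rw [hc'succ, hcc' k hkK']
      have hb4 : 2 * b ≤ d / 4 := by
        have h1 : (1 : ℝ) ≤ K := by exact_mod_cast (by omega : 1 ≤ K)
        nlinarith
      have h1 := ms_add q v (x := s - d / 4) (y := c k - b) (z := c k)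
        (by have := hc0 k; linarith) (by linarith)
      have h2 : ms q v (s - d / 4) (c k - 2 * b) ≤ ms q v (s - d / 4) (c k - b) :=
        ms_mono hq le_rfl (by linarith)
      have h3 : η * ms q v (s - d / 4) (c k) ≤ ms q v (c k - b) (c k) :=
        (mul_le_mul_of_nonneg_left (le_max_left _ _) hη.le).trans hbad.le
      linarith
    · obtain ⟨k, hk, rfl⟩ := mem_image.1 hj
      obtain ⟨hkK, hbad⟩ := mem_filter.1 hk
      have hkK' := mem_range.1 hkK
      show η * δ < ms q v (s - d / 4) (c' (K - 1 - k))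
      rw [hcc' k hkK']
      have hb4 : 2 * b ≤ d / 4 := by
        have h1 : (1 : ℝ) ≤ K := by exact_mod_cast (by omega : 1 ≤ K)
        nlinarith
      have h3 : η * δ < ms q v (c k - b) (c k) :=
        (mul_le_mul_of_nonneg_left (le_max_right _ _) hη.le).trans_lt hbad
      exact h3.trans_le (ms_mono hq (by have := hc0 k; linarith) le_rfl)
  -- choose a good index
  have hex : ∃ k ∈ range K, k ∉ badR ∪ badL := by
    by_contra hcon
    push Not at hcon
    have h1 : K ≤ (badR ∪ badL).card := by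
      calc K = (range K).card := (card_range K).symm
        _ ≤ _ := Finset.card_le_card hcon
    have h2 : ((badR ∪ badL).card : ℝ) ≤ badR.card + badL.card := by
      exact_mod_cast Finset.card_union_le _ _
    have h3 : (K : ℝ) ≤ (badR ∪ badL).card := by exact_mod_cast h1
    linarith
  obtain ⟨k, hkK, hk⟩ := hex
  have hkK' := mem_range.1 hkK
  rw [mem_union, not_or] at hk
  refine ⟨c k, hc0 k, by have := hck k hkK'; linarith, ?_, ?_⟩
  · by_contra h
    exact hk.1 (mem_filter.2 ⟨hkK, not_le.1 h⟩)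
  · by_contra h
    exact hk.2 (mem_filter.2 ⟨hkK, not_le.1 h⟩)

/-- **(CUT)** -/
theorem exists_cuts {q v : Ω → ℝ} (hq : ∀ ω, 0 ≤ q ω) (hq1 : ∑ ω, q ω ≤ 1)
    (a : ℝ) {d b η δ : ℝ} (hd : 0 < d) (hb : 0 < b) (hη : 0 < η) (hη1 : η ≤ 1) (hδ : 0 < δ)
    (hδ1 : δ ≤ 1) {K : ℕ} (hK : 2 * b * K ≤ d / 4)
    (hK2 : 2 * (1 + Real.log (1 / (η * δ)) / η) < K) :
    ∃ τ : ℤ → ℝ, (∀ i, a + i * (d / 2) ≤ τ i) ∧ (∀ i, τ i < a + i * (d / 2) + d / 4) ∧
      ∀ i, ms q v (τ i) (τ (i + 1)) < δ ∨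
        (ms q v (τ i) (τ i + b) ≤ η * ms q v (τ i) (τ (i + 1)) ∧
          ms q v (τ (i + 1) - b) (τ (i + 1)) ≤ η * ms q v (τ i) (τ (i + 1))) := by
  have h := fun i : ℤ => exists_cut (q := q) (v := v) hq hq1 (s := a + i * (d / 2)) hd hb hη hη1
    hδ hδ1 hK hK2
  choose τ h1 h2 h3 h4 using h
  refine ⟨τ, h1, h2, fun i => ?_⟩
  rcases lt_or_ge (ms q v (τ i) (τ (i + 1))) δ with hlt | hge
  · exact Or.inl hlt
  · right
    have e1 : a + ((i + 1 : ℤ) : ℝ) * (d / 2) = a + i * (d / 2) + d / 2 := by push_cast; ring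
    constructor
    · refine (h3 i).trans (mul_le_mul_of_nonneg_left (max_le ?_ hge) hη.le)
      refine ms_mono hq le_rfl ?_
      have := h1 (i + 1)
      rw [e1] at this
      exact this
    · refine (h4 (i + 1)).trans (mul_le_mul_of_nonneg_left (max_le ?_ hge) hη.le)
      refine ms_mono hq ?_ le_rfl
      have := h2 i
      rw [e1]
      linarith

/-- the label of a point -/
noncomputable def lab (a d : ℝ) (τ : ℤ → ℝ) (x : ℝ) : ℤ :=
  if x < τ ⌊(x - a) / (d / 2)⌋ then ⌊(x - a) / (d / 2)⌋ - 1 else ⌊(x - a) / (d / 2)⌋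

section lab

variable {a d : ℝ} {τ : ℤ → ℝ}

theorem lab_spec (hd : 0 < d) (h1 : ∀ i : ℤ, a + i * (d / 2) ≤ τ i)
    (h2 : ∀ i : ℤ, τ i < a + i * (d / 2) + d / 4) (x : ℝ) :
    τ (lab a d τ x) ≤ x ∧ x < τ (lab a d τ x + 1) := by
  have hd2 : 0 < d / 2 := by linarith
  set i : ℤ := ⌊(x - a) / (d / 2)⌋ with hi
  have hi1 : a + i * (d / 2) ≤ x := by
    have := Int.floor_le ((x - a) / (d / 2))
    rw [← hi, le_div_iff₀ hd2] at this
    linarith
  have hi2 : x < a + ((i : ℝ) + 1) * (d / 2) := by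
    have := Int.lt_floor_add_one ((x - a) / (d / 2))
    rw [← hi, div_lt_iff₀ hd2] at this
    linarith
  unfold lab
  rw [← hi]
  split_ifs with h
  · refine ⟨?_, by simpa using h⟩
    have := h2 (i - 1)
    push_cast at this
    nlinarith
  · refine ⟨not_lt.1 h, ?_⟩
    have := h1 (i + 1)
    push_cast at this
    linarith

theorem strictMono_cut (hd : 0 < d) (h1 : ∀ i : ℤ, a + i * (d / 2) ≤ τ i)
    (h2 : ∀ i : ℤ, τ i < a + i * (d / 2) + d / 4) : StrictMono τ := by
  refine strictMono_int_of_lt_succ fun i => ?_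
  have e1 := h2 i
  have e2 := h1 (i + 1)
  push_cast at e2
  linarith

theorem lab_eq_iff (hd : 0 < d) (h1 : ∀ i : ℤ, a + i * (d / 2) ≤ τ i)
    (h2 : ∀ i : ℤ, τ i < a + i * (d / 2) + d / 4) {x : ℝ} {i : ℤ} :
    lab a d τ x = i ↔ τ i ≤ x ∧ x < τ (i + 1) := by
  have hs := lab_spec hd h1 h2 x
  have hm := strictMono_cut hd h1 h2
  constructor
  · rintro rfl; exact hs
  · rintro ⟨h3, h4⟩
    have h5 : τ i < τ (lab a d τ x + 1) := h3.trans_lt hs.2
    have h6 : τ (lab a d τ x) < τ (i + 1) := hs.1.trans_lt h4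
    have h7 := hm.lt_iff_lt.1 h5
    have h8 := hm.lt_iff_lt.1 h6
    omega

theorem lab_mono (hd : 0 < d) (h1 : ∀ i : ℤ, a + i * (d / 2) ≤ τ i)
    (h2 : ∀ i : ℤ, τ i < a + i * (d / 2) + d / 4) : Monotone (lab a d τ) := by
  intro x y hxy
  have hx := lab_spec hd h1 h2 x
  have hy := lab_spec hd h1 h2 y
  have hm := strictMono_cut hd h1 h2
  have h5 : τ (lab a d τ x) < τ (lab a d τ y + 1) := (hx.1.trans hxy).trans_lt hy.2
  have := hm.lt_iff_lt.1 h5
  omega

end lab

open Classical in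
/-- **(CUT)**, label form. For weights `q` of total mass `≤ 1` and values `v` there is a labelling
`lab`, monotone in the value, such that points with the same label differ by less than `d`; every
label class either has mass `< δ` or the mass of its points that are within `b` of some point with
another label is at most `2 η` times the mass of the class; a set of diameter `≤ L` meets at most
`2 L / d + 3` label classes. -/
theorem exists_labels_full {q v : Ω → ℝ} (hq : ∀ ω, 0 ≤ q ω) (hq1 : ∑ ω, q ω ≤ 1)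
    {d b η δ : ℝ} (hd : 0 < d) (hb : 0 < b) (hη : 0 < η) (hη1 : η ≤ 1) (hδ : 0 < δ)
    (hδ1 : δ ≤ 1) {K : ℕ} (hK : 2 * b * K ≤ d / 4)
    (hK2 : 2 * (1 + Real.log (1 / (η * δ)) / η) < K) :
    ∃ l : Ω → ℤ, (∀ ω ω', (l ω : ℝ) - l ω' ≤ 2 * |v ω - v ω'| / d + 3 / 2) ∧
      (∀ ω ω', v ω ≤ v ω' → l ω ≤ l ω') ∧
      (∀ ω ω', l ω = l ω' → |v ω - v ω'| < d) ∧
      (∀ i, (∑ ω, if l ω = i then q ω else 0) < δ ∨
        (∑ ω, if l ω = i ∧ ∃ ω', l ω' ≠ i ∧ |v ω - v ω'| < b then q ω else 0)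
          ≤ 2 * η * ∑ ω, if l ω = i then q ω else 0) ∧
      (∀ (S : Finset Ω) (L : ℝ), 0 ≤ L → (∀ ω ∈ S, ∀ ω' ∈ S, |v ω - v ω'| ≤ L) →
        ((S.image l).card : ℝ) ≤ 2 * L / d + 3) := by
  obtain ⟨τ, h1, h2, h3⟩ := exists_cuts (q := q) (v := v) hq hq1 0 hd hb hη hη1 hδ hδ1 hK hK2
  have hm := strictMono_cut hd h1 h2
  let l : Ω → ℤ := fun ω => lab 0 d τ (v ω)
  have hl : ∀ ω i, l ω = i ↔ τ i ≤ v ω ∧ v ω < τ (i + 1) := fun ω i => lab_eq_iff hd h1 h2
  have hms : ∀ i, (∑ ω, if l ω = i then q ω else 0) = ms q v (τ i) (τ (i + 1)) := fun i => by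
    unfold ms
    refine Finset.sum_congr rfl fun ω _ => ?_
    simp only [hl]
  refine ⟨l, ?_, fun ω ω' h => lab_mono hd h1 h2 h, ?_, ?_, ?_⟩
  · intro ω ω'
    have e1 := (hl ω (l ω)).1 rfl
    have e2 := (hl ω' (l ω')).1 rfl
    have e3 := h1 (l ω)
    have e4 := h2 (l ω' + 1)
    push_cast at e4
    have e5 := le_abs_self (v ω - v ω')
    have e6 : ((l ω : ℝ) - l ω') * (d / 2) ≤ |v ω - v ω'| + 3 * d / 4 := by
      nlinarith [e1.1, e2.2, e5]
    have e7 : (l ω : ℝ) - l ω' ≤ (|v ω - v ω'| + 3 * d / 4) / (d / 2) := by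
      rw [le_div_iff₀ (by linarith)]; exact e6
    refine e7.trans (le_of_eq ?_)
    field_simp
    ring
  · intro ω ω' h
    have e1 := (hl ω (l ω')).1 h
    have e2 := (hl ω' (l ω')).1 rfl
    have e3 := h1 (l ω')
    have e4 := h2 (l ω' + 1)
    push_cast at e4
    rw [abs_lt]
    constructor <;> linarith [e1.1, e1.2, e2.1, e2.2]
  · intro i
    rw [hms]
    rcases h3 i with h | ⟨ha, hb'⟩
    · exact Or.inl h
    · right
      have hle : (∑ ω, if l ω = i ∧ ∃ ω', l ω' ≠ i ∧ |v ω - v ω'| < b then q ω else 0)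
          ≤ ms q v (τ i) (τ i + b) + ms q v (τ (i + 1) - b) (τ (i + 1)) := by
        unfold ms
        rw [← Finset.sum_add_distrib]
        refine Finset.sum_le_sum fun ω _ => ?_
        split_ifs with c1 c2 c3 c3 c2 c3 c3
        · linarith [hq ω]
        · linarith
        · linarith
        · exfalso
          obtain ⟨hli, ω', hne, hdist⟩ := c1
          obtain ⟨e1, e2⟩ := (hl ω i).1 hli
          have e3 : τ i + b ≤ v ω := by
            by_contra hcon; exact c2 ⟨e1, not_le.1 hcon⟩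
          have e4 : v ω < τ (i + 1) - b := by
            by_contra hcon; exact c3 ⟨not_lt.1 hcon, e2⟩
          rw [abs_lt] at hdist
          exact hne ((hl ω' i).2 ⟨by linarith [hdist.2], by linarith [hdist.1]⟩)
        · linarith [hq ω]
        · linarith [hq ω]
        · linarith [hq ω]
        · linarith
      linarith
  · intro S L hL hS
    rcases S.eq_empty_or_nonempty with rfl | hne
    · simp only [image_empty, card_empty, Nat.cast_zero]
      positivity
    · obtain ⟨ω0, hω0, hmin⟩ := S.exists_min_image l hne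
      obtain ⟨ω1, hω1, hmax⟩ := S.exists_max_image l hne
      have hsub : S.image l ⊆ Finset.Icc (l ω0) (l ω1) := by
        intro i hi
        obtain ⟨ω, hω, rfl⟩ := mem_image.1 hi
        exact Finset.mem_Icc.2 ⟨hmin ω hω, hmax ω hω⟩
      have hcard : ((S.image l).card : ℝ) ≤ (l ω1 + 1 - l ω0 : ℤ) := by
        have h5 := Finset.card_le_card hsub
        rw [Int.card_Icc] at h5
        have h6 : ((S.image l).card : ℤ) ≤ ((l ω1 + 1 - l ω0).toNat : ℤ) := by exact_mod_cast h5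
        have h7 : 0 ≤ l ω1 + 1 - l ω0 := by
          have := hmin ω1 hω1; omega
        rw [Int.toNat_of_nonneg h7] at h6
        exact_mod_cast h6
      refine hcard.trans ?_
      have e1 := (hl ω1 (l ω1)).1 rfl
      have e2 := (hl ω0 (l ω0)).1 rfl
      have e3 := h1 (l ω1)
      have e4 := h2 (l ω0 + 1)
      push_cast at e4
      have e5 := abs_le.1 (hS ω1 hω1 ω0 hω0)
      have e6 : ((l ω1 : ℝ) - l ω0) * (d / 2) ≤ L + 3 * d / 4 := by nlinarith [e1.1, e2.2, e5.2]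
      push_cast
      have e7 : (l ω1 : ℝ) - l ω0 ≤ (L + 3 * d / 4) / (d / 2) := by
        rw [le_div_iff₀ (by linarith)]; exact e6
      have e8 : (L + 3 * d / 4) / (d / 2) = 2 * L / d + 3 / 2 := by
        field_simp
        ring
      rw [e8] at e7
      linarith

open Classical in
theorem exists_labels {q v : Ω → ℝ} (hq : ∀ ω, 0 ≤ q ω) (hq1 : ∑ ω, q ω ≤ 1)
    {d b η δ : ℝ} (hd : 0 < d) (hb : 0 < b) (hη : 0 < η) (hη1 : η ≤ 1) (hδ : 0 < δ)
    (hδ1 : δ ≤ 1) {K : ℕ} (hK : 2 * b * K ≤ d / 4)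
    (hK2 : 2 * (1 + Real.log (1 / (η * δ)) / η) < K) :
    ∃ l : Ω → ℤ, (∀ ω ω', v ω ≤ v ω' → l ω ≤ l ω') ∧
      (∀ ω ω', l ω = l ω' → |v ω - v ω'| < d) ∧
      (∀ i, (∑ ω, if l ω = i then q ω else 0) < δ ∨
        (∑ ω, if l ω = i ∧ ∃ ω', l ω' ≠ i ∧ |v ω - v ω'| < b then q ω else 0)
          ≤ 2 * η * ∑ ω, if l ω = i then q ω else 0) ∧
      (∀ (S : Finset Ω) (L : ℝ), 0 ≤ L → (∀ ω ∈ S, ∀ ω' ∈ S, |v ω - v ω'| ≤ L) →
        ((S.image l).card : ℝ) ≤ 2 * L / d + 3) := by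
  obtain ⟨l, -, h⟩ := exists_labels_full (v := v) hq hq1 hd hb hη hη1 hδ hδ1 hK hK2
  exact ⟨l, h⟩

open Classical in
/-- **(CUT)**, label form, with an explicit hypothesis on `b`. -/
theorem exists_labels' {q v : Ω → ℝ} (hq : ∀ ω, 0 ≤ q ω) (hq1 : ∑ ω, q ω ≤ 1)
    {d b η δ : ℝ} (hd : 0 < d) (hb : 0 < b) (hη : 0 < η) (hη1 : η ≤ 1) (hδ : 0 < δ)
    (hδ1 : δ ≤ 1) (hbd : 8 * b * (3 + 2 * (Real.log (1 / (η * δ)) / η)) ≤ d) :
    ∃ l : Ω → ℤ, (∀ ω ω', v ω ≤ v ω' → l ω ≤ l ω') ∧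
      (∀ ω ω', l ω = l ω' → |v ω - v ω'| < d) ∧
      (∀ i, (∑ ω, if l ω = i then q ω else 0) < δ ∨
        (∑ ω, if l ω = i ∧ ∃ ω', l ω' ≠ i ∧ |v ω - v ω'| < b then q ω else 0)
          ≤ 2 * η * ∑ ω, if l ω = i then q ω else 0) ∧
      (∀ (S : Finset Ω) (L : ℝ), 0 ≤ L → (∀ ω ∈ S, ∀ ω' ∈ S, |v ω - v ω'| ≤ L) →
        ((S.image l).card : ℝ) ≤ 2 * L / d + 3) := by
  have hηδ : 0 < η * δ := mul_pos hη hδ
  have h1 : 0 ≤ Real.log (1 / (η * δ)) / η := by
    refine div_nonneg (Real.log_nonneg ?_) hη.le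
    rw [le_div_iff₀ hηδ, one_mul]
    nlinarith
  set X : ℝ := 2 * (1 + Real.log (1 / (η * δ)) / η) with hX
  have hX0 : 0 ≤ X := by positivity
  refine exists_labels hq hq1 hd hb hη hη1 hδ hδ1 (K := ⌊X⌋₊ + 1) ?_ ?_
  · have h2 : ((⌊X⌋₊ + 1 : ℕ) : ℝ) ≤ X + 1 := by
      push_cast
      linarith [Nat.floor_le hX0]
    have h3 : 2 * b * ((⌊X⌋₊ + 1 : ℕ) : ℝ) ≤ 2 * b * (X + 1) :=
      mul_le_mul_of_nonneg_left h2 (by positivity)
    have h4 : 8 * b * (X + 1) ≤ d := by
      refine le_trans (le_of_eq ?_) hbd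
      rw [hX]; ring
    linarith
  · push_cast
    exact Nat.lt_floor_add_one X

open Classical in
/-- **(CUT)**, label form, with an explicit hypothesis on `b` and the bound for label differences. -/
theorem exists_labels_full' {q v : Ω → ℝ} (hq : ∀ ω, 0 ≤ q ω) (hq1 : ∑ ω, q ω ≤ 1)
    {d b η δ : ℝ} (hd : 0 < d) (hb : 0 < b) (hη : 0 < η) (hη1 : η ≤ 1) (hδ : 0 < δ)
    (hδ1 : δ ≤ 1) (hbd : 8 * b * (3 + 2 * (Real.log (1 / (η * δ)) / η)) ≤ d) :
    ∃ l : Ω → ℤ, (∀ ω ω', (l ω : ℝ) - l ω' ≤ 2 * |v ω - v ω'| / d + 3 / 2) ∧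
      (∀ ω ω', v ω ≤ v ω' → l ω ≤ l ω') ∧
      (∀ ω ω', l ω = l ω' → |v ω - v ω'| < d) ∧
      (∀ i, (∑ ω, if l ω = i then q ω else 0) < δ ∨
        (∑ ω, if l ω = i ∧ ∃ ω', l ω' ≠ i ∧ |v ω - v ω'| < b then q ω else 0)
          ≤ 2 * η * ∑ ω, if l ω = i then q ω else 0) ∧
      (∀ (S : Finset Ω) (L : ℝ), 0 ≤ L → (∀ ω ∈ S, ∀ ω' ∈ S, |v ω - v ω'| ≤ L) →
        ((S.image l).card : ℝ) ≤ 2 * L / d + 3) := by
  have hηδ : 0 < η * δ := mul_pos hη hδ
  have h1 : 0 ≤ Real.log (1 / (η * δ)) / η := by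
    refine div_nonneg (Real.log_nonneg ?_) hη.le
    rw [le_div_iff₀ hηδ, one_mul]
    nlinarith
  set X : ℝ := 2 * (1 + Real.log (1 / (η * δ)) / η) with hX
  have hX0 : 0 ≤ X := by positivity
  refine exists_labels_full hq hq1 hd hb hη hη1 hδ hδ1 (K := ⌊X⌋₊ + 1) ?_ ?_
  · have h2 : ((⌊X⌋₊ + 1 : ℕ) : ℝ) ≤ X + 1 := by
      push_cast
      linarith [Nat.floor_le hX0]
    have h3 : 2 * b * ((⌊X⌋₊ + 1 : ℕ) : ℝ) ≤ 2 * b * (X + 1) :=
      mul_le_mul_of_nonneg_left h2 (by positivity)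
    have h4 : 8 * b * (X + 1) ≤ d := by
      refine le_trans (le_of_eq ?_) hbd
      rw [hX]; ring
    linarith
  · push_cast
    exact Nat.lt_floor_add_one X

end Crest.Agent.R98.KCut
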