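import Crest.Agent.R98.KLoc
import Crest.Agent.R98.Word1

/-!
# Row 98, case K: the location lemma for words

For words `u, v` of length `m` with the same type the number `∑ i, (cw r u i - cw r v i) * t i` is an
integer combination with coefficients in `{-1, 0, 1}` of `k (m+1)^k` fixed real numbers. Hence the
number of "active" geometric levels is polynomial in `m`, however deep the levels are.
-/

set_option autoImplicit false
set_option linter.unusedSectionVars false

open Finset

namespace Crest.Agent.R98.K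

variable {ι : Type*} [Fintype ι]

open Classical in
/-- number of letters `i` among the letters of `u` before position `j` -/
noncomputable def pcnt {m : ℕ} (u : Fin m → ι) (j : Fin m) (i : ι) : ℕ :=
  (univ.filter fun l : Fin m => l < j ∧ u l = i).card

omit [Fintype ι] in
theorem pcnt_le {m : ℕ} (u : Fin m → ι) (j : Fin m) (i : ι) : pcnt u j i ≤ m := by
  classical
  exact (card_le_univ _).trans (by simp)

omit [Fintype ι] in
open Classical in
theorem pcnt_cons_succ {m : ℕ} (a : ι) (u : Fin m → ι) (j : Fin m) (i : ι) :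
    pcnt (Fin.cons a u : Fin (m + 1) → ι) j.succ i = (if a = i then 1 else 0) + pcnt u j i := by
  unfold pcnt
  simp only [Finset.card_filter, Fin.sum_univ_succ, Fin.cons_zero, Fin.cons_succ,
    Fin.succ_pos, true_and, Fin.succ_lt_succ_iff]

omit [Fintype ι] in
theorem pcnt_zero {m : ℕ} (u : Fin (m + 1) → ι) (i : ι) : pcnt u 0 i = 0 := by
  classical
  simp [pcnt]

theorem cw_sum (r t : ι → ℝ) {m : ℕ} (u : Fin m → ι) :
    ∑ i, cw r u i * t i = ∑ j : Fin m, (∏ i, r i ^ pcnt u j i) * t (u j) := by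
  classical
  induction m with
  | zero => simp
  | succ m ih =>
    obtain ⟨a, u, rfl⟩ := exists_cons u
    rw [Fin.sum_univ_succ]
    simp only [cw_cons, add_mul, Finset.sum_add_distrib, ite_mul, one_mul, zero_mul,
      Finset.sum_ite_eq, mem_univ, if_true, mul_assoc, ← Finset.mul_sum, pcnt_zero, pow_zero,
      Finset.prod_const_one, Fin.cons_zero, Fin.cons_succ, pcnt_cons_succ, pow_add]
    rw [ih, Finset.mul_sum]
    congr 1
    refine Finset.sum_congr rfl fun j _ => ?_
    rw [Finset.prod_mul_distrib]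
    have : ∏ i, r i ^ (if a = i then 1 else 0) = r a := by
      rw [Finset.prod_eq_single a]
      · simp
      · intro b _ hb; simp [Ne.symm hb]
      · simp
    rw [this]
    ring

/-- index set of the integer vectors -/
def Idx (ι : Type*) (m : ℕ) : Type _ := (ι → Fin (m + 1)) × ι

open Classical in
noncomputable instance instFintypeIdx (m : ℕ) : Fintype (Idx ι m) :=
  inferInstanceAs (Fintype ((ι → Fin (m + 1)) × ι))

/-- index of the `j`-th letter -/
noncomputable def idx {m : ℕ} (u : Fin m → ι) (j : Fin m) : Idx ι m :=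
  (fun i => ⟨pcnt u j i, Nat.lt_succ_of_le (pcnt_le u j i)⟩, u j)

/-- the fixed real numbers -/
noncomputable def ev (r t : ι → ℝ) (m : ℕ) (x : Idx ι m) : ℝ := (∏ i, r i ^ (x.1 i : ℕ)) * t x.2

open Classical in
/-- the integer vector of a word -/
noncomputable def nvec {m : ℕ} (u : Fin m → ι) (x : Idx ι m) : ℤ :=
  ((univ.filter fun j : Fin m => idx u j = x).card : ℤ)

omit [Fintype ι] in
theorem idx_injective {m : ℕ} (u : Fin m → ι) : Function.Injective (idx u) := by
  classical
  have key : ∀ j j' : Fin m, j < j' → idx u j ≠ idx u j' := by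
    intro j j' hlt h
    have h1 : pcnt u j (u j) = pcnt u j' (u j) := by
      have := congrArg (fun x : Idx ι m => ((x.1 (u j) : Fin (m + 1)) : ℕ)) h
      simpa [idx] using this
    have h2 : pcnt u j (u j) < pcnt u j' (u j) := by
      unfold pcnt
      refine Finset.card_lt_card ?_
      rw [Finset.ssubset_iff_of_subset]
      · exact ⟨j, by simp [hlt], by simp⟩
      · intro l hl
        simp only [mem_filter, mem_univ, true_and] at hl ⊢
        exact ⟨hl.1.trans hlt, hl.2⟩
    omega
  intro j j' h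
  rcases lt_trichotomy j j' with h1 | h1 | h1
  · exact absurd h (key _ _ h1)
  · exact h1
  · exact absurd h.symm (key _ _ h1)

theorem nvec_nonneg {m : ℕ} (u : Fin m → ι) (x : Idx ι m) : 0 ≤ nvec u x := by
  unfold nvec; positivity

theorem nvec_le_one {m : ℕ} (u : Fin m → ι) (x : Idx ι m) : nvec u x ≤ 1 := by
  classical
  unfold nvec
  have : (univ.filter fun j : Fin m => idx u j = x).card ≤ 1 := by
    rw [Finset.card_le_one]
    intro a ha b hb
    simp only [mem_filter, mem_univ, true_and] at ha hb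
    exact idx_injective u (ha.trans hb.symm)
  exact_mod_cast this

theorem sum_nvec (r t : ι → ℝ) {m : ℕ} (u : Fin m → ι) :
    ∑ x, (nvec u x : ℝ) * ev r t m x = ∑ i, cw r u i * t i := by
  classical
  rw [cw_sum]
  have h1 : ∀ x, (nvec u x : ℝ) * ev r t m x
      = ∑ j ∈ univ.filter (fun j : Fin m => idx u j = x), ev r t m (idx u j) := by
    intro x
    have h2 : ∑ j ∈ univ.filter (fun j : Fin m => idx u j = x), ev r t m (idx u j)
        = ∑ _j ∈ univ.filter (fun j : Fin m => idx u j = x), ev r t m x :=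
      Finset.sum_congr rfl fun j hj => by rw [(mem_filter.1 hj).2]
    rw [h2, Finset.sum_const, nsmul_eq_mul]
    simp [nvec]
  simp only [h1]
  have h3 := Finset.sum_fiberwise (univ : Finset (Fin m)) (fun j => idx u j)
    (fun j => ev r t m (idx u j))
  refine Eq.trans ?_ (h3.trans ?_)
  · refine Finset.sum_congr rfl fun x _ => Finset.sum_congr ?_ fun _ _ => rfl
    ext j; simp
  · exact Finset.sum_congr rfl fun j _ => rfl

/-- difference vectors of words of length `m` -/
def diffs (ι : Type*) [Fintype ι] (m : ℕ) : Set (Idx ι m → ℤ) :=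
  {n | ∃ u v : Fin m → ι, n = fun x => nvec u x - nvec v x}

theorem abs_diffs_le {m : ℕ} {n : Idx ι m → ℤ} (hn : n ∈ diffs ι m) (x : Idx ι m) :
    |n x| ≤ ((1 : ℕ) : ℤ) := by
  obtain ⟨u, v, rfl⟩ := hn
  have h1 := nvec_nonneg u x
  have h2 := nvec_nonneg v x
  have h3 := nvec_le_one u x
  have h4 := nvec_le_one v x
  rw [abs_le]
  push_cast
  constructor <;> linarith

theorem val_diff (r t : ι → ℝ) {m : ℕ} (u v : Fin m → ι) :
    val (ev r t m) (fun x => nvec u x - nvec v x)
      = |∑ i, cw r u i * t i - ∑ i, cw r v i * t i| := by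
  unfold val
  rw [← sum_nvec r t u, ← sum_nvec r t v, ← Finset.sum_sub_distrib]
  congr 1
  refine Finset.sum_congr rfl fun x _ => ?_
  push_cast
  ring

/-- number of coordinates -/
theorem card_idx (m : ℕ) : Fintype.card (Idx ι m) = (m + 1) ^ Fintype.card ι * Fintype.card ι := by
  classical
  have h : Fintype.card (Idx ι m) = Fintype.card ((ι → Fin (m + 1)) × ι) :=
    Fintype.card_congr (Equiv.refl _)
  rw [h]
  simp

/-- counting geometric levels that meet the windows of the location lemma. -/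
theorem card_levels_le {X : Finset ℝ} {Kc : ℕ} {c B : ℝ} (hc : 0 < c) (hB : 2 ≤ B)
    (J : Finset ℕ) (hJ : ∀ j ∈ J, ∃ x ∈ X, ∃ y : ℝ, x ≤ y ∧ y ≤ Kc * x ∧
      c * (B⁻¹) ^ (j + 1) < y ∧ y ≤ c * (B⁻¹) ^ j) :
    J.card ≤ X.card * (Nat.log 2 Kc + 2) := by
  classical
  choose! f hf y hy1 hy2 hy3 hy4 using hJ
  rw [mul_comm]
  refine Finset.card_le_mul_card_image_of_maps_to (f := f) hf _ ?_
  intro x hx
  rcases (J.filter fun j => f j = x).eq_empty_or_nonempty with h | hne
  · rw [h]; simp
  · set j0 := (J.filter fun j => f j = x).min' hne with hj0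
    have hj0m := (J.filter fun j => f j = x).min'_mem hne
    obtain ⟨hj0J, hj0x⟩ := mem_filter.1 hj0m
    rw [← hj0] at hj0J hj0x
    have hsub : (J.filter fun j => f j = x) ⊆ Finset.Icc j0 (j0 + Nat.log 2 Kc + 1) := by
      intro j hj
      obtain ⟨hjJ, hjx⟩ := mem_filter.1 hj
      have hle : j0 ≤ j := Finset.min'_le _ _ hj
      rw [Finset.mem_Icc]
      refine ⟨hle, ?_⟩
      by_contra hcon
      push Not at hcon
      -- j ≥ j0 + log + 2
      have hB0 : (0 : ℝ) < B := by linarith
      have e1 : c * (B⁻¹) ^ (j0 + 1) < Kc * x := by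
        have := (hy3 j0 hj0J).trans_le (hy2 j0 hj0J)
        rwa [hj0x] at this
      have e2 : x ≤ c * (B⁻¹) ^ j := by
        have := (hy1 j hjJ).trans (hy4 j hjJ)
        rwa [hjx] at this
      have e3 : c * (B⁻¹) ^ (j0 + 1) < Kc * (c * (B⁻¹) ^ j) :=
        e1.trans_le (mul_le_mul_of_nonneg_left e2 (by positivity))
      obtain ⟨a, ha⟩ : ∃ a, j = (j0 + 1) + a := ⟨j - (j0 + 1), by omega⟩
      have e4 : B ^ a < Kc := by
        have hp : 0 < c * (B⁻¹) ^ (j0 + 1) := by positivity
        have e5 : c * (B⁻¹) ^ (j0 + 1) * 1 < c * (B⁻¹) ^ (j0 + 1) * (Kc * (B⁻¹) ^ a) := by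
          rw [mul_one]
          calc c * (B⁻¹) ^ (j0 + 1) < Kc * (c * (B⁻¹) ^ j) := e3
            _ = Kc * (c * ((B⁻¹) ^ (j0 + 1) * (B⁻¹) ^ a)) := by rw [← pow_add, ha]
            _ = c * (B⁻¹) ^ (j0 + 1) * (Kc * (B⁻¹) ^ a) := by ring
        have e6 := lt_of_mul_lt_mul_left e5 hp.le
        rw [inv_pow, ← div_eq_mul_inv, lt_div_iff₀ (by positivity), one_mul] at e6
        exact e6
      have e7 : 2 ^ a < Kc := by
        have : (2 : ℝ) ^ a < Kc := (pow_le_pow_left₀ (by norm_num) hB a).trans_lt e4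
        exact_mod_cast this
      have e8 : a ≤ Nat.log 2 Kc := Nat.le_log_of_pow_le (by norm_num) e7.le
      omega
    calc (J.filter fun j => f j = x).card ≤ (Finset.Icc j0 (j0 + Nat.log 2 Kc + 1)).card :=
          Finset.card_le_card hsub
      _ = Nat.log 2 Kc + 2 := by rw [Nat.card_Icc]; omega

theorem log_const_le (M : ℕ) : Nat.log 2 (M * cramerC M 1) ≤ (2 * M + 1) * (M + 1) := by
  have h1 : M * cramerC M 1 ≤ (M + 1) ^ (2 * M + 1) := by
    unfold cramerC
    have h2 : Nat.factorial M ≤ (M + 1) ^ M :=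
      (Nat.factorial_le_pow M).trans (Nat.pow_le_pow_left (Nat.le_succ M) M)
    calc M * (Nat.factorial M * (M * 1 ^ 2 + 1) ^ M)
        ≤ (M + 1) * ((M + 1) ^ M * (M + 1) ^ M) := by
          refine Nat.mul_le_mul (Nat.le_succ M) (Nat.mul_le_mul h2 ?_)
          simp
      _ = (M + 1) ^ (2 * M + 1) := by ring
  have h3 : (M + 1) ≤ 2 ^ (M + 1) := (Nat.lt_two_pow_self).le
  calc Nat.log 2 (M * cramerC M 1) ≤ Nat.log 2 (2 ^ ((M + 1) * (2 * M + 1))) := by
        refine Nat.log_mono_right (h1.trans ?_)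
        rw [pow_mul]
        exact Nat.pow_le_pow_left h3 _
    _ = (M + 1) * (2 * M + 1) := Nat.log_pow (by norm_num) _
    _ = _ := by ring

/-- **Active levels.** The number of geometric levels `(c B^{-(j+1)}, c B^{-j}]` (`B ≥ 2`) that
contain a value `|P_{uv} . t|`, `u, v` words of length `m`, is at most `m ^ (9 k + 2)`; this holds
whatever `c, B` are, and for levels of arbitrary depth. -/
theorem active_levels (r t : ι → ℝ) {m : ℕ} (hm : 2 ≤ m) {c B : ℝ} (hc : 0 < c) (hB : 2 ≤ B)
    (J : Finset ℕ) (hJ : ∀ j ∈ J, ∃ u v : Fin m → ι,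
      c * (B⁻¹) ^ (j + 1) < |∑ i, cw r u i * t i - ∑ i, cw r v i * t i| ∧
      |∑ i, cw r u i * t i - ∑ i, cw r v i * t i| ≤ c * (B⁻¹) ^ j) :
    J.card ≤ m ^ (9 * Fintype.card ι + 2) := by
  classical
  obtain ⟨X, hX1, hX2, hX3⟩ := location (ev r t m) 1 (diffs ι m) (fun n hn x => abs_diffs_le hn x)
  set M := Fintype.card (Idx ι m) with hM
  have h1 : J.card ≤ X.card * (Nat.log 2 (M * cramerC M 1) + 2) := by
    refine card_levels_le hc hB J ?_
    intro j hj
    obtain ⟨u, v, h2, h3⟩ := hJ j hj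
    have hB0 : (0 : ℝ) < B := by linarith
    have hne : val (ev r t m) (fun x => nvec u x - nvec v x) ≠ 0 := by
      rw [val_diff]
      have : 0 < c * (B⁻¹) ^ (j + 1) := by positivity
      exact (this.trans h2).ne'
    obtain ⟨x, hx, h4, h5⟩ := hX3 _ ⟨u, v, rfl⟩ hne
    rw [val_diff] at h4 h5
    exact ⟨x, hx, _, h4, by exact_mod_cast h5, h2, h3⟩
  have h2 : J.card ≤ M * ((2 * M + 1) * (M + 1) + 2) :=
    h1.trans (Nat.mul_le_mul hX1 (Nat.add_le_add_right (log_const_le M) 2))
  have h3 : M * ((2 * M + 1) * (M + 1) + 2) ≤ 3 * (M + 1) ^ 3 := by nlinarith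
  set k := Fintype.card ι with hk
  have hMk : M + 1 ≤ m ^ (3 * k) ∨ k = 0 := by
    rcases Nat.eq_zero_or_pos k with h0 | hpos
    · exact Or.inr h0
    · left
      rw [hM, card_idx, ← hk]
      have e1 : m + 1 ≤ m ^ 2 := by nlinarith
      have e2 : (m + 1) ^ k ≤ m ^ (2 * k) := by
        rw [pow_mul]; exact Nat.pow_le_pow_left e1 k
      have e3 : k + 1 ≤ m ^ k := by
        calc k + 1 ≤ 2 ^ k := Nat.lt_two_pow_self
          _ ≤ m ^ k := Nat.pow_le_pow_left hm k
      have e4 : 1 ≤ (m + 1) ^ k := Nat.one_le_pow _ _ (by omega)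
      calc (m + 1) ^ k * k + 1 ≤ (m + 1) ^ k * k + (m + 1) ^ k := by omega
        _ = (m + 1) ^ k * (k + 1) := by ring
        _ ≤ m ^ (2 * k) * m ^ k := Nat.mul_le_mul e2 e3
        _ = m ^ (3 * k) := by rw [← pow_add]; congr 1; ring
  rcases hMk with h4 | h0
  · calc J.card ≤ 3 * (M + 1) ^ 3 := h2.trans h3
      _ ≤ m ^ 2 * (m ^ (3 * k)) ^ 3 := by
          refine Nat.mul_le_mul (by nlinarith) (Nat.pow_le_pow_left h4 3)
      _ = m ^ (9 * k + 2) := by rw [← pow_mul, ← pow_add]; congr 1; ring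
  · have hM0 : M = 0 := by rw [hM, card_idx, ← hk, h0]; simp
    rw [hM0] at h2
    simp only [zero_mul] at h2
    have : J.card = 0 := by omega
    rw [this]; exact Nat.zero_le _

end Crest.Agent.R98.K
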