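import Crest.Agent.R98.KCut
import Crest.Agent.R98.KLocW

/-!
# Row 98, case K: (CUT) and the number of active levels with the frozen parameters of note 10554

`d j = d0 / 2^(w j)`, `b = d / 2^w`, `δ0 = 2^-(A w)`, `θ = 1/K`.
-/

set_option autoImplicit false

open Finset

namespace Crest.Agent.R98.K

universe u

open Classical in
/-- **(CUT)** with the frozen parameters: a probability vector `p` on a finite type, values `v`,
support of diameter `≤ D0`; then the atoms are cut into `2^(w+2)` pieces of diameter `≤ D0 / 2^w`,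
and in every piece of mass `≥ 2^-(A w)` the atoms within `D0 / 2^(2w)` of an atom of another piece
have mass at most `1/K` of the mass of the piece. -/
theorem cut (K A : ℕ) (hK : 1 ≤ K) : ∃ w0 : ℕ, ∀ w ≥ w0, ∀ (κ : Type u) [Fintype κ]
    (p v : κ → ℝ), (∀ a, 0 ≤ p a) → ∑ a, p a = 1 → ∀ D0 : ℝ, 0 < D0 →
    (∀ a b, p a ≠ 0 → p b ≠ 0 → |v a - v b| ≤ D0) →
    ∃ f : κ → Fin (2 ^ (w + 2)),
      (∀ a b, p a ≠ 0 → p b ≠ 0 → f a = f b → |v a - v b| ≤ D0 / 2 ^ w) ∧
      ∀ y : Fin (2 ^ (w + 2)), 1 / 2 ^ (A * w) ≤ (∑ a, if f a = y then p a else 0) →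
        (∑ a, if f a = y ∧ ∃ b, p b ≠ 0 ∧ f b ≠ y ∧ |v a - v b| < D0 / 2 ^ (2 * w) then p a else 0)
          ≤ 1 / K * ∑ a, if f a = y then p a else 0 := by
  -- choice of `w0`
  have hKpos : (0 : ℝ) < K := by exact_mod_cast hK
  obtain ⟨w0, hw0⟩ : ∃ w0 : ℕ, ∀ w ≥ w0,
      8 * (3 + 2 * (Real.log (1 / (1 / (2 * (K : ℝ)) * (1 / 2 ^ (A * w)))) / (1 / (2 * (K : ℝ)))))
        ≤ (2 : ℝ) ^ w := by
    have hlin : ∀ w : ℕ,
        8 * (3 + 2 * (Real.log (1 / (1 / (2 * (K : ℝ)) * (1 / 2 ^ (A * w)))) / (1 / (2 * (K : ℝ)))))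
        = (24 + 32 * K * Real.log (2 * K)) + (32 * K * A * Real.log 2) * w := by
      intro w
      have h1 : 1 / (1 / (2 * (K : ℝ)) * (1 / 2 ^ (A * w))) = 2 * K * 2 ^ (A * w) := by
        field_simp
      rw [h1, Real.log_mul (by positivity) (by positivity), Real.log_pow]
      push_cast
      field_simp
      ring
    have ht : Filter.Tendsto (fun w : ℕ => (w : ℝ) / (2 : ℝ) ^ w) Filter.atTop (nhds 0) := by
      have := tendsto_pow_const_div_const_pow_of_one_lt 1 (r := (2 : ℝ)) (by norm_num)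
      simpa using this
    have ht2 : Filter.Tendsto (fun w : ℕ => (1 : ℝ) / (2 : ℝ) ^ w) Filter.atTop (nhds 0) := by
      have := tendsto_pow_const_div_const_pow_of_one_lt 0 (r := (2 : ℝ)) (by norm_num)
      simpa using this
    have ht3 : Filter.Tendsto (fun w : ℕ => (24 + 32 * K * Real.log (2 * K)) * ((1 : ℝ) / (2 : ℝ) ^ w)
        + (32 * K * A * Real.log 2) * ((w : ℝ) / (2 : ℝ) ^ w)) Filter.atTop (nhds 0) := by
      simpa using (ht2.const_mul (24 + 32 * K * Real.log (2 * K))).add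
        (ht.const_mul (32 * K * A * Real.log 2))
    obtain ⟨w0, h0⟩ := Filter.eventually_atTop.1 ((ht3.eventually (gt_mem_nhds one_pos)))
    refine ⟨w0, fun w hw => ?_⟩
    have h1 := h0 w hw
    rw [hlin]
    have h2 : (0 : ℝ) < 2 ^ w := by positivity
    have h3 : (24 + 32 * K * Real.log (2 * K)) * ((1 : ℝ) / (2 : ℝ) ^ w)
        + (32 * K * A * Real.log 2) * ((w : ℝ) / (2 : ℝ) ^ w)
        = ((24 + 32 * K * Real.log (2 * K)) + (32 * K * A * Real.log 2) * w) / 2 ^ w := by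
      field_simp
    rw [h3, div_lt_one h2] at h1
    exact h1.le
  refine ⟨max w0 1, fun w hw κ _ p v hp hp1 D0 hD0 hdiam => ?_⟩
  have hww0 : w0 ≤ w := (le_max_left _ _).trans hw
  have hw1 : 1 ≤ w := (le_max_right _ _).trans hw
  have h2w : (0 : ℝ) < 2 ^ w := by positivity
  have hd : 0 < D0 / 2 ^ w := by positivity
  have hb : 0 < D0 / 2 ^ (2 * w) := by positivity
  have hη : (0 : ℝ) < 1 / (2 * K) := by positivity
  have hη1 : (1 : ℝ) / (2 * K) ≤ 1 := by
    rw [div_le_one (by positivity)]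
    have : (1 : ℝ) ≤ K := by exact_mod_cast hK
    linarith
  have hδ : (0 : ℝ) < 1 / 2 ^ (A * w) := by positivity
  have hδ1 : (1 : ℝ) / 2 ^ (A * w) ≤ 1 := by
    rw [div_le_one (by positivity)]
    exact one_le_pow₀ (by norm_num)
  obtain ⟨l, h1, -, h2, h3, -⟩ := KCut.exists_labels_full' (q := p) (v := v) hp hp1.le hd hb hη hη1 hδ hδ1
    (by
      have h5 := hw0 w hww0
      have h6 : D0 / 2 ^ w = D0 / 2 ^ (2 * w) * 2 ^ w := by
        rw [two_mul, pow_add]; field_simp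
      rw [h6]
      calc _ = D0 / 2 ^ (2 * w) * (8 * (3 + 2 * (Real.log (1 / (1 / (2 * (K : ℝ)) *
            (1 / 2 ^ (A * w)))) / (1 / (2 * (K : ℝ)))))) := by ring
        _ ≤ _ := mul_le_mul_of_nonneg_left h5 hb.le)
  -- support
  set S : Finset κ := univ.filter fun a => p a ≠ 0 with hS
  have hSne : S.Nonempty := by
    by_contra hcon
    rw [Finset.not_nonempty_iff_eq_empty] at hcon
    have : ∑ a, p a = 0 := Finset.sum_eq_zero fun a _ => by
      by_contra hne
      have : a ∈ S := by simp [hS, hne]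
      rw [hcon] at this
      exact absurd this (by simp)
    rw [this] at hp1
    exact zero_ne_one hp1
  obtain ⟨a0, ha0, hmin⟩ := S.exists_min_image l hSne
  have hsupp : ∀ a, a ∈ S ↔ p a ≠ 0 := fun a => by simp [hS]
  -- number of labels
  have hrange : ∀ a ∈ S, (l a - l a0).toNat < 2 ^ (w + 2) := by
    intro a ha
    have h5 := h1 a a0
    have h6 : |v a - v a0| ≤ D0 := hdiam a a0 ((hsupp a).1 ha) ((hsupp a0).1 ha0)
    have h7 : 2 * |v a - v a0| / (D0 / 2 ^ w) ≤ 2 * 2 ^ w := by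
      rw [div_le_iff₀ hd]
      have : 2 * (2 : ℝ) ^ w * (D0 / 2 ^ w) = 2 * D0 := by field_simp
      rw [this]; linarith
    have h8 : (l a : ℝ) - l a0 ≤ 2 * 2 ^ w + 3 / 2 := by linarith
    have h9 : ((l a - l a0 : ℤ) : ℝ) < ((2 ^ (w + 2) : ℕ) : ℝ) := by
      push_cast
      have h10 : (2 : ℝ) ≤ 2 ^ w := by
        calc (2 : ℝ) = 2 ^ 1 := by norm_num
          _ ≤ 2 ^ w := pow_le_pow_right₀ (by norm_num) hw1
      rw [pow_add]
      nlinarith
    have h11 : l a - l a0 < ((2 ^ (w + 2) : ℕ) : ℤ) := by exact_mod_cast h9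
    have h12 : 0 ≤ l a - l a0 := by have := hmin a ha; omega
    omega
  let f : κ → Fin (2 ^ (w + 2)) := fun a =>
    if h : a ∈ S then ⟨(l a - l a0).toNat, hrange a h⟩ else ⟨0, by positivity⟩
  have hf : ∀ a ∈ S, ((f a : ℕ) : ℤ) = l a - l a0 := by
    intro a ha
    simp only [f, dif_pos ha]
    have h12 : 0 ≤ l a - l a0 := by have := hmin a ha; omega
    exact Int.toNat_of_nonneg h12
  have hfy : ∀ a ∈ S, ∀ y : Fin (2 ^ (w + 2)), f a = y ↔ l a = l a0 + ((y : ℕ) : ℤ) := by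
    intro a ha y
    rw [Fin.ext_iff, ← Int.natCast_inj, hf a ha]
    constructor <;> intro h <;> omega
  refine ⟨f, ?_, ?_⟩
  · intro a b ha hb' hab
    have ha' := (hsupp a).2 ha
    have hb'' := (hsupp b).2 hb'
    refine (h2 a b ?_).le
    have e1 := hf a ha'
    have e2 := hf b hb''
    rw [hab] at e1
    omega
  · intro y hy
    have hmass : (∑ a, if f a = y then p a else 0)
        = ∑ a, if l a = l a0 + ((y : ℕ) : ℤ) then p a else 0 := by
      refine Finset.sum_congr rfl fun a _ => ?_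
      by_cases ha : a ∈ S
      · simp only [hfy a ha y]
      · have hp0 : p a = 0 := by
          by_contra h; exact ha ((hsupp a).2 h)
        simp [hp0]
    rw [hmass] at hy ⊢
    rcases h3 (l a0 + ((y : ℕ) : ℤ)) with h | h
    · exact absurd hy (not_le.2 h)
    · have h13 : 2 * (1 / (2 * (K : ℝ))) = 1 / K := by field_simp
      rw [h13] at h
      refine le_trans ?_ h
      refine Finset.sum_le_sum fun a _ => ?_
      by_cases ha : a ∈ S
      · split_ifs with c1 c2 c2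
        · exact le_rfl
        · exfalso
          obtain ⟨c3, b, c4, c5, c6⟩ := c1
          exact c2 ⟨(hfy a ha y).1 c3, b, fun h => c5 ((hfy b ((hsupp b).2 c4) y).2 h), c6⟩
        · exact hp a
        · exact le_rfl
      · have hp0 : p a = 0 := by
          by_contra h; exact ha ((hsupp a).2 h)
        simp [hp0]

/-- **Active levels** with the frozen parameters: at most `m ^ (9 k + 2)` levels `j` contain a
difference `|v a - v b|` of two words of length `m`, whatever `d0 > 0` and `w ≥ 1` are. -/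
theorem active_levels_dyadic {ι : Type*} [Fintype ι] (r t : ι → ℝ) {m : ℕ} (hm : 2 ≤ m)
    {d0 : ℝ} (hd0 : 0 < d0) {w : ℕ} (hw : 1 ≤ w) (J : Finset ℕ)
    (hJ : ∀ j ∈ J, ∃ a b : Fin m → ι,
      d0 / 2 ^ (w * (j + 1)) < |∑ i, cw r a i * t i - ∑ i, cw r b i * t i| ∧
      |∑ i, cw r a i * t i - ∑ i, cw r b i * t i| ≤ d0 / 2 ^ (w * j)) :
    J.card ≤ m ^ (9 * Fintype.card ι + 2) := by
  have hB : (2 : ℝ) ≤ 2 ^ w := by
    calc (2 : ℝ) = 2 ^ 1 := by norm_num
      _ ≤ 2 ^ w := pow_le_pow_right₀ (by norm_num) hw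
  have hconv : ∀ j : ℕ, d0 * (((2 : ℝ) ^ w)⁻¹) ^ j = d0 / 2 ^ (w * j) := fun j => by
    rw [inv_pow, ← pow_mul, div_eq_mul_inv]
  refine active_levels r t hm hd0 hB J fun j hj => ?_
  obtain ⟨a, b, h1, h2⟩ := hJ j hj
  exact ⟨a, b, by rw [hconv]; exact h1, by rw [hconv]; exact h2⟩

end Crest.Agent.R98.K
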