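/-
Row 98, rank at least two: two small entropy lemmas for the detection lemma.
-/
import Mathlib
import Crest.Agent.R98.Ent3

set_option linter.unusedVariables false
set_option linter.unusedSectionVars false

open MeasureTheory Set Real Filter
open scoped ENNReal Topology

namespace Crest.Agent.R98.K

/-- the entropy of an independent sum with a finite law -/
theorem Hs_addLaw_le_add {κ : Type*} [Fintype κ] {q : κ → ℝ} (hq : ∀ k, 0 ≤ q k)
    (hq1 : ∑ k, q k = 1) (s : κ → ℝ) {B : Measure ℝ} [IsProbabilityMeasure B] (hB : BSupp B)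
    {d : ℝ} (hd : 0 ≤ d) :
    Hs (addLaw q s B) d ≤ Hs B d + Hs (addLaw q s (Measure.dirac 0)) d := by
  have h := Hs_addLaw_conv_le hq hq1 s bsupp_dirac_zero hB hd
  rw [Measure.dirac_zero_conv] at h
  have h2 : 0 ≤ Hs (Measure.dirac (0 : ℝ)) d := Hs_nonneg (by rw [probReal_univ]) hd
  linarith

section ball

variable {μ : Measure ℝ} [IsProbabilityMeasure μ]

theorem measurable_ball (D : ℝ) : Measurable fun x : ℝ => μ.real (Icc (x - D) (x + D)) := by
  have hs : MeasurableSet ({z : ℝ × ℝ | z.1 - D ≤ z.2} ∩ {z | z.2 ≤ z.1 + D}) :=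
    (measurableSet_le (measurable_fst.sub_const D) measurable_snd).inter
      (measurableSet_le measurable_snd (measurable_fst.add_const D))
  exact (measurable_measure_prodMk_left (ν := μ) hs).ennreal_toReal

theorem ball_le_one (D x : ℝ) : μ.real (Icc (x - D) (x + D)) ≤ 1 := by
  have := measureReal_mono (μ := μ) (subset_univ (Icc (x - D) (x + D)))
  rwa [probReal_univ] at this

theorem ofReal_neg_log_le_nlog {v : ℝ} : ENNReal.ofReal (-log v) ≤ nlog v := by
  unfold nlog
  split_ifs
  · exact le_top
  · exact le_rfl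

theorem lintegral_nlog_ball_le (hμ : BSupp μ) {D : ℝ} (hD : 0 < D) :
    ∫⁻ x, nlog (μ.real (Icc (x - D) (x + D))) ∂μ ≤ ENNReal.ofReal (Hs μ D) := by
  have h1 : ∫⁻ x, ENNReal.ofReal D * nlog (μ.real (Icc (x - D) (x + D))) ∂μ ≤
      ENNReal.ofReal (D * Hs μ D) := by
    rw [ofReal_mul_Hs hμ hD, lintegral_negMulLog_cell]
    refine lintegral_mono fun x => ?_
    calc ENNReal.ofReal D * nlog (μ.real (Icc (x - D) (x + D)))
        = ∫⁻ y in Ioc (x - D) x, nlog (μ.real (Icc (x - D) (x + D))) := by
          rw [setLIntegral_const, Real.volume_Ioc, mul_comm]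
          congr 2; ring
      _ ≤ ∫⁻ y in Ioc (x - D) x, nlog (μ.real (Ico y (y + D))) := by
          refine setLIntegral_mono' measurableSet_Ioc fun y hy => ?_
          refine nlog_anti measureReal_nonneg (measureReal_mono ?_)
          intro z hz
          exact ⟨by linarith [hz.1, hy.1], by linarith [hz.2, hy.2]⟩
  rw [lintegral_const_mul' _ _ ENNReal.ofReal_ne_top, ENNReal.ofReal_mul hD.le] at h1
  exact (ENNReal.mul_le_mul_iff_right (by simpa using hD) ENNReal.ofReal_ne_top).mp h1

theorem neg_log_ball_nonneg (D x : ℝ) : 0 ≤ -log (μ.real (Icc (x - D) (x + D))) :=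
  neg_nonneg.mpr (log_nonpos measureReal_nonneg (ball_le_one D x))

theorem integrable_neg_log_ball (hμ : BSupp μ) {D : ℝ} (hD : 0 < D) :
    Integrable (fun x => -log (μ.real (Icc (x - D) (x + D)))) μ := by
  refine ⟨(measurable_log.comp (measurable_ball D)).neg.aestronglyMeasurable, ?_⟩
  rw [hasFiniteIntegral_iff_ofReal (Filter.Eventually.of_forall fun x => neg_log_ball_nonneg D x)]
  refine lt_of_le_of_lt ?_ (ENNReal.ofReal_lt_top (r := Hs μ D))
  exact (lintegral_mono fun x => ofReal_neg_log_le_nlog).trans (lintegral_nlog_ball_le hμ hD)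

theorem int_neg_log_ball_le (hμ : BSupp μ) {D : ℝ} (hD : 0 < D) :
    ∫ x, -log (μ.real (Icc (x - D) (x + D))) ∂μ ≤ Hs μ D := by
  rw [integral_eq_lintegral_of_nonneg_ae
    (Filter.Eventually.of_forall fun x => neg_log_ball_nonneg D x)
    (measurable_log.comp (measurable_ball D)).neg.aestronglyMeasurable]
  refine ENNReal.toReal_le_of_le_ofReal (Hs_nonneg (by rw [probReal_univ]) hD.le) ?_
  exact (lintegral_mono fun x => ofReal_neg_log_le_nlog).trans (lintegral_nlog_ball_le hμ hD)

/-- elementary inequality -/
theorem log_quot_le {f β : ℝ} (hf : 0 ≤ f) (hfβ : f ≤ β) (hβ : β ≤ 1) :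
    -log f ≤ -log β + β / (3 * f) + (log 3 - 1) := by
  have h3 : 1 ≤ log 3 := by
    rw [le_log_iff_exp_le (by norm_num)]
    have := exp_one_lt_d9
    linarith
  rcases hf.eq_or_lt with h | h
  · rw [← h, log_zero, mul_zero, div_zero]
    have : log β ≤ 0 := log_nonpos (hf.trans hfβ) hβ
    linarith
  · have hβ0 : 0 < β := h.trans_le hfβ
    have h1 := log_le_sub_one_of_pos (show 0 < β / (3 * f) by positivity)
    rw [log_div hβ0.ne' (by positivity), log_mul (by norm_num) h.ne'] at h1
    linarith

/-- **balls versus cells** -/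
theorem le_int_neg_log_ball (hμ : BSupp μ) {D : ℝ} (hD : 0 < D) :
    Hs μ D - log 3 ≤ ∫ x, -log (μ.real (Icc (x - D) (x + D))) ∂μ := by
  set f : ℝ → ℝ := fun y => μ.real (Ico y (y + D)) with hf
  set β : ℝ → ℝ := fun x => μ.real (Icc (x - D) (x + D)) with hβ
  have hf1 : ∀ y, f y ≤ 1 := fun y => cell_le_one μ y D
  have hfm : Measurable f := measurable_cell μ D
  have hβm : Measurable β := measurable_ball D
  have h3 : 1 ≤ log 3 := by
    rw [le_log_iff_exp_le (by norm_num)]
    have := exp_one_lt_d9
    linarith
  -- the inequality, cell by cell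
  have key : ∀ y, ENNReal.ofReal (negMulLog (f y)) ≤
      (∫⁻ x in Ico y (y + D), ENNReal.ofReal (-log (β x)) ∂μ) +
        (ENNReal.ofReal ((f (y - D) + f y + f (y + D)) / 3) +
          ENNReal.ofReal ((log 3 - 1) * f y)) := by
    intro y
    have e1 : ENNReal.ofReal (negMulLog (f y)) =
        ∫⁻ x in Ico y (y + D), ENNReal.ofReal (-log (f y)) ∂μ := by
      rw [setLIntegral_const, negMulLog, neg_mul, ← mul_neg, ENNReal.ofReal_mul measureReal_nonneg,
        mul_comm]
      congr 1
      simp only [Measure.real]
      rw [ENNReal.ofReal_toReal (measure_ne_top _ _)]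
    have e2 : ∀ x ∈ Ico y (y + D), ENNReal.ofReal (-log (f y)) ≤
        ENNReal.ofReal (-log (β x)) +
          ENNReal.ofReal ((f (y - D) + f y + f (y + D)) / (3 * f y) + (log 3 - 1)) := by
      intro x hx
      have hfβ : f y ≤ β x := measureReal_mono fun z hz =>
        ⟨by linarith [hz.1, hx.2], by linarith [hz.2, hx.1]⟩
      have hβf : β x ≤ f (y - D) + f y + f (y + D) := by
        simp only [hβ, hf]
        have h4 : Icc (x - D) (x + D) ⊆
            (Ico (y - D) (y - D + D) ∪ Ico y (y + D)) ∪ Ico (y + D) (y + D + D) := by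
          intro z hz
          rcases lt_or_ge z y with h5 | h5
          · exact Or.inl (Or.inl ⟨by linarith [hz.1, hx.1], by linarith⟩)
          · rcases lt_or_ge z (y + D) with h6 | h6
            · exact Or.inl (Or.inr ⟨h5, h6⟩)
            · exact Or.inr ⟨h6, by linarith [hz.2, hx.2]⟩
        refine (measureReal_mono h4).trans ((measureReal_union_le _ _).trans ?_)
        have := measureReal_union_le (μ := μ) (Ico (y - D) (y - D + D)) (Ico y (y + D))
        linarith
      rw [← ENNReal.ofReal_add (neg_log_ball_nonneg D x)]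
      · refine ENNReal.ofReal_le_ofReal ?_
        have h4 := log_quot_le (show 0 ≤ f y from measureReal_nonneg) hfβ (ball_le_one D x)
        have h5 : β x / (3 * f y) ≤ (f (y - D) + f y + f (y + D)) / (3 * f y) :=
          div_le_div_of_nonneg_right hβf (mul_nonneg (by norm_num) measureReal_nonneg)
        linarith
      · have : 0 ≤ (f (y - D) + f y + f (y + D)) / (3 * f y) := by
          have a1 : 0 ≤ f (y - D) := measureReal_nonneg
          have a2 : 0 ≤ f y := measureReal_nonneg
          have a3 : 0 ≤ f (y + D) := measureReal_nonneg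
          positivity
        linarith
    rw [e1]
    refine (setLIntegral_mono' measurableSet_Ico e2).trans ?_
    rw [lintegral_add_right _ measurable_const]
    refine add_le_add le_rfl ?_
    rw [setLIntegral_const]
    have a1 : 0 ≤ f (y - D) := measureReal_nonneg
    have a2 : 0 ≤ f y := measureReal_nonneg
    have a3 : 0 ≤ f (y + D) := measureReal_nonneg
    have e3 : μ (Ico y (y + D)) = ENNReal.ofReal (f y) := by
      simp only [hf, Measure.real]
      rw [ENNReal.ofReal_toReal (measure_ne_top _ _)]
    rw [e3, ← ENNReal.ofReal_mul (add_nonneg (by positivity) (by linarith)),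
      ← ENNReal.ofReal_add (by positivity) (mul_nonneg (by linarith) a2)]
    refine ENNReal.ofReal_le_ofReal ?_
    rcases a2.eq_or_lt with h0 | h0
    · rw [← h0]; simp; positivity
    · have : ((f (y - D) + f y + f (y + D)) / (3 * f y) + (log 3 - 1)) * f y =
          (f (y - D) + f y + f (y + D)) / 3 + (log 3 - 1) * f y := by field_simp
      rw [this]
  have hint := integrable_cell hμ D
  have h4 := lintegral_mono (μ := volume) key
  rw [← ofReal_mul_Hs hμ hD, lintegral_add_right, lintegral_add_right] at h4
  rotate_left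
  · exact (measurable_const.mul hfm).ennreal_ofReal
  · refine Measurable.add ?_ (measurable_const.mul hfm).ennreal_ofReal
    exact ((((hfm.comp (measurable_id.sub_const D)).add hfm).add
      (hfm.comp (measurable_id.add_const D))).div_const 3).ennreal_ofReal
  -- the first term
  have t1 : ∫⁻ y, ∫⁻ x in Ico y (y + D), ENNReal.ofReal (-log (β x)) ∂μ =
      ENNReal.ofReal D * ∫⁻ x, ENNReal.ofReal (-log (β x)) ∂μ := by
    have hs : MeasurableSet ({z : ℝ × ℝ | z.1 ≤ z.2} ∩ {z | z.2 < z.1 + D}) :=
      (measurableSet_le measurable_fst measurable_snd).inter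
        (measurableSet_lt measurable_snd (measurable_fst.add_const D))
    have e1 : ∀ y : ℝ, ∫⁻ x in Ico y (y + D), ENNReal.ofReal (-log (β x)) ∂μ =
        ∫⁻ x, (({z : ℝ × ℝ | z.1 ≤ z.2} ∩ {z | z.2 < z.1 + D}).indicator
          (fun z => ENNReal.ofReal (-log (β z.2)))) (y, x) ∂μ := by
      intro y
      rw [← lintegral_indicator measurableSet_Ico]
      refine lintegral_congr fun x => ?_
      by_cases hx : x ∈ Ico y (y + D)
      · rw [indicator_of_mem hx, indicator_of_mem]
        exact ⟨hx.1, hx.2⟩
      · rw [indicator_of_notMem hx, indicator_of_notMem]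
        intro h; exact hx ⟨h.1, h.2⟩
    simp only [e1]
    rw [lintegral_lintegral_swap]
    · rw [← lintegral_const_mul' _ _ ENNReal.ofReal_ne_top]
      refine lintegral_congr fun x => ?_
      have e2 : (fun y : ℝ => (({z : ℝ × ℝ | z.1 ≤ z.2} ∩ {z | z.2 < z.1 + D}).indicator
          (fun z => ENNReal.ofReal (-log (β z.2)))) (y, x)) =
          (Ioc (x - D) x).indicator fun _ => ENNReal.ofReal (-log (β x)) := by
        funext y
        by_cases hy : y ∈ Ioc (x - D) x
        · rw [indicator_of_mem hy, indicator_of_mem]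
          exact ⟨hy.2, show x < y + D by linarith [hy.1]⟩
        · rw [indicator_of_notMem hy, indicator_of_notMem]
          intro h
          have h1 : y ≤ x := h.1
          have h2 : x < y + D := h.2
          exact hy ⟨by linarith, h1⟩
      rw [e2, lintegral_indicator measurableSet_Ioc, setLIntegral_const, Real.volume_Ioc, mul_comm]
      congr 2; ring
    · exact (((measurable_log.comp (hβm.comp measurable_snd)).neg.ennreal_ofReal).indicator
        hs).aemeasurable
  -- the other terms
  have t2 : ∫⁻ y, ENNReal.ofReal ((f (y - D) + f y + f (y + D)) / 3) = ENNReal.ofReal D := by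
    rw [← ofReal_integral_eq_lintegral_ofReal]
    · congr 1
      have i1 : ∫ y, f (y - D) = D := by
        rw [integral_sub_right_eq_self f D, integral_cell hD.le, probReal_univ, mul_one]
      have i2 : ∫ y, f y = D := by rw [integral_cell hD.le, probReal_univ, mul_one]
      have i3 : ∫ y, f (y + D) = D := by
        rw [integral_add_right_eq_self f D, integral_cell hD.le, probReal_univ, mul_one]
      have j1 : Integrable fun y => f (y - D) := hint.comp_sub_right D
      have j2 : Integrable f := hint
      have j3 : Integrable fun y => f (y + D) := hint.comp_add_right D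
      have e4 : ∫ y, (f (y - D) + f y + f (y + D)) =
          (∫ y, (f (y - D) + f y)) + ∫ y, f (y + D) := integral_add (j1.add j2) j3
      rw [integral_div, e4, integral_add j1 j2, i1, i2, i3]; ring
    · exact (((hint.comp_sub_right D).add hint).add (hint.comp_add_right D)).div_const 3
    · refine Filter.Eventually.of_forall fun y => ?_
      have a1 : 0 ≤ f (y - D) := measureReal_nonneg
      have a2 : 0 ≤ f y := measureReal_nonneg
      have a3 : 0 ≤ f (y + D) := measureReal_nonneg
      simp only [Pi.zero_apply]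
      positivity
  have t3 : ∫⁻ y, ENNReal.ofReal ((log 3 - 1) * f y) = ENNReal.ofReal ((log 3 - 1) * D) := by
    rw [← ofReal_integral_eq_lintegral_ofReal (hint.const_mul _)]
    · rw [integral_const_mul, integral_cell hD.le, probReal_univ, mul_one]
    · refine Filter.Eventually.of_forall fun y => ?_
      have a2 : 0 ≤ f y := measureReal_nonneg
      have : 0 ≤ log 3 - 1 := by linarith
      simp only [Pi.zero_apply]
      positivity
  rw [t1, t2, t3] at h4
  have h5 : ∫⁻ x, ENNReal.ofReal (-log (β x)) ∂μ =
      ENNReal.ofReal (∫ x, -log (β x) ∂μ) :=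
    (ofReal_integral_eq_lintegral_ofReal (integrable_neg_log_ball hμ hD)
      (Filter.Eventually.of_forall fun x => neg_log_ball_nonneg D x)).symm
  have h6 : 0 ≤ ∫ x, -log (β x) ∂μ := integral_nonneg fun x => neg_log_ball_nonneg D x
  rw [h5, ← ENNReal.ofReal_mul hD.le, ← ENNReal.ofReal_add hD.le (by nlinarith),
    ← ENNReal.ofReal_add (by positivity) (by nlinarith),
    ENNReal.ofReal_le_ofReal_iff (by nlinarith [mul_nonneg hD.le h6])] at h4
  have h7 : D * (Hs μ D - log 3) ≤ D * ∫ x, -log (β x) ∂μ := by linarith
  exact le_of_mul_le_mul_left h7 hD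

end ball

end Crest.Agent.R98.K
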