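import Crest.Agent.R98.KDetC
import Crest.Agent.R98.KSmall

/-!
R98 / KDet (helper9): **the detection lemma** (notes 10295, 10296 of helper383), final forms
`J_eq_info`, `info_nonneg`, `info_le`, `det`, `det_K`.
-/

set_option autoImplicit false
set_option linter.unusedVariables false
set_option linter.unusedSectionVars false

open MeasureTheory Set Real
open scoped ENNReal

namespace Crest.Agent.R98.K

section info

variable {C : Type*} [Fintype C]

/-- information density of the child `u` of a finite mixture: `s_u - e_u` -/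
noncomputable def info (n : C → ℝ) (P : C → Measure ℝ) (r : ℝ) (u : C) : ℝ :=
  (1 / r) * ∫ z, (P u).real (Ico z (z + r)) *
    (log ((P u).real (Ico z (z + r))) - log (∑ u', n u' * (P u').real (Ico z (z + r))))

theorem integrable_info {n : C → ℝ} (hn : ∀ u, 0 ≤ n u) {P : C → Measure ℝ}
    [∀ u, IsFiniteMeasure (P u)] (hP : ∀ u, BSupp (P u)) (r : ℝ) {u : C} (hu : 0 < n u) :
    Integrable fun z => (P u).real (Ico z (z + r)) *
      (log ((P u).real (Ico z (z + r))) - log (∑ u', n u' * (P u').real (Ico z (z + r)))) := by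
  simp only [mul_sub, ← mix_real hn P]
  have h1 : Integrable fun z => (P u).real (Ico z (z + r)) * log ((P u).real (Ico z (z + r))) := by
    have := (integrable_negMulLog_cell (hP u) r).neg
    refine this.congr (Filter.Eventually.of_forall fun z => ?_)
    simp [negMulLog]
  refine h1.sub ?_
  have h2 := (integrable_negMulLog_cell (BSupp.mix (q := n) hP) r).norm.div_const (n u)
  refine h2.mono' ?_ (Filter.Eventually.of_forall fun z => ?_)
  · exact ((measurable_cell (P u) r).mul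
      (measurable_log.comp (measurable_cell (mix n P) r))).aestronglyMeasurable
  · rw [Real.norm_eq_abs, abs_mul, abs_of_nonneg measureReal_nonneg]
    have h3 : n u * (P u).real (Ico z (z + r)) ≤ (mix n P).real (Ico z (z + r)) := by
      rw [mix_real hn P]
      exact Finset.single_le_sum (f := fun u' => n u' * (P u').real (Ico z (z + r)))
        (fun u' _ => mul_nonneg (hn u') measureReal_nonneg) (Finset.mem_univ u)
    rw [le_div_iff₀ hu, negMulLog, Real.norm_eq_abs, abs_mul, abs_neg,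
      abs_of_nonneg (measureReal_nonneg (μ := mix n P))]
    have h4 := mul_le_mul_of_nonneg_right h3 (abs_nonneg (log ((mix n P).real (Ico z (z + r)))))
    linarith

/-- the information of the children is the mean of their information densities -/
theorem J_eq_info {n : C → ℝ} (hn : ∀ u, 0 ≤ n u) {P : C → Measure ℝ}
    [∀ u, IsFiniteMeasure (P u)] (hP : ∀ u, BSupp (P u)) (r : ℝ) :
    J n P r = ∑ u, n u * info n P r u := by
  rw [J_eq hn hP]
  have h1 : ∀ z, jfun n (fun u => (P u).real (Ico z (z + r))) =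
      ∑ u, n u * ((P u).real (Ico z (z + r)) *
        (log ((P u).real (Ico z (z + r))) - log (∑ u', n u' * (P u').real (Ico z (z + r))))) := by
    intro z
    unfold jfun
    simp only [negMulLog, neg_mul, mul_neg, Finset.sum_neg_distrib, mul_sub,
      Finset.sum_sub_distrib]
    have : ∑ x, n x * ((P x).real (Ico z (z + r)) *
        log (∑ u', n u' * (P u').real (Ico z (z + r)))) =
        (∑ u', n u' * (P u').real (Ico z (z + r))) *
          log (∑ u', n u' * (P u').real (Ico z (z + r))) := by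
      rw [Finset.sum_mul]; exact Finset.sum_congr rfl fun x _ => by ring
    rw [this]; ring
  simp only [h1]
  rw [integral_finsetSum, Finset.mul_sum]
  · refine Finset.sum_congr rfl fun u _ => ?_
    rw [integral_const_mul]; unfold info; ring
  · intro u _
    rcases (hn u).eq_or_lt with h | h
    · simp only [← h, zero_mul]; exact integrable_zero _ _ _
    · exact (integrable_info hn hP r h).const_mul _

theorem info_nonneg {n : C → ℝ} (hn : ∀ u, 0 ≤ n u) (hn1 : ∑ u, n u = 1) {P : C → Measure ℝ}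
    [∀ u, IsProbabilityMeasure (P u)] (hP : ∀ u, BSupp (P u)) {r : ℝ} (hr : 0 < r) {u : C}
    (hu : 0 < n u) : 0 ≤ info n P r u := by
  have hprob := isProbabilityMeasure_mix hn hn1 P
  have h1 : ∫ z, ((P u).real (Ico z (z + r)) - (mix n P).real (Ico z (z + r))) = 0 := by
    rw [integral_sub (integrable_cell (hP u) r) (integrable_cell (BSupp.mix hP) r),
      integral_cell hr.le, integral_cell hr.le, probReal_univ, probReal_univ, sub_self]
  unfold info
  refine mul_nonneg (by positivity) ?_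
  rw [← h1]
  refine integral_mono ((integrable_cell (hP u) r).sub (integrable_cell (BSupp.mix hP) r))
    (integrable_info hn hP r hu) fun z => ?_
  simp only [← mix_real hn P]
  set x := (P u).real (Ico z (z + r)) with hx
  set Sg := (mix n P).real (Ico z (z + r)) with hS
  have hx0 : 0 ≤ x := measureReal_nonneg
  have hS0 : 0 ≤ Sg := measureReal_nonneg
  have h3 : n u * x ≤ Sg := by
    rw [hS, mix_real hn P]
    exact Finset.single_le_sum (f := fun u' => n u' * (P u').real (Ico z (z + r)))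
      (fun u' _ => mul_nonneg (hn u') measureReal_nonneg) (Finset.mem_univ u)
  rcases hx0.eq_or_lt with h | h
  · rw [← h]; simpa using hS0
  · have hSp : 0 < Sg := lt_of_lt_of_le (mul_pos hu h) h3
    have h4 := log_le_sub_one_of_pos (div_pos hSp h)
    rw [log_div hSp.ne' h.ne'] at h4
    have h5 := mul_le_mul_of_nonneg_left h4 hx0
    have h6 : x * (Sg / x - 1) = Sg - x := by field_simp
    rw [h6] at h5
    nlinarith

theorem info_le {n : C → ℝ} (hn : ∀ u, 0 ≤ n u) {P : C → Measure ℝ}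
    [∀ u, IsProbabilityMeasure (P u)] (hP : ∀ u, BSupp (P u)) {r : ℝ} (hr : 0 < r) {u : C}
    (hu : 0 < n u) : info n P r u ≤ -log (n u) := by
  have h1 : ∫ z, (P u).real (Ico z (z + r)) *
      (log ((P u).real (Ico z (z + r))) - log (∑ u', n u' * (P u').real (Ico z (z + r)))) ≤
      ∫ z, (P u).real (Ico z (z + r)) * (-log (n u)) := by
    refine integral_mono (integrable_info hn hP r hu) ((integrable_cell (hP u) r).mul_const _)
      fun z => ?_
    simp only
    set x := (P u).real (Ico z (z + r)) with hx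
    have hx0 : 0 ≤ x := measureReal_nonneg
    rcases hx0.eq_or_lt with h | h
    · rw [← h, zero_mul, zero_mul]
    · refine mul_le_mul_of_nonneg_left ?_ hx0
      have h3 : n u * x ≤ ∑ u', n u' * (P u').real (Ico z (z + r)) :=
        Finset.single_le_sum (f := fun u' => n u' * (P u').real (Ico z (z + r)))
          (fun u' _ => mul_nonneg (hn u') measureReal_nonneg) (Finset.mem_univ u)
      have h4 := log_le_log (mul_pos hu h) h3
      rw [log_mul hu.ne' h.ne'] at h4
      linarith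
  rw [integral_mul_const, integral_cell hr.le, probReal_univ, mul_one] at h1
  unfold info
  rw [one_div, inv_mul_le_iff₀ hr]
  exact h1

end info

section det

variable {C κ 𝒬 : Type*} [Fintype C] [Fintype κ] [Fintype 𝒬]

/-- the information density in terms of the other children -/
theorem info_eq {μ : Measure ℝ} [IsProbabilityMeasure μ] (hμ : BSupp μ) {n : C → ℝ}
    (hn : ∀ u, 0 ≤ n u) {c : C → κ → ℝ} (hc : ∀ u k, 0 ≤ c u k) (hc1 : ∀ u, ∑ k, c u k = 1)
    (v : κ → ℝ) {ρ r : ℝ} (hr : 0 < r) {u : C} (hu : 0 < n u) [DecidableEq C] :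
    info n (fun u' => addLaw (c u') v (scal ρ μ)) r u =
      -log (n u) - (1 / r) * ∫ z, m (c u) v ρ r μ z *
        log (1 + m (fun j => ∑ u', if u' = u then 0 else n u' * c u' j) v ρ r μ z /
          (n u * m (c u) v ρ r μ z)) := by
  set bw : κ → ℝ := fun j => ∑ u', if u' = u then 0 else n u' * c u' j with hbw
  have hbw0 : ∀ j, 0 ≤ bw j := fun j => Finset.sum_nonneg fun u' _ => by
    split_ifs
    · exact le_rfl
    · exact mul_nonneg (hn u') (hc u' j)
  have hsplit : ∀ z, ∑ u', n u' * m (c u') v ρ r μ z = n u * m (c u) v ρ r μ z +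
      m bw v ρ r μ z := by
    intro z
    have h1 : m bw v ρ r μ z = ∑ u', if u' = u then 0 else n u' * m (c u') v ρ r μ z := by
      unfold m
      simp only [hbw, Finset.sum_mul]
      rw [Finset.sum_comm]
      refine Finset.sum_congr rfl fun u' _ => ?_
      split_ifs with h
      · simp
      · rw [Finset.mul_sum]; exact Finset.sum_congr rfl fun j _ => by ring
    rw [h1]
    have h2 : n u * m (c u) v ρ r μ z = ∑ u', if u' = u then n u' * m (c u') v ρ r μ z else 0 := by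
      rw [Finset.sum_ite_eq' Finset.univ u, if_pos (Finset.mem_univ u)]
    rw [h2, ← Finset.sum_add_distrib]
    refine Finset.sum_congr rfl fun u' _ => ?_
    split_ifs <;> simp
  have hP0 : ∀ z, 0 ≤ m (c u) v ρ r μ z := m_nonneg (hc u) v ρ r μ
  have hA0 : ∀ z, 0 ≤ m bw v ρ r μ z := m_nonneg hbw0 v ρ r μ
  have hpt : ∀ z, m (c u) v ρ r μ z * (log (m (c u) v ρ r μ z) -
      log (∑ u', n u' * m (c u') v ρ r μ z)) = m (c u) v ρ r μ z * (-log (n u)) -
      m (c u) v ρ r μ z * log (1 + m bw v ρ r μ z / (n u * m (c u) v ρ r μ z)) := by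
    intro z
    rcases (hP0 z).eq_or_lt with h | h
    · rw [← h]; simp
    · rw [hsplit z, ← mul_sub]
      congr 1
      have h1 : n u * m (c u) v ρ r μ z + m bw v ρ r μ z =
          n u * (m (c u) v ρ r μ z * (1 + m bw v ρ r μ z / (n u * m (c u) v ρ r μ z))) := by
        field_simp
      have h2 : 0 < 1 + m bw v ρ r μ z / (n u * m (c u) v ρ r μ z) := by
        have : 0 ≤ m bw v ρ r μ z / (n u * m (c u) v ρ r μ z) :=
          div_nonneg (hA0 z) (mul_nonneg hu.le h.le)
        linarith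
      rw [h1, log_mul hu.ne' (mul_pos h h2).ne', log_mul h.ne' h2.ne']
      ring
  have hPi : Integrable (m (c u) v ρ r μ) := integrable_m (hc u) v ρ r hμ
  have hAi : Integrable (m bw v ρ r μ) := integrable_m hbw0 v ρ r hμ
  have hLi : Integrable fun z => m (c u) v ρ r μ z *
      log (1 + m bw v ρ r μ z / (n u * m (c u) v ρ r μ z)) := by
    have hPm := measurable_m (c u) v ρ r μ
    have hAm := measurable_m bw v ρ r μ
    refine (hAi.div_const (n u)).mono' (hPm.mul (measurable_log.comp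
      (measurable_const.add (hAm.div (hPm.const_mul (n u)))))).aestronglyMeasurable ?_
    refine Filter.Eventually.of_forall fun z => ?_
    have h1 : 0 ≤ m bw v ρ r μ z / (n u * m (c u) v ρ r μ z) :=
      div_nonneg (hA0 z) (mul_nonneg hu.le (hP0 z))
    rw [Real.norm_eq_abs, abs_of_nonneg (mul_nonneg (hP0 z) (log_nonneg (by linarith)))]
    have h2 : log (1 + m bw v ρ r μ z / (n u * m (c u) v ρ r μ z)) ≤
        m bw v ρ r μ z / (n u * m (c u) v ρ r μ z) := by
      have := log_le_sub_one_of_pos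
        (show 0 < 1 + m bw v ρ r μ z / (n u * m (c u) v ρ r μ z) by linarith)
      linarith
    rcases (hP0 z).eq_or_lt with h0 | h0
    · rw [← h0, zero_mul]; exact div_nonneg (hA0 z) hu.le
    · have h3 := mul_le_mul_of_nonneg_left h2 h0.le
      have h4 : m (c u) v ρ r μ z * (m bw v ρ r μ z / (n u * m (c u) v ρ r μ z)) =
          m bw v ρ r μ z / n u := by field_simp
      linarith
  unfold info
  have e1 : ∀ (u' : C) (z : ℝ), (addLaw (c u') v (scal ρ μ)).real (Ico z (z + r)) =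
      m (c u') v ρ r μ z := fun u' z => addLaw_real (hc u') v ρ r μ z
  simp only [e1, hpt]
  rw [integral_sub (hPi.mul_const _) hLi, integral_mul_const, integral_m (hc u) v ρ hr.le,
    hc1 u, mul_one]
  field_simp

/-- **detection lemma**, general form -/
theorem det {μ : Measure ℝ} [IsProbabilityMeasure μ] (hμ : BSupp μ) {n : C → ℝ}
    (hn : ∀ u, 0 ≤ n u) (hn1 : ∑ u, n u = 1) {c : C → κ → ℝ} (hc : ∀ u k, 0 ≤ c u k)
    (hc1 : ∀ u, ∑ k, c u k = 1) (v : κ → ℝ) {p ρ : 𝒬 → ℝ} (hp : ∀ Q, 0 ≤ p Q)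
    (hp1 : ∑ Q, p Q = 1) {r b Dn ρ0 R T Λ D C1 Eu δ θ g : ℝ} (hr : 0 < r) (hb : 2 * r ≤ b)
    {u : C} (hu : 0 < n u) (Near : κ → Prop) [DecidablePred Near]
    (hnear : ∑ k, (if Near k then c u k else 0) ≤ θ)
    (hsep : ∀ k, c u k ≠ 0 → ¬ Near k → ∀ u', u' ≠ u → n u' ≠ 0 → ∀ j, c u' j ≠ 0 →
      b ≤ |v k - v j|)
    (hDn : 0 ≤ Dn)
    (hdiam : ∀ k, c u k ≠ 0 → ∀ u', n u' ≠ 0 → ∀ j, c u' j ≠ 0 → |v k - v j| ≤ Dn)
    (hρ0 : 0 < ρ0) (hρ1 : ∀ Q, ρ0 ≤ |ρ Q|) (hρ2 : ∀ Q, |ρ Q| ≤ R * ρ0)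
    (hconc : ∀ a : ℝ, ∑ Q, (if a ≤ log |ρ Q| ∧ log |ρ Q| ≤ a + 4 * r / b then p Q else 0) ≤ Λ)
    (hD : 0 ≤ D) (hdef : ∀ d, 0 < d → ∀ L, 1 ≤ L → Hs μ d - Hs μ (L * d) ≤ D * log L + C1)
    (hE : Hs (addLaw (c u) v (Measure.dirac 0)) r ≤ Eu)
    (hT0 : 0 < T) (hT : D * log (R * (Dn + r) / r) + C1 + Eu + log 3 ≤ (1 - δ) * T)
    (hg : 0 ≤ g) (hΛ : exp T * Λ ≤ exp (-g)) :
    (δ - θ) * min (-log (n u)) g - 3 ≤
      ∑ Q, p Q * info n (fun u' => addLaw (c u') v (scal (ρ Q) μ)) r u := by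
  classical
  have hρne : ∀ Q, ρ Q ≠ 0 := fun Q => abs_pos.mp (hρ0.trans_le (hρ1 Q))
  set bw : κ → ℝ := fun j => ∑ u', if u' = u then 0 else n u' * c u' j with hbw
  have hbw0 : ∀ j, 0 ≤ bw j := fun j => Finset.sum_nonneg fun u' _ => by
    split_ifs
    · exact le_rfl
    · exact mul_nonneg (hn u') (hc u' j)
  have hbw1 : ∑ j, bw j ≤ 1 := by
    simp only [hbw]
    rw [Finset.sum_comm, ← hn1]
    refine Finset.sum_le_sum fun u' _ => ?_
    split_ifs
    · simpa using hn u'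
    · rw [← Finset.mul_sum, hc1 u', mul_one]
  have hbwne : ∀ j, bw j ≠ 0 → ∃ u', u' ≠ u ∧ n u' ≠ 0 ∧ c u' j ≠ 0 := by
    intro j hj
    obtain ⟨u', _, h⟩ := Finset.exists_ne_zero_of_sum_ne_zero hj
    by_cases h1 : u' = u
    · rw [if_pos h1] at h; exact absurd rfl h
    · rw [if_neg h1] at h
      exact ⟨u', h1, left_ne_zero_of_mul h, right_ne_zero_of_mul h⟩
  set c' : κ → ℝ := fun k => if Near k then 0 else c u k with hc'
  have hc'0 : ∀ k, 0 ≤ c' k := fun k => by
    simp only [hc']; split_ifs <;> [exact le_rfl; exact hc u k]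
  have hcc : ∀ k, c' k ≤ c u k := fun k => by
    simp only [hc']; split_ifs <;> [exact hc u k; exact le_rfl]
  set D₀ : ℝ := (Dn + r) / ρ0 with hD₀
  have hD₀0 : 0 < D₀ := div_pos (by linarith) hρ0
  have hD₀ρ : ∀ Q, Dn + r ≤ D₀ * |ρ Q| := by
    intro Q
    rw [hD₀, div_mul_eq_mul_div, le_div_iff₀ hρ0]
    exact mul_le_mul_of_nonneg_left (hρ1 Q) (by linarith)
  have hLtop : Lb μ D₀ ≠ ⊤ :=
    ne_top_of_le_ne_top ENNReal.ofReal_ne_top (lintegral_nlog_ball_le hμ hD₀0)
  have hLbge : Hs μ D₀ - log 3 ≤ (Lb μ D₀).toReal := by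
    refine (le_int_neg_log_ball hμ hD₀0).trans ?_
    rw [integral_eq_lintegral_of_nonneg_ae
      (Filter.Eventually.of_forall fun x => neg_log_ball_nonneg D₀ x)
      (measurable_log.comp (measurable_ball D₀)).neg.aestronglyMeasurable]
    refine ENNReal.toReal_mono hLtop ?_
    exact lintegral_mono fun x => ofReal_neg_log_le_nlog
  have hEQ : ∀ Q, Hs (addLaw (c u) v (scal (ρ Q) μ)) r ≤ (Lb μ D₀).toReal +
      (D * log (R * (Dn + r) / r) + C1 + Eu + log 3) := by
    intro Q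
    have h1 := Hs_addLaw_le_add (hc u) (hc1 u) v (bsupp_scal hμ (ρ Q)) hr.le
    rw [Hs_scal (hρne Q)] at h1
    have hρp : 0 < |ρ Q| := abs_pos.mpr (hρne Q)
    set L : ℝ := D₀ * |ρ Q| / r with hLdef
    have hL1 : 1 ≤ L := by
      rw [hLdef, one_le_div hr]
      linarith [hD₀ρ Q]
    have h2 := hdef (r / |ρ Q|) (div_pos hr hρp) L hL1
    have h3 : L * (r / |ρ Q|) = D₀ := by rw [hLdef]; field_simp
    rw [h3] at h2
    have h4 : log L ≤ log (R * (Dn + r) / r) := by
      refine log_le_log (by linarith) ?_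
      rw [hLdef]
      refine div_le_div_of_nonneg_right ?_ hr.le
      rw [hD₀, div_mul_eq_mul_div, div_le_iff₀ hρ0]
      have := mul_le_mul_of_nonneg_left (hρ2 Q) (show 0 ≤ Dn + r by linarith)
      linarith
    have h5 := mul_le_mul_of_nonneg_left h4 hD
    linarith
  have hn_le : n u ≤ 1 := by
    rw [← hn1]; exact Finset.single_le_sum (fun u' _ => hn u') (Finset.mem_univ u)
  have hcore := det_core (𝒬 := 𝒬) hμ (c := c u) (c' := c') (bw := bw) (v := v) (hc u) (hc1 u) hc'0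
    hcc hbw0 hbw1 hp hp1 hρne (r := r) (b := b) (D₀ := D₀) (T := T) (Λ := Λ)
    (E₁ := D * log (R * (Dn + r) / r) + C1 + Eu + log 3) (δ := δ) (θ := θ) (g := g) (n := n u) hr hb
    (fun Q k hk k' hk' => by
      have := hdiam k hk u hu.ne' k' hk'
      linarith [hD₀ρ Q])
    (fun Q k hk j hj => by
      obtain ⟨u', _, h2, h3⟩ := hbwne j hj
      have := hdiam k hk u' h2 j h3
      linarith [hD₀ρ Q])
    (fun k hk j hj => by
      obtain ⟨u', h1, h2, h3⟩ := hbwne j hj
      have hk1 : ¬ Near k := fun h => hk (by simp only [hc', if_pos h])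
      have hk2 : c u k ≠ 0 := fun h => hk (by simp only [hc', if_neg hk1, h])
      exact hsep k hk2 hk1 u' h1 h2 j h3)
    (by
      refine le_trans (le_of_eq (Finset.sum_congr rfl fun k _ => ?_)) hnear
      simp only [hc']; split_ifs <;> simp)
    hconc hLtop hT0 hEQ hT hg hΛ hu hn_le
  have h1 : ∀ Q, info n (fun u' => addLaw (c u') v (scal (ρ Q) μ)) r u =
      -log (n u) - (1 / r) * ∫ z, m (c u) v (ρ Q) r μ z *
        log (1 + m bw v (ρ Q) r μ z / (n u * m (c u) v (ρ Q) r μ z)) := fun Q =>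
    info_eq hμ hn hc hc1 v hr hu
  simp only [h1, mul_sub, Finset.sum_sub_distrib]
  rw [← Finset.sum_mul, hp1, one_mul]
  linarith

/-- **detection lemma** in the frozen parameters of case K (`l = K w`, node of diameter `≤ d`,
`b = d / 2^(2w)`, `r = d / 2^(K w)`) -/
theorem det_K {μ : Measure ℝ} [IsProbabilityMeasure μ] (hμ : BSupp μ) {K w : ℕ} (hK : 16 ≤ K)
    (hw1 : 1 ≤ w) {n : C → ℝ}
    (hn : ∀ u, 0 ≤ n u) (hn1 : ∑ u, n u = 1) {c : C → κ → ℝ} (hc : ∀ u k, 0 ≤ c u k)
    (hc1 : ∀ u, ∑ k, c u k = 1) (v : κ → ℝ) {p ρ : 𝒬 → ℝ} (hp : ∀ Q, 0 ≤ p Q)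
    (hp1 : ∑ Q, p Q = 1) {d ρ0 R C0 : ℝ} (hd : 0 < d)
    (hw : log (2 * R) + C0 + log 3 ≤ w * log 2)
    {u : C} (hu : 0 < n u) (Near : κ → Prop) [DecidablePred Near]
    (hnear : ∑ k, (if Near k then c u k else 0) ≤ 1 / K)
    (hsep : ∀ k, c u k ≠ 0 → ¬ Near k → ∀ u', u' ≠ u → n u' ≠ 0 → ∀ j, c u' j ≠ 0 →
      d / 2 ^ (2 * w) ≤ |v k - v j|)
    (hdiam : ∀ k, c u k ≠ 0 → ∀ u', n u' ≠ 0 → ∀ j, c u' j ≠ 0 → |v k - v j| ≤ d)
    (hρ0 : 0 < ρ0) (hρ1 : ∀ Q, ρ0 ≤ |ρ Q|) (hρ2 : ∀ Q, |ρ Q| ≤ R * ρ0)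
    (hconc : ∀ a : ℝ, ∑ Q, (if a ≤ log |ρ Q| ∧ log |ρ Q| ≤ a + 8 / 2 ^ ((K - 2) * w) then p Q
      else 0) ≤ 1 / 2 ^ ((K - 3) * w))
    (hdef : ∀ d, 0 < d → ∀ L, 1 ≤ L → Hs μ d - Hs μ (L * d) ≤ (1 - 8 / K) * log L + C0)
    (hE : Hs (addLaw (c u) v (Measure.dirac 0)) (d / 2 ^ (K * w)) ≤ w * log 2) :
    (1 / K) * min (-log (n u)) (w * log 2) - 3 ≤
      ∑ Q, p Q * info n (fun u' => addLaw (c u') v (scal (ρ Q) μ)) (d / 2 ^ (K * w)) u := by
  have hK' : (16 : ℝ) ≤ K := by exact_mod_cast hK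
  have hKpos : (0 : ℝ) < K := by linarith
  have hw' : (1 : ℝ) ≤ w := by exact_mod_cast hw1
  have hl2 : 0 < log 2 := log_pos (by norm_num)
  obtain ⟨Q0⟩ : Nonempty 𝒬 := by
    by_contra hcon
    rw [not_nonempty_iff] at hcon
    rw [Finset.univ_eq_empty, Finset.sum_empty] at hp1
    exact zero_ne_one hp1
  have hR : 1 ≤ R := by
    have h := (hρ1 Q0).trans (hρ2 Q0)
    by_contra hcon
    push Not at hcon
    nlinarith
  have hr : 0 < d / 2 ^ (K * w) := by positivity
  have hpow : (2 : ℝ) ^ (K * w) = 2 ^ ((K - 2) * w) * 2 ^ (2 * w) := by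
    rw [← pow_add, ← add_mul, Nat.sub_add_cancel (by omega)]
  have hp2 : (2 : ℝ) ≤ 2 ^ ((K - 2) * w) := by
    calc (2 : ℝ) = 2 ^ 1 := by norm_num
      _ ≤ 2 ^ ((K - 2) * w) := pow_le_pow_right₀ (by norm_num)
        (Nat.one_le_iff_ne_zero.mpr (Nat.mul_ne_zero (by omega) (by omega)))
  have hb : 2 * (d / 2 ^ (K * w)) ≤ d / 2 ^ (2 * w) := by
    rw [hpow, mul_div_assoc', div_le_div_iff₀ (by positivity) (by positivity)]
    have h1 : 0 < d * (2 : ℝ) ^ (2 * w) := by positivity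
    nlinarith
  have h4 : 4 * (d / 2 ^ (K * w)) / (d / 2 ^ (2 * w)) ≤ 8 / (2 : ℝ) ^ ((K - 2) * w) := by
    have h1 : 4 * (d / 2 ^ (K * w)) / (d / 2 ^ (2 * w)) = 4 / (2 : ℝ) ^ ((K - 2) * w) := by
      rw [hpow]; field_simp
    rw [h1]
    exact div_le_div_of_nonneg_right (by norm_num) (by positivity)
  have hT0 : 0 < ((K : ℝ) - 4) * w * log 2 := by
    have : 0 < (K : ℝ) - 4 := by linarith
    positivity
  have hD : (0 : ℝ) ≤ 1 - 8 / K := by
    rw [sub_nonneg, div_le_one hKpos]; linarith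
  have hD1 : (1 : ℝ) - 8 / K ≤ 1 := by
    have : 0 < 8 / (K : ℝ) := by positivity
    linarith
  have hlog : log (R * (d + d / 2 ^ (K * w)) / (d / 2 ^ (K * w))) ≤
      log (2 * R) + K * w * log 2 := by
    have h1 : R * (d + d / 2 ^ (K * w)) / (d / 2 ^ (K * w)) ≤ 2 * R * 2 ^ (K * w) := by
      have h2 : R * (d + d / 2 ^ (K * w)) / (d / 2 ^ (K * w)) = R * (2 ^ (K * w) + 1) := by
        field_simp
      have h3 : (1 : ℝ) ≤ 2 ^ (K * w) := one_le_pow₀ (by norm_num)
      rw [h2]; nlinarith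
    have h2 := log_le_log (by positivity) h1
    rw [log_mul (by positivity) (by positivity), log_pow] at h2
    push_cast at h2
    exact h2
  have hT : (1 - 8 / K) * log (R * (d + d / 2 ^ (K * w)) / (d / 2 ^ (K * w))) + C0 + w * log 2 +
      log 3 ≤ (1 - 2 / K) * (((K : ℝ) - 4) * w * log 2) := by
    have h1 := mul_le_mul_of_nonneg_left hlog hD
    have h2 : 0 ≤ log (2 * R) := log_nonneg (by linarith)
    have h3 : (1 - 8 / K) * log (2 * R) ≤ log (2 * R) := by nlinarith
    have h5 : (1 - 8 / (K : ℝ)) * (K * w * log 2) = (K - 8) * w * log 2 := by field_simp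
    have h6 : (1 - 2 / (K : ℝ)) * ((K - 4) * w * log 2) =
        (K - 6 + 8 / K) * w * log 2 := by field_simp; ring
    rw [h6]
    have h7 : 0 < 8 / (K : ℝ) * w * log 2 := by positivity
    have h8 : 0 < (w : ℝ) * log 2 := by positivity
    nlinarith
  have hΛ : exp (((K : ℝ) - 4) * w * log 2) * (1 / 2 ^ ((K - 3) * w)) ≤ exp (-(w * log 2)) := by
    have h1 : exp (((K : ℝ) - 4) * w * log 2) = 2 ^ ((K - 4) * w) := by
      have : ((K : ℝ) - 4) * w * log 2 = (((K - 4) * w : ℕ) : ℝ) * log 2 := by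
        push_cast [Nat.cast_sub (show 4 ≤ K by omega)]; ring
      rw [this, exp_nat_mul, exp_log (by norm_num)]
    have h2 : exp (-(w * log 2)) = 1 / (2 : ℝ) ^ w := by
      rw [exp_neg, exp_nat_mul, exp_log (by norm_num), one_div]
    have h3 : (2 : ℝ) ^ ((K - 3) * w) = 2 ^ ((K - 4) * w) * 2 ^ w := by
      rw [← pow_add]
      congr 1
      have : K - 3 = (K - 4) + 1 := by omega
      rw [this, add_mul, one_mul]
    rw [h1, h2, h3]
    apply le_of_eq
    field_simp
  have key := det (𝒬 := 𝒬) hμ hn hn1 hc hc1 v hp hp1 (r := d / 2 ^ (K * w)) (b := d / 2 ^ (2 * w))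
    (Dn := d) (ρ0 := ρ0) (R := R) (T := ((K : ℝ) - 4) * w * log 2) (Λ := 1 / 2 ^ ((K - 3) * w))
    (D := 1 - 8 / K) (C1 := C0) (Eu := w * log 2) (δ := 2 / K) (θ := 1 / K) (g := w * log 2)
    hr hb hu Near hnear hsep hd.le hdiam hρ0 hρ1 hρ2
    (fun a => by
      refine le_trans (Finset.sum_le_sum fun Q _ => ?_) (hconc a)
      by_cases h : a ≤ log |ρ Q| ∧
          log |ρ Q| ≤ a + 4 * (d / 2 ^ (K * w)) / (d / 2 ^ (2 * w))
      · rw [if_pos h, if_pos ⟨h.1, h.2.trans (by linarith)⟩]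
      · rw [if_neg h]
        split_ifs
        · exact hp Q
        · exact le_rfl)
    hD hdef hE hT0 hT (by positivity) hΛ
  have h9 : (2 / (K : ℝ) - 1 / K) = 1 / K := by ring
  rw [h9] at key
  exact key

end det

end Crest.Agent.R98.K
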