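import Crest.Agent.R98.Ent3
import Crest.Agent.R98.HsCell

/-!
R98 / KDetA (helper9): the detection lemma (note 10296 of helper383), part A: joint functional of
`(k, x, z)`, `z` uniform in `(v_k + ρ x - r, v_k + ρ x]`, the bad set.
-/

set_option autoImplicit false
set_option linter.unusedVariables false
set_option linter.unusedSectionVars false

open MeasureTheory Set Real
open scoped ENNReal

namespace Crest.Agent.R98.K

/-- the law of `ρ X` -/
noncomputable def scal (ρ : ℝ) (μ : Measure ℝ) : Measure ℝ := μ.map fun x => ρ * x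

instance (ρ : ℝ) (μ : Measure ℝ) [IsProbabilityMeasure μ] : IsProbabilityMeasure (scal ρ μ) :=
  Measure.isProbabilityMeasure_map (by fun_prop)

theorem bsupp_scal {μ : Measure ℝ} (hμ : BSupp μ) (ρ : ℝ) : BSupp (scal ρ μ) := by
  have h := hμ.map_affine ρ 0
  simpa [scal] using h

theorem Hs_scal {ρ : ℝ} (hρ : ρ ≠ 0) (μ : Measure ℝ) [IsFiniteMeasure μ] (d : ℝ) :
    Hs (scal ρ μ) d = Hs μ (d / |ρ|) := by
  have h := Hs_map hρ 0 μ (d / |ρ|)
  have h2 : |ρ| * (d / |ρ|) = d := by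
    have : |ρ| ≠ 0 := abs_ne_zero.mpr hρ
    field_simp
  rw [h2] at h
  simpa [scal] using h

/-- the event `a + ρ x ∈ [z, z + r)` -/
def S (ρ a r z : ℝ) : Set ℝ := {x | z ≤ a + ρ * x ∧ a + ρ * x < z + r}

theorem measurableSet_SS (ρ a r : ℝ) :
    MeasurableSet {w : ℝ × ℝ | w.2 ∈ S ρ a r w.1} := by
  have h : {w : ℝ × ℝ | w.2 ∈ S ρ a r w.1} =
      {w : ℝ × ℝ | w.1 ≤ a + ρ * w.2} ∩ {w : ℝ × ℝ | a + ρ * w.2 < w.1 + r} := by
    ext w; rfl
  rw [h]
  exact (measurableSet_le (by fun_prop) (by fun_prop)).inter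
    (measurableSet_lt (by fun_prop) (by fun_prop))

theorem measurableSet_S (ρ a r z : ℝ) : MeasurableSet (S ρ a r z) :=
  measurable_prodMk_left (measurableSet_SS ρ a r)

theorem mem_S_iff (ρ a r z x : ℝ) : x ∈ S ρ a r z ↔ z ∈ Ioc (a + ρ * x - r) (a + ρ * x) := by
  unfold S
  simp only [mem_ofPred_eq, mem_Ioc]
  constructor
  · rintro ⟨h1, h2⟩; exact ⟨by linarith, h1⟩
  · rintro ⟨h1, h2⟩; exact ⟨h2, by linarith⟩

/-- swapping the joint functional -/
theorem lint_swap (μ : Measure ℝ) [SFinite μ] (ρ a r : ℝ) {F : ℝ → ℝ → ℝ≥0∞}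
    (hF : Measurable (Function.uncurry F)) :
    ∫⁻ z, (∫⁻ x in S ρ a r z, F z x ∂μ) =
      ∫⁻ x, (∫⁻ z in Ioc (a + ρ * x - r) (a + ρ * x), F z x) ∂μ := by
  have h1 : ∀ z, ∫⁻ x in S ρ a r z, F z x ∂μ = ∫⁻ x, (S ρ a r z).indicator (F z) x ∂μ := fun z =>
    (lintegral_indicator (measurableSet_S ρ a r z) _).symm
  simp only [h1]
  rw [lintegral_lintegral_swap]
  · refine lintegral_congr fun x => ?_
    rw [← lintegral_indicator measurableSet_Ioc]
    refine lintegral_congr fun z => ?_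
    by_cases hx : x ∈ S ρ a r z
    · rw [indicator_of_mem hx, indicator_of_mem ((mem_S_iff ρ a r z x).mp hx)]
    · rw [indicator_of_notMem hx, indicator_of_notMem fun h => hx ((mem_S_iff ρ a r z x).mpr h)]
  · have : (Function.uncurry fun (z x : ℝ) => (S ρ a r z).indicator (F z) x) =
        {w : ℝ × ℝ | w.2 ∈ S ρ a r w.1}.indicator (Function.uncurry F) := by
      funext w
      simp only [Function.uncurry]
      by_cases hw : w.2 ∈ S ρ a r w.1
      · rw [indicator_of_mem hw, indicator_of_mem (show w ∈ {w : ℝ × ℝ | w.2 ∈ S ρ a r w.1} from hw)]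
        rfl
      · rw [indicator_of_notMem hw,
          indicator_of_notMem (show w ∉ {w : ℝ × ℝ | w.2 ∈ S ρ a r w.1} from hw)]
    rw [this]
    exact (hF.indicator (measurableSet_SS ρ a r)).aemeasurable

/-- the joint functional of a function of `x` only -/
theorem lint_x (μ : Measure ℝ) [SFinite μ] (ρ a : ℝ) {r : ℝ} (hr : 0 ≤ r) {f : ℝ → ℝ≥0∞}
    (hf : Measurable f) :
    ∫⁻ z, (∫⁻ x in S ρ a r z, f x ∂μ) = ENNReal.ofReal r * ∫⁻ x, f x ∂μ := by
  rw [lint_swap μ ρ a r (F := fun _ x => f x) (hf.comp measurable_snd)]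
  simp only [lintegral_const, Measure.restrict_apply MeasurableSet.univ, univ_inter, Real.volume_Ioc,
    sub_sub_cancel]
  rw [← lintegral_const_mul _ hf]
  refine lintegral_congr fun x => ?_
  rw [mul_comm]

/-- the joint functional of a function of `z` only -/
theorem lint_z (μ : Measure ℝ) [IsFiniteMeasure μ] (ρ a r : ℝ) (g : ℝ → ℝ≥0∞) :
    ∫⁻ z, (∫⁻ x in S ρ a r z, g z ∂μ) = ∫⁻ z, g z * ENNReal.ofReal (μ.real (S ρ a r z)) := by
  refine lintegral_congr fun z => ?_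
  rw [setLIntegral_const, Measure.real, ENNReal.ofReal_toReal (measure_ne_top _ _)]

variable {κ : Type*} [Fintype κ]

/-- mass of the cell `[z, z + r)` under the law of `v + ρ X` -/
noncomputable def m (c v : κ → ℝ) (ρ r : ℝ) (μ : Measure ℝ) (z : ℝ) : ℝ :=
  ∑ k, c k * μ.real (S ρ (v k) r z)

theorem addLaw_real {c : κ → ℝ} (hc : ∀ k, 0 ≤ c k) (v : κ → ℝ) (ρ r : ℝ) (μ : Measure ℝ)
    [IsProbabilityMeasure μ] (z : ℝ) :
    (addLaw c v (scal ρ μ)).real (Ico z (z + r)) = m c v ρ r μ z := by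
  unfold addLaw m
  rw [mix_real hc]
  refine Finset.sum_congr rfl fun k _ => ?_
  rw [shift_real]
  congr 1
  unfold scal
  rw [Measure.real, Measure.real, Measure.map_apply (by fun_prop) measurableSet_Ico]
  congr 2
  ext x
  simp only [mem_preimage, mem_Ico, S, mem_ofPred_eq]
  constructor
  · rintro ⟨h1, h2⟩; constructor <;> linarith
  · rintro ⟨h1, h2⟩; constructor <;> linarith

theorem measurable_real_section {μ : Measure ℝ} [IsFiniteMeasure μ] {A : Set (ℝ × ℝ)}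
    (hA : MeasurableSet A) : Measurable fun z => μ.real {x | (z, x) ∈ A} :=
  (measurable_measure_prodMk_left (ν := μ) hA).ennreal_toReal

theorem measurable_m (c v : κ → ℝ) (ρ r : ℝ) (μ : Measure ℝ) [IsFiniteMeasure μ] :
    Measurable (m c v ρ r μ) :=
  Finset.measurable_sum _ fun k _ =>
    (measurable_real_section (measurableSet_SS ρ (v k) r)).const_mul _

theorem m_nonneg {c : κ → ℝ} (hc : ∀ k, 0 ≤ c k) (v : κ → ℝ) (ρ r : ℝ) (μ : Measure ℝ) (z : ℝ) :
    0 ≤ m c v ρ r μ z :=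
  Finset.sum_nonneg fun k _ => mul_nonneg (hc k) measureReal_nonneg

theorem integrable_m {c : κ → ℝ} (hc : ∀ k, 0 ≤ c k) (v : κ → ℝ) (ρ r : ℝ) {μ : Measure ℝ}
    [IsProbabilityMeasure μ] (hμ : BSupp μ) : Integrable (m c v ρ r μ) := by
  have h := integrable_cell ((bsupp_scal hμ ρ).addLaw c v) r
  simpa only [addLaw_real hc] using h

theorem integral_m {c : κ → ℝ} (hc : ∀ k, 0 ≤ c k) (v : κ → ℝ) (ρ : ℝ) {r : ℝ} (hr : 0 ≤ r)
    {μ : Measure ℝ} [IsProbabilityMeasure μ] : ∫ z, m c v ρ r μ z = r * ∑ k, c k := by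
  have h := integral_cell (μ := addLaw c v (scal ρ μ)) hr
  simp only [addLaw_real hc] at h
  rw [h]
  congr 1
  unfold addLaw
  rw [mix_real hc]
  simp

theorem ofReal_m {c : κ → ℝ} (hc : ∀ k, 0 ≤ c k) (v : κ → ℝ) (ρ r : ℝ) (μ : Measure ℝ) (z : ℝ) :
    ENNReal.ofReal (m c v ρ r μ z) =
      ∑ k, ENNReal.ofReal (c k) * ENNReal.ofReal (μ.real (S ρ (v k) r z)) := by
  unfold m
  rw [ENNReal.ofReal_sum_of_nonneg fun k _ => mul_nonneg (hc k) measureReal_nonneg]
  exact Finset.sum_congr rfl fun k _ => ENNReal.ofReal_mul (hc k)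

/-- `β(x) = μ(B(x, D₀))` -/
noncomputable def bet (μ : Measure ℝ) (D₀ x : ℝ) : ℝ := μ.real (Icc (x - D₀) (x + D₀))

theorem measurable_bet (μ : Measure ℝ) [IsFiniteMeasure μ] (D₀ : ℝ) : Measurable (bet μ D₀) := by
  have h : MeasurableSet ({w : ℝ × ℝ | w.1 - D₀ ≤ w.2} ∩ {w : ℝ × ℝ | w.2 ≤ w.1 + D₀}) :=
    (measurableSet_le (by fun_prop) (by fun_prop)).inter
      (measurableSet_le (by fun_prop) (by fun_prop))
  exact measurable_real_section h

theorem bet_nonneg (μ : Measure ℝ) (D₀ x : ℝ) : 0 ≤ bet μ D₀ x := measureReal_nonneg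

theorem bet_le_one (μ : Measure ℝ) [IsProbabilityMeasure μ] (D₀ x : ℝ) : bet μ D₀ x ≤ 1 := by
  have := measureReal_mono (μ := μ) (subset_univ (Icc (x - D₀) (x + D₀)))
  rwa [probReal_univ] at this

theorem S_subset {ρ a a' r z x D₀ : ℝ} (hρ : ρ ≠ 0) (hx : x ∈ S ρ a r z)
    (hd : |a - a'| + r ≤ D₀ * |ρ|) : S ρ a' r z ⊆ Icc (x - D₀) (x + D₀) := by
  intro x' hx'
  have h1 : |ρ * (x' - x)| ≤ D₀ * |ρ| := by
    refine le_trans ?_ hd
    have h2 : |(a' + ρ * x') - (a + ρ * x)| ≤ r := by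
      rw [abs_le]; constructor <;> linarith [hx.1, hx.2, hx'.1, hx'.2]
    have h3 : ρ * (x' - x) = ((a' + ρ * x') - (a + ρ * x)) + (a - a') := by ring
    rw [h3]
    have := abs_add_le ((a' + ρ * x') - (a + ρ * x)) (a - a')
    linarith
  rw [abs_mul, mul_comm] at h1
  have h4 : |x' - x| ≤ D₀ := le_of_mul_le_mul_right h1 (abs_pos.mpr hρ)
  rw [abs_le] at h4
  constructor <;> linarith [h4.1, h4.2]

theorem m_le_bet {c v : κ → ℝ} (hc : ∀ k, 0 ≤ c k) (hc1 : ∑ k, c k ≤ 1) {ρ r z D₀ : ℝ}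
    {μ : Measure ℝ} [IsProbabilityMeasure μ] (hρ : ρ ≠ 0) {a x : ℝ}
    (hd : ∀ k', c k' ≠ 0 → |a - v k'| + r ≤ D₀ * |ρ|) (hx : x ∈ S ρ a r z) :
    m c v ρ r μ z ≤ bet μ D₀ x := by
  have h1 : m c v ρ r μ z ≤ ∑ k, c k * bet μ D₀ x := by
    refine Finset.sum_le_sum fun k _ => ?_
    rcases eq_or_ne (c k) 0 with h0 | h0
    · rw [h0, zero_mul, zero_mul]
    · exact mul_le_mul_of_nonneg_left (measureReal_mono (S_subset hρ hx (hd k h0))) (hc k)
  rw [← Finset.sum_mul] at h1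
  have h2 := mul_le_mul_of_nonneg_right hc1 (bet_nonneg μ D₀ x)
  linarith

/-- the set where `β(x) ≤ e^T P(z)` -/
def okSet (c v : κ → ℝ) (ρ r : ℝ) (μ : Measure ℝ) (D₀ T z : ℝ) : Set ℝ :=
  {x | bet μ D₀ x ≤ exp T * m c v ρ r μ z}

theorem measurableSet_ok (c v : κ → ℝ) (ρ r : ℝ) (μ : Measure ℝ) [IsFiniteMeasure μ] (D₀ T : ℝ) :
    MeasurableSet {w : ℝ × ℝ | w.2 ∈ okSet c v ρ r μ D₀ T w.1} :=
  measurableSet_le ((measurable_bet μ D₀).comp measurable_snd)
    (((measurable_m c v ρ r μ).comp measurable_fst).const_mul _)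

/-- mass of the bad part -/
noncomputable def mbad (c v : κ → ℝ) (ρ r : ℝ) (μ : Measure ℝ) (D₀ T z : ℝ) : ℝ :=
  ∑ k, c k * μ.real (S ρ (v k) r z \ okSet c v ρ r μ D₀ T z)

/-- mass of the good part (atoms `k` with weight `c' k`) -/
noncomputable def mgood (c c' v : κ → ℝ) (ρ r : ℝ) (μ : Measure ℝ) (D₀ T z : ℝ) : ℝ :=
  ∑ k, c' k * μ.real (S ρ (v k) r z ∩ okSet c v ρ r μ D₀ T z)

theorem measurable_mbad (c v : κ → ℝ) (ρ r : ℝ) (μ : Measure ℝ) [IsFiniteMeasure μ] (D₀ T : ℝ) :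
    Measurable (mbad c v ρ r μ D₀ T) :=
  Finset.measurable_sum _ fun k _ =>
    (measurable_real_section ((measurableSet_SS ρ (v k) r).diff
      (measurableSet_ok c v ρ r μ D₀ T))).const_mul _

theorem measurable_mgood (c c' v : κ → ℝ) (ρ r : ℝ) (μ : Measure ℝ) [IsFiniteMeasure μ]
    (D₀ T : ℝ) : Measurable (mgood c c' v ρ r μ D₀ T) :=
  Finset.measurable_sum _ fun k _ =>
    (measurable_real_section ((measurableSet_SS ρ (v k) r).inter
      (measurableSet_ok c v ρ r μ D₀ T))).const_mul _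

theorem mbad_nonneg {c : κ → ℝ} (hc : ∀ k, 0 ≤ c k) (v : κ → ℝ) (ρ r : ℝ) (μ : Measure ℝ)
    (D₀ T z : ℝ) : 0 ≤ mbad c v ρ r μ D₀ T z :=
  Finset.sum_nonneg fun k _ => mul_nonneg (hc k) measureReal_nonneg

theorem mgood_nonneg {c c' : κ → ℝ} (hc : ∀ k, 0 ≤ c' k) (v : κ → ℝ) (ρ r : ℝ) (μ : Measure ℝ)
    (D₀ T z : ℝ) : 0 ≤ mgood c c' v ρ r μ D₀ T z :=
  Finset.sum_nonneg fun k _ => mul_nonneg (hc k) measureReal_nonneg

theorem mbad_le {c : κ → ℝ} (hc : ∀ k, 0 ≤ c k) (v : κ → ℝ) (ρ r : ℝ) (μ : Measure ℝ)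
    [IsFiniteMeasure μ] (D₀ T z : ℝ) : mbad c v ρ r μ D₀ T z ≤ m c v ρ r μ z :=
  Finset.sum_le_sum fun k _ =>
    mul_le_mul_of_nonneg_left (measureReal_mono sdiff_subset) (hc k)

theorem mgood_le {c c' : κ → ℝ} (hc' : ∀ k, 0 ≤ c' k) (hcc : ∀ k, c' k ≤ c k) (v : κ → ℝ)
    (ρ r : ℝ) (μ : Measure ℝ)
    [IsFiniteMeasure μ] (D₀ T z : ℝ) : mgood c c' v ρ r μ D₀ T z ≤ m c v ρ r μ z :=
  Finset.sum_le_sum fun k _ =>
    mul_le_mul (hcc k) (measureReal_mono inter_subset_left) measureReal_nonneg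
      ((hc' k).trans (hcc k))

/-- `P ≤ good + near + bad` -/
theorem m_le_add {c c' : κ → ℝ} (hc' : ∀ k, 0 ≤ c' k) (hcc : ∀ k, c' k ≤ c k) (v : κ → ℝ)
    (ρ r : ℝ) (μ : Measure ℝ) [IsFiniteMeasure μ] (D₀ T z : ℝ) :
    m c v ρ r μ z ≤ mgood c c' v ρ r μ D₀ T z + m (fun k => c k - c' k) v ρ r μ z +
      mbad c v ρ r μ D₀ T z := by
  unfold m mgood mbad
  rw [← Finset.sum_add_distrib, ← Finset.sum_add_distrib]
  refine Finset.sum_le_sum fun k _ => ?_
  set A := S ρ (v k) r z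
  set O := okSet c v ρ r μ D₀ T z
  have h1 : μ.real A ≤ μ.real (A ∩ O) + μ.real (A \ O) := by
    calc μ.real A = μ.real ((A ∩ O) ∪ (A \ O)) := by rw [inter_union_sdiff]
      _ ≤ _ := measureReal_union_le _ _
  have h2 : 0 ≤ μ.real (A \ O) := measureReal_nonneg
  have h3 := mul_le_mul_of_nonneg_left h1 (hc' k)
  have h4 := mul_le_mul_of_nonneg_right (hcc k) h2
  nlinarith

/-- the mean of `log 1/β` (extended) -/
noncomputable def Lb (μ : Measure ℝ) (D₀ : ℝ) : ℝ≥0∞ := ∫⁻ x, nlog (bet μ D₀ x) ∂μ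

/-- **the bad set is small** (Markov) -/
theorem mbad_mass {c v : κ → ℝ} (hc : ∀ k, 0 ≤ c k) (hc1 : ∑ k, c k = 1) {ρ r D₀ T E₁ : ℝ}
    {μ : Measure ℝ} [IsProbabilityMeasure μ] (hμ : BSupp μ) (hρ : ρ ≠ 0) (hr : 0 < r)
    (hd : ∀ k, c k ≠ 0 → ∀ k', c k' ≠ 0 → |v k - v k'| + r ≤ D₀ * |ρ|) (hT : 0 < T)
    (hL : Lb μ D₀ ≠ ⊤)
    (hE : Hs (addLaw c v (scal ρ μ)) r ≤ (Lb μ D₀).toReal + E₁) :
    T * ∫ z, mbad c v ρ r μ D₀ T z ≤ r * E₁ := by
  set P := m c v ρ r μ with hP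
  have hPm : Measurable P := measurable_m c v ρ r μ
  have hP0 : ∀ z, 0 ≤ P z := m_nonneg hc v ρ r μ
  have hprob : IsProbabilityMeasure (addLaw c v (scal ρ μ)) := isProbabilityMeasure_addLaw hc hc1 _ _
  have hbs : BSupp (addLaw c v (scal ρ μ)) := (bsupp_scal hμ ρ).addLaw c v
  have hbint : Integrable (mbad c v ρ r μ D₀ T) :=
    (integrable_m hc v ρ r hμ).mono' (measurable_mbad c v ρ r μ D₀ T).aestronglyMeasurable
      (Filter.Eventually.of_forall fun z => by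
        rw [Real.norm_eq_abs, abs_of_nonneg (mbad_nonneg hc v ρ r μ D₀ T z)]
        exact mbad_le hc v ρ r μ D₀ T z)
  -- right-hand side
  have hR : ENNReal.ofReal (r * Hs (addLaw c v (scal ρ μ)) r) =
      ∑ k, ENNReal.ofReal (c k) * ∫⁻ z, (∫⁻ x in S ρ (v k) r z, nlog (P z) ∂μ) := by
    rw [ofReal_mul_Hs hbs hr]
    simp only [addLaw_real hc, lint_z]
    have : ∀ k, ENNReal.ofReal (c k) *
        ∫⁻ z, nlog (P z) * ENNReal.ofReal (μ.real (S ρ (v k) r z)) =
        ∫⁻ z, ENNReal.ofReal (c k) * (nlog (P z) * ENNReal.ofReal (μ.real (S ρ (v k) r z))) :=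
      fun k => (lintegral_const_mul' _ _ ENNReal.ofReal_ne_top).symm
    simp only [this]
    rw [← lintegral_finsetSum]
    · refine lintegral_congr fun z => ?_
      rw [ofReal_negMulLog (m_nonneg hc v ρ r μ z), ofReal_m hc, Finset.sum_mul]
      refine Finset.sum_congr rfl fun k _ => ?_
      rw [mul_assoc]; congr 1; rw [mul_comm]
    · intro k _
      exact ((measurable_nlog.comp hPm).mul (measurable_real_section
        (measurableSet_SS ρ (v k) r)).ennreal_ofReal).const_mul _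
  -- left-hand side
  have hok : ∀ z, MeasurableSet (okSet c v ρ r μ D₀ T z) := fun z =>
    measurable_prodMk_left (measurableSet_ok c v ρ r μ D₀ T)
  have hL1 : ∑ k, ENNReal.ofReal (c k) * ∫⁻ z, (∫⁻ x in S ρ (v k) r z,
      (nlog (bet μ D₀ x) + ENNReal.ofReal T *
        (okSet c v ρ r μ D₀ T z)ᶜ.indicator (fun _ => 1) x) ∂μ) =
      ENNReal.ofReal r * Lb μ D₀ +
        ENNReal.ofReal T * ENNReal.ofReal (∫ z, mbad c v ρ r μ D₀ T z) := by
    have hnb : Measurable fun x => nlog (bet μ D₀ x) := measurable_nlog.comp (measurable_bet μ D₀)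
    have h1 : ∀ k, ∫⁻ z, (∫⁻ x in S ρ (v k) r z,
      (nlog (bet μ D₀ x) + ENNReal.ofReal T *
        (okSet c v ρ r μ D₀ T z)ᶜ.indicator (fun _ => 1) x) ∂μ) =
        ENNReal.ofReal r * Lb μ D₀ + ENNReal.ofReal T *
          ∫⁻ z, ENNReal.ofReal (μ.real (S ρ (v k) r z \ okSet c v ρ r μ D₀ T z)) := by
      intro k
      have h2 : ∀ z, ∫⁻ x in S ρ (v k) r z, (nlog (bet μ D₀ x) + ENNReal.ofReal T *
          (okSet c v ρ r μ D₀ T z)ᶜ.indicator (fun _ => 1) x) ∂μ =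
          (∫⁻ x in S ρ (v k) r z, nlog (bet μ D₀ x) ∂μ) + ENNReal.ofReal T *
            ENNReal.ofReal (μ.real (S ρ (v k) r z \ okSet c v ρ r μ D₀ T z)) := by
        intro z
        rw [lintegral_add_left hnb, lintegral_const_mul' _ _ ENNReal.ofReal_ne_top,
          lintegral_indicator (hok z).compl, setLIntegral_const, one_mul,
          Measure.restrict_apply (hok z).compl, Measure.real,
          ENNReal.ofReal_toReal (measure_ne_top _ _), inter_comm]
        rfl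
      simp only [h2]
      rw [lintegral_add_right, lint_x μ ρ (v k) hr.le hnb,
        lintegral_const_mul' _ _ ENNReal.ofReal_ne_top]
      · rfl
      · exact ((measurable_real_section ((measurableSet_SS ρ (v k) r).diff
          (measurableSet_ok c v ρ r μ D₀ T))).ennreal_ofReal).const_mul _
    simp only [h1, mul_add, Finset.sum_add_distrib]
    congr 1
    · rw [← Finset.sum_mul, ← ENNReal.ofReal_sum_of_nonneg fun k _ => hc k, hc1,
        ENNReal.ofReal_one, one_mul]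
    · have h3 : ∀ k, ENNReal.ofReal (c k) * (ENNReal.ofReal T *
          ∫⁻ z, ENNReal.ofReal (μ.real (S ρ (v k) r z \ okSet c v ρ r μ D₀ T z))) =
          ENNReal.ofReal T * ∫⁻ z, ENNReal.ofReal (c k) *
            ENNReal.ofReal (μ.real (S ρ (v k) r z \ okSet c v ρ r μ D₀ T z)) := by
        intro k
        rw [lintegral_const_mul' _ _ ENNReal.ofReal_ne_top]; ring
      simp only [h3]
      rw [← Finset.mul_sum, ← lintegral_finsetSum, ofReal_integral_eq_lintegral_ofReal hbint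
        (Filter.Eventually.of_forall fun z => mbad_nonneg hc v ρ r μ D₀ T z)]
      · congr 1
        refine lintegral_congr fun z => ?_
        unfold mbad
        rw [ENNReal.ofReal_sum_of_nonneg fun k _ => mul_nonneg (hc k) measureReal_nonneg]
        exact Finset.sum_congr rfl fun k _ => (ENNReal.ofReal_mul (hc k)).symm
      · intro k _
        exact ((measurable_real_section ((measurableSet_SS ρ (v k) r).diff
          (measurableSet_ok c v ρ r μ D₀ T))).ennreal_ofReal).const_mul _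
  -- pointwise comparison
  have hpt : ∀ k, c k ≠ 0 → ∀ z, ∀ x ∈ S ρ (v k) r z,
      nlog (bet μ D₀ x) + ENNReal.ofReal T *
        (okSet c v ρ r μ D₀ T z)ᶜ.indicator (fun _ => 1) x ≤ nlog (P z) := by
    intro k hk z x hx
    have h1 : P z ≤ bet μ D₀ x := m_le_bet hc hc1.le hρ (hd k hk) hx
    rcases (hP0 z).eq_or_lt with h0 | h0
    · rw [← h0]
      have : nlog 0 = ⊤ := by unfold nlog; rw [if_pos rfl]
      rw [this]; exact le_top
    by_cases hx2 : x ∈ okSet c v ρ r μ D₀ T z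
    · rw [indicator_of_notMem (show x ∉ (okSet c v ρ r μ D₀ T z)ᶜ from fun h => h hx2), mul_zero,
        add_zero]
      exact nlog_anti h0.le h1
    · rw [indicator_of_mem (show x ∈ (okSet c v ρ r μ D₀ T z)ᶜ from hx2), mul_one]
      have h2 : exp T * P z < bet μ D₀ x := not_le.mp hx2
      have hb : 0 < bet μ D₀ x := h0.trans_le h1
      unfold nlog
      rw [if_neg hb.ne', if_neg h0.ne', ← ENNReal.ofReal_add _ hT.le]
      · refine ENNReal.ofReal_le_ofReal ?_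
        have h3 := log_le_log (by positivity) h2.le
        rw [log_mul (exp_pos T).ne' h0.ne', log_exp] at h3
        linarith
      · have := log_nonpos hb.le (bet_le_one μ D₀ x)
        linarith
  have hcmp : ENNReal.ofReal r * Lb μ D₀ +
        ENNReal.ofReal T * ENNReal.ofReal (∫ z, mbad c v ρ r μ D₀ T z) ≤
      ENNReal.ofReal (r * Hs (addLaw c v (scal ρ μ)) r) := by
    rw [← hL1, hR]
    refine Finset.sum_le_sum fun k _ => ?_
    rcases eq_or_ne (c k) 0 with h0 | h0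
    · rw [h0, ENNReal.ofReal_zero, zero_mul, zero_mul]
    · refine mul_le_mul_right ?_ _
      refine lintegral_mono fun z => ?_
      exact setLIntegral_mono' (measurableSet_S ρ (v k) r z) fun x hx => hpt k h0 z x hx
  have hbad0 : 0 ≤ ∫ z, mbad c v ρ r μ D₀ T z :=
    integral_nonneg fun z => mbad_nonneg hc v ρ r μ D₀ T z
  rw [← ENNReal.ofReal_toReal hL, ← ENNReal.ofReal_mul hr.le, ← ENNReal.ofReal_mul hT.le,
    ← ENNReal.ofReal_add (by positivity) (by positivity),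
    ENNReal.ofReal_le_ofReal_iff (mul_nonneg hr.le (Hs_nonneg (by rw [probReal_univ]) hr.le))]
    at hcmp
  have := mul_le_mul_of_nonneg_left hE hr.le
  nlinarith

end Crest.Agent.R98.K
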