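import Crest.Agent.R98.KDetA

/-!
R98 / KDetB (helper9): the detection lemma, part B: first moment and Jensen (tangent lines).
-/

set_option autoImplicit false
set_option linter.unusedVariables false
set_option linter.unusedSectionVars false

open MeasureTheory Set Real
open scoped ENNReal

namespace Crest.Agent.R98.K

variable {κ : Type*} [Fintype κ]

section first

/-- the concentration of the multipliers, seen from two atoms at distance at least `b` -/
theorem conc_apply {𝒬 : Type*} [Fintype 𝒬] {p ρ : 𝒬 → ℝ} (hp : ∀ Q, 0 ≤ p Q)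
    (hρ : ∀ Q, ρ Q ≠ 0) {r b Λ : ℝ} (hr : 0 < r) (hb : 2 * r ≤ b)
    (hconc : ∀ a : ℝ, ∑ Q, (if a ≤ log |ρ Q| ∧ log |ρ Q| ≤ a + 4 * r / b then p Q else 0) ≤ Λ)
    {Δ y : ℝ} (hΔ : b ≤ |Δ|) (R : 𝒬 → Prop) [DecidablePred R]
    (hR : ∀ Q, R Q → |ρ Q * y - Δ| < r) :
    ∑ Q, (if R Q then p Q else 0) ≤ Λ := by
  have hb0 : 0 < b := by linarith
  have hΔr : r < |Δ| := by linarith
  rcases eq_or_ne y 0 with hy | hy
  · have h0 : 0 ≤ Λ := le_trans (Finset.sum_nonneg fun Q _ => by split_ifs <;> [exact hp Q; exact le_rfl]) (hconc 0)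
    have h1 : ∑ Q, (if R Q then p Q else 0) = 0 := by
      refine Finset.sum_eq_zero fun Q _ => ?_
      rw [if_neg]
      intro h
      have := hR Q h
      rw [hy, mul_zero, zero_sub, abs_neg] at this
      linarith
    rw [h1]; exact h0
  have hy0 : 0 < |y| := abs_pos.mpr hy
  refine le_trans (Finset.sum_le_sum fun Q _ => ?_) (hconc (log ((|Δ| - r) / |y|)))
  by_cases h : R Q
  · rw [if_pos h, if_pos]
    have h1 := hR Q h
    have hρ0 : 0 < |ρ Q| := abs_pos.mpr (hρ Q)
    have h2 : |Δ| - r ≤ |ρ Q| * |y| := by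
      rw [← abs_mul]
      have := abs_sub_abs_le_abs_sub Δ (ρ Q * y)
      rw [abs_sub_comm] at this
      linarith
    have h3 : |ρ Q| * |y| ≤ |Δ| + r := by
      rw [← abs_mul]
      have := abs_sub_abs_le_abs_sub (ρ Q * y) Δ
      linarith
    constructor
    · refine log_le_log (div_pos (by linarith) hy0) ?_
      rw [div_le_iff₀ hy0]; exact h2
    · have h4 : log |ρ Q| ≤ log ((|Δ| + r) / |y|) := by
        refine log_le_log hρ0 ?_
        rw [le_div_iff₀ hy0]; exact h3
      have h5 : log ((|Δ| + r) / |y|) = log ((|Δ| - r) / |y|) + log ((|Δ| + r) / (|Δ| - r)) := by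
        rw [log_div (by linarith) hy0.ne', log_div (by linarith) hy0.ne',
          log_div (by linarith) (by linarith)]
        ring
      have h6 : log ((|Δ| + r) / (|Δ| - r)) ≤ 4 * r / b := by
        have h7 := log_le_sub_one_of_pos (show 0 < (|Δ| + r) / (|Δ| - r) from
          div_pos (by linarith) (by linarith))
        refine h7.trans ?_
        rw [div_sub_one (by linarith), div_le_div_iff₀ (by linarith) hb0]
        nlinarith
      rw [h5] at h4
      linarith
  · rw [if_neg h]
    split_ifs
    · exact hp Q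
    · exact le_rfl

theorem measurableSet_near (ρ a a' r x : ℝ) :
    MeasurableSet {x' : ℝ | |ρ * (x' - x) - (a - a')| < r} :=
  measurableSet_lt (by fun_prop) measurable_const

/-- the other atoms seen from `(k, x)` -/
theorem lint_other (μ : Measure ℝ) [IsProbabilityMeasure μ] {bw : κ → ℝ} (hb : ∀ k, 0 ≤ bw k)
    (v : κ → ℝ) (ρ a : ℝ) {r : ℝ} (hr : 0 < r) (x : ℝ) :
    ∫⁻ z in Ioc (a + ρ * x - r) (a + ρ * x), ENNReal.ofReal (m bw v ρ r μ z) ≤
      ENNReal.ofReal r * ∑ j, ENNReal.ofReal (bw j) *
        μ {x' : ℝ | |ρ * (x' - x) - (a - v j)| < r} := by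
  have h1 : ∀ z ∈ Ioc (a + ρ * x - r) (a + ρ * x), ENNReal.ofReal (m bw v ρ r μ z) ≤
      ∑ j, ENNReal.ofReal (bw j) * μ {x' : ℝ | |ρ * (x' - x) - (a - v j)| < r} := by
    intro z hz
    rw [ofReal_m hb]
    refine Finset.sum_le_sum fun j _ => mul_le_mul_right ?_ _
    rw [Measure.real, ENNReal.ofReal_toReal (measure_ne_top _ _)]
    refine measure_mono fun x' hx' => ?_
    simp only [mem_ofPred_eq]
    have h2 : ρ * (x' - x) - (a - v j) = (v j + ρ * x') - (a + ρ * x) := by ring
    rw [h2, abs_lt]
    constructor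
    · linarith [hx'.1, hz.1]
    · linarith [hx'.2, hz.2]
  refine (setLIntegral_mono' measurableSet_Ioc h1).trans ?_
  rw [setLIntegral_const, Real.volume_Ioc, sub_sub_cancel, mul_comm]

/-- **first moment**: the mean over the multipliers of `∫ G A / P` -/
theorem first_moment {𝒬 : Type*} [Fintype 𝒬] {μ : Measure ℝ} [IsProbabilityMeasure μ]
    (hμ : BSupp μ) {c c' bw v : κ → ℝ}
    (hc : ∀ k, 0 ≤ c k) (hc1 : ∑ k, c k = 1) (hc' : ∀ k, 0 ≤ c' k) (hcc : ∀ k, c' k ≤ c k)
    (hbw : ∀ k, 0 ≤ bw k) (hbw1 : ∑ k, bw k ≤ 1)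
    {p ρ : 𝒬 → ℝ} (hp : ∀ Q, 0 ≤ p Q) (hρ : ∀ Q, ρ Q ≠ 0)
    {r b D₀ T Λ : ℝ} (hr : 0 < r) (hb : 2 * r ≤ b)
    (hd : ∀ Q k, c k ≠ 0 → ∀ k', c k' ≠ 0 → |v k - v k'| + r ≤ D₀ * |ρ Q|)
    (hd' : ∀ Q k, c k ≠ 0 → ∀ j, bw j ≠ 0 → |v k - v j| + r ≤ D₀ * |ρ Q|)
    (hsep : ∀ k, c' k ≠ 0 → ∀ j, bw j ≠ 0 → b ≤ |v k - v j|)
    (hconc : ∀ a : ℝ, ∑ Q, (if a ≤ log |ρ Q| ∧ log |ρ Q| ≤ a + 4 * r / b then p Q else 0) ≤ Λ) :
    ∑ Q, p Q * ∫ z, mgood c c' v (ρ Q) r μ D₀ T z * (m bw v (ρ Q) r μ z / m c v (ρ Q) r μ z) ≤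
      r * (exp T * Λ) := by
  classical
  have hΛ0 : 0 ≤ Λ :=
    le_trans (Finset.sum_nonneg fun Q _ => by split_ifs <;> [exact hp Q; exact le_rfl]) (hconc 0)
  have hcne : ∀ k, c' k ≠ 0 → c k ≠ 0 := fun k h h0 => h (le_antisymm (h0 ▸ hcc k) (hc' k))
  -- integrability
  have hint : ∀ Q, Integrable fun z => mgood c c' v (ρ Q) r μ D₀ T z *
      (m bw v (ρ Q) r μ z / m c v (ρ Q) r μ z) := by
    intro Q
    refine (integrable_m hbw v (ρ Q) r hμ).mono' ?_ ?_
    · exact ((measurable_mgood c c' v (ρ Q) r μ D₀ T).mul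
        ((measurable_m bw v (ρ Q) r μ).div (measurable_m c v (ρ Q) r μ))).aestronglyMeasurable
    · refine Filter.Eventually.of_forall fun z => ?_
      have hG0 := mgood_nonneg (c := c) hc' v (ρ Q) r μ D₀ T z
      have hG1 := mgood_le hc' hcc v (ρ Q) r μ D₀ T z
      have hA0 := m_nonneg hbw v (ρ Q) r μ z
      have hP0 := m_nonneg hc v (ρ Q) r μ z
      rw [Real.norm_eq_abs, abs_of_nonneg (mul_nonneg hG0 (div_nonneg hA0 hP0))]
      rcases hP0.eq_or_lt with h0 | h0
      · rw [← h0, div_zero, mul_zero]; exact hA0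
      · rw [mul_div_assoc', div_le_iff₀ h0, mul_comm (mgood _ _ _ _ _ _ _ _ _)]
        exact mul_le_mul_of_nonneg_left hG1 hA0
  have hnn : ∀ Q z, 0 ≤ mgood c c' v (ρ Q) r μ D₀ T z *
      (m bw v (ρ Q) r μ z / m c v (ρ Q) r μ z) := fun Q z =>
    mul_nonneg (mgood_nonneg hc' v (ρ Q) r μ D₀ T z)
      (div_nonneg (m_nonneg hbw v (ρ Q) r μ z) (m_nonneg hc v (ρ Q) r μ z))
  -- one multiplier
  have hone : ∀ Q, ENNReal.ofReal (∫ z, mgood c c' v (ρ Q) r μ D₀ T z *
      (m bw v (ρ Q) r μ z / m c v (ρ Q) r μ z)) ≤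
      ∑ k, ENNReal.ofReal (c' k) * ∫⁻ x, ENNReal.ofReal (exp T / bet μ D₀ x) *
        (ENNReal.ofReal r * ∑ j, ENNReal.ofReal (bw j) *
          μ {x' : ℝ | |ρ Q * (x' - x) - (v k - v j)| < r}) ∂μ := by
    intro Q
    rw [ofReal_integral_eq_lintegral_ofReal (hint Q) (Filter.Eventually.of_forall (hnn Q))]
    have hmz : Measurable fun z => m bw v (ρ Q) r μ z := measurable_m bw v (ρ Q) r μ
    have hstep : ∀ z, ENNReal.ofReal (mgood c c' v (ρ Q) r μ D₀ T z *
        (m bw v (ρ Q) r μ z / m c v (ρ Q) r μ z)) ≤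
        ∑ k, ENNReal.ofReal (c' k) * ∫⁻ x in S (ρ Q) (v k) r z,
          ENNReal.ofReal (exp T / bet μ D₀ x) * ENNReal.ofReal (m bw v (ρ Q) r μ z) ∂μ := by
      intro z
      have hA0 := m_nonneg hbw v (ρ Q) r μ z
      have hP0 := m_nonneg hc v (ρ Q) r μ z
      unfold mgood
      rw [Finset.sum_mul, ENNReal.ofReal_sum_of_nonneg fun (k : κ) _ =>
        mul_nonneg (mul_nonneg (hc' k) measureReal_nonneg) (div_nonneg hA0 hP0)]
      refine Finset.sum_le_sum fun k _ => ?_
      rw [mul_assoc, ENNReal.ofReal_mul (hc' k)]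
      rcases eq_or_ne (c' k) 0 with h0 | h0
      · rw [h0, ENNReal.ofReal_zero, zero_mul, zero_mul]
      refine mul_le_mul_right ?_ _
      rw [ENNReal.ofReal_mul measureReal_nonneg, Measure.real,
        ENNReal.ofReal_toReal (measure_ne_top _ _), mul_comm]
      rw [← setLIntegral_const (μ := μ) (S (ρ Q) (v k) r z ∩ okSet c v (ρ Q) r μ D₀ T z)]
      have hmeas : MeasurableSet (S (ρ Q) (v k) r z ∩ okSet c v (ρ Q) r μ D₀ T z) :=
        (measurableSet_S _ _ _ _).inter (measurable_prodMk_left (measurableSet_ok c v (ρ Q) r μ D₀ T))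
      refine (setLIntegral_mono' hmeas (g := fun x => ENNReal.ofReal (exp T / bet μ D₀ x) *
        ENNReal.ofReal (m bw v (ρ Q) r μ z)) fun x hx => ?_).trans
        (lintegral_mono_set inter_subset_left)
      rw [← ENNReal.ofReal_mul (div_nonneg (exp_pos T).le (bet_nonneg μ D₀ x))]
      refine ENNReal.ofReal_le_ofReal ?_
      have h1 : m c v (ρ Q) r μ z ≤ bet μ D₀ x :=
        m_le_bet hc hc1.le (hρ Q) (hd Q k (hcne k h0)) hx.1
      have h2 : bet μ D₀ x ≤ exp T * m c v (ρ Q) r μ z := hx.2
      rcases hP0.eq_or_lt with hz | hz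
      · rw [← hz, div_zero]
        exact mul_nonneg (div_nonneg (exp_pos T).le (bet_nonneg μ D₀ x)) hA0
      · rw [div_mul_eq_mul_div, div_le_div_iff₀ hz (hz.trans_le h1)]
        have := mul_le_mul_of_nonneg_left h2 hA0
        linarith
    refine (lintegral_mono hstep).trans ?_
    have hF : Measurable (Function.uncurry fun (z x : ℝ) =>
        ENNReal.ofReal (exp T / bet μ D₀ x) * ENNReal.ofReal (m bw v (ρ Q) r μ z)) :=
      ((measurable_const.div (measurable_bet μ D₀)).ennreal_ofReal.comp measurable_snd).mul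
        (hmz.ennreal_ofReal.comp measurable_fst)
    rw [lintegral_finsetSum']
    · refine Finset.sum_le_sum fun k _ => ?_
      rw [lintegral_const_mul' _ _ ENNReal.ofReal_ne_top, lint_swap μ (ρ Q) (v k) r hF]
      refine mul_le_mul_right ?_ _
      refine lintegral_mono fun x => ?_
      rw [lintegral_const_mul' _ _ ENNReal.ofReal_ne_top]
      exact mul_le_mul_right (lint_other μ hbw v (ρ Q) (v k) hr x) _
    · intro k _
      refine (AEMeasurable.const_mul ?_ _)
      have : (fun z => ∫⁻ x in S (ρ Q) (v k) r z, ENNReal.ofReal (exp T / bet μ D₀ x) *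
          ENNReal.ofReal (m bw v (ρ Q) r μ z) ∂μ) = fun z =>
          ∫⁻ x, {w : ℝ × ℝ | w.2 ∈ S (ρ Q) (v k) r w.1}.indicator
            (Function.uncurry fun (z x : ℝ) => ENNReal.ofReal (exp T / bet μ D₀ x) *
              ENNReal.ofReal (m bw v (ρ Q) r μ z)) (z, x) ∂μ := by
        funext z
        rw [← lintegral_indicator (measurableSet_S _ _ _ _)]
        refine lintegral_congr fun x => ?_
        by_cases hx : x ∈ S (ρ Q) (v k) r z
        · rw [indicator_of_mem hx,
            indicator_of_mem (show (z, x) ∈ {w : ℝ × ℝ | w.2 ∈ S (ρ Q) (v k) r w.1} from hx)]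
          rfl
        · rw [indicator_of_notMem hx,
            indicator_of_notMem (show (z, x) ∉ {w : ℝ × ℝ | w.2 ∈ S (ρ Q) (v k) r w.1} from hx)]
      rw [this]
      exact ((hF.indicator (measurableSet_SS (ρ Q) (v k) r)).lintegral_prod_right').aemeasurable
  -- sum over the multipliers
  have hsum : ∑ Q, ENNReal.ofReal (p Q) * ENNReal.ofReal (∫ z, mgood c c' v (ρ Q) r μ D₀ T z *
      (m bw v (ρ Q) r μ z / m c v (ρ Q) r μ z)) ≤ ENNReal.ofReal (r * (exp T * Λ)) := by
    calc ∑ Q, ENNReal.ofReal (p Q) * ENNReal.ofReal (∫ z, mgood c c' v (ρ Q) r μ D₀ T z *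
          (m bw v (ρ Q) r μ z / m c v (ρ Q) r μ z))
        ≤ ∑ Q, ENNReal.ofReal (p Q) * ∑ k, ENNReal.ofReal (c' k) *
          ∫⁻ x, ENNReal.ofReal (exp T / bet μ D₀ x) *
            (ENNReal.ofReal r * ∑ j, ENNReal.ofReal (bw j) *
              μ {x' : ℝ | |ρ Q * (x' - x) - (v k - v j)| < r}) ∂μ :=
          Finset.sum_le_sum fun Q _ => mul_le_mul_right (hone Q) _
      _ = ∑ k, ENNReal.ofReal (c' k) * ∑ Q, ENNReal.ofReal (p Q) *
          ∫⁻ x, ENNReal.ofReal (exp T / bet μ D₀ x) *
            (ENNReal.ofReal r * ∑ j, ENNReal.ofReal (bw j) *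
              μ {x' : ℝ | |ρ Q * (x' - x) - (v k - v j)| < r}) ∂μ := by
          simp only [Finset.mul_sum]
          rw [Finset.sum_comm]
          refine Finset.sum_congr rfl fun k _ => Finset.sum_congr rfl fun Q _ => ?_
          ring
      _ ≤ ∑ k, ENNReal.ofReal (c' k) * ENNReal.ofReal (r * (exp T * Λ)) := by
          refine Finset.sum_le_sum fun k _ => ?_
          rcases eq_or_ne (c' k) 0 with h0 | h0
          · rw [h0, ENNReal.ofReal_zero, zero_mul, zero_mul]
          refine mul_le_mul_right ?_ _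
          have hmeas : ∀ Q j, Measurable fun x =>
              μ {x' : ℝ | |ρ Q * (x' - x) - (v k - v j)| < r} := by
            intro Q j
            have h : MeasurableSet {w : ℝ × ℝ | |ρ Q * (w.2 - w.1) - (v k - v j)| < r} :=
              measurableSet_lt (by fun_prop) measurable_const
            exact measurable_measure_prodMk_left (ν := μ) h
          have e1 : ∀ Q, ENNReal.ofReal (p Q) * ∫⁻ x, ENNReal.ofReal (exp T / bet μ D₀ x) *
              (ENNReal.ofReal r * ∑ j, ENNReal.ofReal (bw j) *
                μ {x' : ℝ | |ρ Q * (x' - x) - (v k - v j)| < r}) ∂μ =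
              ∫⁻ x, ENNReal.ofReal (p Q) * (ENNReal.ofReal (exp T / bet μ D₀ x) *
              (ENNReal.ofReal r * ∑ j, ENNReal.ofReal (bw j) *
                μ {x' : ℝ | |ρ Q * (x' - x) - (v k - v j)| < r})) ∂μ := fun Q =>
            (lintegral_const_mul' _ _ ENNReal.ofReal_ne_top).symm
          simp only [e1]
          rw [← lintegral_finsetSum]
          · refine (lintegral_mono (g := fun _ => ENNReal.ofReal (r * (exp T * Λ))) fun x => ?_).trans
              (by rw [lintegral_const, measure_univ, mul_one])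
            -- pointwise in x
            have hj : ∀ j, bw j ≠ 0 → ∑ Q, ENNReal.ofReal (p Q) *
                μ {x' : ℝ | |ρ Q * (x' - x) - (v k - v j)| < r} ≤
                ENNReal.ofReal Λ * ENNReal.ofReal (bet μ D₀ x) := by
              intro j hj0
              have e2 : ∀ Q, ENNReal.ofReal (p Q) *
                  μ {x' : ℝ | |ρ Q * (x' - x) - (v k - v j)| < r} =
                  ∫⁻ x', ENNReal.ofReal (if |ρ Q * (x' - x) - (v k - v j)| < r then p Q else 0) ∂μ := by
                intro Q
                rw [← setLIntegral_const (μ := μ) {x' : ℝ | |ρ Q * (x' - x) - (v k - v j)| < r},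
                  ← lintegral_indicator (measurableSet_near _ _ _ _ _)]
                refine lintegral_congr fun x' => ?_
                by_cases hx' : |ρ Q * (x' - x) - (v k - v j)| < r
                · rw [indicator_of_mem (show x' ∈ {x' : ℝ | |ρ Q * (x' - x) - (v k - v j)| < r} from hx'),
                    if_pos hx']
                · rw [indicator_of_notMem (show x' ∉ {x' : ℝ | |ρ Q * (x' - x) - (v k - v j)| < r} from hx'),
                    if_neg hx', ENNReal.ofReal_zero]
              simp only [e2]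
              rw [← lintegral_finsetSum]
              · have h3 : ∀ x', ∑ Q, ENNReal.ofReal
                    (if |ρ Q * (x' - x) - (v k - v j)| < r then p Q else 0) ≤
                    (Icc (x - D₀) (x + D₀)).indicator (fun _ => ENNReal.ofReal Λ) x' := by
                  intro x'
                  rw [← ENNReal.ofReal_sum_of_nonneg fun Q _ => by
                    split_ifs <;> [exact hp Q; exact le_rfl]]
                  by_cases hx' : x' ∈ Icc (x - D₀) (x + D₀)
                  · rw [indicator_of_mem hx']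
                    refine ENNReal.ofReal_le_ofReal ?_
                    exact conc_apply hp hρ hr hb hconc (hsep k h0 j hj0)
                      (fun Q => |ρ Q * (x' - x) - (v k - v j)| < r) fun Q h => h
                  · rw [indicator_of_notMem hx']
                    refine le_of_eq ?_
                    rw [ENNReal.ofReal_eq_zero]
                    refine le_of_eq (Finset.sum_eq_zero fun Q _ => ?_)
                    rw [if_neg]
                    intro h
                    apply hx'
                    have h4 : |ρ Q| * |x' - x| ≤ D₀ * |ρ Q| := by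
                      rw [← abs_mul]
                      have h5 := abs_sub_abs_le_abs_sub (ρ Q * (x' - x)) (v k - v j)
                      have h6 := hd' Q k (hcne k h0) j hj0
                      linarith
                    rw [mul_comm] at h4
                    have h7 : |x' - x| ≤ D₀ := le_of_mul_le_mul_right h4 (abs_pos.mpr (hρ Q))
                    rw [abs_le] at h7
                    constructor <;> linarith [h7.1, h7.2]
                refine (lintegral_mono h3).trans ?_
                rw [lintegral_indicator measurableSet_Icc, setLIntegral_const]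
                unfold bet
                rw [Measure.real, ENNReal.ofReal_toReal (measure_ne_top _ _)]
              · intro Q _
                refine ENNReal.measurable_ofReal.comp (Measurable.ite (measurableSet_near _ _ _ _ _)
                  measurable_const measurable_const)
            calc ∑ Q, ENNReal.ofReal (p Q) * (ENNReal.ofReal (exp T / bet μ D₀ x) *
                  (ENNReal.ofReal r * ∑ j, ENNReal.ofReal (bw j) *
                    μ {x' : ℝ | |ρ Q * (x' - x) - (v k - v j)| < r}))
                = ENNReal.ofReal (exp T / bet μ D₀ x) * (ENNReal.ofReal r *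
                  ∑ j, ENNReal.ofReal (bw j) * ∑ Q, ENNReal.ofReal (p Q) *
                    μ {x' : ℝ | |ρ Q * (x' - x) - (v k - v j)| < r}) := by
                  simp only [Finset.mul_sum]
                  rw [Finset.sum_comm]
                  refine Finset.sum_congr rfl fun j _ => Finset.sum_congr rfl fun Q _ => ?_
                  ring
              _ ≤ ENNReal.ofReal (exp T / bet μ D₀ x) * (ENNReal.ofReal r *
                  ∑ j, ENNReal.ofReal (bw j) * (ENNReal.ofReal Λ * ENNReal.ofReal (bet μ D₀ x))) := by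
                  refine mul_le_mul_right (mul_le_mul_right (Finset.sum_le_sum fun j _ => ?_) _) _
                  rcases eq_or_ne (bw j) 0 with h | h
                  · rw [h, ENNReal.ofReal_zero, zero_mul, zero_mul]
                  · exact mul_le_mul_right (hj j h) _
              _ ≤ ENNReal.ofReal (r * (exp T * Λ)) := by
                  rw [← Finset.sum_mul, ← ENNReal.ofReal_sum_of_nonneg fun j _ => hbw j,
                    ← ENNReal.ofReal_mul hΛ0, ← ENNReal.ofReal_mul (Finset.sum_nonneg fun j _ => hbw j),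
                    ← ENNReal.ofReal_mul hr.le,
                    ← ENNReal.ofReal_mul (div_nonneg (exp_pos T).le (bet_nonneg μ D₀ x))]
                  refine ENNReal.ofReal_le_ofReal ?_
                  have hb0 := bet_nonneg μ D₀ x
                  rcases hb0.eq_or_lt with h | h
                  · rw [← h, div_zero, zero_mul]; positivity
                  · have h8 : exp T / bet μ D₀ x * (r * ((∑ i, bw i) * (Λ * bet μ D₀ x))) =
                        (∑ i, bw i) * (r * (exp T * Λ)) := by
                      field_simp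
                    rw [h8]
                    have h9 : 0 ≤ r * (exp T * Λ) := by positivity
                    nlinarith
          · intro Q _
            refine Measurable.const_mul (Measurable.mul ?_ (Measurable.const_mul ?_ _)) _
            · exact (measurable_const.div (measurable_bet μ D₀)).ennreal_ofReal
            · exact Finset.measurable_sum _ fun j _ => (hmeas Q j).const_mul _
      _ ≤ ENNReal.ofReal (r * (exp T * Λ)) := by
          rw [← Finset.sum_mul, ← ENNReal.ofReal_sum_of_nonneg fun k _ => hc' k]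
          have h1 : ∑ k, c' k ≤ 1 := (Finset.sum_le_sum fun k _ => hcc k).trans hc1.le
          calc ENNReal.ofReal (∑ k, c' k) * ENNReal.ofReal (r * (exp T * Λ))
              ≤ 1 * ENNReal.ofReal (r * (exp T * Λ)) :=
                mul_le_mul_left (by rw [← ENNReal.ofReal_one]; exact ENNReal.ofReal_le_ofReal h1) _
            _ = _ := one_mul _
  have hI0 : ∀ Q, 0 ≤ ∫ z, mgood c c' v (ρ Q) r μ D₀ T z *
      (m bw v (ρ Q) r μ z / m c v (ρ Q) r μ z) := fun Q => integral_nonneg (hnn Q)
  have h2 : ∑ Q, ENNReal.ofReal (p Q) * ENNReal.ofReal (∫ z, mgood c c' v (ρ Q) r μ D₀ T z *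
      (m bw v (ρ Q) r μ z / m c v (ρ Q) r μ z)) =
      ENNReal.ofReal (∑ Q, p Q * ∫ z, mgood c c' v (ρ Q) r μ D₀ T z *
      (m bw v (ρ Q) r μ z / m c v (ρ Q) r μ z)) := by
    rw [ENNReal.ofReal_sum_of_nonneg fun Q _ => mul_nonneg (hp Q) (hI0 Q)]
    exact Finset.sum_congr rfl fun Q _ => (ENNReal.ofReal_mul (hp Q)).symm
  rw [h2] at hsum
  rwa [ENNReal.ofReal_le_ofReal_iff (by positivity)] at hsum

end first

end Crest.Agent.R98.K
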