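import Crest.Agent.R98.KDetB

/-!
R98 / KDetC (helper9): the detection lemma, part C: the information of a child.
-/

set_option autoImplicit false
set_option linter.unusedVariables false
set_option linter.unusedSectionVars false

open MeasureTheory Set Real
open scoped ENNReal

namespace Crest.Agent.R98.K

section scalar

/-- tangent line of `log (1 + t)` -/
theorem log_tangent {t t₀ : ℝ} (ht : 0 ≤ t) (h0 : 0 ≤ t₀) :
    log (1 + t) ≤ log (1 + t₀) + (t - t₀) / (1 + t₀) := by
  have h1 : 0 < 1 + t₀ := by linarith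
  have h2 : 0 < 1 + t := by linarith
  have h3 := log_le_sub_one_of_pos (div_pos h2 h1)
  rw [log_div h2.ne' h1.ne'] at h3
  have h4 : (1 + t) / (1 + t₀) - 1 = (t - t₀) / (1 + t₀) := by field_simp; ring
  linarith

/-- the pointwise inequality: `P log(1 + A/(nP))` is split in a good and a bad part -/
theorem pt_bound {P A G n y : ℝ} (hP : 0 ≤ P) (hA : 0 ≤ A) (hG : 0 ≤ G) (hGP : G ≤ P)
    (hn : 0 < n) (hn1 : n ≤ 1) (hy : 0 ≤ y) :
    P * log (1 + A / (n * P)) ≤ (P - G) * (-log n) + (P * log 2 + (A - P) / 2) +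
      (G * log (1 + y) + ((G * (A / P)) / n - G * y) / (1 + y)) := by
  have hln : 0 ≤ -log n := by have := log_nonpos hn.le hn1; linarith
  have hy1 : 0 < 1 + y := by linarith
  have hly : 0 ≤ log (1 + y) := log_nonneg (by linarith)
  rcases hP.eq_or_lt with h0 | h0
  · have hG0 : G = 0 := le_antisymm (h0 ▸ hGP) hG
    rw [← h0, hG0]
    simp only [zero_mul, mul_zero, sub_zero, zero_div, sub_self, add_zero, zero_add]
    positivity
  have hAP : 0 ≤ A / P := div_nonneg hA hP
  have hAn : A / (n * P) = (A / P) / n := by field_simp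
  have h1 : log (1 + A / (n * P)) ≤ -log n + log (1 + A / P) := by
    have h2 : 1 + A / (n * P) ≤ (1 + A / P) / n := by
      rw [hAn, le_div_iff₀ hn]
      have : A / P / n * n = A / P := by field_simp
      nlinarith
    have h3 := log_le_log (by positivity) h2
    rw [log_div (by positivity) hn.ne'] at h3
    linarith
  have h4 : log (1 + A / P) ≤ log 2 + (A / P - 1) / 2 := by
    have := log_tangent hAP (zero_le_one' ℝ)
    norm_num at this
    linarith
  have h4' : P * log (1 + A / P) ≤ P * log 2 + (A - P) / 2 := by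
    have h5 := mul_le_mul_of_nonneg_left h4 hP
    have h6 : P * (log 2 + (A / P - 1) / 2) = P * log 2 + (A - P) / 2 := by
      field_simp
    linarith
  have h7 : (P - G) * log (1 + A / P) ≤ P * log (1 + A / P) :=
    mul_le_mul_of_nonneg_right (by linarith) (log_nonneg (by linarith))
  have h8 := mul_le_mul_of_nonneg_left h1 (sub_nonneg.mpr hGP)
  have h9 : G * log (1 + A / (n * P)) ≤
      G * log (1 + y) + ((G * (A / P)) / n - G * y) / (1 + y) := by
    have h10 := mul_le_mul_of_nonneg_left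
      (log_tangent (show 0 ≤ A / (n * P) by positivity) hy) hG
    rw [hAn] at h10 ⊢
    have h11 : G * (log (1 + y) + (A / P / n - y) / (1 + y)) =
        G * log (1 + y) + (G * (A / P) / n - G * y) / (1 + y) := by
      field_simp
    linarith
  nlinarith

end scalar

section core

variable {κ : Type*} [Fintype κ]

/-- **core of the detection lemma** -/
theorem det_core {𝒬 : Type*} [Fintype 𝒬] {μ : Measure ℝ} [IsProbabilityMeasure μ]
    (hμ : BSupp μ) {c c' bw v : κ → ℝ}
    (hc : ∀ k, 0 ≤ c k) (hc1 : ∑ k, c k = 1) (hc' : ∀ k, 0 ≤ c' k) (hcc : ∀ k, c' k ≤ c k)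
    (hbw : ∀ k, 0 ≤ bw k) (hbw1 : ∑ k, bw k ≤ 1)
    {p ρ : 𝒬 → ℝ} (hp : ∀ Q, 0 ≤ p Q) (hp1 : ∑ Q, p Q = 1) (hρ : ∀ Q, ρ Q ≠ 0)
    {r b D₀ T Λ E₁ δ θ g n : ℝ} (hr : 0 < r) (hb : 2 * r ≤ b)
    (hd : ∀ Q k, c k ≠ 0 → ∀ k', c k' ≠ 0 → |v k - v k'| + r ≤ D₀ * |ρ Q|)
    (hd' : ∀ Q k, c k ≠ 0 → ∀ j, bw j ≠ 0 → |v k - v j| + r ≤ D₀ * |ρ Q|)
    (hsep : ∀ k, c' k ≠ 0 → ∀ j, bw j ≠ 0 → b ≤ |v k - v j|)
    (hθ : ∑ k, (c k - c' k) ≤ θ)
    (hconc : ∀ a : ℝ, ∑ Q, (if a ≤ log |ρ Q| ∧ log |ρ Q| ≤ a + 4 * r / b then p Q else 0) ≤ Λ)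
    (hL : Lb μ D₀ ≠ ⊤) (hT : 0 < T)
    (hE : ∀ Q, Hs (addLaw c v (scal (ρ Q) μ)) r ≤ (Lb μ D₀).toReal + E₁)
    (hET : E₁ ≤ (1 - δ) * T) (hg : 0 ≤ g) (hΛ : exp T * Λ ≤ exp (-g))
    (hn : 0 < n) (hn1 : n ≤ 1) :
    ∑ Q, p Q * ((1 / r) * ∫ z, m c v (ρ Q) r μ z *
      log (1 + m bw v (ρ Q) r μ z / (n * m c v (ρ Q) r μ z))) ≤
      -log n - (δ - θ) * min (-log n) g + 3 := by
  set s := -log n with hs
  have hs0 : 0 ≤ s := by have := log_nonpos hn.le hn1; linarith
  set y := exp (-g) / n with hy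
  have hy0 : 0 ≤ y := by positivity
  set P := fun Q z => m c v (ρ Q) r μ z with hPdef
  set A := fun Q z => m bw v (ρ Q) r μ z with hAdef
  set G := fun Q z => mgood c c' v (ρ Q) r μ D₀ T z with hGdef
  have hP0 : ∀ Q z, 0 ≤ P Q z := fun Q z => m_nonneg hc v (ρ Q) r μ z
  have hA0 : ∀ Q z, 0 ≤ A Q z := fun Q z => m_nonneg hbw v (ρ Q) r μ z
  have hG0 : ∀ Q z, 0 ≤ G Q z := fun Q z => mgood_nonneg hc' v (ρ Q) r μ D₀ T z
  have hGP : ∀ Q z, G Q z ≤ P Q z := fun Q z => mgood_le hc' hcc v (ρ Q) r μ D₀ T z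
  have hPi : ∀ Q, Integrable (P Q) := fun Q => integrable_m hc v (ρ Q) r hμ
  have hAi : ∀ Q, Integrable (A Q) := fun Q => integrable_m hbw v (ρ Q) r hμ
  have hGm : ∀ Q, Measurable (G Q) := fun Q => measurable_mgood c c' v (ρ Q) r μ D₀ T
  have hPm : ∀ Q, Measurable (P Q) := fun Q => measurable_m c v (ρ Q) r μ
  have hAm : ∀ Q, Measurable (A Q) := fun Q => measurable_m bw v (ρ Q) r μ
  have hGi : ∀ Q, Integrable (G Q) := fun Q =>
    (hPi Q).mono' (hGm Q).aestronglyMeasurable (Filter.Eventually.of_forall fun z => by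
      rw [Real.norm_eq_abs, abs_of_nonneg (hG0 Q z)]; exact hGP Q z)
  have hGAi : ∀ Q, Integrable fun z => G Q z * (A Q z / P Q z) := by
    intro Q
    refine (hAi Q).mono' ((hGm Q).mul ((hAm Q).div (hPm Q))).aestronglyMeasurable ?_
    refine Filter.Eventually.of_forall fun z => ?_
    rw [Real.norm_eq_abs, abs_of_nonneg (mul_nonneg (hG0 Q z) (div_nonneg (hA0 Q z) (hP0 Q z)))]
    rcases (hP0 Q z).eq_or_lt with h0 | h0
    · rw [← h0, div_zero, mul_zero]; exact hA0 Q z
    · rw [mul_div_assoc', div_le_iff₀ h0, mul_comm (G Q z)]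
      exact mul_le_mul_of_nonneg_left (hGP Q z) (hA0 Q z)
  have hLi : ∀ Q, Integrable fun z => P Q z * log (1 + A Q z / (n * P Q z)) := by
    intro Q
    refine ((hAi Q).div_const n).mono' ((hPm Q).mul (measurable_log.comp
      (measurable_const.add ((hAm Q).div ((hPm Q).const_mul n))))).aestronglyMeasurable ?_
    refine Filter.Eventually.of_forall fun z => ?_
    have h1 : 0 ≤ A Q z / (n * P Q z) := div_nonneg (hA0 Q z) (mul_nonneg hn.le (hP0 Q z))
    rw [Real.norm_eq_abs, abs_of_nonneg (mul_nonneg (hP0 Q z) (log_nonneg (by linarith)))]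
    have h2 : log (1 + A Q z / (n * P Q z)) ≤ A Q z / (n * P Q z) := by
      have := log_le_sub_one_of_pos (show 0 < 1 + A Q z / (n * P Q z) by linarith)
      linarith
    rcases (hP0 Q z).eq_or_lt with h0 | h0
    · rw [← h0, zero_mul]; exact div_nonneg (hA0 Q z) hn.le
    · have h3 := mul_le_mul_of_nonneg_left h2 h0.le
      have h4 : P Q z * (A Q z / (n * P Q z)) = A Q z / n := by field_simp
      linarith
  have hPint : ∀ Q, ∫ z, P Q z = r := fun Q => by
    have := integral_m hc v (ρ Q) hr.le (μ := μ)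
    rw [hc1, mul_one] at this; exact this
  have hAint : ∀ Q, ∫ z, A Q z ≤ r := fun Q => by
    have := integral_m hbw v (ρ Q) hr.le (μ := μ)
    simp only [hAdef]
    rw [this]; nlinarith
  -- mass of the good part
  set gm := fun Q => (1 / r) * ∫ z, G Q z with hgm
  have hgm1 : ∀ Q, gm Q ≤ 1 := by
    intro Q
    have h1 : ∫ z, G Q z ≤ ∫ z, P Q z := integral_mono (hGi Q) (hPi Q) (hGP Q)
    rw [hPint] at h1
    simp only [hgm]
    rw [one_div, inv_mul_le_iff₀ hr]; linarith
  have hgm0 : ∀ Q, 0 ≤ gm Q := fun Q => mul_nonneg (by positivity) (integral_nonneg (hG0 Q))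
  have hgmδ : ∀ Q, δ - θ ≤ gm Q := by
    intro Q
    have hcd : ∀ k, 0 ≤ c k - c' k := fun k => sub_nonneg.mpr (hcc k)
    have h1 : ∫ z, P Q z ≤ ∫ z, (G Q z + m (fun k => c k - c' k) v (ρ Q) r μ z +
        mbad c v (ρ Q) r μ D₀ T z) := by
      refine integral_mono (hPi Q) ?_ fun z => m_le_add hc' hcc v (ρ Q) r μ D₀ T z
      refine ((hGi Q).add (integrable_m hcd v (ρ Q) r hμ)).add ?_
      exact (hPi Q).mono' (measurable_mbad c v (ρ Q) r μ D₀ T).aestronglyMeasurable
        (Filter.Eventually.of_forall fun z => by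
          rw [Real.norm_eq_abs, abs_of_nonneg (mbad_nonneg hc v (ρ Q) r μ D₀ T z)]
          exact mbad_le hc v (ρ Q) r μ D₀ T z)
    have hbi : Integrable (mbad c v (ρ Q) r μ D₀ T) := (hPi Q).mono'
      (measurable_mbad c v (ρ Q) r μ D₀ T).aestronglyMeasurable
        (Filter.Eventually.of_forall fun z => by
          rw [Real.norm_eq_abs, abs_of_nonneg (mbad_nonneg hc v (ρ Q) r μ D₀ T z)]
          exact mbad_le hc v (ρ Q) r μ D₀ T z)
    have hii : Integrable fun z => G Q z + m (fun k => c k - c' k) v (ρ Q) r μ z :=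
      (hGi Q).add (integrable_m hcd v (ρ Q) r hμ)
    rw [hPint, integral_add hii hbi, integral_add (hGi Q) (integrable_m hcd v (ρ Q) r hμ),
      integral_m hcd v (ρ Q) hr.le] at h1
    have h2 := mbad_mass hc hc1 hμ (hρ Q) hr (fun k hk k' hk' => hd Q k hk k' hk') hT hL (hE Q)
    have h3 : ∫ z, mbad c v (ρ Q) r μ D₀ T z ≤ r * (1 - δ) := by
      have h4 : T * ∫ z, mbad c v (ρ Q) r μ D₀ T z ≤ T * (r * (1 - δ)) := by
        have := mul_le_mul_of_nonneg_left hET hr.le
        nlinarith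
      exact le_of_mul_le_mul_left h4 hT
    have h5 := mul_le_mul_of_nonneg_left hθ hr.le
    simp only [hgm]
    rw [one_div, le_inv_mul_iff₀ hr]
    nlinarith
  -- per multiplier
  have hper : ∀ Q, (1 / r) * ∫ z, P Q z * log (1 + A Q z / (n * P Q z)) ≤
      (1 - gm Q) * s + log 2 + (gm Q * log (1 + y) +
        (((1 / r) * ∫ z, G Q z * (A Q z / P Q z)) / n - gm Q * y) / (1 + y)) := by
    intro Q
    have h1 : ∫ z, P Q z * log (1 + A Q z / (n * P Q z)) ≤
        ∫ z, ((P Q z - G Q z) * s + (P Q z * log 2 + (A Q z - P Q z) / 2) +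
          (G Q z * log (1 + y) + ((G Q z * (A Q z / P Q z)) / n - G Q z * y) / (1 + y))) := by
      refine integral_mono (hLi Q) ?_ fun z =>
        pt_bound (hP0 Q z) (hA0 Q z) (hG0 Q z) (hGP Q z) hn hn1 hy0
      exact ((((hPi Q).sub (hGi Q)).mul_const s).add (((hPi Q).mul_const _).add
        (((hAi Q).sub (hPi Q)).div_const 2))).add (((hGi Q).mul_const _).add
        ((((hGAi Q).div_const n).sub ((hGi Q).mul_const y)).div_const _))
    have i1 : Integrable fun z => (P Q z - G Q z) * s := ((hPi Q).sub (hGi Q)).mul_const s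
    have i2 : Integrable fun z => P Q z * log 2 := (hPi Q).mul_const _
    have i3 : Integrable fun z => (A Q z - P Q z) / 2 := ((hAi Q).sub (hPi Q)).div_const 2
    have i23 : Integrable fun z => P Q z * log 2 + (A Q z - P Q z) / 2 := i2.add i3
    have i123 : Integrable fun z => (P Q z - G Q z) * s +
        (P Q z * log 2 + (A Q z - P Q z) / 2) := i1.add i23
    have i4 : Integrable fun z => G Q z * log (1 + y) := (hGi Q).mul_const _
    have i5 : Integrable fun z => G Q z * (A Q z / P Q z) / n := (hGAi Q).div_const n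
    have i6 : Integrable fun z => G Q z * y := (hGi Q).mul_const y
    have i56 : Integrable fun z => G Q z * (A Q z / P Q z) / n - G Q z * y := i5.sub i6
    have i7 : Integrable fun z => (G Q z * (A Q z / P Q z) / n - G Q z * y) / (1 + y) :=
      i56.div_const _
    have i47 : Integrable fun z => G Q z * log (1 + y) +
        (G Q z * (A Q z / P Q z) / n - G Q z * y) / (1 + y) := i4.add i7
    rw [integral_add i123 i47, integral_add i1 i23, integral_add i2 i3, integral_add i4 i7,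
      integral_mul_const, integral_sub (hPi Q) (hGi Q), integral_mul_const, integral_div,
      integral_sub (hAi Q) (hPi Q), integral_mul_const, integral_div, integral_sub i5 i6,
      integral_div, integral_mul_const, hPint] at h1
    have h2 := hAint Q
    have h3 : (r - ∫ z, G Q z) * s + (r * log 2 + ((∫ z, A Q z) - r) / 2) +
        ((∫ z, G Q z) * log (1 + y) +
          ((∫ z, G Q z * (A Q z / P Q z)) / n - (∫ z, G Q z) * y) / (1 + y)) ≤
        r * ((1 - gm Q) * s + log 2 + (gm Q * log (1 + y) +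
        (((1 / r) * ∫ z, G Q z * (A Q z / P Q z)) / n - gm Q * y) / (1 + y))) := by
      have e1 : r * ((1 - gm Q) * s + log 2 + (gm Q * log (1 + y) +
          (((1 / r) * ∫ z, G Q z * (A Q z / P Q z)) / n - gm Q * y) / (1 + y))) =
          (r - ∫ z, G Q z) * s + r * log 2 + ((∫ z, G Q z) * log (1 + y) +
          ((∫ z, G Q z * (A Q z / P Q z)) / n - (∫ z, G Q z) * y) / (1 + y)) := by
        simp only [hgm]
        field_simp
      rw [e1]; linarith
    have h4 := h1.trans h3
    calc (1 / r) * ∫ z, P Q z * log (1 + A Q z / (n * P Q z))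
        ≤ (1 / r) * (r * ((1 - gm Q) * s + log 2 + (gm Q * log (1 + y) +
        (((1 / r) * ∫ z, G Q z * (A Q z / P Q z)) / n - gm Q * y) / (1 + y)))) :=
          mul_le_mul_of_nonneg_left h4 (by positivity)
      _ = _ := by field_simp
  -- averaging
  have hfm := first_moment hμ hc hc1 hc' hcc hbw hbw1 hp hρ hr hb hd hd' hsep hconc
    (D₀ := D₀) (T := T)
  set ϖ := ∑ Q, p Q * gm Q with hϖ
  have hw1 : ϖ ≤ 1 := by
    rw [← hp1]; exact Finset.sum_le_sum fun Q _ => by nlinarith [hp Q, hgm1 Q]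
  have hw0 : 0 ≤ ϖ := Finset.sum_nonneg fun Q _ => mul_nonneg (hp Q) (hgm0 Q)
  have hwδ : δ - θ ≤ ϖ := by
    calc δ - θ = ∑ Q, p Q * (δ - θ) := by rw [← Finset.sum_mul, hp1, one_mul]
      _ ≤ ϖ := Finset.sum_le_sum fun Q _ => mul_le_mul_of_nonneg_left (hgmδ Q) (hp Q)
  set M := ∑ Q, p Q * ((1 / r) * ∫ z, G Q z * (A Q z / P Q z)) with hM
  have hMle : M ≤ exp (-g) := by
    have h1 : M = (1 / r) * ∑ Q, p Q * ∫ z, G Q z * (A Q z / P Q z) := by
      rw [hM, Finset.mul_sum]; exact Finset.sum_congr rfl fun Q _ => by ring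
    rw [h1, one_div, inv_mul_le_iff₀ hr]
    refine hfm.trans ?_
    exact mul_le_mul_of_nonneg_left hΛ hr.le
  have htot : ∑ Q, p Q * ((1 / r) * ∫ z, P Q z * log (1 + A Q z / (n * P Q z))) ≤
      (1 - ϖ) * s + log 2 + (ϖ * log (1 + y) + (M / n - ϖ * y) / (1 + y)) := by
    refine (Finset.sum_le_sum fun Q _ => mul_le_mul_of_nonneg_left (hper Q) (hp Q)).trans
      (le_of_eq ?_)
    have e1 : (1 - ϖ) * s + log 2 + (ϖ * log (1 + y) + (M / n - ϖ * y) / (1 + y)) =
        ∑ Q, (p Q * s - p Q * gm Q * s + p Q * log 2 + (p Q * gm Q * log (1 + y) +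
          ((p Q * ((1 / r) * ∫ z, G Q z * (A Q z / P Q z))) / n - p Q * gm Q * y) / (1 + y))) := by
      simp only [Finset.sum_add_distrib, Finset.sum_sub_distrib, ← Finset.sum_mul,
        ← Finset.sum_div, hp1, ← hϖ, ← hM]
      ring
    rw [e1]
    refine Finset.sum_congr rfl fun Q _ => ?_
    ring
  refine htot.trans ?_
  have hy1 : 0 < 1 + y := by linarith
  have h1 : (M / n - ϖ * y) / (1 + y) ≤ 1 := by
    rw [div_le_one hy1]
    have h2 : M / n ≤ y := by rw [hy]; exact div_le_div_of_nonneg_right hMle hn.le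
    have h3 : 0 ≤ ϖ * y := by positivity
    linarith
  have h2 : log (1 + y) ≤ log 2 + max 0 (s - g) := by
    rcases le_total y 1 with h | h
    · have h3 : log (1 + y) ≤ log 2 := log_le_log hy1 (by linarith)
      have := le_max_left 0 (s - g)
      linarith
    · have h3 : log (1 + y) ≤ log (2 * y) := log_le_log hy1 (by linarith)
      have hypos : 0 < y := by linarith
      rw [log_mul two_ne_zero hypos.ne', hy, log_div (exp_pos _).ne' hn.ne', log_exp] at h3
      have := le_max_right 0 (s - g)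
      rw [hs] at this ⊢
      linarith
  have h3 : ϖ * log (1 + y) ≤ ϖ * log 2 + ϖ * max 0 (s - g) := by
    have := mul_le_mul_of_nonneg_left h2 hw0
    linarith
  have hl2 : log 2 < 1 := by have := log_two_lt_d9; linarith
  have hl20 : 0 < log 2 := log_pos (by norm_num)
  have h4 : ϖ * log 2 ≤ log 2 := by nlinarith
  have h5 : ϖ * max 0 (s - g) ≤ ϖ * s - ϖ * min s g := by
    rw [← mul_sub]
    refine mul_le_mul_of_nonneg_left ?_ hw0
    rcases le_total s g with h | h
    · rw [min_eq_left h, max_eq_left (by linarith)]; linarith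
    · rw [min_eq_right h, max_eq_right (by linarith)]
  have h6 : (δ - θ) * min s g ≤ ϖ * min s g :=
    mul_le_mul_of_nonneg_right hwδ (le_min hs0 hg)
  linarith

end core

end Crest.Agent.R98.K
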