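import Crest.Agent.R98.KOne
import Crest.Agent.R98.KDet
import Crest.Agent.R98.Ent3

/-!
R98 / KDetI (helper226): the detection lemma `det_K` (helper9) in the form `Det` used by the tree.
-/

set_option autoImplicit false
set_option linter.unusedSectionVars false

open Real Set MeasureTheory

namespace Crest.Agent.R98.K

variable {κ : Type*} [Fintype κ]

open Classical in
/-- conditional weights, a probability for every label -/
noncomputable def cnd' {U : Type*} (p : κ → ℝ) (f : κ → U) (u : U) : κ → ℝ :=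
  if lm p f u = 0 then p else cnd p f u

theorem cnd'_of_ne {U : Type*} {p : κ → ℝ} {f : κ → U} {u : U} (h : lm p f u ≠ 0) :
    cnd' p f u = cnd p f u := if_neg h

theorem isPW_cnd' {U : Type*} {p : κ → ℝ} (hp : IsPW p) (f : κ → U) (u : U) :
    IsPW (cnd' p f u) := by
  by_cases h : lm p f u = 0
  · unfold cnd'; rw [if_pos h]; exact hp
  · rw [cnd'_of_ne h]; exact isPW_cnd f hp.1 h

theorem J_cnd_eq {U : Type*} [Fintype U] {p : κ → ℝ} (f : κ → U) (v : κ → ℝ) (B : Measure ℝ)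
    (d : ℝ) :
    J (lm p f) (fun u => addLaw (cnd p f u) v B) d =
      J (lm p f) (fun u => addLaw (cnd' p f u) v B) d := by
  have h1 : mix (lm p f) (fun u => addLaw (cnd p f u) v B) =
      mix (lm p f) (fun u => addLaw (cnd' p f u) v B) := by
    unfold mix
    refine Finset.sum_congr rfl fun u _ => ?_
    by_cases h : lm p f u = 0
    · rw [h, ENNReal.ofReal_zero, zero_smul, zero_smul]
    · simp only [cnd'_of_ne h]
  unfold J
  rw [h1]
  congr 1
  refine Finset.sum_congr rfl fun u _ => ?_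
  by_cases h : lm p f u = 0
  · rw [h, zero_mul, zero_mul]
  · simp only [cnd'_of_ne h]

/-- deficit for real ratios from the deficit for integer ratios -/
theorem deficit_real {μ : Measure ℝ} [IsProbabilityMeasure μ] (hμ : BSupp μ) {K : ℕ}
    (hK : 16 ≤ K) {C1 : ℝ}
    (h : ∀ L : ℕ, 0 < L → ∀ d, 0 < d → Hs μ d - Hs μ (L * d) ≤ (1 - 8 / K) * log L + C1) :
    ∀ d, 0 < d → ∀ L : ℝ, 1 ≤ L → Hs μ d - Hs μ (L * d) ≤ (1 - 8 / K) * log L + (C1 + log 2) := by
  intro d hd L hL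
  have hK' : (16 : ℝ) ≤ K := by exact_mod_cast hK
  have hLn : L ≤ (⌈L⌉₊ : ℝ) := Nat.le_ceil L
  have hLn2 : (⌈L⌉₊ : ℝ) ≤ 2 * L := by
    have := Nat.ceil_lt_add_one (by linarith : 0 ≤ L)
    linarith
  have hpos : 0 < ⌈L⌉₊ := Nat.ceil_pos.2 (by linarith)
  have h1 := h _ hpos d hd
  have h2 : Hs μ (⌈L⌉₊ * d) ≤ Hs μ (L * d) :=
    Hs_anti hμ (by positivity) (mul_le_mul_of_nonneg_right hLn hd.le)
  have h3 : log (⌈L⌉₊ : ℝ) ≤ log 2 + log L := by
    rw [← log_mul (by norm_num) (by positivity)]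
    exact log_le_log (by positivity) hLn2
  have h8 : (8 : ℝ) / K ≤ 1 := by rw [div_le_one (by positivity)]; linarith
  have h9 : (0 : ℝ) ≤ 8 / K := by positivity
  have hl2 : 0 < log 2 := log_pos (by norm_num)
  have h4 : (1 - 8 / (K:ℝ)) * log ⌈L⌉₊ ≤ (1 - 8 / K) * (log 2 + log L) :=
    mul_le_mul_of_nonneg_left h3 (by linarith)
  nlinarith

/-- the detection property -/
theorem det_Det {𝒬 : Type*} [Fintype 𝒬] {μ : Measure ℝ} [IsProbabilityMeasure μ] (hμ : BSupp μ)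
    {K w : ℕ} (hK : 16 ≤ K) (hw1 : 1 ≤ w) (v : κ → ℝ) {w' ρ : 𝒬 → ℝ} (hw' : IsPW w')
    {u0 ρ0 R C0 : ℝ} (hu0 : 0 < u0) (hwl : log (2 * R) + C0 + log 3 ≤ w * log 2)
    (hρ0 : 0 < ρ0) (hρ1 : ∀ Q, ρ0 ≤ |ρ Q|) (hρ2 : ∀ Q, |ρ Q| ≤ R * ρ0)
    (hconc : ∀ a : ℝ, ∑ Q, (if a ≤ log |ρ Q| ∧ log |ρ Q| ≤ a + 8 / 2 ^ ((K - 2) * w) then w' Q
      else 0) ≤ 1 / 2 ^ ((K - 3) * w))
    (hdef : ∀ d, 0 < d → ∀ L : ℝ, 1 ≤ L → Hs μ d - Hs μ (L * d) ≤ (1 - 8 / K) * log L + C0)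
    (x₀ x : ℕ) :
    Det v w' (fun Q => scal (ρ Q) μ) u0 (1 / K) (1 / K) (w * log 2) 3 x₀ x
      (x₀ + K * w) (x₀ + 2 * w) := by
  classical
  intro N f p hp hD hch
  have hdy : u0 / 2 ^ x₀ / 2 ^ (K * w) = u0 / 2 ^ (x₀ + K * w) := by rw [div_div, ← pow_add]
  have hdz : u0 / 2 ^ x₀ / 2 ^ (2 * w) = u0 / 2 ^ (x₀ + 2 * w) := by rw [div_div, ← pow_add]
  have hn : ∀ u, 0 ≤ lm p f u := fun u => lm_nonneg f hp.1 u
  have hn1 : ∑ u, lm p f u = 1 := by rw [sum_lm, hp.2]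
  have hprob : ∀ Q u, IsProbabilityMeasure (addLaw (cnd' p f u) v (scal (ρ Q) μ)) := fun Q u =>
    isProbabilityMeasure_addLaw (isPW_cnd' hp f u).1 (isPW_cnd' hp f u).2 v _
  have hbs : ∀ Q, BSupp (scal (ρ Q) μ) := fun Q => bsupp_scal hμ (ρ Q)
  refine ⟨fun u => ∑ Q, w' Q * info (lm p f) (fun u' => addLaw (cnd' p f u') v (scal (ρ Q) μ))
    (u0 / 2 ^ (x₀ + K * w)) u, ?_, ?_, ?_⟩
  · intro u hu
    refine Finset.sum_nonneg fun Q _ => mul_nonneg (hw'.1 Q) ?_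
    exact info_nonneg hn hn1 (fun u => (hbs Q).addLaw _ _) (by positivity)
      (lt_of_le_of_ne (hn u) (Ne.symm hu))
  · rw [Gav_sub_eq hp f]
    simp only [J_cnd_eq]
    have h1 : ∀ Q, J (lm p f) (fun u => addLaw (cnd' p f u) v (scal (ρ Q) μ))
        (u0 / 2 ^ (x₀ + K * w)) = ∑ u, lm p f u * info (lm p f)
          (fun u' => addLaw (cnd' p f u') v (scal (ρ Q) μ)) (u0 / 2 ^ (x₀ + K * w)) u := fun Q =>
      J_eq_info hn (fun u => (hbs Q).addLaw _ _) _
    simp only [h1, Finset.mul_sum]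
    rw [Finset.sum_comm]
    refine Finset.sum_congr rfl fun u _ => Finset.sum_congr rfl fun Q _ => ?_
    ring
  · intro u hu hnear hE
    have hupos : 0 < lm p f u := lt_of_le_of_ne (hn u) (Ne.symm hu)
    set Near : κ → Prop := fun k => ∃ b', p b' ≠ 0 ∧ f b' ≠ u ∧
      |v k - v b'| < u0 / 2 ^ (x₀ + 2 * w) with hNear
    have hnear' : ∑ k, (if Near k then cnd' p f u k else 0) ≤ 1 / K := by
      have h1 : ∑ k, (if Near k then cnd' p f u k else 0) =
          (∑ a, (if f a = u ∧ ∃ b', p b' ≠ 0 ∧ f b' ≠ u ∧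
            |v a - v b'| < u0 / 2 ^ (x₀ + 2 * w) then p a else 0)) / lm p f u := by
        rw [Finset.sum_div]
        refine Finset.sum_congr rfl fun a _ => ?_
        rw [cnd'_of_ne hu]
        by_cases hN : Near a
        · rw [if_pos hN]
          by_cases hf : f a = u
          · rw [if_pos ⟨hf, hN⟩]
            unfold cnd
            rw [rs_of_eq f hf]
          · rw [if_neg (fun h => hf h.1)]
            unfold cnd
            rw [rs_of_ne f hf]
        · rw [if_neg hN, if_neg (fun h => hN h.2), zero_div]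
      rw [h1, div_le_iff₀ hupos]
      exact hnear
    have hcn : ∀ u' k, lm p f u' ≠ 0 → cnd' p f u' k ≠ 0 → f k = u' ∧ p k ≠ 0 := by
      intro u' k h0 h
      rw [cnd'_of_ne h0] at h
      exact cnd_ne_zero f h
    have hmain := det_K (κ := κ) hμ hK hw1 (n := lm p f) hn hn1 (c := cnd' p f)
      (fun u k => (isPW_cnd' hp f u).1 k) (fun u => (isPW_cnd' hp f u).2) v hw'.1 hw'.2
      (d := u0 / 2 ^ x₀) (ρ0 := ρ0) (R := R) (C0 := C0) (by positivity) hwl hupos Near hnear'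
      (fun k hk hNk u' hu' hn' j hj => ?_) (fun k hk u' hn' j hj => ?_) hρ0 hρ1 hρ2 hconc hdef
      (by rw [hdy, cnd'_of_ne hu]; exact hE)
    · rw [hdy] at hmain
      exact hmain
    · rw [hdz]
      obtain ⟨hj1, hj2⟩ := hcn u' j hn' hj
      by_contra hcon
      push Not at hcon
      exact hNk ⟨j, hj2, by rw [hj1]; exact hu', hcon⟩
    · exact hD k j (hcn u k hu hk).2 (hcn u' j hn' hj).2

end Crest.Agent.R98.K
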