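import Crest.Agent.R98.KIface
import Crest.Agent.R98.Word4
import Crest.Agent.R98.HsCell

/-!
Row 98, case K, node FINAL (helper430): the entropy of the values of the words of length `m` given
their type is, up to the entropy at the dyadic scale `x₀`, at least `m h - O(log m)`:
`m h ≤ D x₀ log 2 + C' + card ι log (m+1) + ∑ pT HA(qT)`.
-/

set_option autoImplicit false
open MeasureTheory Crest.AnalysisR Set Filter Topology Real

namespace Crest.Agent.R98.K

open Crest.Agent.R98.TOne Crest.Agent.R98.Part Crest.Agent.R098.Upper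

section Final

variable {ι : Type*} [Fintype ι]

omit [Fintype ι] in
theorem ty_eq_iff {m : ℕ} (u v : Fin m → ι) : ty u = ty v ↔ wtype u = wtype v := by
  constructor
  · intro h
    funext i
    exact congrArg Fin.val (congrFun h i)
  · intro h
    funext i
    exact Fin.ext (congrFun h i)

theorem rho_eq_rt (r : ι → ℝ) {m : ℕ} (u : Fin m → ι) : rho r u = rt r (ty u) :=
  rho_eq_wtype r u

theorem rt_ne_zero {r : ι → ℝ} (hr : ∀ i, r i ≠ 0) {m : ℕ} (τ : ι → Fin (m + 1)) :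
    rt r τ ≠ 0 := Finset.prod_ne_zero_iff.2 fun i _ => pow_ne_zero _ (hr i)

/-- self-similarity at the level of words, grouped by types -/
theorem self_mix {r t p : ι → ℝ} {μ : Measure ℝ} (hp : ∀ i, 0 ≤ p i)
    (hμ : IsSelfSimilarMeasure r t p μ) (m : ℕ) :
    μ = mix (pw p) fun u : Fin m → ι => μ.map fun x => rt r (ty u) * x + zz r t u := by
  have h := iter hp hμ.2 m
  conv_lhs => rw [h]
  unfold mix
  refine Finset.sum_congr rfl fun u _ => ?_
  congr 2
  funext x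
  rw [fw_eq, rho_eq_rt]
  rfl

open Classical in
/-- entropy of the words modulo exact coincidences of the same type, disintegrated by types -/
theorem HW_zS_eq {p : ι → ℝ} (hp : (∀ i, 0 ≤ p i) ∧ ∑ i, p i = 1) (r t : ι → ℝ) (m : ℕ) :
    HW p (zS r t m) = HS (pw p) (Setoid.ker (ty : (Fin m → ι) → _)) +
      ∑ τ : ι → Fin (m + 1), pT p τ * HS (qT p τ) (Setoid.ker (zz r t)) := by
  have hP : ∀ u : Fin m → ι, 0 ≤ pw p u := fun u => pw_nonneg hp.1 u
  have e1 : zS r t m = Setoid.ker (zz r t) ⊓ Setoid.ker (ty : (Fin m → ι) → _) := by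
    ext u v
    rw [zS_iff]
    constructor
    · rintro ⟨h1, h2⟩
      exact ⟨h2, (ty_eq_iff u v).2 h1⟩
    · rintro ⟨h2, h1⟩
      exact ⟨(ty_eq_iff u v).1 h1, h2⟩
  have hres : ∀ τ : ι → Fin (m + 1), res (pw p) ty τ = fun u => pT p τ * qT p τ u := by
    intro τ
    funext u
    unfold pT qT res
    rw [fib_mul_cond ty hP τ u]
    by_cases h : ty u = τ
    · rw [if_pos h, indicator_of_mem (show u ∈ {a | ty a = τ} from h)]
    · rw [if_neg h, indicator_of_notMem (show u ∉ {a | ty a = τ} from h)]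
  have hf : ∀ τ : ι → Fin (m + 1), 0 ≤ pT p τ := fun τ => fib_nonneg ty hP τ
  have hc : ∀ (τ : ι → Fin (m + 1)) u, 0 ≤ qT p τ u := fun τ u => cond_nonneg ty hP τ u
  have hc1 : ∀ τ : ι → Fin (m + 1), ∑ u : Fin m → ι, qT p τ u = 1 :=
    fun τ => cond_sum ty (sum_pw hp.2 m) τ
  have h2 : HS (pw p) (Setoid.ker (ty : (Fin m → ι) → _)) =
      ∑ τ : ι → Fin (m + 1), negMulLog (pT p τ) := by
    have := HS_inf_ker_sum (pw p) (ty : (Fin m → ι) → _) ⊤
    rw [top_inf_eq] at this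
    rw [this]
    refine Finset.sum_congr rfl fun τ _ => ?_
    rw [HS_top, hres τ, ← Finset.mul_sum, hc1 τ, mul_one]
  rw [e1]
  unfold HW
  rw [HS_inf_ker_sum, h2, ← Finset.sum_add_distrib]
  refine Finset.sum_congr rfl fun τ _ => ?_
  rw [hres τ, HS_smul (hc τ) (hf τ), hc1 τ, one_mul]
  ring

theorem HS_ty_le {p : ι → ℝ} (hp : (∀ i, 0 ≤ p i) ∧ ∑ i, p i = 1) (m : ℕ) :
    HS (pw p) (Setoid.ker (ty : (Fin m → ι) → _)) ≤ Fintype.card ι * Real.log (m + 1) := by
  classical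
  have h := HS_ker_le_log_card (q := pw (k := m) p) (fun u => pw_nonneg hp.1 u) (sum_pw hp.2 m)
    (ty : (Fin m → ι) → (ι → Fin (m + 1)))
  rw [Fintype.card_fun, Fintype.card_fin] at h
  push_cast at h
  rwa [Real.log_pow] at h

theorem law_eq_addLaw {Ω : Type*} [Fintype Ω] (q v : Ω → ℝ) :
    HsCell.law q v = addLaw q v (Measure.dirac 0) := by
  unfold HsCell.law addLaw
  congr 1
  funext k
  unfold shift
  rw [Measure.map_dirac' (by fun_prop)]
  simp

/-- dyadic cells and the smoothed entropy -/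
theorem HS_floor_le {Ω : Type*} [Fintype Ω] {q : Ω → ℝ} (hq : ∀ a, 0 ≤ q a) (h1 : ∑ a, q a = 1)
    (v : Ω → ℝ) (x₀ : ℕ) :
    HS q (Setoid.ker fun a => ⌊v a * 2 ^ x₀⌋) ≤
      Hs (addLaw q v (Measure.dirac 0)) ((1 / 2) ^ x₀) + Real.log 2 := by
  have h := HsCell.abs_Hs_law_sub_le hq h1 v (d := (1 / 2) ^ x₀) (by positivity) 0
  have e : Part.cell v ((1 / 2) ^ x₀) 0 = Setoid.ker fun a => ⌊v a * 2 ^ x₀⌋ := by
    unfold Part.cell
    congr 1
    funext a
    congr 1
    rw [sub_zero, one_div, inv_pow, div_inv_eq_mul]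
  rw [e, law_eq_addLaw] at h
  have := (abs_le.1 h).1
  linarith

end Final

universe u

/-- (FINAL) -/
theorem finalP : FinalP.{u} := by
  intro ι _ _ r t p μ D C hS
  classical
  refine ⟨C + Real.log 2, fun m hm x₀ => ?_⟩
  have hp : (∀ i, 0 ≤ p i) ∧ ∑ i, p i = 1 := ⟨fun i => (hS.hp i).le, hS.hp1⟩
  have hP : ∀ u : Fin m → ι, 0 ≤ pw p u := fun u => pw_nonneg hp.1 u
  have hP1 : ∑ u : Fin m → ι, pw p u = 1 := sum_pw hp.2 m
  have hprob := hS.hμ.1
  have hB : BSupp μ := Bridge.bsupp hS.hr hp.1 hp.2 hS.hμ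
  have hm' : (0:ℝ) < m := by exact_mod_cast hm
  -- entropy rate
  have h1 : rwEntropyRate r t p * m ≤ HW p (zS r t m) := by
    have := rwEntropyRate_le_zS (r := r) (t := t) hp (show 0 < m from hm)
    rwa [le_div_iff₀ hm'] at this
  have h2 := HW_zS_eq hp r t m
  have h3 := HS_ty_le hp m
  -- entropy at scale x₀
  have h4 : HBar (pw p) (ty : (Fin m → ι) → _) (zz r t) ((1 / 2) ^ x₀) ≤
      Hs μ ((1 / 2) ^ x₀) :=
    HBar_le_Hs (ρ := rt r) ty hP hP1 hB (self_mix hp.1 hS.hμ m) (by positivity)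
  have h5 : Hs μ ((1 / 2) ^ x₀) ≤ D * (x₀ * Real.log 2) + C := by
    have h := hS.hle (x₀ * Real.log 2) (by positivity)
    have e : Real.exp (-(x₀ * Real.log 2)) = (1 / 2) ^ x₀ := by
      rw [Real.exp_neg, mul_comm, Real.exp_mul, Real.exp_log two_pos, Real.rpow_natCast, one_div,
        inv_pow]
    rwa [e] at h
  have h6 : ∑ τ : ι → Fin (m + 1), pT p τ *
      HS (qT p τ) (Setoid.ker fun u => ⌊zz r t u * 2 ^ x₀⌋) ≤
      HBar (pw p) (ty : (Fin m → ι) → _) (zz r t) ((1 / 2) ^ x₀) + Real.log 2 := by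
    have hs : ∑ τ : ι → Fin (m + 1), pT p τ = 1 := fib_sum ty hP1
    have : HBar (pw p) (ty : (Fin m → ι) → _) (zz r t) ((1 / 2) ^ x₀) + Real.log 2 =
        ∑ τ : ι → Fin (m + 1), pT p τ *
          (Hs (addLaw (qT p τ) (zz r t) (Measure.dirac 0)) ((1 / 2) ^ x₀) + Real.log 2) := by
      simp only [mul_add, Finset.sum_add_distrib]
      rw [← Finset.sum_mul, hs, one_mul]
      rfl
    rw [this]
    refine Finset.sum_le_sum fun τ _ => mul_le_mul_of_nonneg_left ?_ (fib_nonneg ty hP τ)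
    exact HS_floor_le (cond_nonneg ty hP τ) (cond_sum ty hP1 τ) _ x₀
  have h7 : ∑ τ : ι → Fin (m + 1), pT p τ * HA (qT p τ) (zz r t) x₀ =
      ∑ τ : ι → Fin (m + 1), pT p τ * HS (qT p τ) (Setoid.ker (zz r t)) -
      ∑ τ : ι → Fin (m + 1), pT p τ *
        HS (qT p τ) (Setoid.ker fun u => ⌊zz r t u * 2 ^ x₀⌋) := by
    unfold HA
    rw [← Finset.sum_sub_distrib]
    exact Finset.sum_congr rfl fun τ _ => by ring
  rw [h7]
  linarith

end Crest.Agent.R98.K
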