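import Crest.Agent.R98.KIface

/-!
Row 98 (S0129), case K, (G1): the gains of the types are at most the increments of the total
information. (helper272)
-/

set_option autoImplicit false

namespace Crest.Agent.R98.K

open MeasureTheory Finset Real
open Crest.Agent.R98 Crest.Agent.R98.TOne Crest.Agent.R98.Part Crest.Agent.R098.Upper
open Crest.AnalysisR

section general

variable {Ω 𝒯 S : Type*} [Fintype Ω] [Fintype 𝒯] [Fintype S]

/-- only the weighted components of a mixture matter -/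
lemma mix_congr_ne {κ : Type*} [Fintype κ] {q : κ → ℝ} {ν ν' : κ → Measure ℝ}
    (h : ∀ k, q k ≠ 0 → ν k = ν' k) : mix q ν = mix q ν' := by
  unfold mix
  refine Finset.sum_congr rfl fun k _ => ?_
  by_cases hk : q k = 0
  · simp [hk]
  · rw [h k hk]

lemma addLaw_congr_ne {κ : Type*} [Fintype κ] {q s s' : κ → ℝ} {B : Measure ℝ}
    (h : ∀ k, q k ≠ 0 → s k = s' k) : addLaw q s B = addLaw q s' B :=
  mix_congr_ne fun k hk => by rw [h k hk]

/-- adding a constant to the offsets does not change the window entropy -/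
lemma W_addLaw_add {κ : Type*} [Fintype κ] (q s : κ → ℝ) (c : ℝ) (B : Measure ℝ) (n : ℕ) (r : ℝ) :
    W (addLaw q (fun k => s k + c) B) n r = W (addLaw q s B) n r := by
  have h : addLaw q (fun k => s k + c) B = shift c (addLaw q s B) := by
    unfold addLaw
    rw [shift_mix]
    refine congrArg (mix q) (funext fun k => ?_)
    show shift (s k + c) B = _
    rw [shift_shift, add_comm]
  unfold W
  rw [h, Hs_shift, Hs_shift]

/-- the mixture over types and over an independent family -/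
theorem sum_W_le {P : Ω → ℝ} (hP : ∀ ω, 0 ≤ P ω) (ty : Ω → 𝒯) {w : S → ℝ} (hw : ∀ k, 0 ≤ w k)
    {μ : Measure ℝ} [IsProbabilityMeasure μ] (hμ : BSupp μ) (ρ : 𝒯 → ℝ) (ρ' z' : S → ℝ)
    (b : Ω → ℝ)
    (hself : μ = mix w fun k => mix P fun ω => μ.map fun x =>
      ρ (ty ω) * (ρ' k * x + z' k) + b ω)
    {n : ℕ} (hn : 0 < n) {r : ℝ} (hr : 0 < r) :
    ∑ τ, fib P ty τ * ∑ k, w k *
      W (addLaw (TOne.cond P ty τ) b (μ.map fun x => (ρ τ * ρ' k) * x)) n r ≤ W μ n r := by
  classical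
  -- inner mixtures
  set M : S → Measure ℝ := fun k => mix P fun ω => μ.map fun x =>
      (ρ (ty ω) * ρ' k) * x + (b ω + ρ (ty ω) * z' k) with hM
  have hM' : ∀ k, M k = mix P fun ω => μ.map fun x => ρ (ty ω) * (ρ' k * x + z' k) + b ω := by
    intro k
    rw [hM]
    refine congrArg (mix P) (funext fun ω => ?_)
    congr 1
    funext x
    ring
  have hBM : ∀ k, BSupp (M k) := fun k => BSupp.mix fun ω => hμ.map_affine _ _
  have h1 : ∀ k, ∑ τ, fib P ty τ *
      W (addLaw (TOne.cond P ty τ) b (μ.map fun x => (ρ τ * ρ' k) * x)) n r ≤ W (M k) n r := by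
    intro k
    have h := W_mix_ge (fib_nonneg ty hP)
      (ν := fun τ => addLaw (TOne.cond P ty τ) (fun ω => b ω + ρ (ty ω) * z' k)
        (μ.map fun x => (ρ τ * ρ' k) * x))
      (fun τ => (bsupp_scale hμ _).addLaw _ _) hn hr
    rw [mix_types ty hP (fun τ => ρ τ * ρ' k) (fun ω => b ω + ρ (ty ω) * z' k) μ] at h
    refine le_trans (le_of_eq ?_) h
    refine Finset.sum_congr rfl fun τ _ => ?_
    by_cases hτ : fib P ty τ = 0
    · rw [hτ, zero_mul, zero_mul]
    · congr 1
      rw [← W_addLaw_add (TOne.cond P ty τ) b (ρ τ * z' k)]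
      congr 1
      refine addLaw_congr_ne fun ω hω => ?_
      have : ty ω = τ := by
        by_contra hne
        apply hω
        unfold TOne.cond
        rw [if_neg hτ, if_neg hne]
      rw [this]
  have h2 : ∑ k, w k * W (M k) n r ≤ W μ n r := by
    have h := W_mix_ge hw (ν := M) hBM hn hr
    have e : mix w M = μ := by
      rw [funext hM', ← hself]
    rwa [e] at h
  refine le_trans (le_of_eq ?_) ((Finset.sum_le_sum fun k _ =>
    mul_le_mul_of_nonneg_left (h1 k) (hw k)).trans h2)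
  simp only [Finset.mul_sum]
  rw [Finset.sum_comm]
  refine Finset.sum_congr rfl fun k _ => Finset.sum_congr rfl fun τ _ => ?_
  ring

end general

section words

variable {ι : Type*} [Fintype ι]

/-- slope of a type -/
lemma rt_ty (r : ι → ℝ) {m : ℕ} (u : Fin m → ι) : rt r (ty u) = rho r u := by
  rw [rho_eq_wtype]; rfl

lemma rt_ne_zero {r : ι → ℝ} (hr : ∀ i, r i ≠ 0) {m : ℕ} (τ : ι → Fin (m + 1)) : rt r τ ≠ 0 :=
  Finset.prod_ne_zero_iff.2 fun i _ => pow_ne_zero _ (hr i)

omit [Fintype ι] in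
lemma prodL_ne_zero {r : ι → ℝ} (hr : ∀ i, r i ≠ 0) (Q : List ι) : (Q.map r).prod ≠ 0 := by
  have h := abs_prod_eq_exp hr Q
  intro h0
  rw [h0, abs_zero] at h
  exact (Real.exp_pos _).ne h

/-- self similarity at the level of words, with the stopped words inside -/
lemma self_words_stp {r t p : ι → ℝ} {μ : Measure ℝ} [IsProbabilityMeasure μ] (hp : ∀ i, 0 ≤ p i)
    (hμ : IsSelfSimilarMeasure r t p μ) (m n : ℕ) (s : ℝ) :
    μ = mix (fun Q : ↥(stp (el r) n s) => wtL p Q.1) fun Q => mix (pw p) fun u : Fin m → ι =>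
      μ.map fun x => rt r (ty u) * ((Q.1.map r).prod * x + affineWordMap r t Q.1 0) + zz r t u := by
  have h1 : μ = mix (pw p) fun u : Fin m → ι => μ.map fun x => rt r (ty u) * x + zz r t u := by
    ext E hE
    rw [selfSim_apply_words hμ hp m hE]
    unfold mix
    rw [Measure.coe_finsetSum, Finset.sum_apply]
    refine Finset.sum_congr rfl fun u _ => ?_
    rw [Measure.smul_apply, smul_eq_mul, Measure.map_apply (by fun_prop) hE]
    have : affineWordMap r t (List.ofFn u) = fun x => rt r (ty u) * x + zz r t u := by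
      funext x
      have := fw_eq r t u x
      rw [rt_ty]
      unfold zz
      rw [← this]; rfl
    rw [this]
    rfl
  have h2 : μ = mix (fun Q : ↥(stp (el r) n s) => wtL p Q.1) fun Q =>
      μ.map fun x => (Q.1.map r).prod * x + affineWordMap r t Q.1 0 := by
    conv_lhs => rw [selfSimilar_stp hp hμ (el r) n s]
    unfold mix
    rw [← Finset.sum_coe_sort (stp (el r) n s)]
    refine Finset.sum_congr rfl fun Q _ => ?_
    congr 2
    exact funext (affineWordMap_affine r t Q.1)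
  rw [← mix_mix_comm]
  conv_lhs => rw [h1]
  refine congrArg (mix (pw p)) (funext fun u => ?_)
  conv_lhs => rw [h2]
  unfold mix
  rw [Measure.map_finset_sum' (by fun_prop)]
  refine Finset.sum_congr rfl fun Q _ => ?_
  rw [Measure.map_smul, Measure.map_map (by fun_prop) (by fun_prop)]
  rfl

end words

universe u

theorem g1 : G1P.{u} := by
  classical
  intro ι _ _ r t p μ D C hS m n s i i' hii
  have hr := hS.hr
  have hp : ∀ i, 0 ≤ p i := fun i => (hS.hp i).le
  have hprob : IsProbabilityMeasure μ := hS.hμ.1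
  have hB : BSupp μ := by
    obtain ⟨R, _, h, _⟩ := exists_supp hr hp hS.hp1 hS.hμ
    exact ⟨R, h⟩
  set N : ℕ := 2 ^ (i - i') with hN
  have hN0 : 0 < N := by positivity
  have hd : (0 : ℝ) < (1 / 2) ^ i := by positivity
  have hNd : (N : ℝ) * (1 / 2) ^ i = (1 / 2) ^ i' := by
    rw [hN]; push_cast
    have : (1 / 2 : ℝ) ^ i = (1 / 2) ^ (i - i') * (1 / 2) ^ i' := by
      rw [← pow_add]; congr 1; omega
    rw [this, ← mul_assoc, ← mul_pow]; norm_num
  have hP : ∀ u : Fin m → ι, 0 ≤ pw p u := fun u => pw_nonneg hp u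
  have key := sum_W_le (P := pw p) hP (ty : (Fin m → ι) → _)
    (w := fun Q : ↥(stp (el r) n s) => wtL p Q.1) (fun Q => wtL_nonneg hp Q.1) hB (rt r)
    (fun Q => (Q.1.map r).prod) (fun Q => affineWordMap r t Q.1 0) (zz r t)
    (self_words_stp hp hS.hμ m n s) hN0 hd
  -- scaling of the base terms
  have hsc : ∀ (τ : ι → Fin (m + 1)) (Q : List ι) (d : ℝ), Hs (bT r μ τ Q) d =
      Hs μ (d / |rt r τ * (Q.map r).prod|) := by
    intro τ Q d
    have := Hs_scale (μ := μ)
      (mul_ne_zero (rt_ne_zero (fun i => (hr i).1) τ) (prodL_ne_zero (fun i => (hr i).1) Q)) 0 d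
    simpa [bT] using this
  have hbase : ∀ d : ℝ, ∑ τ : ι → Fin (m + 1), pT p τ * ∑ Q ∈ stp (el r) n s,
      wtL p Q * Hs (bT r μ τ Q) d = ∑ u : Fin m → ι, pw p u * ∑ Q ∈ stp (el r) n s,
        wtL p Q * Hs μ (d / |rho r u * (Q.map r).prod|) := by
    intro d
    simp only [hsc]
    have := sum_fib_mul (P := pw p) (ty : (Fin m → ι) → _) (fun τ => ∑ Q ∈ stp (el r) n s,
        wtL p Q * Hs μ (d / |rt r τ * (Q.map r).prod|))
    unfold pT
    rw [this]
    simp only [rt_ty]
  have e1 : ∀ τ : ι → Fin (m + 1), ∑ Q ∈ stp (el r) n s,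
      wtL p Q * (GT r t p μ τ Q i - GT r t p μ τ Q i') =
      (∑ Q : ↥(stp (el r) n s), wtL p Q.1 *
        W (addLaw (qT p τ) (zz r t) (μ.map fun x => (rt r τ * (Q.1.map r).prod) * x)) N
          ((1 / 2) ^ i)) -
      (∑ Q ∈ stp (el r) n s, wtL p Q * Hs (bT r μ τ Q) ((1 / 2) ^ i)) +
      ∑ Q ∈ stp (el r) n s, wtL p Q * Hs (bT r μ τ Q) ((1 / 2) ^ i') := by
    intro τ
    rw [Finset.sum_coe_sort (stp (el r) n s) (fun Q => wtL p Q *
        W (addLaw (qT p τ) (zz r t) (μ.map fun x => (rt r τ * (Q.map r).prod) * x)) N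
          ((1 / 2) ^ i)), ← Finset.sum_sub_distrib, ← Finset.sum_add_distrib]
    refine Finset.sum_congr rfl fun Q _ => ?_
    unfold GT W
    rw [hNd]
    unfold bT
    ring
  have e2 : ∑ τ : ι → Fin (m + 1), pT p τ * ∑ Q ∈ stp (el r) n s,
        wtL p Q * (GT r t p μ τ Q i - GT r t p μ τ Q i') =
      (∑ τ : ι → Fin (m + 1), pT p τ * ∑ Q : ↥(stp (el r) n s), wtL p Q.1 *
        W (addLaw (qT p τ) (zz r t) (μ.map fun x => (rt r τ * (Q.1.map r).prod) * x)) N
          ((1 / 2) ^ i)) -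
      (∑ τ : ι → Fin (m + 1), pT p τ * ∑ Q ∈ stp (el r) n s,
        wtL p Q * Hs (bT r μ τ Q) ((1 / 2) ^ i)) +
      ∑ τ : ι → Fin (m + 1), pT p τ * ∑ Q ∈ stp (el r) n s,
        wtL p Q * Hs (bT r μ τ Q) ((1 / 2) ^ i') := by
    rw [← Finset.sum_sub_distrib, ← Finset.sum_add_distrib]
    refine Finset.sum_congr rfl fun τ _ => ?_
    rw [e1 τ]; ring
  have hW : W μ N ((1 / 2) ^ i) = Hs μ ((1 / 2) ^ i) - Hs μ ((1 / 2) ^ i') := by
    unfold W; rw [hNd]
  rw [hW] at key
  rw [e2, hbase, hbase]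
  unfold Itot
  have key' : ∑ τ : ι → Fin (m + 1), pT p τ * ∑ Q : ↥(stp (el r) n s), wtL p Q.1 *
        W (addLaw (qT p τ) (zz r t) (μ.map fun x => (rt r τ * (Q.1.map r).prod) * x)) N
          ((1 / 2) ^ i) ≤ Hs μ ((1 / 2) ^ i) - Hs μ ((1 / 2) ^ i') := key
  linarith

end Crest.Agent.R98.K
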