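import Crest.Agent.R98.NCAvg
import Crest.Agent.R98.Top0
import Crest.Agent.R98.DimBasic

/-!
Row 98 (S0129). Module NCASM, part (e): the output of T1 for words, concretely. (helper136)
-/

set_option autoImplicit false

namespace Crest.Agent.R98.NC

open Filter Real Finset MeasureTheory intervalIntegral
open Crest.Agent.R098.Upper Crest.Agent.R98 Crest.AnalysisR
open scoped Topology

section total

variable {κ : Type*} [Fintype κ] {H : ℝ → ℝ} {q l : κ → ℝ}

lemma Kf_nonneg (hmono : Monotone H) (hq : ∀ w, 0 ≤ q w) (hq1 : ∑ w, q w = 1)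
    (hl : ∀ w, 0 ≤ l w) (x : ℝ) : 0 ≤ Kf H q l x := by
  unfold Kf
  have : ∑ w, q w * H (x - l w) ≤ ∑ w, q w * H x :=
    Finset.sum_le_sum fun w _ => mul_le_mul_of_nonneg_left (hmono (by linarith [hl w])) (hq w)
  rw [← Finset.sum_mul, hq1, one_mul] at this
  linarith

lemma Ff_nonneg (hmono : Monotone H) (hq : ∀ w, 0 ≤ q w) (hq1 : ∑ w, q w = 1)
    (hl : ∀ w, 0 ≤ l w) {a : ℝ} (ha : 0 ≤ a) (x : ℝ) : 0 ≤ Ff H q l a x :=
  intervalIntegral.integral_nonneg (by linarith) fun y _ => Kf_nonneg hmono hq hq1 hl y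

/-- total gain over any range -/
lemma integral_Gf_total (hmono : Monotone H) (hH : ∀ a b, IntervalIntegrable H volume a b)
    (hH0 : ∀ x, 0 ≤ H x)
    {D C : ℝ} (hD : 0 ≤ D) (hup : ∀ x, H x ≤ D * max x 0 + C)
    (hq : ∀ w, 0 ≤ q w) (hq1 : ∑ w, q w = 1) (hl : ∀ w, 0 ≤ l w)
    {a : ℝ} (ha : 0 < a) (hG : ∀ x, 0 ≤ Gf H q l a x) (N M : ℝ) :
    ∫ x in N..M, Gf H q l a x ≤ a * D * ∑ w, q w * l w := by
  rw [integral_Gf hH]
  have h1 := Ff_le hH hH0 hD hup hq hq1 hl ha hG M
  have h2 := Ff_nonneg hmono hq hq1 hl ha.le N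
  linarith

end total

section words

variable {ι : Type*} [Fintype ι]

/-- the finite type of types of words of length `m` -/
def TyT (ι : Type*) (m : ℕ) : Type _ := ι → Fin (m+1)

noncomputable instance (m : ℕ) : Fintype (TyT ι m) := by
  classical
  unfold TyT
  infer_instance

/-- the type of a word as an element of a finite type -/
noncomputable def tyF {m : ℕ} (u : Fin m → ι) : TyT ι m :=
  fun i => ⟨wtype u i, Nat.lt_succ_of_le (wtype_le u i)⟩

omit [Fintype ι] in
lemma tyF_eq_iff {m : ℕ} (u v : Fin m → ι) : tyF u = tyF v ↔ wtype u = wtype v := by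
  unfold tyF
  constructor
  · intro h
    funext i
    have := congrFun h i
    simpa using congrArg Fin.val this
  · intro h
    funext i
    exact Fin.ext (congrFun h i)

/-- ratio of a type -/
noncomputable def rhoF (r : ι → ℝ) {m : ℕ} (τ : TyT ι m) : ℝ := ∏ i, r i ^ ((τ i : Fin (m+1)) : ℕ)

lemma rhoF_tyF (r : ι → ℝ) {m : ℕ} (u : Fin m → ι) : rhoF r (tyF u) = rho r u := by
  rw [rho_eq_wtype]; rfl

lemma rhoF_ne_zero {r : ι → ℝ} (hr : ∀ i, r i ≠ 0) {m : ℕ} (τ : TyT ι m) :
    rhoF r τ ≠ 0 := Finset.prod_ne_zero_iff.2 fun i _ => pow_ne_zero _ (hr i)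

omit [Fintype ι] in
lemma neg_log_rho {r : ι → ℝ} (hr : ∀ i, r i ≠ 0) {m : ℕ} (u : Fin m → ι) :
    -log |rho r u| = sw (fun i => -log |r i|) u := by
  unfold rho sw
  rw [Finset.abs_prod, Real.log_prod]
  · rw [Finset.sum_neg_distrib]
  · intro j _; exact abs_ne_zero.2 (hr _)

/-- self similarity at the level of words -/
lemma self_words {r t p : ι → ℝ} {μ : Measure ℝ} (hp : ∀ i, 0 ≤ p i)
    (hμ : IsSelfSimilarMeasure r t p μ) (m : ℕ) :
    μ = mix (fun u : Fin m → ι => pw p u)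
      fun u => μ.map fun x => rhoF r (tyF u) * x + Top.cdot r t u := by
  ext E hE
  rw [selfSim_apply_words hμ hp m hE]
  unfold mix
  rw [Measure.coe_finsetSum, Finset.sum_apply]
  refine Finset.sum_congr rfl fun u _ => ?_
  rw [Measure.smul_apply, smul_eq_mul, Measure.map_apply (by fun_prop) hE]
  have : affineWordMap r t (List.ofFn u) = fun x => rhoF r (tyF u) * x + Top.cdot r t u := by
    funext x
    have := fw_eq r t u x
    rw [rhoF_tyF]
    unfold Top.cdot
    rw [← this]; rfl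
  rw [this]
  rfl

/-- conditional entropy of the translation part of a word given the type, at scale `e^{-x}` -/
noncomputable def EW (p r t : ι → ℝ) (m : ℕ) (x : ℝ) : ℝ :=
  TOne.HBar (fun u : Fin m → ι => pw p u) tyF (fun u => Top.cdot r t u) (exp (-x))

lemma bsupp_self {r t p : ι → ℝ} {μ : Measure ℝ} (hr : ∀ i, r i ≠ 0 ∧ |r i| < 1)
    (hp : ∀ i, 0 ≤ p i) (hp1 : ∑ i, p i = 1) (hμ : IsSelfSimilarMeasure r t p μ) : BSupp μ := by
  obtain ⟨R, _, h, _⟩ := exists_supp hr hp hp1 hμ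
  exact ⟨R, h⟩

lemma self_letters {r t p : ι → ℝ} {μ : Measure ℝ} (hμ : IsSelfSimilarMeasure r t p μ) :
    μ = mix p fun i => μ.map fun x => r i * x + t i := hμ.2

omit [Fintype ι] in
lemma neg_log_pos {r : ι → ℝ} (hr : ∀ i, r i ≠ 0 ∧ |r i| < 1) (i : ι) : 0 < -log |r i| := by
  have := Real.log_neg (abs_pos.2 (hr i).1) (hr i).2
  linarith

/-- the environment of a self-similar measure -/
theorem env_of {r t p : ι → ℝ} {μ : Measure ℝ} (hr : ∀ i, r i ≠ 0 ∧ |r i| < 1)
    (hp : ∀ i, 0 ≤ p i) (hp1 : ∑ i, p i = 1) (hμ : IsSelfSimilarMeasure r t p μ)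
    {D C : ℝ} (hD : 0 ≤ D) (hup : ∀ x, Hs μ (exp (-x)) ≤ D * max x 0 + C)
    (hlow : ∀ D', D' < D → ∃ C', ∀ x, 0 ≤ x → D' * x - C' ≤ Hs μ (exp (-x))) {n : ℕ} (hn : 2 ≤ n) :
    Env (fun x => Hs μ (exp (-x))) p (fun i => -log |r i|) (log n) D C := by
  have hprob := hμ.1
  have hB := bsupp_self hr hp hp1 hμ
  refine ⟨fun a b => (H_mono hB).intervalIntegrable, fun x => ?_, hD, hup, hlow, hp, hp1,
    fun i => (neg_log_pos hr i).le, Real.log_pos (by exact_mod_cast hn), fun x => ?_⟩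
  · exact Hs_nonneg (by rw [probReal_univ]) (exp_pos _).le
  · have h := TOne.Gm_nonneg (μ := μ) (P := p) (ρ := r) (b := t) (id : ι → ι) hp hp1 hB
      (fun i => (hr i).1) (self_letters hμ) (n := n) (by omega) (r := exp (-x)) (exp_pos _)
    have e := Gm_eq_Gf (P := p) (μ := μ) (R := r) (fun i => (hr i).1) (n := n) (by omega) x
    rw [← e]
    exact h

set_option maxHeartbeats 800000 in
/-- **T1 for words** -/
theorem t1out_of {r t p : ι → ℝ} {μ : Measure ℝ} (hr : ∀ i, r i ≠ 0 ∧ |r i| < 1)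
    (hp : ∀ i, 0 ≤ p i) (hp1 : ∑ i, p i = 1) (hμ : IsSelfSimilarMeasure r t p μ)
    {D C : ℝ} (hD : 0 ≤ D) (hup : ∀ x, Hs μ (exp (-x)) ≤ D * max x 0 + C) {n : ℕ} (hn : 2 ≤ n)
    {c : ℝ} (hc : 0 < c) (hmac : ∀ ρ, 0 < ρ → TOne.Macro μ n ρ c) :
    ∃ C₁, T1Out (fun x => Hs μ (exp (-x))) p (fun i => -log |r i|) (log n) (EW p r t) C₁ := by
  have hprob := hμ.1
  have hB := bsupp_self hr hp hp1 hμ
  have hlog2 : 0 < log 2 := Real.log_pos (by norm_num)
  have hlog2a := Real.log_two_gt_d9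
  have hlog2b := Real.log_two_lt_d9
  have hlogn : 0 < log n := Real.log_pos (by exact_mod_cast hn)
  set H : ℝ → ℝ := fun x => Hs μ (exp (-x)) with hH
  set l : ι → ℝ := fun i => -log |r i| with hl
  have hl0 : ∀ i, 0 ≤ l i := fun i => (neg_log_pos hr i).le
  set χ : ℝ := ∑ i, p i * l i with hχ
  have hχ0 : 0 ≤ χ := Finset.sum_nonneg fun i _ => mul_nonneg (hp i) (hl0 i)
  set K : ℝ := log n * D * χ with hK
  have hK0 : 0 ≤ K := by positivity
  have hHint : ∀ u v, IntervalIntegrable H volume u v := fun u v => (H_mono hB).intervalIntegrable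
  have hH0 : ∀ x, 0 ≤ H x := fun x => Hs_nonneg (by rw [probReal_univ]) (exp_pos _).le
  refine ⟨20 / c * (1 + K) + 4, ⟨by positivity, ?_, ?_⟩⟩
  · intro m x _
    exact TOne.HBar_le_Hs (ρ := rhoF r) tyF (fun u => pw_nonneg hp u) (sum_pw hp1 m) hB
      (self_words hp hμ m) (exp_pos _)
  · intro m N L M s hN hL hNLM hs hs0 hsL
    have hL0 : 0 < L := by linarith
    set P : (Fin m → ι) → ℝ := fun u => pw p u with hP
    have hPnn : ∀ u, 0 ≤ P u := fun u => pw_nonneg hp u
    have hP1 : ∑ u, P u = 1 := sum_pw hp1 m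
    have hlw : (fun u : Fin m → ι => -log |rhoF r (tyF u)|) = sw l := by
      funext u
      rw [rhoF_tyF, neg_log_rho (fun i => (hr i).1)]
    set G : ℝ → ℝ := Gf H P (sw l) (log n) with hG
    have hGnn : ∀ x, 0 ≤ G x := by
      intro x
      have h := TOne.Gm_nonneg (μ := μ) (P := P) (ρ := rhoF r) (b := fun u => Top.cdot r t u) tyF
        hPnn hP1 hB (fun τ => rhoF_ne_zero (fun i => (hr i).1) τ) (self_words hp hμ m) (n := n)
        (by omega) (r := exp (-x)) (exp_pos _)
      rw [Gm_eq_Gf (fun u => rhoF_ne_zero (fun i => (hr i).1) _) (by omega), hlw] at h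
      exact h
    have hGint : ∀ u v, IntervalIntegrable G volume u v :=
      fun u v => Gf_intervalIntegrable hHint _ u v
    have hswn : ∀ u : Fin m → ι, 0 ≤ sw l u := fun u => sw_nonneg hl0 u
    have htot : ∀ N' M', ∫ x in N'..M', G x ≤ K * m := by
      intro N' M'
      have h := integral_Gf_total (H_mono hB) hHint hH0 hD hup hPnn hP1 hswn hlogn hGnn N' M'
      rw [sum_pw_sw_eq hp1 m] at h
      refine h.trans (le_of_eq ?_)
      rw [hK]; ring
    have hIG0 : 0 ≤ ∫ x in N..M, G x :=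
      intervalIntegral.integral_nonneg (by linarith) fun x _ => hGnn x
    have hIeq : ∫ x in N..M, Gm H p l (log n) m x = ∫ x in N..M, G x := rfl
    rw [hIeq] at hs
    set Δ : ℝ := M - N - L with hΔ
    have hΔ0 : 0 ≤ Δ := by rw [hΔ]; linarith
    -- tail index
    set i0 : ℕ := ⌊Δ / log 2⌋₊ + 1 with hi0
    have hi0Δ : (1 / 2 : ℝ) ^ i0 ≤ exp (-Δ) := by
      have h1 : Δ / log 2 < i0 := by
        rw [hi0]; push_cast; exact Nat.lt_floor_add_one _
      rw [div_lt_iff₀ hlog2] at h1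
      have h2 : (1 / 2 : ℝ) ^ i0 = exp (-(i0 * log 2)) := by
        rw [← Real.log_pow, exp_neg, exp_log (by positivity), one_div, inv_pow]
      rw [h2]
      exact exp_le_exp.2 (by linarith)
    have hterm : ∀ i : ℕ, ∫ x in (N + i * log 2)..(N + L + i * log 2), G x ≤
        (∫ x in N..M, G x) + (if i0 ≤ i then K * m else 0) := by
      intro i
      split_ifs with h
      · have := htot (N + i * log 2) (N + L + i * log 2)
        linarith
      · rw [add_zero]
        have h1 : (i : ℝ) * log 2 ≤ Δ := by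
          have h2 : i ≤ ⌊Δ / log 2⌋₊ := by omega
          have h3 : (i : ℝ) ≤ Δ / log 2 := (Nat.le_floor_iff (by positivity)).1 h2
          rwa [le_div_iff₀ hlog2] at h3
        have h4 : 0 ≤ (i : ℝ) * log 2 := by positivity
        refine intervalIntegral.integral_mono_interval (by linarith) (by linarith)
          (by rw [hΔ] at h1; linarith) (Filter.Eventually.of_forall fun x => hGnn x) (hGint _ _)
    have hsumI : ∀ I : ℕ, ∑ i ∈ range I, (1 / 2 : ℝ) ^ i *
        ∫ x in (N + i * log 2)..(N + L + i * log 2), G x ≤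
        2 * (∫ x in N..M, G x) + 2 * (K * m) * exp (-Δ) := by
      intro I
      have h1 : ∑ i ∈ range I, (1 / 2 : ℝ) ^ i *
          ∫ x in (N + i * log 2)..(N + L + i * log 2), G x ≤
          ∑ i ∈ range I, ((1 / 2 : ℝ) ^ i * (∫ x in N..M, G x) +
            (K * m) * (if i0 ≤ i then (1/2 : ℝ)^i else 0)) := by
        refine Finset.sum_le_sum fun i _ => ?_
        have h2 := mul_le_mul_of_nonneg_left (hterm i) (by positivity : (0:ℝ) ≤ (1 / 2 : ℝ) ^ i)
        refine h2.trans (le_of_eq ?_)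
        split_ifs <;> ring
      refine h1.trans ?_
      rw [Finset.sum_add_distrib, ← Finset.sum_mul, ← Finset.mul_sum]
      have h2 : ∑ i ∈ range I, (1 / 2 : ℝ) ^ i ≤ 2 := by
        have := geom_tail 0 I
        simpa using this
      have h3 := geom_tail i0 I
      have h4 : (K * m) * ∑ i ∈ range I, (if i0 ≤ i then (1/2 : ℝ)^i else 0) ≤
          (K * m) * (2 * exp (-Δ)) := by
        refine mul_le_mul_of_nonneg_left (h3.trans ?_) (by positivity)
        linarith
      have h5 : (∑ i ∈ range I, (1 / 2 : ℝ) ^ i) * (∫ x in N..M, G x) ≤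
          2 * ∫ x in N..M, G x := mul_le_mul_of_nonneg_right h2 hIG0
      linarith
    -- choose I
    set Λ : ℝ := log (L / s) with hΛ
    have hΛ0 : 0 ≤ Λ := Real.log_nonneg ((one_le_div hs0).2 hsL)
    set t' : ℝ := s / L with ht'
    have ht0 : 0 < t' := by positivity
    have ht1 : t' ≤ 1 := (div_le_one hL0).2 hsL
    have hlogt : log (2 / t') = log 2 + Λ := by
      rw [hΛ, ht', Real.log_div (by norm_num) (by positivity), Real.log_div hs0.ne' hL0.ne',
        Real.log_div hL0.ne' hs0.ne']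
      ring
    obtain ⟨I, hI⟩ : ∃ I : ℕ, (log 2 + Λ) * ((2 / c) * (2 * (1 / 2) ^ I * log n * L)) ≤ log 2 := by
      obtain ⟨I, hI⟩ := exists_pow_lt_of_lt_one
        (show 0 < log 2 / ((log 2 + Λ) * ((2 / c) * (2 * log n * L)) + 1) by positivity)
        (show (1 / 2 : ℝ) < 1 by norm_num)
      refine ⟨I, ?_⟩
      rw [lt_div_iff₀ (by positivity)] at hI
      have h1 : (0:ℝ) < (1/2 : ℝ) ^ I := by positivity
      nlinarith
    have hav := avg_gain (μ := μ) (P := P) (ρ := rhoF r) (b := fun u => Top.cdot r t u) tyF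
      hPnn hP1 hB (fun τ => rhoF_ne_zero (fun i => (hr i).1) τ) (self_words hp hμ m) (n := n)
      (by omega) hc hmac (t := t') ht0 (by linarith) (N := N) (L := L) hL0.le I
    rw [hlw, hlogt] at hav
    have hEeq : TOne.HBar P tyF (fun u => Top.cdot r t u) (exp (-(N + L))) -
        TOne.HBar P tyF (fun u => Top.cdot r t u) (exp (-N)) =
        EW p r t m (N + L) - EW p r t m N := rfl
    rw [hEeq] at hav
    rw [mul_phi_div hs0 hL0]
    have htL : t' * L = s := by rw [ht']; field_simp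
    rw [htL] at hav
    have hSI := hsumI I
    -- X ≤ s / 5
    have hX : (2 / c) * (2 * (∫ x in N..M, G x) + 2 * (K * m) * exp (-Δ)) ≤ s / 5 := by
      have h1 : (20 / c) * (∫ x in N..M, G x) + (20 / c) * (K * m) * exp (-Δ) ≤ s := by
        refine le_trans ?_ hs
        have h2 : 0 ≤ exp (-Δ) := (exp_pos _).le
        have h3 : 0 ≤ (m : ℝ) * exp (-Δ) := by positivity
        have h4 : (0:ℝ) ≤ 20 / c := by positivity
        have e : (20 / c * (1 + K) + 4) * ((∫ x in N..M, G x) + m * exp (-Δ)) =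
            (20 / c) * (∫ x in N..M, G x) + (20 / c) * (K * m) * exp (-Δ) +
            ((20 / c * K + 4) * (∫ x in N..M, G x) + (20 / c + 4) * (m * exp (-Δ))) := by ring
        rw [e]
        have h5 : 0 ≤ (20 / c * K + 4) * (∫ x in N..M, G x) + (20 / c + 4) * (m * exp (-Δ)) := by
          positivity
        linarith
      have e : (2 / c) * (2 * (∫ x in N..M, G x) + 2 * (K * m) * exp (-Δ)) =
          ((20 / c) * (∫ x in N..M, G x) + (20 / c) * (K * m) * exp (-Δ)) / 5 := by ring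
      rw [e]
      linarith
    have hY : (log 2 + Λ) * ((2 / c) * ((∑ i ∈ range I, (1 / 2 : ℝ) ^ i *
        ∫ x in (N + i * log 2)..(N + L + i * log 2), G x) + 2 * (1 / 2) ^ I * log n * L)) ≤
        (log 2 + Λ) * (s / 5) + log 2 := by
      have h1 : (2 / c) * (∑ i ∈ range I, (1 / 2 : ℝ) ^ i *
          ∫ x in (N + i * log 2)..(N + L + i * log 2), G x) ≤ s / 5 :=
        (mul_le_mul_of_nonneg_left hSI (by positivity)).trans hX
      have h2 := mul_le_mul_of_nonneg_left h1 (by positivity : 0 ≤ log 2 + Λ)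
      have e : (log 2 + Λ) * ((2 / c) * ((∑ i ∈ range I, (1 / 2 : ℝ) ^ i *
        ∫ x in (N + i * log 2)..(N + L + i * log 2), G x) + 2 * (1 / 2) ^ I * log n * L)) =
        (log 2 + Λ) * ((2 / c) * (∑ i ∈ range I, (1 / 2 : ℝ) ^ i *
        ∫ x in (N + i * log 2)..(N + L + i * log 2), G x)) +
        (log 2 + Λ) * ((2 / c) * (2 * (1 / 2) ^ I * log n * L)) := by ring
      rw [e]
      linarith
    have hav2 : log 2 * (EW p r t m (N + L) - EW p r t m N) ≤
        s + ((log 2 + Λ) * (s / 5) + log 2) + 2 * log 2 * log 2 := by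
      have := hav
      linarith
    have hnum : s + (log 2 + Λ) * (s / 5) ≤ log 2 * (s * (1 + log 2 + Λ)) := by
      have h1 : 0 ≤ s * Λ := by positivity
      have h2 : 1 + log 2 / 5 ≤ log 2 + log 2 * log 2 := by nlinarith
      have h3 := mul_le_mul_of_nonneg_left h2 hs0.le
      have h4 : (1 / 5 : ℝ) * (s * Λ) ≤ log 2 * (s * Λ) :=
        mul_le_mul_of_nonneg_right (by linarith) h1
      linarith
    have hC1 : (3:ℝ) ≤ 20 / c * (1 + K) + 4 := by
      have : 0 ≤ 20 / c * (1 + K) := by positivity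
      linarith
    have hfin : log 2 * (EW p r t m (N + L) - EW p r t m N) ≤
        log 2 * (s * (1 + log 2 + Λ) + (20 / c * (1 + K) + 4)) := by
      nlinarith
    exact le_of_mul_le_mul_left hfin hlog2

end words

end Crest.Agent.R98.NC
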