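import Crest.Agent.R98.KIface
import Crest.Agent.R98.NCConc

/-!
Row 98 (S0129), case K, (G2): upper bound of the total information. (helper136)
-/

set_option autoImplicit false
open MeasureTheory Crest.AnalysisR Set Filter Topology Real

namespace Crest.Agent.R98.K.G2a

open Crest.Agent.R98.TOne Crest.Agent.R98.Part Crest.Agent.R098.Upper

universe u

variable {ι : Type*} [Fintype ι]

omit [Fintype ι] in
lemma LL_append_one (ℓ : ι → ℝ) (Q : List ι) (a : ι) : LL ℓ (Q ++ [a]) = LL ℓ Q + ℓ a := by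
  induction Q with
  | nil => simp
  | cons b Q ih => rw [List.cons_append, LL_cons, ih, LL_cons]; ring

/-- index set of (word of length `m`, stopped word) -/
abbrev Idx (r : ι → ℝ) (m n : ℕ) (s : ℝ) := (Fin m → ι) × {Q : List ι // Q ∈ stp (el r) n s}

/-- weights -/
noncomputable def iq (r p : ι → ℝ) (m n : ℕ) (s : ℝ) (ω : Idx r m n s) : ℝ :=
  pw p ω.1 * wtL p ω.2.1

/-- lengths -/
noncomputable def il (r : ι → ℝ) (m n : ℕ) (s : ℝ) (ω : Idx r m n s) : ℝ :=
  sw (el r) ω.1 + LL (el r) ω.2.1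

lemma sum_idx (r p : ι → ℝ) (m n : ℕ) (s : ℝ) (F : (Fin m → ι) → List ι → ℝ) :
    ∑ ω : Idx r m n s, iq r p m n s ω * F ω.1 ω.2.1 =
      ∑ u : Fin m → ι, pw p u * ∑ Q ∈ stp (el r) n s, wtL p Q * F u Q := by
  rw [Fintype.sum_prod_type]
  refine Finset.sum_congr rfl fun u _ => ?_
  rw [← Finset.sum_coe_sort (stp (el r) n s) (fun Q => wtL p Q * F u Q), Finset.mul_sum]
  refine Finset.sum_congr rfl fun Q _ => ?_
  unfold iq
  ring

lemma iq_nonneg {r p : ι → ℝ} (hp : ∀ i, 0 ≤ p i) {m n : ℕ} {s : ℝ} (ω : Idx r m n s) :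
    0 ≤ iq r p m n s ω := mul_nonneg (pw_nonneg hp _) (wtL_nonneg hp _)

lemma sum_iq {r p : ι → ℝ} (hp1 : ∑ i, p i = 1) (m n : ℕ) (s : ℝ) :
    ∑ ω : Idx r m n s, iq r p m n s ω = 1 := by
  have h := sum_idx r p m n s (fun _ _ => 1)
  simp only [mul_one] at h
  rw [h]
  simp only [sum_stp_wtL (el r) hp1, mul_one, sum_pw hp1]

lemma sum_iq_il {r p : ι → ℝ} (hp1 : ∑ i, p i = 1) (m n : ℕ) (s : ℝ) :
    ∑ ω : Idx r m n s, iq r p m n s ω * il r m n s ω =
      (∑ i, p i * el r i) * (m + EQ r p n s) := by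
  have h := sum_idx r p m n s (fun u Q => sw (el r) u + LL (el r) Q)
  unfold il
  rw [h]
  have h2 : ∀ u : Fin m → ι, pw p u * ∑ Q ∈ stp (el r) n s, wtL p Q * (sw (el r) u + LL (el r) Q) =
      pw p u * sw (el r) u + pw p u * ((∑ i, p i * el r i) * EQ r p n s) := by
    intro u
    have h3 : ∑ Q ∈ stp (el r) n s, wtL p Q * (sw (el r) u + LL (el r) Q) =
        sw (el r) u + (∑ i, p i * el r i) * EQ r p n s := by
      simp only [mul_add, Finset.sum_add_distrib]
      rw [← Finset.sum_mul, sum_stp_wtL (el r) hp1, one_mul, sum_stp_LL (el r) hp1]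
      rfl
    rw [h3]; ring
  simp only [h2]
  rw [Finset.sum_add_distrib, NC.sum_pw_sw_eq hp1, ← Finset.sum_mul, sum_pw hp1]
  ring

lemma gf_idx_nonneg {H : ℝ → ℝ} {r p : ι → ℝ} (hp : ∀ i, 0 ≤ p i) {a : ℝ}
    (hG : ∀ x, 0 ≤ NC.Gf H p (el r) a x) (m n : ℕ) (s x : ℝ) :
    0 ≤ NC.Gf H (iq r p m n s) (il r m n s) a x := by
  have h1 := NC.Gf_words_nonneg hp hG m x
  rw [NC.Gf_eq] at h1 ⊢
  have h2 := sum_idx r p m n s (fun u Q => H (x - (sw (el r) u + LL (el r) Q)) -
    H (x - (sw (el r) u + LL (el r) Q) - a))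
  have h3 : ∑ ω : Idx r m n s, iq r p m n s ω * (H (x - il r m n s ω) - H (x - il r m n s ω - a)) =
      ∑ u : Fin m → ι, pw p u * ∑ Q ∈ stp (el r) n s, wtL p Q *
        (H (x - (sw (el r) u + LL (el r) Q)) - H (x - (sw (el r) u + LL (el r) Q) - a)) := h2
  rw [h3]
  refine h1.trans (sub_le_sub_left (Finset.sum_le_sum fun u _ => ?_) _)
  refine mul_le_mul_of_nonneg_left ?_ (pw_nonneg hp u)
  have h4 := stp_super (el r) hp (fun Q => H (x - (sw (el r) u + LL (el r) Q)) -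
    H (x - (sw (el r) u + LL (el r) Q) - a)) (fun Q => ?_) n s []
  · simpa using h4
  · have h5 := hG (x - (sw (el r) u + LL (el r) Q))
    rw [NC.Gf_eq] at h5
    have h6 : ∀ b, x - (sw (el r) u + LL (el r) (Q ++ [b])) =
        x - (sw (el r) u + LL (el r) Q) - el r b := by
      intro b; rw [LL_append_one]; ring
    simp only [h6]
    linarith

/-- comparison of the increments at two nearby scales -/
lemma kf_le_of_near {κ : Type*} [Fintype κ] {H : ℝ → ℝ} {q l : κ → ℝ} (hmono : Monotone H) {c a : ℝ}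
    (hH : ∀ x y, x ≤ y → y ≤ x + a → H y ≤ H x + c)
    (hq : ∀ w, 0 ≤ q w) (hq1 : ∑ w, q w = 1) {x y : ℝ} (hxy : x ≤ y) (hyx : y ≤ x + a) :
    NC.Kf H q l x ≤ NC.Kf H q l y + c := by
  unfold NC.Kf
  have h1 : H x ≤ H y := hmono hxy
  have h2 : ∑ w, q w * H (y - l w) ≤ ∑ w, q w * H (x - l w) + c := by
    have h3 : ∑ w, q w * H (y - l w) ≤ ∑ w, q w * (H (x - l w) + c) :=
      Finset.sum_le_sum fun w _ => mul_le_mul_of_nonneg_left
        (hH _ _ (by linarith) (by linarith)) (hq w)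
    refine h3.trans (le_of_eq ?_)
    simp only [mul_add, Finset.sum_add_distrib]
    rw [← Finset.sum_mul, hq1, one_mul]
  linarith

lemma kf_le_ff {κ : Type*} [Fintype κ] {H : ℝ → ℝ} {q l : κ → ℝ} (hmono : Monotone H) {c a : ℝ}
    (ha : 0 < a) (hH : ∀ x y, x ≤ y → y ≤ x + a → H y ≤ H x + c)
    (hq : ∀ w, 0 ≤ q w) (hq1 : ∑ w, q w = 1) (x : ℝ) :
    a * (NC.Kf H q l x - c) ≤ NC.Ff H q l a (x + a) := by
  unfold NC.Ff
  have h1 : ∫ y in (x + a - a)..(x + a), (NC.Kf H q l x - c) ≤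
      ∫ y in (x + a - a)..(x + a), NC.Kf H q l y := by
    refine intervalIntegral.integral_mono_on (by linarith) intervalIntegrable_const
      (NC.Kf_intervalIntegrable (fun a b => hmono.intervalIntegrable) _ _) fun y hy => ?_
    have := kf_le_of_near (l := l) hmono hH hq hq1 (x := x) (y := y) (by linarith [hy.1]) hy.2
    linarith
  rw [intervalIntegral.integral_const, smul_eq_mul] at h1
  have e : x + a - (x + a - a) = a := by ring
  rw [e] at h1
  exact h1

omit [Fintype ι] in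
lemma exp_idx {r : ι → ℝ} (hr : ∀ i, r i ≠ 0) {m : ℕ} (u : Fin m → ι) (Q : List ι) (i : ℕ) :
    (1 / 2 : ℝ) ^ i / |rho r u * (Q.map r).prod| =
      exp (-(i * Real.log 2 - (sw (el r) u + LL (el r) Q))) := by
  have h1 : |rho r u| = exp (-sw (el r) u) := by
    have h := NC.neg_log_rho hr u
    have h2 : sw (fun i => -Real.log |r i|) u = sw (el r) u := rfl
    rw [← h2, ← h, neg_neg, Real.exp_log]
    exact abs_pos.2 (Finset.prod_ne_zero_iff.2 fun j _ => hr _)
  have h2 : |(Q.map r).prod| = exp (-LL (el r) Q) := abs_prod_eq_exp hr Q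
  have h3 : (1 / 2 : ℝ) ^ i = exp (-(i * Real.log 2)) := by
    rw [Real.exp_neg, mul_comm, Real.exp_mul, Real.exp_log two_pos, Real.rpow_natCast, one_div,
      inv_pow]
  rw [abs_mul, h1, h2, h3, ← Real.exp_add, ← Real.exp_sub]
  congr 1
  ring

/-- `Itot` is the increment `Kf` -/
lemma itot_eq {r p : ι → ℝ} (hr : ∀ i, r i ≠ 0) (μ : Measure ℝ) (m n : ℕ) (s : ℝ) (i : ℕ) :
    Itot r p μ m n s i =
      NC.Kf (fun x => Hs μ (exp (-x))) (iq r p m n s) (il r m n s) (i * Real.log 2) := by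
  unfold Itot NC.Kf
  have h3 : (1 / 2 : ℝ) ^ i = exp (-(i * Real.log 2)) := by
    rw [Real.exp_neg, mul_comm, Real.exp_mul, Real.exp_log two_pos, Real.rpow_natCast, one_div,
      inv_pow]
  have h2 := sum_idx r p m n s
    (fun u Q => Hs μ (exp (-(i * Real.log 2 - (sw (el r) u + LL (el r) Q)))))
  have h4 : ∑ ω : Idx r m n s, iq r p m n s ω * Hs μ (exp (-(i * Real.log 2 - il r m n s ω))) =
      ∑ u : Fin m → ι, pw p u * ∑ Q ∈ stp (el r) n s, wtL p Q *
        Hs μ (exp (-(i * Real.log 2 - (sw (el r) u + LL (el r) Q)))) := h2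
  simp only [h4, exp_idx hr]
  rw [h3]

end Crest.Agent.R98.K.G2a

namespace Crest.Agent.R98.K

open Crest.Agent.R98.TOne Crest.Agent.R98.Part Crest.Agent.R098.Upper G2a

universe u

/-- **(G2)** -/
theorem g2 : G2P.{u} := by
  intro ι _ _ r t p μ D C hS
  have hprob := hS.hμ.1
  have hB := Bridge.bsupp hS.hr (fun i => (hS.hp i).le) hS.hp1 hS.hμ
  have hp : ∀ i, 0 ≤ p i := fun i => (hS.hp i).le
  have hlog : 0 < Real.log 2 := Real.log_pos one_lt_two
  set H : ℝ → ℝ := fun x => Hs μ (exp (-x)) with hHdef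
  have hmono : Monotone H := NC.H_mono hB
  have hH0 : ∀ x, 0 ≤ H x := fun x => Hs_nonneg (by rw [probReal_univ]) (exp_pos _).le
  have hup : ∀ x, H x ≤ D * max x 0 + C := by
    intro x
    rcases le_total 0 x with h | h
    · rw [max_eq_left h]; exact hS.hle x h
    · rw [max_eq_right h]
      exact (hmono h).trans (hS.hle 0 le_rfl)
  have hnear : ∀ x y, x ≤ y → y ≤ x + Real.log 2 → H y ≤ H x + 2 * Real.log 2 := by
    intro x y hxy hyx
    have h := Hs_le_log hB (d := exp (-y)) (d' := exp (-x)) (exp_pos _)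
      (exp_le_exp.2 (neg_le_neg hxy))
    rw [← Real.exp_sub, Real.log_exp] at h
    simp only [hHdef]
    linarith
  have hGl : ∀ x, 0 ≤ NC.Gf H p (el r) (Real.log 2) x := by
    intro x
    have h := TOne.Gm_nonneg (μ := μ) (P := p) (ρ := r) (b := t) (id : ι → ι) hp hS.hp1 hB
      (fun i => (hS.hr i).1) (NC.self_letters hS.hμ) (n := 2) (by omega) (r := exp (-x)) (exp_pos _)
    have e := NC.Gm_eq_Gf (P := p) (μ := μ) (R := r) (fun i => (hS.hr i).1) (n := 2) (by omega) x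
    have e2 : NC.Gf H p (el r) (Real.log 2) x =
        NC.Gf (fun x => Hs μ (exp (-x))) p (fun i => -Real.log |r i|) (Real.log (2:ℕ)) x := by
      simp only [Nat.cast_ofNat]
      rfl
    rw [e2, ← e]
    exact h
  have hlyap : ∑ i, p i * el r i = lyapunovExp r p := by
    unfold el lyapunovExp
    rw [← Finset.sum_neg_distrib]
    refine Finset.sum_congr rfl fun i _ => ?_
    ring
  refine ⟨2 * Real.log 2, fun m n s i _ => ?_⟩
  rw [itot_eq (fun i => (hS.hr i).1)]
  have hel : ∀ i, 0 ≤ el r i := fun i => (NC.neg_log_pos hS.hr i).le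
  have h1 := kf_le_ff (l := il r m n s) hmono hlog hnear (iq_nonneg (r := r) (m := m) (n := n)
    (s := s) hp) (sum_iq hS.hp1 m n s) (i * Real.log 2)
  have h2 := NC.Ff_le (fun a b => hmono.intervalIntegrable) hH0 hS.hD0 hup
    (iq_nonneg (r := r) (m := m) (n := n) (s := s) hp) (sum_iq hS.hp1 m n s)
    (l := il r m n s) (fun ω => add_nonneg (NC.sw_nonneg hel _) (LL_nonneg hel _)) hlog
    (gf_idx_nonneg hp hGl m n s) (i * Real.log 2 + Real.log 2)
  rw [sum_iq_il hS.hp1, hlyap] at h2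
  have h3 := h1.trans h2
  have h4 : Real.log 2 * (NC.Kf H (iq r p m n s) (il r m n s) (i * Real.log 2) - 2 * Real.log 2) ≤
      Real.log 2 * (D * (lyapunovExp r p * (m + EQ r p n s))) := by
    linarith
  have h5 := le_of_mul_le_mul_left h4 hlog
  linarith

end Crest.Agent.R98.K
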