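import Crest.Agent.R98.NCGain
import Crest.Agent.R098.UpperA

/-!
Row 98 (S0129). Module NCASM, part (b2): gains of blocks of letters. (helper136)
-/

set_option autoImplicit false

namespace Crest.Agent.R98.NC

open Filter Real Finset MeasureTheory intervalIntegral
open Crest.Agent.R098.Upper
open scoped Topology

section Words

variable {ι : Type*} [Fintype ι]

lemma Kf_words_succ (H : ℝ → ℝ) (p l : ι → ℝ) (m : ℕ) (x : ℝ) :
    Kf H (fun u : Fin (m+1) → ι => pw p u) (sw l) x =
      Kf H (fun u : Fin m → ι => pw p u) (sw l) x +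
        ∑ u : Fin m → ι, pw p u * Kf H p l (x - sw l u) := by
  unfold Kf
  rw [sum_succ]
  simp only [pw_cons, sw_cons, mul_sub, Finset.sum_sub_distrib, Finset.mul_sum]
  rw [Finset.sum_comm]
  have : ∀ (y : Fin m → ι) (a : ι), p a * pw p y * H (x - (l a + sw l y)) =
      pw p y * (p a * H (x - sw l y - l a)) := by
    intro y a
    have e : x - (l a + sw l y) = x - sw l y - l a := by ring
    rw [e]; ring
  simp only [this]
  ring

lemma Gf_words_succ (H : ℝ → ℝ) (p l : ι → ℝ) (m : ℕ) (a x : ℝ) :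
    Gf H (fun u : Fin (m+1) → ι => pw p u) (sw l) a x =
      Gf H (fun u : Fin m → ι => pw p u) (sw l) a x +
        ∑ u : Fin m → ι, pw p u * Gf H p l a (x - sw l u) := by
  unfold Gf
  rw [Kf_words_succ, Kf_words_succ]
  simp only [mul_sub, Finset.sum_sub_distrib]
  have : ∀ u : Fin m → ι, x - a - sw l u = x - sw l u - a := fun u => by ring
  simp only [this]
  ring

lemma Gf_words_zero (H : ℝ → ℝ) (p l : ι → ℝ) (a x : ℝ) :
    Gf H (fun u : Fin 0 → ι => pw p u) (sw l) a x = 0 := by
  simp [Gf, Kf, pw, sw]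

lemma Gf_words_nonneg {H : ℝ → ℝ} {p l : ι → ℝ} (hp : ∀ i, 0 ≤ p i) {a : ℝ}
    (hG : ∀ x, 0 ≤ Gf H p l a x) (m : ℕ) (x : ℝ) :
    0 ≤ Gf H (fun u : Fin m → ι => pw p u) (sw l) a x := by
  induction m with
  | zero => rw [Gf_words_zero]
  | succ m ih =>
    rw [Gf_words_succ]
    have : 0 ≤ ∑ u : Fin m → ι, pw p u * Gf H p l a (x - sw l u) :=
      Finset.sum_nonneg fun u _ => mul_nonneg (pw_nonneg hp u) (hG _)
    linarith

omit [Fintype ι] in
lemma sw_nonneg {l : ι → ℝ} (hl : ∀ i, 0 ≤ l i) {m : ℕ} (u : Fin m → ι) : 0 ≤ sw l u :=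
  Finset.sum_nonneg fun _ _ => hl _

omit [Fintype ι] in
lemma sw_le {l : ι → ℝ} {lmax : ℝ} (hl : ∀ i, l i ≤ lmax) {m : ℕ} (u : Fin m → ι) :
    sw l u ≤ m * lmax := by
  unfold sw
  calc ∑ j, l (u j) ≤ ∑ _j : Fin m, lmax := Finset.sum_le_sum fun j _ => hl _
    _ = m * lmax := by simp

/-- the gain of an `m`-block over a scale range is at most `m` times the one letter gain over the
enlarged range -/
theorem integral_Gf_words_le {H : ℝ → ℝ} {p l : ι → ℝ}
    (hH : ∀ a b, IntervalIntegrable H volume a b) (hp : ∀ i, 0 ≤ p i) (hp1 : ∑ i, p i = 1)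
    (hl : ∀ i, 0 ≤ l i) {lmax : ℝ} (hlm : ∀ i, l i ≤ lmax)
    {a : ℝ} (hG : ∀ x, 0 ≤ Gf H p l a x) {m : ℕ} {N' N M : ℝ} (hNM : N ≤ M)
    (hN' : N' ≤ N - m * lmax) :
    ∫ x in N..M, Gf H (fun u : Fin m → ι => pw p u) (sw l) a x ≤
      m * ∫ x in N'..M, Gf H p l a x := by
  have key : ∀ k : ℕ, k ≤ m → ∫ x in N..M, Gf H (fun u : Fin k → ι => pw p u) (sw l) a x ≤
      k * ∫ x in N'..M, Gf H p l a x := by
    intro k
    induction k with
    | zero => intro _; simp [Gf_words_zero]
    | succ k ih =>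
      intro hk
      have h1 := ih (by omega)
      have hint : ∀ u : Fin k → ι, IntervalIntegrable (fun x => pw p u * Gf H p l a (x - sw l u))
          volume N M := by
        intro u
        refine IntervalIntegrable.const_mul ?_ _
        have := (Gf_intervalIntegrable (q := p) (l := l) hH a (N - sw l u) (M - sw l u)).comp_sub_right
          (sw l u)
        simpa using this
      have h2 : ∫ x in N..M, Gf H (fun u : Fin (k+1) → ι => pw p u) (sw l) a x =
          (∫ x in N..M, Gf H (fun u : Fin k → ι => pw p u) (sw l) a x) +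
            ∑ u : Fin k → ι, pw p u * ∫ x in (N - sw l u)..(M - sw l u), Gf H p l a x := by
        simp only [Gf_words_succ]
        rw [intervalIntegral.integral_add (Gf_intervalIntegrable hH _ _ _), 
          intervalIntegral.integral_finsetSum fun u _ => hint u]
        · congr 1
          refine Finset.sum_congr rfl fun u _ => ?_
          rw [intervalIntegral.integral_const_mul,
            intervalIntegral.integral_comp_sub_right (fun x => Gf H p l a x) (sw l u)]
        · have : (fun x => ∑ u : Fin k → ι, pw p u * Gf H p l a (x - sw l u)) =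
              ∑ u : Fin k → ι, fun x => pw p u * Gf H p l a (x - sw l u) := by
            funext x; simp
          rw [this]
          exact IntervalIntegrable.sum _ fun u _ => hint u
      rw [h2]
      have h3 : ∀ u : Fin k → ι, ∫ x in (N - sw l u)..(M - sw l u), Gf H p l a x ≤
          ∫ x in N'..M, Gf H p l a x := by
        intro u
        have hu0 := sw_nonneg hl u
        have hu1 := sw_le hlm u
        have hlm0 : 0 ≤ lmax := by
          rcases isEmpty_or_nonempty ι with hι | ⟨⟨i0⟩⟩
          · exfalso; simp at hp1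
          · exact (hl i0).trans (hlm i0)
        have hkm : (k : ℝ) * lmax ≤ m * lmax :=
          mul_le_mul_of_nonneg_right (by exact_mod_cast (by omega : k ≤ m)) hlm0
        have hI := fun a' b' => Gf_intervalIntegrable (q := p) (l := l) hH a a' b'
        refine intervalIntegral.integral_mono_interval (by linarith) (by linarith) (by linarith)
          ?_ (hI _ _)
        exact Filter.Eventually.of_forall fun x => hG x
      have h4 : ∑ u : Fin k → ι, pw p u * ∫ x in (N - sw l u)..(M - sw l u), Gf H p l a x ≤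
          ∫ x in N'..M, Gf H p l a x := by
        calc ∑ u : Fin k → ι, pw p u * ∫ x in (N - sw l u)..(M - sw l u), Gf H p l a x
            ≤ ∑ u : Fin k → ι, pw p u * ∫ x in N'..M, Gf H p l a x :=
              Finset.sum_le_sum fun u _ => mul_le_mul_of_nonneg_left (h3 u) (pw_nonneg hp u)
          _ = ∫ x in N'..M, Gf H p l a x := by rw [← Finset.sum_mul, sum_pw hp1, one_mul]
      push_cast
      linarith
  exact key m le_rfl

/-- mean length of a block -/
lemma sum_pw_sw_eq {p l : ι → ℝ} (hp1 : ∑ i, p i = 1) (m : ℕ) :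
    ∑ u : Fin m → ι, pw p u * sw l u = m * ∑ i, p i * l i := by
  set c : ℝ := ∑ i, p i * l i with hc
  have hY : ∑ i, p i * (l i - c) = 0 := by
    simp only [mul_sub, Finset.sum_sub_distrib, ← Finset.sum_mul, hp1]
    rw [← hc]; ring
  have h := sum_pw_sw hp1 hY m
  have h2 : ∀ u : Fin m → ι, sw (fun i => l i - c) u = sw l u - m * c := by
    intro u
    simp [sw, Finset.sum_sub_distrib]
  simp only [h2, mul_sub, Finset.sum_sub_distrib, ← Finset.sum_mul, sum_pw hp1] at h
  linarith

/-- mean deviation of the length of a block is `O(√m)` -/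
lemma sum_pw_abs_sw_le {p l : ι → ℝ} (hp : ∀ i, 0 ≤ p i) (hp1 : ∑ i, p i = 1) (m : ℕ) :
    ∑ u : Fin m → ι, pw p u * |sw l u - ∑ u : Fin m → ι, pw p u * sw l u| ≤
      Real.sqrt (m * ∑ i, p i * (l i - ∑ i, p i * l i) ^ 2) := by
  rw [sum_pw_sw_eq hp1]
  set c : ℝ := ∑ i, p i * l i with hc
  have hY : ∑ i, p i * (l i - c) = 0 := by
    simp only [mul_sub, Finset.sum_sub_distrib, ← Finset.sum_mul, hp1]
    rw [← hc]; ring
  have h := sum_pw_sw_sq hp1 hY m
  have h2 : ∀ u : Fin m → ι, sw (fun i => l i - c) u = sw l u - m * c := by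
    intro u
    simp [sw, Finset.sum_sub_distrib]
  simp only [h2] at h
  rw [← h]
  refine Real.le_sqrt_of_sq_le ?_
  have hCS := Finset.sum_mul_sq_le_sq_mul_sq (univ : Finset (Fin m → ι))
    (fun u => Real.sqrt (pw p u)) (fun u => Real.sqrt (pw p u) * |sw l u - m * c|)
  have e1 : ∀ u : Fin m → ι, Real.sqrt (pw p u) * (Real.sqrt (pw p u) * |sw l u - m * c|) =
      pw p u * |sw l u - m * c| := by
    intro u
    rw [← mul_assoc, Real.mul_self_sqrt (pw_nonneg hp u)]
  have e2 : ∀ u : Fin m → ι, Real.sqrt (pw p u) ^ 2 = pw p u :=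
    fun u => Real.sq_sqrt (pw_nonneg hp u)
  simp only [e1, mul_pow, e2, sq_abs, sum_pw hp1, one_mul] at hCS
  exact hCS

end Words

end Crest.Agent.R98.NC
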