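import Crest.Agent.R98.KIface
import Crest.Agent.R98.NCWords

/-!
Row 98, case K: lower bound of the total information at the top scale (helper529).
-/

set_option autoImplicit false
set_option maxHeartbeats 400000
open MeasureTheory Crest.AnalysisR Set Filter Topology Real

namespace Crest.Agent.R98.K

open Crest.Agent.R98.TOne Crest.Agent.R98.Part Crest.Agent.R098.Upper

universe u

namespace G3

variable {ι : Type*} [Fintype ι]

omit [Fintype ι] in
theorem abs_rho {r : ι → ℝ} (hr : ∀ i, r i ≠ 0) {m : ℕ} (u : Fin m → ι) :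
    |rho r u| = Real.exp (-sw (el r) u) := by
  unfold rho sw el
  rw [Finset.abs_prod, ← Finset.sum_neg_distrib, Real.exp_sum]
  refine Finset.prod_congr rfl fun j _ => ?_
  rw [neg_neg, Real.exp_log (abs_pos.2 (hr _))]

omit [Fintype ι] in
theorem scale_eq {r : ι → ℝ} (hr : ∀ i, r i ≠ 0) {m : ℕ} (u : Fin m → ι) (Q : List ι) (i : ℕ) :
    (1 / 2 : ℝ) ^ i / |rho r u * (Q.map r).prod| =
      Real.exp (-(i * Real.log 2 - (sw (el r) u + LL (el r) Q))) := by
  have h2 : (1 / 2 : ℝ) ^ i = Real.exp (-(i * Real.log 2)) := by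
    rw [Real.exp_neg, mul_comm, Real.exp_mul, Real.exp_log (by norm_num : (0:ℝ) < 2),
      Real.rpow_natCast, one_div, inv_pow]
  rw [abs_mul, abs_rho hr u, abs_prod_eq_exp hr Q, h2, ← Real.exp_add, ← Real.exp_sub]
  congr 1
  have : (fun i => -Real.log |r i|) = el r := rfl
  rw [this]; ring

end G3

/-- (G3) -/
theorem g3 : G3P.{u} := by
  classical
  intro ι _ _ r t p μ D C hS ε hε hε1 a η hη
  have hr0 : ∀ i, r i ≠ 0 := fun i => (hS.hr i).1
  have hp0 : ∀ i, 0 ≤ p i := fun i => (hS.hp i).le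
  haveI : IsProbabilityMeasure μ := hS.hμ.1
  have hμ : BSupp μ := Bridge.bsupp hS.hr hp0 hS.hp1 hS.hμ
  set χ : ℝ := lyapunovExp r p with hχ
  have hel : ∀ i, 0 ≤ el r i := fun i => by
    unfold el
    have := Real.log_nonpos (abs_nonneg (r i)) (hS.hr i).2.le
    linarith
  have hχel : ∑ i, p i * el r i = χ := by
    rw [hχ]
    unfold lyapunovExp el
    rw [← Finset.sum_neg_distrib]
    exact Finset.sum_congr rfl fun i _ => by ring
  have hχ0 : 0 ≤ χ := by
    rw [← hχel]
    exact Finset.sum_nonneg fun i _ => mul_nonneg (hp0 i) (hel i)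
  -- the largest letter
  obtain ⟨ℓ1, hℓ1⟩ : ∃ ℓ1, ∀ i, el r i ≤ ℓ1 := ⟨∑ i, el r i, fun i =>
    Finset.single_le_sum (f := fun i => el r i) (fun j _ => hel j) (Finset.mem_univ i)⟩
  have hℓ10 : 0 ≤ ℓ1 := (hel (Classical.arbitrary ι)).trans (hℓ1 _)
  have hlog2 : 0 < Real.log 2 := Real.log_pos (by norm_num)
  -- upper bound for all scales
  have hup : ∀ y : ℝ, Hs μ (Real.exp (-y)) ≤ D * y + D * max (-y) 0 + C := by
    intro y
    rcases le_total 0 y with hy | hy
    · have := hS.hle y hy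
      have h1 : 0 ≤ D * max (-y) 0 := mul_nonneg hS.hD0 (le_max_right _ _)
      linarith
    · have h1 : Hs μ (Real.exp (-y)) ≤ Hs μ (Real.exp (-0)) :=
        Hs_anti hμ (Real.exp_pos _) (Real.exp_le_exp.2 (by linarith))
      have h2 := hS.hle 0 le_rfl
      rw [max_eq_left (by linarith)]
      nlinarith
  have hχpos : 0 < χ := by
    rw [← hχel]
    refine Finset.sum_pos (fun i _ => mul_pos (hS.hp i) ?_) Finset.univ_nonempty
    unfold el
    have := Real.log_neg (abs_pos.2 (hr0 i)) (hS.hr i).2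
    linarith
  -- lower bound for large scales
  set Kc : ℝ := (1 + 3 * ε) * χ + Real.log 2 with hKc
  have hKc0 : 0 < Kc := by positivity
  set δ : ℝ := η / (2 * Kc) with hδ
  have hδ0 : 0 < δ := by positivity
  obtain ⟨x0, hx0⟩ : ∃ x0 : ℝ, ∀ x, x0 ≤ x → (D - δ) * x ≤ Hs μ (Real.exp (-x)) := by
    have h1 : ∀ᶠ x : ℝ in atTop, D - δ < Hs μ (Real.exp (-x)) / x :=
      hS.htend.eventually_const_lt (by linarith)
    obtain ⟨x1, hx1⟩ := eventually_atTop.1 h1
    refine ⟨max x1 1, fun x hx => ?_⟩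
    have hxp : 0 < x := lt_of_lt_of_le one_pos ((le_max_right _ _).trans hx)
    have := hx1 x ((le_max_left _ _).trans hx)
    rw [lt_div_iff₀ hxp] at this
    exact this.le
  set V : ℝ := ∑ i, p i * (el r i - ∑ i, p i * el r i) ^ 2 with hV
  have hV0 : 0 ≤ V := Finset.sum_nonneg fun i _ => mul_nonneg (hp0 i) (sq_nonneg _)
  set c0 : ℝ := ℓ1 + a * Real.log 2 with hc0
  have hc00 : 0 ≤ c0 := by positivity
  have E1 : ∀ᶠ m : ℕ in atTop, x0 ≤ (1 + 3 * ε) * χ * m - a * Real.log 2 := by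
    have : Tendsto (fun m : ℕ => (1 + 3 * ε) * χ * (m : ℝ)) atTop atTop :=
      tendsto_natCast_atTop_atTop.const_mul_atTop (by positivity)
    filter_upwards [this.eventually_ge_atTop (x0 + a * Real.log 2)] with m hm
    linarith
  have E2 : ∀ᶠ m : ℕ in atTop, Real.sqrt (m * V) + c0 + C ≤ η / 2 * m := by
    have t1 : Tendsto (fun m : ℕ => Real.sqrt (m : ℝ)) atTop atTop :=
      Real.tendsto_sqrt_atTop.comp tendsto_natCast_atTop_atTop
    have t2 : Tendsto (fun m : ℕ => η / 2 * Real.sqrt (m : ℝ)) atTop atTop :=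
      t1.const_mul_atTop (by positivity)
    filter_upwards [t2.eventually_ge_atTop (Real.sqrt V + (c0 + C)),
      eventually_ge_atTop 1] with m hm hm1
    have h1 : (1 : ℝ) ≤ m := by exact_mod_cast hm1
    have hs1 : 1 ≤ Real.sqrt (m : ℝ) := by
      rw [show (1 : ℝ) = Real.sqrt 1 by simp]
      exact Real.sqrt_le_sqrt h1
    have hmm : (m : ℝ) = Real.sqrt m * Real.sqrt m := (Real.mul_self_sqrt (by positivity)).symm
    rw [Real.sqrt_mul (by positivity)]
    have h3 : c0 + C ≤ Real.sqrt m * (c0 + C) := le_mul_of_one_le_left (by linarith [hS.hC]) hs1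
    calc Real.sqrt m * Real.sqrt V + c0 + C ≤ Real.sqrt m * (Real.sqrt V + (c0 + C)) := by linarith
      _ ≤ Real.sqrt m * (η / 2 * Real.sqrt m) :=
        mul_le_mul_of_nonneg_left hm (Real.sqrt_nonneg _)
      _ = η / 2 * m := by
        conv_rhs => rw [hmm]
        ring
  filter_upwards [E1, E2, eventually_ge_atTop 1] with m hm1 hm2 hm3 n _
  have hm1' : (1 : ℝ) ≤ m := by exact_mod_cast hm3
  set i : ℕ := X0 χ ε m - a with hi
  set y0 : ℝ := i * Real.log 2 with hy0
  have hX : (1 + 3 * ε) * χ * m / Real.log 2 ≤ (X0 χ ε m : ℝ) := Nat.le_ceil _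
  have hX' : (X0 χ ε m : ℝ) < (1 + 3 * ε) * χ * m / Real.log 2 + 1 :=
    Nat.ceil_lt_add_one (by positivity)
  have hy1 : (1 + 3 * ε) * χ * m - a * Real.log 2 ≤ y0 := by
    have h1 : (X0 χ ε m : ℝ) ≤ i + a := by
      have : X0 χ ε m ≤ i + a := by omega
      exact_mod_cast this
    rw [div_le_iff₀ hlog2] at hX
    rw [hy0]
    nlinarith
  have hy2 : y0 ≤ Kc * m := by
    have h1 : (i : ℝ) ≤ X0 χ ε m := by
      have : i ≤ X0 χ ε m := Nat.sub_le _ _
      exact_mod_cast this
    have h2 : y0 < (1 + 3 * ε) * χ * m + Real.log 2 := by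
      calc y0 ≤ X0 χ ε m * Real.log 2 := mul_le_mul_of_nonneg_right h1 hlog2.le
        _ < ((1 + 3 * ε) * χ * m / Real.log 2 + 1) * Real.log 2 :=
          mul_lt_mul_of_pos_right hX' hlog2
        _ = (1 + 3 * ε) * χ * m + Real.log 2 := by field_simp
    rw [hKc]
    nlinarith
  have htop : D * y0 - η / 2 * m ≤ Hs μ ((1 / 2) ^ i) := by
    have h1 := hx0 y0 (hm1.trans hy1)
    have h2 : (1 / 2 : ℝ) ^ i = Real.exp (-y0) := by
      rw [hy0, Real.exp_neg, mul_comm, Real.exp_mul, Real.exp_log (by norm_num : (0:ℝ) < 2),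
        Real.rpow_natCast, one_div, inv_pow]
    rw [h2]
    have h3 : δ * y0 ≤ η / 2 * m := by
      calc δ * y0 ≤ δ * (Kc * m) := mul_le_mul_of_nonneg_left hy2 hδ0.le
        _ = η / 2 * m := by rw [hδ]; field_simp
    linarith
  -- the inner terms
  have hin : ∀ (u : Fin m → ι), ∀ Q ∈ stp (el r) n (ε * χ * m),
      Hs μ ((1 / 2) ^ i / |rho r u * (Q.map r).prod|) ≤
        (D * (y0 - sw (el r) u) + D * (|sw (el r) u - m * χ| + c0) + C) - D * LL (el r) Q := by
    intro u Q hQ
    rw [G3.scale_eq hr0 u Q i]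
    refine (hup _).trans ?_
    have hLQ := LL_le_of_mem hℓ1 hℓ10 (s := ε * χ * m) (by positivity) hQ
    have h1 : max (-(i * Real.log 2 - (sw (el r) u + LL (el r) Q))) 0 ≤
        |sw (el r) u - m * χ| + c0 := by
      refine max_le ?_ (by positivity)
      have h2 := le_abs_self (sw (el r) u - m * χ)
      have h3 : 0 ≤ ε * χ * m := by positivity
      rw [← hy0, hc0]
      nlinarith
    have h2 := mul_le_mul_of_nonneg_left h1 hS.hD0
    rw [← hy0] at h2 ⊢
    linarith
  have hsum : ∑ u : Fin m → ι, pw p u * ∑ Q ∈ stp (el r) n (ε * χ * m),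
      wtL p Q * Hs μ ((1 / 2) ^ i / |rho r u * (Q.map r).prod|) ≤
      D * y0 - D * (m * χ) + D * (Real.sqrt (m * V) + c0) + C - D * (χ * EQ r p n (ε * χ * m)) := by
    have h1 : ∀ u : Fin m → ι, ∑ Q ∈ stp (el r) n (ε * χ * m),
        wtL p Q * Hs μ ((1 / 2) ^ i / |rho r u * (Q.map r).prod|) ≤
        (D * (y0 - sw (el r) u) + D * (|sw (el r) u - m * χ| + c0) + C) -
          D * (χ * EQ r p n (ε * χ * m)) := by
      intro u
      calc ∑ Q ∈ stp (el r) n (ε * χ * m),
            wtL p Q * Hs μ ((1 / 2) ^ i / |rho r u * (Q.map r).prod|)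
          ≤ ∑ Q ∈ stp (el r) n (ε * χ * m), wtL p Q *
            ((D * (y0 - sw (el r) u) + D * (|sw (el r) u - m * χ| + c0) + C) -
              D * LL (el r) Q) :=
            Finset.sum_le_sum fun Q hQ =>
              mul_le_mul_of_nonneg_left (hin u Q hQ) (wtL_nonneg hp0 Q)
        _ = (D * (y0 - sw (el r) u) + D * (|sw (el r) u - m * χ| + c0) + C) *
              ∑ Q ∈ stp (el r) n (ε * χ * m), wtL p Q -
            D * ∑ Q ∈ stp (el r) n (ε * χ * m), wtL p Q * LL (el r) Q := by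
            rw [Finset.mul_sum, Finset.mul_sum, ← Finset.sum_sub_distrib]
            refine Finset.sum_congr rfl fun Q _ => by ring
        _ = _ := by
            rw [sum_stp_wtL _ hS.hp1, sum_stp_LL _ hS.hp1, hχel, mul_one]
            rfl
    have h2 : ∑ u : Fin m → ι, pw p u * |sw (el r) u - m * χ| ≤ Real.sqrt (m * V) := by
      have h3 := NC.sum_pw_abs_sw_le (l := el r) hp0 hS.hp1 m
      rw [NC.sum_pw_sw_eq hS.hp1, hχel] at h3
      rw [hV, hχel]
      exact h3
    have h4 : ∑ u : Fin m → ι, pw p u * sw (el r) u = m * χ := by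
      rw [NC.sum_pw_sw_eq hS.hp1, hχel]
    have h5 : ∑ u : Fin m → ι, pw p u = 1 := sum_pw hS.hp1 m
    calc _ ≤ ∑ u : Fin m → ι, pw p u *
          ((D * (y0 - sw (el r) u) + D * (|sw (el r) u - m * χ| + c0) + C) -
            D * (χ * EQ r p n (ε * χ * m))) :=
          Finset.sum_le_sum fun u _ => mul_le_mul_of_nonneg_left (h1 u) (pw_nonneg hp0 u)
      _ = (D * y0 + D * c0 + C - D * (χ * EQ r p n (ε * χ * m))) * ∑ u : Fin m → ι, pw p u -
          D * ∑ u : Fin m → ι, pw p u * sw (el r) u +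
          D * ∑ u : Fin m → ι, pw p u * |sw (el r) u - m * χ| := by
          rw [Finset.mul_sum, Finset.mul_sum, Finset.mul_sum, ← Finset.sum_sub_distrib,
            ← Finset.sum_add_distrib]
          refine Finset.sum_congr rfl fun u _ => by ring
      _ ≤ _ := by
          rw [h4, h5]
          have := mul_le_mul_of_nonneg_left h2 hS.hD0
          linarith
  unfold Itot
  have hfin : D * (Real.sqrt (m * V) + c0) + C ≤ η / 2 * m := by
    have h1 : D * (Real.sqrt (m * V) + c0) ≤ 1 * (Real.sqrt (m * V) + c0) :=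
      mul_le_mul_of_nonneg_right hS.hD1 (by positivity)
    linarith
  have e : D * χ * (m + EQ r p n (ε * χ * m)) = D * (m * χ) + D * (χ * EQ r p n (ε * χ * m)) := by
    ring
  rw [e]
  linarith

end Crest.Agent.R98.K
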