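import Crest.Agent.R98.KIface

/-!
Row 98, case K: the assembly (helper383).
-/

set_option autoImplicit false
set_option maxHeartbeats 400000
open MeasureTheory Crest.AnalysisR Set Filter Topology Real

namespace Crest.Agent.R98.K

open Crest.Agent.R98.TOne Crest.Agent.R98.Part Crest.Agent.R098.Upper

universe u

/-- (GAMMA) from the three parts -/
theorem gammaP_of (h1 : G1P.{u}) (h2 : G2P.{u}) (h3 : G3P.{u}) : GammaP.{u} := by
  classical
  intro ι _ _ r t p μ D C hs ε hε hε1 a η hη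
  obtain ⟨C2, hC2⟩ := h2 ι r t p μ D C hs
  have e1 : ∀ᶠ m : ℕ in atTop, C2 ≤ η / 2 * m := by
    have : Tendsto (fun m : ℕ => η / 2 * (m : ℝ)) atTop atTop :=
      tendsto_natCast_atTop_atTop.const_mul_atTop (by positivity)
    exact this.eventually_ge_atTop C2
  have hχ : 0 ≤ lyapunovExp r p := by
    unfold lyapunovExp
    rw [neg_nonneg]
    refine Finset.sum_nonpos fun i _ => mul_nonpos_of_nonneg_of_nonpos (hs.hp i).le ?_
    exact Real.log_nonpos (abs_nonneg _) (hs.hr i).2.le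
  filter_upwards [h3 ι r t p μ D C hs ε hε hε1 a (η / 2) (by positivity), e1] with m hm hm2 n hn i hi
  have hs0 : 0 ≤ ε * lyapunovExp r p * m := by positivity
  have k1 := h1 ι r t p μ D C hs m n (ε * lyapunovExp r p * m) i (X0 (lyapunovExp r p) ε m - a)
    ((Nat.sub_le _ _).trans hi)
  have k2 := hC2 m n (ε * lyapunovExp r p * m) i hs0
  have k3 := hm n hn
  linarith

/-- active levels of the words form a finite set of cardinality at most `m ^ (9 k + 2)` -/
theorem exists_act {ι : Type*} [Fintype ι] (r t : ι → ℝ) {m : ℕ} (hm : 2 ≤ m) (x₀ : ℕ) {w : ℕ}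
    (hw : 1 ≤ w) : ∃ Act : Finset ℕ, Act.card ≤ m ^ (9 * Fintype.card ι + 2) ∧
      ∀ j, (∃ u v : Fin m → ι, (1 / 2 : ℝ) ^ (x₀ + (j + 1) * w) < |zz r t u - zz r t v| ∧
        |zz r t u - zz r t v| ≤ (1 / 2) ^ (x₀ + j * w)) → j ∈ Act := by
  classical
  have hB : (2 : ℝ) ≤ 2 ^ w := by
    calc (2 : ℝ) = 2 ^ 1 := (pow_one _).symm
      _ ≤ 2 ^ w := pow_le_pow_right₀ one_le_two hw
  have hpow : ∀ j : ℕ, (1 / 2 : ℝ) ^ x₀ * (((2 : ℝ) ^ w)⁻¹) ^ j = (1 / 2) ^ (x₀ + j * w) := by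
    intro j
    rw [pow_add, ← inv_pow, ← pow_mul, one_div, mul_comm w j]
  set S : Set ℕ := {j | ∃ u v : Fin m → ι, (1 / 2 : ℝ) ^ (x₀ + (j + 1) * w) < |zz r t u - zz r t v| ∧
        |zz r t u - zz r t v| ≤ (1 / 2) ^ (x₀ + j * w)} with hS
  have key : ∀ J : Finset ℕ, (J : Set ℕ) ⊆ S → J.card ≤ m ^ (9 * Fintype.card ι + 2) := by
    intro J hJ
    refine active_levels r t hm (c := (1 / 2 : ℝ) ^ x₀) (by positivity) hB J fun j hj => ?_
    obtain ⟨u, v, h1, h2⟩ := hJ hj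
    refine ⟨u, v, ?_, ?_⟩
    · rw [hpow]; exact h1
    · rw [hpow]; exact h2
  have hfin : S.Finite := by
    by_contra hinf
    obtain ⟨J, hJ, hcard⟩ := Set.Infinite.exists_subset_card_eq hinf (m ^ (9 * Fintype.card ι + 2) + 1)
    have := key J hJ
    omega
  refine ⟨hfin.toFinset, key _ (by simp), fun j hj => ?_⟩
  simpa [hS] using hj

theorem isPW_qT {ι : Type*} [Fintype ι] {p : ι → ℝ} (hp : ∀ i, 0 < p i) (hp1 : ∑ i, p i = 1)
    {m : ℕ} (τ : ι → Fin (m + 1)) : IsPW (qT p τ) := by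
  refine ⟨fun a => ?_, ?_⟩
  · exact cond_nonneg ty (fun ω => Finset.prod_nonneg fun j _ => (hp _).le) τ a
  · exact cond_sum ty (sum_pw hp1 m) τ

/-- CASE K -/
theorem kmain_of (hOne : OneP.{u}) (hΓ : GammaP.{u}) (hF : FinalP.{u}) (hM : MultP.{u}) :
    KMain.{u} := by
  classical
  intro ι _ _ r t p μ hr hp hp1 hμ hirr
  by_contra hneg
  have hprob := hμ.1
  have hp' : ∀ i, 0 ≤ p i := fun i => (hp i).le
  obtain ⟨D, C, hD0, hD1, hC, -, htendHd, hle, htend⟩ := Bridge.exists_dim_real hr hp' hp1 hμ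
  have hlt : D < min 1 (rwEntropyRate r t p / lyapunovExp r p) :=
    Bridge.dim_lt_of_not_goal htendHd hneg
  have hsys : Sys r t p μ D C := ⟨hr, hp, hp1, hμ, hD0, hD1, hC, hle, htend⟩
  have hbs : BSupp μ := Bridge.bsupp hr hp' hp1 hμ
  set χ := lyapunovExp r p with hχdef
  have hel : ∀ i, 0 < el r i := fun i => by
    have h1 : 0 < |r i| := abs_pos.2 (hr i).1
    have := Real.log_neg h1 (hr i).2
    unfold el; linarith
  have hχ : 0 < χ := by
    have h1 : χ = ∑ i, p i * el r i := by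
      rw [hχdef, lyapunovExp, ← Finset.sum_neg_distrib]
      exact Finset.sum_congr rfl fun i _ => by unfold el; ring
    rw [h1]
    exact Finset.sum_pos (fun i _ => mul_pos (hp i) (hel i)) Finset.univ_nonempty
  have hD1' : D < 1 := hlt.trans_le (min_le_left _ _)
  have hDh : D * χ < rwEntropyRate r t p := by
    have := hlt.trans_le (min_le_right _ _)
    rwa [lt_div_iff₀ hχ] at this
  set h := rwEntropyRate r t p with hhdef
  -- ε
  obtain ⟨ε, hε, hε1, hεg⟩ : ∃ ε : ℝ, 0 < ε ∧ ε < 1 ∧ D * ((1 + 3 * ε) * χ) < h := by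
    have hg : 0 < h - D * χ := by linarith
    refine ⟨min (1 / 2) ((h - D * χ) / (6 * χ + 1)), ?_, ?_, ?_⟩
    · exact lt_min (by norm_num) (by positivity)
    · exact lt_of_le_of_lt (min_le_left _ _) (by norm_num)
    · set e := min (1 / 2) ((h - D * χ) / (6 * χ + 1)) with he
      have he0 : 0 ≤ e := le_min (by norm_num) (by positivity)
      have h1 : e * (6 * χ + 1) ≤ h - D * χ := by
        have := min_le_right (1 / 2 : ℝ) ((h - D * χ) / (6 * χ + 1))
        rwa [← he, le_div_iff₀ (by positivity)] at this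
      have h2 : D * (3 * e * χ) ≤ 1 * (3 * e * χ) :=
        mul_le_mul_of_nonneg_right hD1 (by positivity)
      have h3 : 0 ≤ e * χ := by positivity
      rcases h3.eq_or_lt with h4 | h4
      · have h5 : D * ((1 + 3 * e) * χ) = D * χ + 3 * D * (e * χ) := by ring
        rw [h5, ← h4]; linarith
      · nlinarith
  -- K
  obtain ⟨K, hK16, hK⟩ : ∃ K : ℕ, 16 ≤ K ∧ D ≤ 1 - 8 / K := by
    obtain ⟨K, hK⟩ := exists_nat_gt (8 / (1 - D))
    refine ⟨max K 16, le_max_right _ _, ?_⟩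
    have h1 : (8 : ℝ) / (1 - D) < (max K 16 : ℕ) := hK.trans_le (by exact_mod_cast le_max_left _ _)
    have h2 : (0 : ℝ) < (max K 16 : ℕ) := by
      have : (16 : ℕ) ≤ max K 16 := le_max_right _ _
      exact_mod_cast (by omega : 0 < max K 16)
    rw [div_lt_iff₀ (by linarith)] at h1
    have h3 : (8 : ℝ) / (max K 16 : ℕ) < 1 - D := by
      rw [div_lt_iff₀ h2]; linarith
    linarith
  -- self-similarity in the `mix` form
  have hself : μ = mix p fun i => μ.map fun x => r i * x + t i := hμ.2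
  have hfreq : ∃ᶠ x : ℝ in atTop, Hs μ (exp (-x)) ≤ D * x + C :=
    ((eventually_ge_atTop (0 : ℝ)).mono fun x hx => hle x hx).frequently
  -- macro
  obtain ⟨a, c, hc, hmac⟩ := exists_macro_two_pow hp' hp1 (fun i => (hr i).1) (fun i => (hr i).2)
    hbs hself hD1' hfreq
  -- deficit
  obtain ⟨C1, hdef⟩ : ∃ C1 : ℝ, ∀ L : ℕ, 0 < L → ∀ d, 0 < d →
      Hs μ d - Hs μ (L * d) ≤ (1 - 8 / K) * log L + C1 := by
    set ρ := Finset.univ.inf' Finset.univ_nonempty fun i => |r i| with hρ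
    set σ := Finset.univ.sup' Finset.univ_nonempty fun i => |r i| with hσ
    have h1 : 0 < ρ := (Finset.lt_inf'_iff _).mpr fun i _ => abs_pos.mpr (hr i).1
    have h2 : ∀ i, ρ ≤ |r i| := fun i => Finset.inf'_le _ (Finset.mem_univ i)
    have h3 : ∀ i, |r i| ≤ σ := fun i => Finset.le_sup' (fun i => |r i|) (Finset.mem_univ i)
    have h4 : σ < 1 := (Finset.sup'_lt_iff _).mpr fun i _ => (hr i).2
    refine ⟨log (1 / ρ) + log 2, fun L hL d hd => ?_⟩
    have h5 := uniform_deficit hp' hp1 h1 h2 h3 h4 hbs hself hD0 hfreq hL hd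
    have h6 : 0 ≤ log (L : ℝ) := log_nonneg (by exact_mod_cast hL)
    have h7 := mul_le_mul_of_nonneg_right hK h6
    linarith
  -- extreme lengths
  set ℓ0 := Finset.univ.inf' Finset.univ_nonempty fun i => el r i with hℓ0
  set ℓ1 := Finset.univ.sup' Finset.univ_nonempty fun i => el r i with hℓ1
  have hℓ0pos : 0 < ℓ0 := (Finset.lt_inf'_iff _).mpr fun i _ => hel i
  have hℓ0le : ∀ i, ℓ0 ≤ el r i := fun i => Finset.inf'_le _ (Finset.mem_univ i)
  have hℓ1le : ∀ i, el r i ≤ ℓ1 := fun i => Finset.le_sup' (fun i => el r i) (Finset.mem_univ i)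
  have hℓ1pos : 0 ≤ ℓ1 := by
    obtain ⟨i⟩ := ‹Nonempty ι›
    exact (hel i).le.trans (hℓ1le i)
  -- fuel
  set nn : ℝ → ℕ := fun s => ⌈s / ℓ0⌉₊ with hnn
  have hnn1 : ∀ s, s ≤ nn s * ℓ0 := fun s => by
    have := Nat.le_ceil (s / ℓ0)
    rwa [div_le_iff₀ hℓ0pos] at this
  have hnn1' : ∀ s, 0 ≤ s → ∀ i, s ≤ nn s * el r i := fun s _ i =>
    (hnn1 s).trans (mul_le_mul_of_nonneg_left (hℓ0le i) (by positivity))
  have hnn2 : ∀ s, 1 ≤ s → (nn s : ℝ) ≤ (1 / ℓ0 + 1) * s := fun s hs => by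
    have h1 : (nn s : ℝ) ≤ s / ℓ0 + 1 := (Nat.ceil_lt_add_one (by positivity)).le
    have h2 : s / ℓ0 + 1 ≤ (1 / ℓ0 + 1) * s := by
      have : (1 / ℓ0 + 1) * s = s / ℓ0 + s := by ring
      rw [this]; linarith
    linarith
  -- MULT
  set P : ℝ → ℝ → ℝ → ℝ := fun s x b => ∑ Q ∈ stp (el r) (nn s) s,
    (if x ≤ LL (el r) Q ∧ LL (el r) Q ≤ x + b then wtL p Q else 0) with hP
  obtain ⟨CM, hCM⟩ := hM ι r p hr hp hp1 hirr (1 / ℓ0 + 1)
  have hCM' : ∀ Q0 : ℕ, ∃ q : ℕ, Q0 ≤ q ∧ ∀ s : ℝ, (q : ℝ) ^ 2 ≤ s → ∀ x b : ℝ, 0 ≤ b →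
      P s x b ≤ CM * (1 + Real.log s) ^ 3 * (b + 1 / q) := by
    intro Q0
    obtain ⟨q, hq, hqq⟩ := hCM (max Q0 1)
    have hq1 : 1 ≤ q := (le_max_right _ _).trans hq
    have hq1' : (1 : ℝ) ≤ q := by exact_mod_cast hq1
    refine ⟨q, (le_max_left _ _).trans hq, fun s hs x b hb => ?_⟩
    have hs1 : 1 ≤ s := le_trans (one_le_pow₀ hq1') hs
    exact hqq s hs (nn s) (hnn1' s (by linarith)) (hnn2 s hs1) x b hb
  -- constants
  set kk := Fintype.card ι with hkk
  set A := (2 * K + 1) * (9 * kk + 2) + 3 with hA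
  obtain ⟨Ct, w0, hCt, hone⟩ := hOne K A a c C1 (exp ℓ1) hK16 (by omega) hc
    (one_le_exp hℓ1pos)
  obtain ⟨C', hfin⟩ := hF ι r t p μ D C hsys
  set g := h - D * ((1 + 3 * ε) * χ) with hg
  have hgpos : 0 < g := by linarith
  set η := g / (4 * (Ct + 1)) with hη
  have hηpos : 0 < η := by positivity
  have hCtη : Ct * η ≤ g / 4 := by
    rw [hη, mul_div_assoc']
    rw [div_le_div_iff₀ (by positivity) (by norm_num)]
    nlinarith
  -- thresholds
  have t1 := hΓ ι r t p μ D C hsys ε hε hε1 (a + 1) η hηpos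
  have t2 : ∀ᶠ m : ℕ in atTop, Real.log 2 + C' + Ct + 1 + kk * Real.log (m + 1) ≤ g / 4 * m := by
    have h1 : Tendsto (fun m : ℕ => Real.log ((m : ℝ) + 1) / ((m : ℝ) + 1)) atTop (𝓝 0) := by
      have h2 : Tendsto (fun x : ℝ => Real.log x / x) atTop (𝓝 0) := by
        simpa using Real.isLittleO_log_id_atTop.tendsto_div_nhds_zero
      exact h2.comp (tendsto_atTop_add_const_right _ _ tendsto_natCast_atTop_atTop)
    have h3 : Tendsto (fun m : ℕ => kk * (Real.log ((m : ℝ) + 1) / ((m : ℝ) + 1)) +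
        (Real.log 2 + C' + Ct + 1) * (1 / ((m : ℝ) + 1))) atTop (𝓝 (kk * 0 + (Real.log 2 + C' + Ct + 1) * 0)) :=
      (h1.const_mul _).add (tendsto_one_div_add_atTop_nhds_zero_nat.const_mul _)
    rw [mul_zero, mul_zero, add_zero] at h3
    filter_upwards [h3.eventually (gt_mem_nhds (show 0 < g / 8 by positivity)),
      eventually_ge_atTop 1] with m hm hm1
    have hm1' : (1 : ℝ) ≤ m := by exact_mod_cast hm1
    have h4 : (0 : ℝ) < (m : ℝ) + 1 := by positivity
    have h5 : kk * (Real.log ((m : ℝ) + 1) / ((m : ℝ) + 1)) +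
        (Real.log 2 + C' + Ct + 1) * (1 / ((m : ℝ) + 1)) =
        (Real.log 2 + C' + Ct + 1 + kk * Real.log (m + 1)) / ((m : ℝ) + 1) := by
      field_simp; ring
    rw [h5, div_lt_iff₀ h4] at hm
    nlinarith
  have t3 : ∀ᶠ m : ℕ in atTop, a + 1 ≤ X0 χ ε m := by
    have h1 : Tendsto (fun m : ℕ => (1 + 3 * ε) * χ * (m : ℝ) / Real.log 2) atTop atTop := by
      refine Tendsto.atTop_div_const (Real.log_pos one_lt_two) ?_
      exact tendsto_natCast_atTop_atTop.const_mul_atTop (by positivity)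
    filter_upwards [h1.eventually_ge_atTop ((a : ℝ) + 1)] with m hm
    have h2 := Nat.le_ceil ((1 + 3 * ε) * χ * (m : ℝ) / Real.log 2)
    have h3 : ((a + 1 : ℕ) : ℝ) ≤ (X0 χ ε m : ℕ) := by
      push_cast; exact hm.trans h2
    exact_mod_cast h3
  have t4 := eventually_negl_le (K := K) (cl := 9 * kk + 2) (A := A) (Cl := 1) le_rfl
  obtain ⟨M1, hM1⟩ := eventually_atTop.mp (t1.and (t2.and t3))
  obtain ⟨w1, hw1⟩ := eventually_atTop.mp t4
  -- the parameters
  obtain ⟨w, m, hwW, hmW, hmw, hconc⟩ := exists_params hCM' (show 4 ≤ K by omega)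
    (show 0 < ε * χ by positivity) (max (max M1 w1) (max w0 2))
  have hmM1 : M1 ≤ m := ((le_max_left _ _).trans (le_max_left _ _)).trans hmW
  have hww1 : w1 ≤ w := ((le_max_right _ _).trans (le_max_left _ _)).trans hwW
  have hww0 : w0 ≤ w := ((le_max_left _ _).trans (le_max_right _ _)).trans hwW
  have hw2 : 2 ≤ w := ((le_max_right _ _).trans (le_max_right _ _)).trans hwW
  have hm2 : 2 ≤ m := ((le_max_right _ _).trans (le_max_right _ _)).trans hmW
  obtain ⟨hgam, hlogm, hX0⟩ := hM1 m hmM1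
  have hnegl := hw1 w hww1 m hmw
  set s := ε * χ * m with hs
  have hm0 : (0 : ℝ) < m := by positivity
  have hspos : 0 < s := by positivity
  set x₀ := X0 χ ε m with hx0
  obtain ⟨Act, hAct, hActm⟩ := exists_act r t hm2 x₀ (show 1 ≤ w by omega)
  -- the one-type theorem for every type
  have hrho : ∀ τ : ι → Fin (m + 1), 0 < |rt r τ| := fun τ =>
    abs_pos.2 (Finset.prod_ne_zero_iff.2 fun i _ => pow_ne_zero _ (hr i).1)
  have habs : ∀ (τ : ι → Fin (m + 1)) (Q : List ι), |rt r τ * (Q.map r).prod| =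
      |rt r τ| * exp (-LL (el r) Q) := fun τ Q => by
    rw [abs_mul, abs_prod_eq_exp (fun i => (hr i).1)]; rfl
  have hone' : ∀ τ : ι → Fin (m + 1), ∃ i₀, ∀ i, i₀ ≤ i →
      HA (qT p τ) (zz r t) x₀ ≤ Ct * (∑ Q ∈ stp (el r) (nn s) s, wtL p Q *
        (GT r t p μ τ Q i - GT r t p μ τ Q (x₀ - (a + 1))) + 1) + 1 := by
    intro τ
    have hone1 := hone w hww0 (Fin m → ι) {Q : List ι // Q ∈ stp (el r) (nn s) s} (qT p τ) (zz r t)
      (fun Q => wtL p Q.1) (fun Q => rt r τ * (Q.1.map r).prod) μ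
      (|rt r τ| * exp (-(s + ℓ1))) (isPW_qT hp hp1 τ) ?_ hbs
      (mul_pos (hrho τ) (exp_pos _)) ?_ ?_ ?_ hdef ?_ x₀ hX0 Act ?_
    · obtain ⟨i₀, hi₀⟩ := hone1
      refine ⟨i₀, fun i hi => ?_⟩
      have h1 := hi₀ i hi
      have h2 : (Act.card : ℝ) * (2 ^ (w + 3) * (A * w) / 2 ^ (A * w)) ≤ 1 := by
        have h3 := hnegl (Act.card : ℝ) (by rw [one_mul]; exact_mod_cast hAct)
        calc (Act.card : ℝ) * (2 ^ (w + 3) * (A * w) / 2 ^ (A * w))
            = Act.card * 2 ^ (w + 3) * (A * w) / 2 ^ (A * w) := by ring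
          _ ≤ 1 := h3
      have h4 : ∑ Q : {Q : List ι // Q ∈ stp (el r) (nn s) s}, wtL p Q.1 *
          ((Hs (addLaw (qT p τ) (zz r t) (μ.map fun x => rt r τ * (Q.1.map r).prod * x))
              ((1 / 2) ^ i) - Hs (μ.map fun x => rt r τ * (Q.1.map r).prod * x) ((1 / 2) ^ i)) -
           (Hs (addLaw (qT p τ) (zz r t) (μ.map fun x => rt r τ * (Q.1.map r).prod * x))
              ((1 / 2) ^ (x₀ - (a + 1))) -
            Hs (μ.map fun x => rt r τ * (Q.1.map r).prod * x) ((1 / 2) ^ (x₀ - (a + 1))))) =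
          ∑ Q ∈ stp (el r) (nn s) s, wtL p Q *
            (GT r t p μ τ Q i - GT r t p μ τ Q (x₀ - (a + 1))) := by
        rw [← Finset.sum_coe_sort (stp (el r) (nn s) s) (fun Q => wtL p Q *
            (GT r t p μ τ Q i - GT r t p μ τ Q (x₀ - (a + 1))))]
        rfl
      rw [h4] at h1
      linarith
    · -- weights
      refine ⟨fun Q => wtL_nonneg hp' Q.1, ?_⟩
      rw [Finset.sum_coe_sort (stp (el r) (nn s) s) (fun Q => wtL p Q)]
      exact sum_stp_wtL (el r) hp1 _ _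
    · -- lower bound for the slopes
      intro Q
      rw [habs]
      refine mul_le_mul_of_nonneg_left (exp_le_exp.2 ?_) (abs_nonneg _)
      have := LL_le_of_mem hℓ1le hℓ1pos hspos.le Q.2
      linarith
    · -- upper bound for the slopes
      intro Q
      rw [habs]
      have h1 := le_LL_of_mem hℓ0le hℓ0pos.le (hnn1 s) Q.2
      calc |rt r τ| * exp (-LL (el r) Q.1) ≤ |rt r τ| * exp (-s) :=
            mul_le_mul_of_nonneg_left (exp_le_exp.2 (by linarith)) (abs_nonneg _)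
        _ = exp ℓ1 * (|rt r τ| * exp (-(s + ℓ1))) := by
            rw [neg_add, exp_add, exp_neg ℓ1]; field_simp
    · -- macro
      intro b hb e he
      have := hmac b 0 hb e he
      simpa using this
    · -- concentration
      intro y
      have h1 := hconc (log |rt r τ| - y - 8 / 2 ^ ((K - 2) * w))
      refine le_trans (le_of_eq ?_) h1
      rw [hP]
      simp only
      rw [Finset.sum_coe_sort (stp (el r) (nn s) s) (fun Q =>
        if y ≤ log |rt r τ * (Q.map r).prod| ∧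
          log |rt r τ * (Q.map r).prod| ≤ y + 8 / 2 ^ ((K - 2) * w) then wtL p Q else 0)]
      refine Finset.sum_congr rfl fun Q _ => ?_
      have h2 : log |rt r τ * (Q.map r).prod| = log |rt r τ| - LL (el r) Q := by
        rw [habs, log_mul (hrho τ).ne' (exp_pos _).ne', log_exp]; ring
      rw [h2]
      refine if_congr ?_ rfl rfl
      constructor
      · rintro ⟨h3, h4⟩; exact ⟨by linarith, by linarith⟩
      · rintro ⟨h3, h4⟩; exact ⟨by linarith, by linarith⟩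
    · -- activity
      rintro j ⟨u, v, -, -, h1, h2⟩
      exact hActm j ⟨u, v, h1, h2⟩
  choose i₀ hi₀ using hone'
  set I := max x₀ (Finset.univ.sup i₀) with hI
  have hIτ : ∀ τ, i₀ τ ≤ I := fun τ => (Finset.le_sup (Finset.mem_univ τ)).trans (le_max_right _ _)
  have hgam' := hgam (nn s) (hnn1' s hspos.le) I (le_max_left _ _)
  have hfin' := hfin m (by omega) x₀
  have hpT : ∀ τ : ι → Fin (m + 1), 0 ≤ pT p τ := fun τ =>
    fib_nonneg ty (fun ω => Finset.prod_nonneg fun j _ => hp' _) τ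
  have hpT1 : ∑ τ : ι → Fin (m + 1), pT p τ = 1 := fib_sum ty (sum_pw hp1 m)
  have hsum : ∑ τ : ι → Fin (m + 1), pT p τ * HA (qT p τ) (zz r t) x₀ ≤ Ct * (η * m + 1) + 1 := by
    calc ∑ τ : ι → Fin (m + 1), pT p τ * HA (qT p τ) (zz r t) x₀
        ≤ ∑ τ : ι → Fin (m + 1), pT p τ * (Ct * (∑ Q ∈ stp (el r) (nn s) s, wtL p Q *
            (GT r t p μ τ Q I - GT r t p μ τ Q (x₀ - (a + 1))) + 1) + 1) :=
          Finset.sum_le_sum fun τ _ => mul_le_mul_of_nonneg_left (hi₀ τ I (hIτ τ)) (hpT τ)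
      _ = Ct * (∑ τ : ι → Fin (m + 1), pT p τ * (∑ Q ∈ stp (el r) (nn s) s, wtL p Q *
            (GT r t p μ τ Q I - GT r t p μ τ Q (x₀ - (a + 1)))) + ∑ τ : ι → Fin (m + 1), pT p τ) +
            ∑ τ : ι → Fin (m + 1), pT p τ := by
          rw [← Finset.sum_add_distrib, Finset.mul_sum, ← Finset.sum_add_distrib]
          exact Finset.sum_congr rfl fun τ _ => by ring
      _ ≤ Ct * (η * m + 1) + 1 := by
          rw [hpT1]
          gcongr
  have hX0up : (x₀ : ℝ) * Real.log 2 ≤ (1 + 3 * ε) * χ * m + Real.log 2 := by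
    have hl2 : 0 < Real.log 2 := Real.log_pos one_lt_two
    have h1 : (x₀ : ℝ) ≤ (1 + 3 * ε) * χ * m / Real.log 2 + 1 :=
      (Nat.ceil_lt_add_one (by positivity)).le
    have h2 := mul_le_mul_of_nonneg_right h1 hl2.le
    have h3 : ((1 + 3 * ε) * χ * m / Real.log 2 + 1) * Real.log 2 =
        (1 + 3 * ε) * χ * m + Real.log 2 := by
      field_simp
    linarith
  have hfinal : h * m ≤ D * ((1 + 3 * ε) * χ) * m + g / 4 * m + g / 4 * m := by
    have h1 : D * ((x₀ : ℝ) * Real.log 2) ≤ D * ((1 + 3 * ε) * χ * m) + Real.log 2 := by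
      have h2 := mul_le_mul_of_nonneg_left hX0up hD0
      have h3 : D * Real.log 2 ≤ Real.log 2 := by
        have := Real.log_pos one_lt_two
        nlinarith
      linarith
    have h4 : Ct * (η * m + 1) + 1 ≤ g / 4 * m + Ct + 1 := by
      have := mul_le_mul_of_nonneg_right hCtη hm0.le
      linarith
    linarith
  have : g * m ≤ g / 2 * m := by
    have e : g * m = h * m - D * ((1 + 3 * ε) * χ) * m := by rw [hg]; ring
    rw [e]; linarith
  nlinarith

end Crest.Agent.R98.K
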