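import Crest.Agent.R98.MultVisit

/-!
Row 98, module MULT, part 3: exponential tails for words (Chernoff) and typicality of stopped words.
-/

set_option autoImplicit false

open Finset

namespace Crest.Agent.R98.Mult

variable {ι : Type*} [Fintype ι]

open Classical in
/-- `Pr p n E` is the total weight of the words of length `n` satisfying `E`. -/
noncomputable def Pr (p : ι → ℝ) (n : ℕ) (E : (Fin n → ι) → Prop) : ℝ :=
  ∑ w : Fin n → ι, if E w then ∏ j, p (w j) else 0

lemma Pr_nonneg (p : ι → ℝ) (hp : ∀ i, 0 ≤ p i) (n : ℕ) (E : (Fin n → ι) → Prop) :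
    0 ≤ Pr p n E := by
  unfold Pr
  apply Finset.sum_nonneg; intro w _
  split_ifs
  · exact Finset.prod_nonneg fun j _ => hp _
  · exact le_rfl

lemma Pr_mono (p : ι → ℝ) (hp : ∀ i, 0 ≤ p i) (n : ℕ) {E F : (Fin n → ι) → Prop}
    (h : ∀ w, E w → F w) : Pr p n E ≤ Pr p n F := by
  unfold Pr
  apply Finset.sum_le_sum; intro w _
  have h0 : 0 ≤ ∏ j, p (w j) := Finset.prod_nonneg fun j _ => hp _
  by_cases h1 : E w
  · rw [if_pos h1, if_pos (h w h1)]
  · rw [if_neg h1]; split_ifs <;> simp [h0]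

lemma Pr_or (p : ι → ℝ) (hp : ∀ i, 0 ≤ p i) (n : ℕ) (E F : (Fin n → ι) → Prop) :
    Pr p n (fun w => E w ∨ F w) ≤ Pr p n E + Pr p n F := by
  unfold Pr
  rw [← Finset.sum_add_distrib]
  apply Finset.sum_le_sum; intro w _
  have h0 : 0 ≤ ∏ j, p (w j) := Finset.prod_nonneg fun j _ => hp _
  by_cases h1 : E w <;> by_cases h2 : F w <;> simp [h1, h2, h0]

open Classical in
lemma Pr_exists (p : ι → ℝ) (hp : ∀ i, 0 ≤ p i) (n : ℕ) {κ : Type*} [Fintype κ]
    (E : κ → (Fin n → ι) → Prop) :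
    Pr p n (fun w => ∃ k, E k w) ≤ ∑ k, Pr p n (E k) := by
  unfold Pr
  rw [Finset.sum_comm]
  apply Finset.sum_le_sum; intro w _
  have h0 : 0 ≤ ∏ j, p (w j) := Finset.prod_nonneg fun j _ => hp _
  by_cases h1 : ∃ k, E k w
  · obtain ⟨k, hk⟩ := h1
    rw [if_pos ⟨k, hk⟩]
    refine le_trans ?_ (Finset.single_le_sum (f := fun k => if E k w then ∏ j, p (w j) else 0)
      ?_ (Finset.mem_univ k))
    · simp [hk]
    · intro k _
      by_cases h : E k w <;> simp [h, h0]
  · rw [if_neg h1]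
    apply Finset.sum_nonneg; intro k _
    by_cases h : E k w <;> simp [h, h0]

lemma Pr_eq_zero (p : ι → ℝ) (n : ℕ) (E : (Fin n → ι) → Prop) (h : ∀ w, ¬ E w) :
    Pr p n E = 0 := by
  unfold Pr
  apply Finset.sum_eq_zero; intro w _
  rw [if_neg (h w)]

/-- one-sided Chernoff bound. -/
lemma chernoff_upper (p : ι → ℝ) (hp : ∀ i, 0 ≤ p i) (hp1 : ∑ i, p i = 1) (x : ι → ℝ) (m L : ℝ)
    (hm : ∑ i, p i * x i = m) (hL : 0 < L) (hx : ∀ i, |x i - m| ≤ L) (n : ℕ) (hn : 0 < n)
    (t : ℝ) (ht : 0 ≤ t) :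
    Pr p n (fun w => t ≤ ∑ j, (x (w j) - m)) ≤ Real.exp (-(t ^ 2 / (4 * n * L ^ 2))) := by
  have hn' : (0 : ℝ) < n := by exact_mod_cast hn
  rcases lt_or_ge (n * L) t with hbig | hsmall
  · rw [Pr_eq_zero]
    · positivity
    · intro w h
      have : ∑ j, (x (w j) - m) ≤ ∑ _j : Fin n, L :=
        Finset.sum_le_sum fun j _ => (le_abs_self _).trans (hx _)
      rw [Finset.sum_const, Finset.card_univ, Fintype.card_fin, nsmul_eq_mul] at this
      linarith
  · set lam : ℝ := t / (2 * n * L ^ 2) with hlam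
    have hlam0 : 0 ≤ lam := by positivity
    have hlamL : lam * L ≤ 1 / 2 := by
      rw [hlam, div_mul_eq_mul_div, div_le_iff₀ (by positivity)]
      nlinarith
    have h1 : Pr p n (fun w => t ≤ ∑ j, (x (w j) - m)) ≤
        ∑ w : Fin n → ι, (∏ j, p (w j)) * Real.exp (lam * (∑ j, (x (w j) - m) - t)) := by
      unfold Pr
      apply Finset.sum_le_sum; intro w _
      have h0 : 0 ≤ ∏ j, p (w j) := Finset.prod_nonneg fun j _ => hp _
      split_ifs with h
      · have : 1 ≤ Real.exp (lam * (∑ j, (x (w j) - m) - t)) := by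
          apply Real.one_le_exp
          apply mul_nonneg hlam0; linarith
        calc ∏ j, p (w j) = (∏ j, p (w j)) * 1 := by ring
          _ ≤ _ := mul_le_mul_of_nonneg_left this h0
      · positivity
    have h2 : ∑ w : Fin n → ι, (∏ j, p (w j)) * Real.exp (lam * (∑ j, (x (w j) - m) - t))
        = Real.exp (-(lam * t)) * (∑ i, p i * Real.exp (lam * (x i - m))) ^ n := by
      rw [Fintype.sum_pow, Finset.mul_sum]
      apply Finset.sum_congr rfl; intro w _
      rw [Finset.prod_mul_distrib, ← Real.exp_sum, mul_sub, Real.exp_sub, Finset.mul_sum,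
        Real.exp_neg]
      ring
    have h3 : ∑ i, p i * Real.exp (lam * (x i - m)) ≤ Real.exp ((lam * L) ^ 2) := by
      have hb : ∀ i, Real.exp (lam * (x i - m)) ≤ 1 + lam * (x i - m) + (lam * L) ^ 2 := by
        intro i
        have ha : |lam * (x i - m)| ≤ lam * L := by
          rw [abs_mul, abs_of_nonneg hlam0]
          exact mul_le_mul_of_nonneg_left (hx i) hlam0
        have hle1 : |lam * (x i - m)| ≤ 1 := by linarith
        have := Real.abs_exp_sub_one_sub_id_le hle1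
        have h4 := (abs_le.1 this).2
        have h5 : (lam * (x i - m)) ^ 2 ≤ (lam * L) ^ 2 := by
          rw [← sq_abs (lam * (x i - m))]
          exact pow_le_pow_left₀ (abs_nonneg _) ha 2
        linarith
      calc ∑ i, p i * Real.exp (lam * (x i - m))
          ≤ ∑ i, p i * (1 + lam * (x i - m) + (lam * L) ^ 2) :=
            Finset.sum_le_sum fun i _ => mul_le_mul_of_nonneg_left (hb i) (hp i)
        _ = (∑ i, p i) + lam * ((∑ i, p i * x i) - m * ∑ i, p i) + (lam * L) ^ 2 * ∑ i, p i := by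
            rw [Finset.mul_sum, ← Finset.sum_sub_distrib, Finset.mul_sum, Finset.mul_sum,
              ← Finset.sum_add_distrib, ← Finset.sum_add_distrib]
            apply Finset.sum_congr rfl; intro i _; ring
        _ = 1 + (lam * L) ^ 2 := by rw [hp1, hm]; ring
        _ ≤ Real.exp ((lam * L) ^ 2) := by
            have := Real.add_one_le_exp ((lam * L) ^ 2); linarith
    have h3' : 0 ≤ ∑ i, p i * Real.exp (lam * (x i - m)) :=
      Finset.sum_nonneg fun i _ => mul_nonneg (hp i) (Real.exp_pos _).le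
    calc Pr p n (fun w => t ≤ ∑ j, (x (w j) - m)) ≤ _ := h1
      _ = _ := h2
      _ ≤ Real.exp (-(lam * t)) * (Real.exp ((lam * L) ^ 2)) ^ n :=
          mul_le_mul_of_nonneg_left (pow_le_pow_left₀ h3' h3 n) (Real.exp_pos _).le
      _ = Real.exp (-(lam * t) + n * (lam * L) ^ 2) := by
          rw [← Real.exp_nat_mul, ← Real.exp_add]
      _ = Real.exp (-(t ^ 2 / (4 * n * L ^ 2))) := by
          congr 1
          rw [hlam]; field_simp; ring

/-- two-sided Chernoff bound. -/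
lemma chernoff (p : ι → ℝ) (hp : ∀ i, 0 ≤ p i) (hp1 : ∑ i, p i = 1) (x : ι → ℝ) (m L : ℝ)
    (hm : ∑ i, p i * x i = m) (hL : 0 < L) (hx : ∀ i, |x i - m| ≤ L) (n : ℕ) (hn : 0 < n)
    (t : ℝ) (ht : 0 ≤ t) :
    Pr p n (fun w => t ≤ |∑ j, x (w j) - n * m|) ≤ 2 * Real.exp (-(t ^ 2 / (4 * n * L ^ 2))) := by
  have h1 := chernoff_upper p hp hp1 x m L hm hL hx n hn t ht
  have h2 := chernoff_upper p hp hp1 (fun i => -x i) (-m) L (by
      rw [← hm, ← Finset.sum_neg_distrib]; apply Finset.sum_congr rfl; intro i _; ring) hL (by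
      intro i
      have := hx i
      rwa [show -x i - -m = -(x i - m) by ring, abs_neg]) n hn t ht
  have h3 : Pr p n (fun w => t ≤ |∑ j, x (w j) - n * m|) ≤
      Pr p n (fun w => (t ≤ ∑ j, (x (w j) - m)) ∨ (t ≤ ∑ j, (-x (w j) - -m))) := by
    apply Pr_mono p hp
    intro w hw
    have e1 : ∑ j, (x (w j) - m) = ∑ j, x (w j) - n * m := by
      rw [Finset.sum_sub_distrib]; simp
    have e2 : ∑ j, (-x (w j) - -m) = -(∑ j, x (w j) - n * m) := by
      rw [← e1, ← Finset.sum_neg_distrib]; apply Finset.sum_congr rfl; intro j _; ring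
    rw [e1, e2]
    rcases le_abs.1 hw with h | h
    · left; exact h
    · right; exact h
  calc _ ≤ _ := h3
    _ ≤ _ := Pr_or p hp n _ _
    _ ≤ _ := by linarith

/-- `cnt` as a sum. -/
lemma cnt_eq_sum [DecidableEq ι] (i : ι) {n : ℕ} (w : Fin n → ι) :
    (cnt i w : ℝ) = ∑ j, (if w j = i then (1 : ℝ) else 0) := by
  induction n with
  | zero => simp [cnt]
  | succ n ih =>
    rw [Fin.sum_univ_succ]
    have := ih (Fin.tail w)
    have h2 := cnt_cons i (w 0) (Fin.tail w)
    rw [Fin.cons_self_tail] at h2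
    rw [h2]
    push_cast
    rw [this, add_comm]
    rfl

/-- TAIL (M**): words whose length functional `S` lies in `[s, s+L]` are typical. -/
theorem tail [DecidableEq ι] (p l : ι → ℝ) (hp : ∀ i, 0 < p i) (hp1 : ∑ i, p i = 1)
    (L l0 : ℝ) (hl0 : 0 < l0) (hl : ∀ i, l0 ≤ l i) (hL : ∀ i, l i ≤ L) (chi : ℝ)
    (hchi : chi = ∑ i, p i * l i) :
    ∃ C : ℝ, 0 < C ∧ ∃ s0 : ℝ, 2 ≤ s0 ∧ ∀ s : ℝ, s0 ≤ s → ∀ n : ℕ,
      Pr p n (fun w => s ≤ ∑ j, l (w j) ∧ ∑ j, l (w j) ≤ s + L ∧
        ¬ (|(n : ℝ) - s / chi| ≤ C * (Real.sqrt s * Real.log s) ∧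
          ∀ i, |(cnt i w : ℝ) - s * p i / chi| ≤ C * (Real.sqrt s * Real.log s))) ≤ 1 / s ^ 3 := by
  have hne : Nonempty ι := by
    by_contra h
    rw [not_nonempty_iff] at h
    simp at hp1
  have hp0 : ∀ i, 0 ≤ p i := fun i => (hp i).le
  have hchi0 : l0 ≤ chi := by
    rw [hchi]
    calc l0 = ∑ i, p i * l0 := by rw [← Finset.sum_mul, hp1, one_mul]
      _ ≤ _ := Finset.sum_le_sum fun i _ => mul_le_mul_of_nonneg_left (hl i) (hp0 i)
  have hchiL : chi ≤ L := by
    rw [hchi]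
    calc ∑ i, p i * l i ≤ ∑ i, p i * L :=
          Finset.sum_le_sum fun i _ => mul_le_mul_of_nonneg_left (hL i) (hp0 i)
      _ = L := by rw [← Finset.sum_mul, hp1, one_mul]
  have hchipos : 0 < chi := lt_of_lt_of_le hl0 hchi0
  have hLpos : 0 < L := lt_of_lt_of_le hchipos hchiL
  set K : ℝ := (Fintype.card ι : ℝ) with hK
  have hK1 : 1 ≤ K := by
    rw [hK]; exact_mod_cast Fintype.card_pos
  -- constants
  set L1 : ℝ := L + 1 with hL1
  have hL1pos : 0 < L1 := by linarith
  -- R with R^2 * l0 / (8 L1^2) ≥ 4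
  set R : ℝ := Real.sqrt (32 * L1 ^ 2 / l0) with hR
  have hR2 : R ^ 2 = 32 * L1 ^ 2 / l0 := Real.sq_sqrt (by positivity)
  have hRpos : 0 < R := Real.sqrt_pos.2 (by positivity)
  set C : ℝ := R + (R + L) / chi with hC
  have hCpos : 0 < C := by positivity
  refine ⟨C, hCpos, max 3 (max L (2 * (K + 1))), ?_, ?_⟩
  · exact le_trans (by norm_num) (le_max_left _ _)
  intro s hs n
  have hs3 : 3 ≤ s := le_trans (le_max_left _ _) hs
  have hsL : L ≤ s := le_trans (le_trans (le_max_left _ _) (le_max_right _ _)) hs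
  have hsK : 2 * (K + 1) ≤ s := le_trans (le_trans (le_max_right _ _) (le_max_right _ _)) hs
  have hspos : 0 < s := by linarith
  have hlog1 : 1 ≤ Real.log s := by
    rw [Real.le_log_iff_exp_le hspos]
    have := Real.exp_one_lt_d9
    linarith
  have hsqrt1 : 1 ≤ Real.sqrt s := by
    rw [Real.one_le_sqrt]; linarith
  set T : ℝ := R * (Real.sqrt s * Real.log s) with hT
  have hTpos : 0 < T := by positivity
  rcases Nat.eq_zero_or_pos n with h0 | hnpos
  · subst h0
    rw [Pr_eq_zero]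
    · positivity
    · rintro w ⟨h1, _, _⟩
      simp at h1; linarith
  have hn' : (0 : ℝ) < n := by exact_mod_cast hnpos
  rcases lt_or_ge (s + L) (n * l0) with hbig | hsmall
  · rw [Pr_eq_zero]
    · positivity
    · rintro w ⟨_, h1, _⟩
      have : ∑ _j : Fin n, l0 ≤ ∑ j, l (w j) := Finset.sum_le_sum fun j _ => hl _
      simp at this
      linarith
  have hnle : (n : ℝ) ≤ 2 * s / l0 := by
    rw [le_div_iff₀ hl0]; linarith
  -- the tail exponent
  have hexp : ∀ M : ℝ, 0 < M → M ≤ L1 →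
      Real.exp (-(T ^ 2 / (4 * n * M ^ 2))) ≤ 1 / s ^ 4 := by
    intro M hM hML
    have h1 : 4 * Real.log s ≤ T ^ 2 / (4 * n * M ^ 2) := by
      rw [le_div_iff₀ (by positivity)]
      have hT2 : T ^ 2 = 32 * L1 ^ 2 / l0 * (s * Real.log s ^ 2) := by
        rw [hT, mul_pow, mul_pow, hR2, Real.sq_sqrt hspos.le]
      rw [hT2]
      have h2 : (n : ℝ) * M ^ 2 ≤ 2 * s / l0 * L1 ^ 2 := by
        apply mul_le_mul hnle (pow_le_pow_left₀ hM.le hML 2) (by positivity) (by positivity)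
      have h3 : Real.log s ≤ Real.log s ^ 2 := by nlinarith
      calc 4 * Real.log s * (4 * n * M ^ 2) = 16 * Real.log s * (n * M ^ 2) := by ring
        _ ≤ 16 * Real.log s * (2 * s / l0 * L1 ^ 2) :=
            mul_le_mul_of_nonneg_left h2 (by positivity)
        _ = 32 * L1 ^ 2 / l0 * (s * Real.log s) := by ring
        _ ≤ 32 * L1 ^ 2 / l0 * (s * Real.log s ^ 2) := by
            apply mul_le_mul_of_nonneg_left _ (by positivity)
            exact mul_le_mul_of_nonneg_left h3 hspos.le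
    calc Real.exp (-(T ^ 2 / (4 * n * M ^ 2))) ≤ Real.exp (-(4 * Real.log s)) := by
          apply Real.exp_le_exp.2; linarith
      _ = 1 / s ^ 4 := by
          have : 4 * Real.log s = Real.log (s ^ 4) := by
            rw [Real.log_pow]; norm_num
          rw [Real.exp_neg, this, Real.exp_log (by positivity), one_div]
  have hS := chernoff p hp0 hp1 l chi L1 hchi.symm hL1pos (by
      intro i
      rw [abs_le]; constructor
      · have := hl i; linarith
      · have := hL i; linarith) n hnpos T hTpos.le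
  have hcnt : ∀ i, Pr p n (fun w => T ≤ |∑ j, (fun k => if k = i then (1 : ℝ) else 0) (w j)
      - n * p i|) ≤ 2 * Real.exp (-(T ^ 2 / (4 * n * 1 ^ 2))) := by
    intro i
    refine chernoff p hp0 hp1 (fun k => if k = i then (1 : ℝ) else 0) (p i) 1 (by simp)
      one_pos ?_ n hnpos T hTpos.le
    intro k
    have hpi : p i ≤ 1 := by
      rw [← hp1]; exact Finset.single_le_sum (fun j _ => hp0 j) (Finset.mem_univ i)
    have := hp i
    split_ifs
    · rw [abs_le]; constructor <;> linarith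
    · rw [abs_le]; constructor <;> linarith
  -- combine
  have hincl : Pr p n (fun w => s ≤ ∑ j, l (w j) ∧ ∑ j, l (w j) ≤ s + L ∧
        ¬ (|(n : ℝ) - s / chi| ≤ C * (Real.sqrt s * Real.log s) ∧
          ∀ i, |(cnt i w : ℝ) - s * p i / chi| ≤ C * (Real.sqrt s * Real.log s)))
      ≤ Pr p n (fun w => (T ≤ |∑ j, l (w j) - n * chi|) ∨
        ∃ i, T ≤ |∑ j, (fun k => if k = i then (1 : ℝ) else 0) (w j) - n * p i|) := by
    apply Pr_mono p hp0
    rintro w ⟨h1, h2, h3⟩
    by_contra hcon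
    push Not at hcon
    obtain ⟨h4, h5⟩ := hcon
    apply h3
    have hSL : 1 ≤ Real.sqrt s * Real.log s := by nlinarith
    have hnch : |(n : ℝ) * chi - s| ≤ T + L := by
      have h6 := abs_lt.1 h4
      rw [abs_le]; constructor <;> linarith
    have hnn : |(n : ℝ) - s / chi| ≤ (T + L) / chi := by
      have : (n : ℝ) - s / chi = (n * chi - s) / chi := by field_simp
      rw [this, abs_div, abs_of_pos hchipos]
      exact div_le_div_of_nonneg_right hnch hchipos.le
    have hTL : (T + L) / chi ≤ (R + L) / chi * (Real.sqrt s * Real.log s) := by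
      rw [div_mul_eq_mul_div]
      apply div_le_div_of_nonneg_right _ hchipos.le
      rw [hT]; nlinarith
    refine ⟨?_, ?_⟩
    · refine le_trans hnn (le_trans hTL ?_)
      apply mul_le_mul_of_nonneg_right _ (by positivity)
      rw [hC]; linarith
    · intro i
      have h6 := h5 i
      have hpi : p i ≤ 1 := by
        rw [← hp1]; exact Finset.single_le_sum (fun j _ => hp0 j) (Finset.mem_univ i)
      rw [cnt_eq_sum]
      have e : (∑ j, (if w j = i then (1 : ℝ) else 0)) - s * p i / chi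
          = ((∑ j, (if w j = i then (1 : ℝ) else 0)) - n * p i) + p i * ((n : ℝ) - s / chi) := by
        ring
      rw [e]
      calc _ ≤ |(∑ j, (if w j = i then (1 : ℝ) else 0)) - n * p i| + |p i * ((n : ℝ) - s / chi)| :=
            abs_add_le _ _
        _ ≤ T + 1 * ((R + L) / chi * (Real.sqrt s * Real.log s)) := by
            apply add_le_add h6.le
            rw [abs_mul, abs_of_pos (hp i)]
            exact mul_le_mul hpi (le_trans hnn hTL) (abs_nonneg _) (by norm_num)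
        _ = C * (Real.sqrt s * Real.log s) := by rw [hT, hC]; ring
  refine le_trans hincl (le_trans (Pr_or p hp0 n _ _) ?_)
  have hex := Pr_exists p hp0 n (fun (i : ι) (w : Fin n → ι) =>
    T ≤ |∑ j, (fun k => if k = i then (1 : ℝ) else 0) (w j) - n * p i|)
  have hsum : ∑ i, Pr p n (fun w => T ≤ |∑ j, (fun k => if k = i then (1 : ℝ) else 0) (w j)
      - n * p i|) ≤ ∑ _i : ι, 2 * (1 / s ^ 4) := by
    apply Finset.sum_le_sum; intro i _
    refine le_trans (hcnt i) ?_
    exact mul_le_mul_of_nonneg_left (hexp 1 one_pos (by linarith)) (by norm_num)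
  have hS' : Pr p n (fun w => T ≤ |∑ j, l (w j) - n * chi|) ≤ 2 * (1 / s ^ 4) :=
    le_trans hS (mul_le_mul_of_nonneg_left (hexp L1 hL1pos le_rfl) (by norm_num))
  calc _ ≤ 2 * (1 / s ^ 4) + ∑ _i : ι, 2 * (1 / s ^ 4) := add_le_add hS' (le_trans hex hsum)
    _ = (2 * (K + 1)) / s ^ 4 := by
        rw [Finset.sum_const, Finset.card_univ, nsmul_eq_mul, ← hK]; ring
    _ ≤ s / s ^ 4 := div_le_div_of_nonneg_right hsK (by positivity)
    _ = 1 / s ^ 3 := by field_simp

/-- no word of length `n > (s+L)/l0` has `S ≤ s + L`. -/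
lemma Pr_long_eq_zero (p l : ι → ℝ) (L l0 s : ℝ) (hl : ∀ i, l0 ≤ l i) (n : ℕ)
    (hn : s + L < n * l0) (E : (Fin n → ι) → Prop) (hE : ∀ w, E w → ∑ j, l (w j) ≤ s + L) :
    Pr p n E = 0 := by
  apply Pr_eq_zero
  intro w hw
  have h1 := hE w hw
  have : ∑ _j : Fin n, l0 ≤ ∑ j, l (w j) := Finset.sum_le_sum fun j _ => hl _
  simp at this
  linarith

/-- the total weight (over all lengths) of atypical words with `S ∈ [s, s+L]` is at most `C'/s²`. -/
theorem tail_sum [DecidableEq ι] (p l : ι → ℝ) (hp : ∀ i, 0 < p i) (hp1 : ∑ i, p i = 1)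
    (L l0 : ℝ) (hl0 : 0 < l0) (hl : ∀ i, l0 ≤ l i) (hL : ∀ i, l i ≤ L) (chi : ℝ)
    (hchi : chi = ∑ i, p i * l i) :
    ∃ C : ℝ, 0 < C ∧ ∃ s0 : ℝ, 2 ≤ s0 ∧ ∀ s : ℝ, s0 ≤ s → ∀ M : ℕ,
      ∑ n ∈ range M, Pr p n (fun w => s ≤ ∑ j, l (w j) ∧ ∑ j, l (w j) ≤ s + L ∧
        ¬ (|(n : ℝ) - s / chi| ≤ C * (Real.sqrt s * Real.log s) ∧
          ∀ i, |(cnt i w : ℝ) - s * p i / chi| ≤ C * (Real.sqrt s * Real.log s))) ≤ C / s ^ 2 := by
  obtain ⟨C, hC, s0, hs0, h⟩ := tail p l hp hp1 L l0 hl0 hl hL chi hchi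
  have hne : Nonempty ι := by
    by_contra h
    rw [not_nonempty_iff] at h
    simp at hp1
  have hLpos : 0 < L := by
    obtain ⟨i⟩ := hne
    exact lt_of_lt_of_le hl0 (le_trans (hl i) (hL i))
  have hchi0 : 0 < chi := by
    rw [hchi]
    apply Finset.sum_pos (fun i _ => mul_pos (hp i) (lt_of_lt_of_le hl0 (hl i)))
    exact Finset.univ_nonempty
  set C2 : ℝ := max C (2 / l0 + 2) with hC2
  refine ⟨C2, lt_of_lt_of_le hC (le_max_left _ _), max s0 L, le_trans hs0 (le_max_left _ _), ?_⟩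
  intro s hs M
  have hs1 : s0 ≤ s := le_trans (le_max_left _ _) hs
  have hs2 : L ≤ s := le_trans (le_max_right _ _) hs
  have hspos : 0 < s := by linarith
  have hs2' : 2 ≤ s := by linarith
  have hlog : 0 ≤ Real.log s := Real.log_nonneg (by linarith)
  have hterm : ∀ n ∈ range M, Pr p n (fun w => s ≤ ∑ j, l (w j) ∧ ∑ j, l (w j) ≤ s + L ∧
        ¬ (|(n : ℝ) - s / chi| ≤ C2 * (Real.sqrt s * Real.log s) ∧
          ∀ i, |(cnt i w : ℝ) - s * p i / chi| ≤ C2 * (Real.sqrt s * Real.log s)))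
        ≤ if n < ⌈2 * s / l0⌉₊ + 1 then 1 / s ^ 3 else 0 := by
    intro n _
    split_ifs with hn
    · refine le_trans (Pr_mono p (fun i => (hp i).le) n ?_) (h s hs1 n)
      rintro w ⟨h1, h2, h3⟩
      refine ⟨h1, h2, fun h4 => h3 ⟨le_trans h4.1 ?_, fun i => le_trans (h4.2 i) ?_⟩⟩ <;>
      · apply mul_le_mul_of_nonneg_right (le_max_left _ _) (by positivity)
    · rw [Pr_long_eq_zero p l L l0 s hl n ?_ _ (fun w hw => hw.2.1)]
      push Not at hn
      have h5 : (2 * s / l0 : ℝ) < n := by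
        calc (2 * s / l0 : ℝ) ≤ (⌈2 * s / l0⌉₊ : ℝ) := Nat.le_ceil _
          _ < ((⌈2 * s / l0⌉₊ + 1 : ℕ) : ℝ) := by push_cast; linarith
          _ ≤ n := by exact_mod_cast hn
      rw [div_lt_iff₀ hl0] at h5
      linarith
  refine le_trans (Finset.sum_le_sum hterm) ?_
  rw [← Finset.sum_filter]
  rw [Finset.sum_const, nsmul_eq_mul]
  have hcard : ((range M).filter (fun n => n < ⌈2 * s / l0⌉₊ + 1)).card ≤ ⌈2 * s / l0⌉₊ + 1 := by
    calc _ ≤ (range (⌈2 * s / l0⌉₊ + 1)).card := by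
          apply Finset.card_le_card
          intro n hn
          simp only [Finset.mem_filter, Finset.mem_range] at *
          exact hn.2
      _ = _ := Finset.card_range _
  have hc2 : ((((range M).filter (fun n => n < ⌈2 * s / l0⌉₊ + 1)).card : ℕ) : ℝ) ≤ C2 * s := by
    calc ((((range M).filter (fun n => n < ⌈2 * s / l0⌉₊ + 1)).card : ℕ) : ℝ)
        ≤ (⌈2 * s / l0⌉₊ : ℝ) + 1 := by exact_mod_cast hcard
      _ ≤ (2 * s / l0 + 1) + 1 := by
          have := (Nat.ceil_lt_add_one (show (0 : ℝ) ≤ 2 * s / l0 by positivity)).le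
          linarith
      _ ≤ (2 / l0 + 2) * s := by
          have : 2 * s / l0 = 2 / l0 * s := by ring
          rw [this]; nlinarith
      _ ≤ C2 * s := mul_le_mul_of_nonneg_right (le_max_right _ _) hspos.le
  calc _ ≤ (C2 * s) * (1 / s ^ 3) := mul_le_mul_of_nonneg_right hc2 (by positivity)
    _ = C2 / s ^ 2 := by field_simp

end Crest.Agent.R98.Mult
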