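import Crest.Agent.R98.MultFin
import Crest.Agent.R98.KStop
import Crest.Agent.R98.KConv

/-!
Row 98, CASE K, module MULT in the form needed by DET / KMain (notes 10295, 10296, 10554).
(helper566)

`mult_stp`   : `∑_{Q ∈ stp, a ≤ LL Q ≤ a + b} wtL Q ≤ C (log s)² (b + 1/q)` for `s ≥ q²`
`mult_kmain` : with `2^(K w) ≤ q`, `q² ≤ s ≤ S₁ 2^(2K(w+1))`, `b = 8/2^((K-2)w)` the sum is
               `≤ 1/2^((K-3)w)` for `w` large.
-/

set_option autoImplicit false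

namespace Crest.Agent.R98.K

open Finset

variable {ι : Type*} [Fintype ι]

/-- `q` is a good denominator for the ratio `θ` -/
def Good (θ : ℝ) (q : ℕ) : Prop :=
  ∀ h k : ℤ, h ≠ 0 → |h| < (q : ℤ) → 1 / (2 * (q : ℝ)) ≤ |(h : ℝ) * θ - k|

theorem exists_good {θ : ℝ} (hθ : Irrational θ) (Q₀ : ℕ) : ∃ q : ℕ, Q₀ ≤ q ∧ 1 ≤ q ∧ Good θ q :=
  exists_conv_mod hθ Q₀

/-- MULT for the stopped family. -/
theorem mult_stp {p ℓ : ι → ℝ} (hp : ∀ i, 0 < p i) (hp1 : ∑ i, p i = 1) {ℓ0 : ℝ} (h0 : 0 < ℓ0)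
    (hℓ : ∀ i, ℓ0 ≤ ℓ i) {i₁ i₂ : ι} (hne : i₁ ≠ i₂) :
    ∃ C : ℝ, 0 < C ∧ ∃ s0 : ℝ, 3 ≤ s0 ∧ ∀ q : ℕ, 1 ≤ q → Good (ℓ i₁ / ℓ i₂) q →
      ∀ s : ℝ, s0 ≤ s → (q : ℝ) ^ 2 ≤ s → ∀ n : ℕ, s ≤ n * ℓ0 → ∀ a b : ℝ, 0 ≤ b →
        ∑ Q ∈ (stp ℓ n s).filter (fun Q => a ≤ LL ℓ Q ∧ LL ℓ Q ≤ a + b), wtL p Q
          ≤ C * (Real.log s) ^ 2 * (b + 1 / q) := by
  classical
  obtain ⟨L, hL0, hL⟩ : ∃ L : ℝ, 0 ≤ L ∧ ∀ i, ℓ i ≤ L := by
    refine ⟨∑ i, ℓ i, Finset.sum_nonneg fun i _ => h0.le.trans (hℓ i), fun i => ?_⟩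
    exact Finset.single_le_sum (f := ℓ) (fun j _ => h0.le.trans (hℓ j)) (Finset.mem_univ i)
  obtain ⟨C, hC, s0, hs0, h⟩ := Mult.mult_conc p ℓ hp hp1 L ℓ0 h0 hℓ hL i₁ i₂ hne
  refine ⟨C, hC, s0, hs0, ?_⟩
  intro q hq hgood s hs hqs n hn a b hb
  have hs3 : 3 ≤ s := hs0.trans hs
  have hp0 : ∀ i, 0 ≤ p i := fun i => (hp i).le
  set I : Set ℝ := Set.Icc (max a s) (max a s + b) ∩ Set.Iic (s + L) with hI
  have hsub : (stp ℓ n s).filter (fun Q => a ≤ LL ℓ Q ∧ LL ℓ Q ≤ a + b) ⊆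
      (stp ℓ n s).filter (fun Q => LL ℓ Q ∈ I) := by
    intro Q hQ
    rw [Finset.mem_filter] at hQ ⊢
    obtain ⟨hQ, h2, h3⟩ := hQ
    have h4 := le_LL_of_mem hℓ h0.le hn hQ
    have h5 := LL_le_of_mem hL hL0 (by linarith) hQ
    have := le_max_left a s
    exact ⟨hQ, ⟨max_le h2 h4, by linarith⟩, h5⟩
  have hA : ∑ Q ∈ (stp ℓ n s).filter (fun Q => a ≤ LL ℓ Q ∧ LL ℓ Q ≤ a + b), wtL p Q
      ≤ ∑ Q ∈ (stp ℓ n s).filter (fun Q => LL ℓ Q ∈ I), wtL p Q :=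
        Finset.sum_le_sum_of_subset_of_nonneg hsub fun Q _ _ => wtL_nonneg hp0 Q
  have hB := stp_hit ℓ hp0 I n s
  have hC' : ∑ j ∈ range (n+1), Mult.Pr p j (fun w => ∑ k, ℓ (w k) ∈ I)
     ≤ ∑ j ∈ range (n+1), Mult.Pr p j (fun w => max a s ≤ ∑ k, ℓ (w k) ∧
          ∑ k, ℓ (w k) ≤ max a s + b ∧ ∑ k, ℓ (w k) ≤ s + L) := by
        apply Finset.sum_le_sum; intro j _
        apply Mult.Pr_mono p hp0
        rintro w ⟨⟨h2, h3⟩, h4⟩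
        exact ⟨h2, h3, h4⟩
  exact (hA.trans hB).trans (hC'.trans (h q hq hgood s hs hqs (max a s) b (le_max_right _ _) hb (n+1)))

/-- polynomial versus exponential, in the form used below -/
lemma poly_le_exp (A B : ℝ) : ∃ w0 : ℕ, ∀ w : ℕ, w0 ≤ w → A * (B * (w + 1)) ^ 2 ≤ 2 ^ w := by
  have h : Filter.Tendsto (fun n : ℕ => ((n : ℝ) ^ 2) / (2 : ℝ) ^ n) Filter.atTop (nhds 0) :=
    tendsto_pow_const_div_const_pow_of_one_lt 2 (by norm_num)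
  have hpos : (0 : ℝ) < 1 / (4 * (|A| * B ^ 2 + 1)) := by positivity
  have h2 := (h.eventually (gt_mem_nhds hpos))
  rw [Filter.eventually_atTop] at h2
  obtain ⟨w0, hw0⟩ := h2
  refine ⟨max w0 1, fun w hw => ?_⟩
  have h3 := hw0 w (le_trans (le_max_left _ _) hw)
  have hw1 : (1 : ℝ) ≤ w := by exact_mod_cast le_trans (le_max_right _ _) hw
  rw [div_lt_div_iff₀ (by positivity) (by positivity)] at h3
  have h4 : ((w : ℝ) + 1) ^ 2 ≤ 4 * w ^ 2 := by nlinarith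
  have h5 : A * (B * (w + 1)) ^ 2 ≤ (|A| * B ^ 2) * (w + 1) ^ 2 := by
    rw [mul_pow, ← mul_assoc]
    apply mul_le_mul_of_nonneg_right _ (by positivity)
    apply mul_le_mul_of_nonneg_right (le_abs_self A) (by positivity)
  have h6 : (|A| * B ^ 2) * (w + 1) ^ 2 ≤ (|A| * B ^ 2 + 1) * (4 * w ^ 2) := by
    apply mul_le_mul _ h4 (by positivity) (by positivity)
    linarith
  nlinarith

/-- MULT with the parameters of case K. -/
theorem mult_kmain {p ℓ : ι → ℝ} (hp : ∀ i, 0 < p i) (hp1 : ∑ i, p i = 1) {ℓ0 : ℝ} (h0 : 0 < ℓ0)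
    (hℓ : ∀ i, ℓ0 ≤ ℓ i) {i₁ i₂ : ι} (hne : i₁ ≠ i₂) {K : ℕ} (hK : 3 ≤ K) (S₁ : ℝ) :
    ∃ w0 : ℕ, ∀ w : ℕ, w0 ≤ w → ∀ q : ℕ, 2 ^ (K * w) ≤ q → Good (ℓ i₁ / ℓ i₂) q →
      ∀ s : ℝ, (q : ℝ) ^ 2 ≤ s → s ≤ S₁ * 2 ^ (2 * K * (w + 1)) → ∀ n : ℕ, s ≤ n * ℓ0 → ∀ a : ℝ,
        ∑ Q ∈ (stp ℓ n s).filter (fun Q => a ≤ LL ℓ Q ∧ LL ℓ Q ≤ a + 8 / 2 ^ ((K - 2) * w)),
          wtL p Q ≤ 1 / 2 ^ ((K - 3) * w) := by
  obtain ⟨C, hC, s0, hs0, h⟩ := mult_stp hp hp1 h0 hℓ hne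
  obtain ⟨w1, hw1⟩ := poly_le_exp (9 * C) (|Real.log (max S₁ 1)| + 2 * K * Real.log 2)
  obtain ⟨w2, hw2⟩ := exists_nat_gt s0
  refine ⟨max w1 w2, ?_⟩
  intro w hw q hq hgood s hqs hsS n hn a
  have hw1' := hw1 w (le_trans (le_max_left _ _) hw)
  have hw2' : w2 ≤ w := le_trans (le_max_right _ _) hw
  have hqr : (2 : ℝ) ^ (K * w) ≤ q := by exact_mod_cast hq
  have h2K : (1 : ℝ) ≤ 2 ^ (K * w) := one_le_pow₀ (by norm_num)
  have hqpos : (0 : ℝ) < q := by linarith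
  have hq1 : 1 ≤ q := by exact_mod_cast (h2K.trans hqr)
  have hss0 : s0 ≤ s := by
    have h3 : (w : ℝ) ≤ 2 ^ (K * w) := by
      calc (w : ℝ) ≤ 2 ^ w := by exact_mod_cast (Nat.lt_two_pow_self (n := w)).le
        _ ≤ 2 ^ (K * w) := pow_le_pow_right₀ (by norm_num) (by nlinarith)
    have h4 : (w2 : ℝ) ≤ w := by exact_mod_cast hw2'
    have h5 : (q : ℝ) ≤ q ^ 2 := by nlinarith
    linarith
  have hs3 : 3 ≤ s := hs0.trans hss0
  have hspos : 0 < s := by linarith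
  have h8 : (0 : ℝ) ≤ 8 / 2 ^ ((K - 2) * w) := by positivity
  refine (h q hq1 hgood s hss0 hqs n hn a _ h8).trans ?_
  -- the logarithm
  have hlog : Real.log s ≤ (|Real.log (max S₁ 1)| + 2 * K * Real.log 2) * (w + 1) := by
    have h3 : s ≤ max S₁ 1 * 2 ^ (2 * K * (w + 1)) :=
      hsS.trans (mul_le_mul_of_nonneg_right (le_max_left _ _) (by positivity))
    have hmax : (0 : ℝ) < max S₁ 1 := lt_of_lt_of_le one_pos (le_max_right _ _)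
    have h4 : Real.log s ≤ Real.log (max S₁ 1) + (2 * K * (w + 1)) * Real.log 2 := by
      calc Real.log s ≤ Real.log (max S₁ 1 * 2 ^ (2 * K * (w + 1))) :=
            Real.log_le_log hspos h3
        _ = _ := by
            rw [Real.log_mul hmax.ne' (by positivity), Real.log_pow]; push_cast; ring
    have h5 : Real.log (max S₁ 1) ≤ |Real.log (max S₁ 1)| * (w + 1) := by
      have h6 := le_abs_self (Real.log (max S₁ 1))
      have h7 : (0 : ℝ) ≤ w := Nat.cast_nonneg w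
      have h8 := abs_nonneg (Real.log (max S₁ 1))
      nlinarith
    nlinarith
  have hlog0 : 0 ≤ Real.log s := Real.log_nonneg (by linarith)
  have hlog2 : (Real.log s) ^ 2 ≤
      ((|Real.log (max S₁ 1)| + 2 * K * Real.log 2) * (w + 1)) ^ 2 :=
    pow_le_pow_left₀ hlog0 hlog 2
  have hq9 : 8 / 2 ^ ((K - 2) * w) + 1 / (q : ℝ) ≤ 9 / 2 ^ ((K - 2) * w) := by
    have h3 : 1 / (q : ℝ) ≤ 1 / 2 ^ ((K - 2) * w) := by
      apply one_div_le_one_div_of_le (by positivity)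
      refine le_trans ?_ hqr
      apply pow_le_pow_right₀ (by norm_num)
      apply Nat.mul_le_mul_right; omega
    have h4 : (9 : ℝ) / 2 ^ ((K - 2) * w) = 8 / 2 ^ ((K - 2) * w) + 1 / 2 ^ ((K - 2) * w) := by
      rw [← add_div]; norm_num
    rw [h4]; linarith
  calc C * Real.log s ^ 2 * (8 / 2 ^ ((K - 2) * w) + 1 / (q : ℝ))
      ≤ C * Real.log s ^ 2 * (9 / 2 ^ ((K - 2) * w)) :=
        mul_le_mul_of_nonneg_left hq9 (by positivity)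
    _ ≤ C * ((|Real.log (max S₁ 1)| + 2 * K * Real.log 2) * (w + 1)) ^ 2 *
          (9 / 2 ^ ((K - 2) * w)) := by
        apply mul_le_mul_of_nonneg_right _ (by positivity)
        exact mul_le_mul_of_nonneg_left hlog2 hC.le
    _ = (9 * C * ((|Real.log (max S₁ 1)| + 2 * K * Real.log 2) * (w + 1)) ^ 2) /
          2 ^ ((K - 2) * w) := by ring
    _ ≤ 2 ^ w / 2 ^ ((K - 2) * w) := div_le_div_of_nonneg_right hw1' (by positivity)
    _ = 1 / 2 ^ ((K - 3) * w) := by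
        have e : (K - 2) * w = (K - 3) * w + w := by
          have : K - 2 = (K - 3) + 1 := by omega
          rw [this]; ring
        rw [e, pow_add]
        field_simp

end Crest.Agent.R98.K
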