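import Crest.Agent.R98.KIface
import Crest.Agent.R98.KMult

/-!
Row 98, case K: `MultP` from `mult_stp` of helper566 (helper383).
-/

set_option autoImplicit false
open MeasureTheory Crest.AnalysisR Set Filter Topology Real

namespace Crest.Agent.R98.K

universe u

theorem multP : MultP.{u} := by
  classical
  intro ι _ _ r p hr hp hp1 hirr N1
  obtain ⟨i₁, i₂, hi⟩ := hirr
  have hel : ∀ i, 0 < el r i := fun i => by
    have h1 : 0 < |r i| := abs_pos.2 (hr i).1
    have := Real.log_neg h1 (hr i).2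
    unfold el; linarith
  have hθ : Irrational (el r i₁ / el r i₂) := by
    have : el r i₁ / el r i₂ = Real.log |r i₁| / Real.log |r i₂| := by
      unfold el; rw [neg_div_neg_eq]
    rw [this]; exact hi
  have hne : i₁ ≠ i₂ := by
    rintro rfl
    rw [div_self (hel i₁).ne'] at hθ
    exact hθ ⟨1, by simp⟩
  set ℓ0 := Finset.univ.inf' Finset.univ_nonempty fun i => el r i with hℓ0
  have hℓ0pos : 0 < ℓ0 := (Finset.lt_inf'_iff _).mpr fun i _ => hel i
  have hℓ0le : ∀ i, ℓ0 ≤ el r i := fun i => Finset.inf'_le _ (Finset.mem_univ i)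
  obtain ⟨C, hC, s0, hs0, hmul⟩ := mult_stp (ℓ := el r) hp hp1 hℓ0pos hℓ0le hne
  refine ⟨C, fun Q0 => ?_⟩
  obtain ⟨q, hq, hq1, hgood⟩ := exists_good hθ (max Q0 ⌈s0⌉₊)
  refine ⟨q, (le_max_left _ _).trans hq, fun s hs n hn _ a b hb => ?_⟩
  have hq1' : (1 : ℝ) ≤ q := by exact_mod_cast hq1
  have hs0q : s0 ≤ q := by
    have h1 := Nat.le_ceil s0
    have h2 : ((⌈s0⌉₊ : ℕ) : ℝ) ≤ q := by exact_mod_cast (le_max_right _ _).trans hq
    linarith
  have hs0s : s0 ≤ s := by nlinarith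
  have hn' : s ≤ n * ℓ0 := by
    obtain ⟨i, -, hi⟩ := Finset.exists_mem_eq_inf' Finset.univ_nonempty fun i => el r i
    rw [hℓ0, hi]; exact hn i
  have h1 := hmul q hq1 hgood s hs0s hs n hn' a b hb
  rw [Finset.sum_filter] at h1
  have hlog : 0 ≤ Real.log s := Real.log_nonneg (by linarith)
  refine h1.trans ?_
  have h2 : Real.log s ^ 2 ≤ (1 + Real.log s) ^ 3 := by nlinarith [sq_nonneg (Real.log s), mul_nonneg hlog (sq_nonneg (Real.log s))]
  have h3 : (0 : ℝ) ≤ b + 1 / q := by positivity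
  gcongr

end Crest.Agent.R98.K
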