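import Crest.Agent.R98.KOneP
import Crest.Agent.R98.KG1
import Crest.Agent.R98.KG2
import Crest.Agent.R98.KG3
import Crest.Agent.R98.KFinal
import Crest.Agent.R98.KMultP
import Crest.Agent.R98.KMain

/-!
Row 98: CASE K complete (helper383).
-/

set_option autoImplicit false

namespace Crest.Agent.R98.K

universe u

/-- CASE K of row 98 -/
theorem kmain_full : KMain.{u} :=
  kmain_of oneP (gammaP_of g1 g2 g3) finalP multP

end Crest.Agent.R98.K
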