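/-
Row 98: the macro lemma for the two-point law (helper290's note 9947, (0)).
-/
import Mathlib
import Crest.Agent.R98.Ent3

set_option linter.unusedVariables false
set_option linter.unusedSectionVars false

open MeasureTheory Set Real Filter
open scoped ENNReal Topology

namespace Crest.Agent.R98

section gibbs

/-- lower bound of the entropy by the largest cell -/
theorem Hs_ge_of_cell_le {μ : Measure ℝ} [IsProbabilityMeasure μ] (hμ : BSupp μ) {d M : ℝ}
    (hd : 0 < d) (hM : ∀ y, μ.real (Ico y (y + d)) ≤ M) : -log M ≤ Hs μ d := by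
  have h1 : ∫ y, μ.real (Ico y (y + d)) * (-log M) ≤ ∫ y, negMulLog (μ.real (Ico y (y + d))) := by
    refine integral_mono ((integrable_cell hμ d).mul_const _) (integrable_negMulLog_cell hμ d) ?_
    intro y
    simp only
    rcases (measureReal_nonneg (μ := μ) (s := Ico y (y + d))).eq_or_lt with h | h
    · rw [← h]; simp
    · have := log_le_log h (hM y)
      unfold negMulLog
      nlinarith
  rw [integral_mul_const, integral_cell hd.le, probReal_univ, mul_one] at h1
  unfold Hs
  calc -log M = (1 / d) * (d * -log M) := by field_simp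
    _ ≤ _ := mul_le_mul_of_nonneg_left h1 (by positivity)

/-- Gibbs' inequality, pointwise -/
theorem negMulLog_le_gibbs {f : ℝ} (hf : 0 ≤ f) (φ : ℝ) :
    negMulLog f ≤ f * φ + exp (-φ) - f := by
  rcases hf.eq_or_lt with h | h
  · rw [← h]; simp; exact (exp_pos _).le
  · have h1 := log_le_sub_one_of_pos (show 0 < exp (-φ) / f by positivity)
    rw [log_div (exp_pos _).ne' h.ne', log_exp] at h1
    have h2 := mul_le_mul_of_nonneg_left h1 h.le
    have h3 : f * (exp (-φ) / f - 1) = exp (-φ) - f := by field_simp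
    rw [h3] at h2
    unfold negMulLog
    nlinarith

theorem integral_gauss_shift {d : ℝ} (hd : 0 < d) (c : ℝ) :
    ∫ y : ℝ, exp (-((y - c) / d) ^ 2) = d * √π := by
  have h1 := integral_sub_right_eq_self (fun y : ℝ => exp (-(1 / d ^ 2) * y ^ 2)) c (μ := volume)
  rw [integral_gaussian] at h1
  have h2 : (fun y : ℝ => exp (-((y - c) / d) ^ 2)) =
      fun y => exp (-(1 / d ^ 2) * (y - c) ^ 2) := by
    funext y; congr 1; field_simp
  rw [h2, h1]
  have h3 : π / (1 / d ^ 2) = d ^ 2 * π := by field_simp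
  rw [h3, sqrt_mul (by positivity), sqrt_sq hd.le]

theorem integrable_gauss_shift {d : ℝ} (hd : 0 < d) (c : ℝ) :
    Integrable fun y : ℝ => exp (-((y - c) / d) ^ 2) := by
  have h1 := (integrable_exp_neg_mul_sq (show 0 < 1 / d ^ 2 by positivity)).comp_sub_right c
  have h2 : (fun y : ℝ => exp (-((y - c) / d) ^ 2)) =
      fun y => exp (-(1 / d ^ 2) * (y - c) ^ 2) := by
    funext y; congr 1; field_simp
  rw [h2]; exact h1

end gibbs

section binomial

/-- the binomial weights -/
noncomputable def bw (k : ℕ) (j : Fin (k + 1)) : ℝ := (k.choose j : ℝ) / 2 ^ k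

theorem bw_nonneg (k : ℕ) (j : Fin (k + 1)) : 0 ≤ bw k j := by unfold bw; positivity

theorem sum_bw (k : ℕ) : ∑ j, bw k j = 1 := by
  unfold bw
  rw [Fin.sum_univ_eq_sum_range (fun j => (k.choose j : ℝ) / 2 ^ k), ← Finset.sum_div]
  have := Nat.sum_range_choose k
  have h2 : ∑ j ∈ Finset.range (k + 1), (k.choose j : ℝ) = 2 ^ k := by exact_mod_cast this
  rw [h2, div_self (by positivity)]

/-- the variance -/
theorem sum_bw_sq (k : ℕ) :
    ∑ j : Fin (k + 1), bw k j * (((j : ℕ) : ℝ) - (k : ℝ) / 2) ^ 2 = (k : ℝ) / 4 := by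
  have h := congrArg (Polynomial.eval (1 / 2 : ℝ)) (bernsteinPolynomial.variance (R := ℝ) k)
  rw [Polynomial.eval_finsetSum] at h
  unfold bw
  rw [Fin.sum_univ_eq_sum_range (fun j => (k.choose j : ℝ) / 2 ^ k * ((j : ℝ) - (k : ℝ) / 2) ^ 2)]
  simp only [bernsteinPolynomial, Polynomial.eval_mul, Polynomial.eval_pow, Polynomial.eval_sub,
    Polynomial.eval_X, Polynomial.eval_natCast, Polynomial.eval_one,
    nsmul_eq_mul] at h
  have h2 : ∀ j ∈ Finset.range (k + 1), ((k : ℝ) * (1 / 2) - j) ^ 2 *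
      ((k.choose j : ℝ) * (1 / 2) ^ j * (1 - 1 / 2) ^ (k - j)) =
      (k.choose j : ℝ) / 2 ^ k * ((j : ℝ) - k / 2) ^ 2 := by
    intro j hj
    have hjk : j ≤ k := by simpa [Nat.lt_succ_iff] using hj
    have h3 : (1 / 2 : ℝ) ^ j * (1 - 1 / 2) ^ (k - j) = 1 / 2 ^ k := by
      rw [show (1 - 1 / 2 : ℝ) = 1 / 2 by norm_num, ← pow_add, Nat.add_sub_cancel' hjk]
      rw [one_div_pow]
    rw [mul_assoc ((k.choose j : ℝ)), h3]
    ring
  rw [Finset.sum_congr rfl h2] at h
  rw [h]; ring

theorem centralBinom_sq_le (n : ℕ) : (n.centralBinom) ^ 2 * (2 * n + 1) ≤ 16 ^ n := by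
  induction n with
  | zero => simp
  | succ n ih =>
    have h := Nat.succ_mul_centralBinom_succ n
    have h1 : (n + 1) ^ 2 * ((n + 1).centralBinom ^ 2 * (2 * (n + 1) + 1)) ≤
        (n + 1) ^ 2 * 16 ^ (n + 1) := by
      calc (n + 1) ^ 2 * ((n + 1).centralBinom ^ 2 * (2 * (n + 1) + 1))
          = ((n + 1) * (n + 1).centralBinom) ^ 2 * (2 * (n + 1) + 1) := by ring
        _ = (2 * (2 * n + 1) * n.centralBinom) ^ 2 * (2 * (n + 1) + 1) := by rw [h]
        _ = (n.centralBinom ^ 2 * (2 * n + 1)) * (4 * (2 * n + 1) * (2 * n + 3)) := by ring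
        _ ≤ 16 ^ n * (4 * (2 * n + 1) * (2 * n + 3)) := Nat.mul_le_mul_right _ ih
        _ ≤ 16 ^ n * ((n + 1) ^ 2 * 16) := Nat.mul_le_mul_left _ (by nlinarith)
        _ = (n + 1) ^ 2 * 16 ^ (n + 1) := by ring
    exact Nat.le_of_mul_le_mul_left h1 (by positivity)

theorem bw_le {K : ℕ} (hK : 0 < K) (j : Fin (4 * K ^ 2 + 1)) : bw (4 * K ^ 2) j ≤ 1 / (2 * K) := by
  unfold bw
  have h1 : (4 * K ^ 2).choose j ≤ (2 * K ^ 2).centralBinom := by
    have := Nat.choose_le_centralBinom j (2 * K ^ 2)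
    rwa [show 2 * (2 * K ^ 2) = 4 * K ^ 2 by ring] at this
  have h2 := centralBinom_sq_le (2 * K ^ 2)
  have h3 : ((2 * K ^ 2).centralBinom * (2 * K)) ^ 2 ≤ (2 ^ (4 * K ^ 2)) ^ 2 := by
    calc ((2 * K ^ 2).centralBinom * (2 * K)) ^ 2
        = (2 * K ^ 2).centralBinom ^ 2 * (4 * K ^ 2) := by ring
      _ ≤ (2 * K ^ 2).centralBinom ^ 2 * (2 * (2 * K ^ 2) + 1) :=
          Nat.mul_le_mul_left _ (by omega)
      _ ≤ 16 ^ (2 * K ^ 2) := h2
      _ = (2 ^ (4 * K ^ 2)) ^ 2 := by
          rw [show (16 : ℕ) = 2 ^ 4 by norm_num, ← pow_mul, ← pow_mul]; congr 1; ring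
  have h4 : (2 * K ^ 2).centralBinom * (2 * K) ≤ 2 ^ (4 * K ^ 2) :=
    (Nat.pow_le_pow_iff_left two_ne_zero).mp h3
  have h5 : (((4 * K ^ 2).choose j : ℕ) : ℝ) * (2 * K) ≤ 2 ^ (4 * K ^ 2) := by
    have : (4 * K ^ 2).choose j * (2 * K) ≤ 2 ^ (4 * K ^ 2) :=
      (Nat.mul_le_mul_right _ h1).trans h4
    exact_mod_cast this
  have hK' : (0 : ℝ) < K := by exact_mod_cast hK
  rw [div_le_div_iff₀ (by positivity) (by positivity)]
  linarith

/-- the two-point law -/
noncomputable def twoLaw (e : ℝ) : FLaw where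
  n := 2
  q := fun _ => 1 / 2
  s := ![0, e]
  nonneg := fun _ => by norm_num
  sum_one := by simp

/-- the binomial law with step `e` -/
noncomputable def binLaw (k : ℕ) (e : ℝ) : FLaw where
  n := k + 1
  q := bw k
  s := fun j => (j : ℕ) * e
  nonneg := bw_nonneg k
  sum_one := sum_bw k

theorem two_add_real (e : ℝ) (B : Measure ℝ) [IsFiniteMeasure B] (A : Set ℝ) :
    ((twoLaw e).add B).real A = 1 / 2 * (shift 0 B).real A + 1 / 2 * (shift e B).real A := by
  unfold FLaw.add addLaw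
  rw [mix_real (twoLaw e).nonneg]
  change (∑ j : Fin 2, 1 / 2 * (shift (![0, e] j) B).real A) = _
  rw [Fin.sum_univ_two]
  simp

theorem shift_real' (s : ℝ) (B : Measure ℝ) {A : Set ℝ} (hA : MeasurableSet A) :
    (shift s B).real A = B.real ((fun x => x + s) ⁻¹' A) := by
  unfold shift
  rw [Measure.real, Measure.map_apply (by fun_prop) hA]; rfl

theorem bin_add_real (k : ℕ) (e : ℝ) (B : Measure ℝ) [IsFiniteMeasure B] (A : Set ℝ) :
    ((binLaw k e).add B).real A =
      ∑ j ∈ Finset.range (k + 1), (k.choose j : ℝ) / 2 ^ k * (shift (j * e) B).real A := by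
  unfold FLaw.add addLaw
  rw [mix_real (binLaw k e).nonneg]
  change (∑ j : Fin (k + 1), (k.choose j : ℝ) / 2 ^ k * (shift (((j : ℕ) : ℝ) * e) B).real A) = _
  rw [Fin.sum_univ_eq_sum_range
    (fun j => (k.choose j : ℝ) / 2 ^ k * (shift ((j : ℝ) * e) B).real A)]

theorem real_ext {A B : Measure ℝ} [IsFiniteMeasure A] [IsFiniteMeasure B]
    (h : ∀ s, MeasurableSet s → A.real s = B.real s) : A = B := by
  refine Measure.ext fun s hs => ?_
  rw [← ENNReal.ofReal_toReal (measure_ne_top A s), ← ENNReal.ofReal_toReal (measure_ne_top B s)]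
  exact congrArg ENNReal.ofReal (h s hs)

theorem two_add_bin (k : ℕ) (e : ℝ) (B : Measure ℝ) [IsFiniteMeasure B] :
    (twoLaw e).add ((binLaw k e).add B) = (binLaw (k + 1) e).add B := by
  refine real_ext fun A hA => ?_
  rw [two_add_real, bin_add_real, shift_zero, bin_add_real, shift_real' _ _ hA, bin_add_real]
  have h1 : ∀ j : ℕ, (shift ((j : ℝ) * e) B).real ((fun x => x + e) ⁻¹' A) =
      (shift (((j + 1 : ℕ) : ℝ) * e) B).real A := by
    intro j
    rw [shift_real' _ _ hA, shift_real' _ _ (hA.preimage (by fun_prop))]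
    congr 1
    ext x
    simp only [mem_preimage]
    rw [show x + (j : ℝ) * e + e = x + ((j + 1 : ℕ) : ℝ) * e by push_cast; ring]
  simp only [h1]
  set G : ℕ → ℝ := fun j => (shift ((j : ℝ) * e) B).real A with hG
  change 1 / 2 * ∑ j ∈ Finset.range (k + 1), (k.choose j : ℝ) / 2 ^ k * G j +
      1 / 2 * ∑ j ∈ Finset.range (k + 1), (k.choose j : ℝ) / 2 ^ k * G (j + 1) =
    ∑ j ∈ Finset.range (k + 1 + 1), ((k + 1).choose j : ℝ) / 2 ^ (k + 1) * G j
  have h2 : ∑ j ∈ Finset.range (k + 1 + 1), ((k + 1).choose j : ℝ) * G j =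
      ∑ j ∈ Finset.range (k + 1), (k.choose j : ℝ) * G j +
        ∑ j ∈ Finset.range (k + 1), (k.choose j : ℝ) * G (j + 1) := by
    rw [Finset.sum_range_succ' _ (k + 1)]
    simp only [Nat.choose_succ_succ, Nat.choose_zero_right, Nat.cast_add, add_mul,
      Finset.sum_add_distrib]
    have h3 : ∑ j ∈ Finset.range (k + 1), (k.choose j : ℝ) * G j =
        ∑ j ∈ Finset.range (k + 1), (k.choose (j + 1) : ℝ) * G (j + 1) +
          (k.choose 0 : ℝ) * G 0 := by
      rw [← Finset.sum_range_succ' (fun j => (k.choose j : ℝ) * G j), Finset.sum_range_succ,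
        Finset.sum_range_succ _ (k + 1)]
      simp [Finset.sum_range_succ]
    rw [h3]
    simp only [Nat.choose_zero_right, Nat.succ_eq_add_one]
    ring
  have h4 : ∀ (m : ℕ) (a : ℝ) (F : ℕ → ℝ) (c : ℕ → ℝ),
      ∑ j ∈ Finset.range m, c j / a * F j = (∑ j ∈ Finset.range m, c j * F j) / a := by
    intro m a F c
    rw [Finset.sum_div]
    exact Finset.sum_congr rfl fun j _ => by ring
  rw [h4 _ _ G, h4 _ _ (fun j => G (j + 1)), h4 _ _ G, h2, pow_succ]
  field_simp

theorem addList_two (k : ℕ) (e : ℝ) (B : Measure ℝ) [IsFiniteMeasure B] :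
    addList (List.replicate k (twoLaw e)) B = (binLaw k e).add B := by
  induction k with
  | zero =>
    rw [List.replicate_zero, addList_nil]
    refine real_ext fun A hA => ?_
    rw [bin_add_real]
    simp [shift_zero]
  | succ k ih => rw [List.replicate_succ, addList_cons, ih, two_add_bin]

theorem bin_law_real (k : ℕ) (e y d : ℝ) :
    (binLaw k e).law.real (Ico y (y + d)) =
      ∑ j : Fin (k + 1), bw k j * (Ioc ((j : ℕ) * e - d) ((j : ℕ) * e)).indicator 1 y := by
  unfold FLaw.law addLaw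
  rw [mix_real (binLaw k e).nonneg]
  simp only [binLaw]
  refine Finset.sum_congr rfl fun j _ => ?_
  congr 1
  rw [shift_real, Measure.real, Measure.dirac_apply' _ measurableSet_Ico]
  by_cases h : y ∈ Ioc ((j : ℕ) * e - d) ((j : ℕ) * e)
  · rw [indicator_of_mem h, indicator_of_mem]
    · simp
    · exact ⟨by linarith [h.2], by linarith [h.1]⟩
  · rw [indicator_of_notMem h, indicator_of_notMem]
    · simp
    · intro h'
      exact h ⟨by linarith [h'.2], by linarith [h'.1]⟩

/-- the fine entropy of the binomial law -/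
theorem Hs_bin_ge {K : ℕ} (hK : 0 < K) {e d : ℝ} (hd : 0 < d) (hde : d ≤ e) :
    log (2 * K) ≤ Hs (binLaw (4 * K ^ 2) e).law d := by
  have hK' : (0 : ℝ) < K := by exact_mod_cast hK
  have h := Hs_ge_of_cell_le (M := 1 / (2 * K)) (binLaw (4 * K ^ 2) e).bsupp hd ?_
  · rw [one_div, log_inv, neg_neg] at h; exact h
  intro y
  rw [bin_law_real]
  by_cases hex : ∃ j : Fin (4 * K ^ 2 + 1), y ∈ Ioc ((j : ℕ) * e - d) ((j : ℕ) * e)
  · obtain ⟨j, hj⟩ := hex
    rw [Finset.sum_eq_single j]
    · rw [indicator_of_mem hj]; simpa using bw_le hK j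
    · intro i _ hij
      rw [indicator_of_notMem, mul_zero]
      intro hi
      apply hij
      have h1 : ((i : ℕ) : ℝ) * e - d < (j : ℕ) * e := hi.1.trans_le hj.2
      have h2 : ((j : ℕ) : ℝ) * e - d < (i : ℕ) * e := hj.1.trans_le hi.2
      have he : 0 < e := hd.trans_le hde
      have h3 : ((i : ℕ) : ℝ) < (j : ℕ) + 1 := by
        have : ((i : ℕ) : ℝ) * e < ((j : ℕ) + 1) * e := by linarith
        exact lt_of_mul_lt_mul_right this he.le
      have h4 : ((j : ℕ) : ℝ) < (i : ℕ) + 1 := by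
        have : ((j : ℕ) : ℝ) * e < ((i : ℕ) + 1) * e := by linarith
        exact lt_of_mul_lt_mul_right this he.le
      have h5 : (i : ℕ) < (j : ℕ) + 1 := by exact_mod_cast h3
      have h6 : (j : ℕ) < (i : ℕ) + 1 := by exact_mod_cast h4
      exact Fin.ext (by omega)
    · intro h; exact absurd (Finset.mem_univ _) h
  · push Not at hex
    rw [Finset.sum_eq_zero fun j _ => by rw [indicator_of_notMem (hex j), mul_zero]]
    positivity

/-- the coarse entropy of the binomial law -/
theorem Hs_bin_le {K : ℕ} (hK : 0 < K) {e D : ℝ} (he : 0 ≤ e) (hD : 0 < D) (heD : K * e ≤ 2 * D) :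
    Hs (binLaw (4 * K ^ 2) e).law D ≤ 11 := by
  set k := 4 * K ^ 2 with hk
  set c : ℝ := (k : ℝ) / 2 * e with hc
  set f : ℝ → ℝ := fun y => (binLaw k e).law.real (Ico y (y + D)) with hf
  have hbs := (binLaw k e).bsupp
  set g : ℝ → ℝ := fun y => ∑ j : Fin (k + 1),
    bw k j * ((2 * (((j : ℕ) : ℝ) * e - c) ^ 2 / D ^ 2 + 2) *
      (Ioc ((j : ℕ) * e - D) ((j : ℕ) * e)).indicator 1 y) with hg
  have hgint1 : ∀ j : Fin (k + 1), Integrable
      ((Ioc (((j : ℕ) : ℝ) * e - D) ((j : ℕ) * e)).indicator (1 : ℝ → ℝ)) := by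
    intro j
    rw [integrable_indicator_iff measurableSet_Ioc]
    exact integrableOn_const (by simp)
  have hgint : Integrable g := integrable_finsetSum _ fun j _ =>
    ((hgint1 j).const_mul _).const_mul _
  have h1 : ∀ y, negMulLog (f y) ≤ g y + exp (-((y - c) / D) ^ 2) - f y := by
    intro y
    have h2 := negMulLog_le_gibbs (f := f y) measureReal_nonneg (((y - c) / D) ^ 2)
    have h3 : f y * ((y - c) / D) ^ 2 ≤ g y := by
      simp only [hf, hg]
      rw [bin_law_real, Finset.sum_mul]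
      refine Finset.sum_le_sum fun j _ => ?_
      rw [mul_assoc]
      refine mul_le_mul_of_nonneg_left ?_ (bw_nonneg k j)
      by_cases hy : y ∈ Ioc (((j : ℕ) : ℝ) * e - D) ((j : ℕ) * e)
      · rw [indicator_of_mem hy]
        simp only [Pi.one_apply, one_mul, mul_one]
        have h4 : 2 * (((j : ℕ) : ℝ) * e - c) ^ 2 / D ^ 2 + 2 =
            (2 * (((j : ℕ) : ℝ) * e - c) ^ 2 + 2 * D ^ 2) / D ^ 2 := by field_simp
        rw [h4, div_pow]
        refine div_le_div_of_nonneg_right ?_ (by positivity)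
        nlinarith [hy.1, hy.2, sq_nonneg ((((j : ℕ) : ℝ) * e - c) + (((j : ℕ) : ℝ) * e - y)),
          sq_nonneg ((((j : ℕ) : ℝ) * e - c) - (((j : ℕ) : ℝ) * e - y)),
          mul_nonneg (sub_nonneg.mpr hy.2) (sub_nonneg.mpr hy.1.le)]
      · rw [indicator_of_notMem hy]; simp
    linarith
  have h5 : ∫ y, negMulLog (f y) ≤ ∫ y, (g y + exp (-((y - c) / D) ^ 2) - f y) :=
    integral_mono (integrable_negMulLog_cell hbs D)
      ((hgint.add (integrable_gauss_shift hD c)).sub (integrable_cell hbs D)) h1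
  have h6 : ∫ y, (g y + exp (-((y - c) / D) ^ 2) - f y) =
      (∫ y, g y) + D * √π - D := by
    have e1 := integral_sub (hgint.add (integrable_gauss_shift hD c)) (integrable_cell hbs D)
    have e2 := integral_add hgint (integrable_gauss_shift hD c)
    rw [integral_cell hD.le, probReal_univ, mul_one] at e1
    rw [integral_gauss_shift hD] at e2
    simp only [Pi.add_apply] at e1
    rw [← e2]; exact e1
  have h7 : ∫ y, g y = D * (2 * ((K : ℝ) * e) ^ 2 / D ^ 2 + 2) := by
    simp only [hg]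
    rw [integral_finsetSum _ fun j _ => ((hgint1 j).const_mul _).const_mul _]
    simp only [integral_const_mul]
    have e3 : ∀ j : Fin (k + 1), ∫ y, (Ioc (((j : ℕ) : ℝ) * e - D) ((j : ℕ) * e)).indicator
        (1 : ℝ → ℝ) y = D := by
      intro j
      rw [integral_indicator_one measurableSet_Ioc, Measure.real, Real.volume_Ioc]
      rw [show ((j : ℕ) : ℝ) * e - (((j : ℕ) : ℝ) * e - D) = D by ring, ENNReal.toReal_ofReal hD.le]
    simp only [e3]
    have e4 : ∀ j : Fin (k + 1), bw k j * ((2 * (((j : ℕ) : ℝ) * e - c) ^ 2 / D ^ 2 + 2) * D) =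
        (2 * e ^ 2 / D) * (bw k j * (((j : ℕ) : ℝ) - (k : ℝ) / 2) ^ 2) + 2 * D * bw k j := by
      intro j
      simp only [hc]
      field_simp
    simp only [e4]
    rw [Finset.sum_add_distrib, ← Finset.mul_sum, ← Finset.mul_sum, sum_bw_sq, sum_bw]
    simp only [hk]
    push_cast
    field_simp
  have h8 : √π ≤ 2 := by
    rw [sqrt_le_left (by norm_num)]; linarith [pi_le_four]
  have h9 : 2 * ((K : ℝ) * e) ^ 2 / D ^ 2 ≤ 8 := by
    rw [div_le_iff₀ (by positivity)]
    have : (K * e) ^ 2 ≤ (2 * D) ^ 2 := by gcongr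
    nlinarith
  have h10 : Hs (binLaw k e).law D ≤ 1 / D * ((∫ y, g y) + D * √π - D) := by
    unfold Hs
    refine mul_le_mul_of_nonneg_left ?_ (by positivity)
    rw [← h6]; exact h5
  rw [h7] at h10
  have h11 : 1 / D * (D * (2 * ((K : ℝ) * e) ^ 2 / D ^ 2 + 2) + D * √π - D) =
      2 * ((K : ℝ) * e) ^ 2 / D ^ 2 + 2 + √π - 1 := by field_simp
  rw [h11] at h10
  linarith

end binomial

section coarse

theorem jfun_half_le' {a b : ℝ} (ha : 0 ≤ a) (hab : a ≤ b) (v : Fin 2 → ℝ)
    (hv : v = ![a, b] ∨ v = ![b, a]) :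
    jfun (fun _ : Fin 2 => (1 / 2 : ℝ)) v ≤ log 2 / 2 * (b - a) := by
  have hz : ∀ c : ℝ, negMulLog (c / 2) = c / 2 * log 2 + 1 / 2 * negMulLog c := by
    intro c
    rw [div_eq_mul_inv, negMulLog_mul]
    simp only [negMulLog, log_inv]
    ring
  rcases hv with rfl | rfl
  · have h := jfun_sum_le (p := fun _ : Fin 2 => (1 / 2 : ℝ)) (fun _ => by norm_num)
      (u := ![![a, a], ![0, b - a]]) (by
        intro k i
        fin_cases k <;> fin_cases i <;> simp <;> linarith)
    have e1 : (fun i => ∑ k, (![![a, a], ![0, b - a]] : Fin 2 → Fin 2 → ℝ) k i) = ![a, b] := by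
      funext i
      fin_cases i <;> simp [Fin.sum_univ_two]
    rw [e1] at h
    refine h.trans ?_
    simp only [jfun, Fin.sum_univ_two, Matrix.cons_val_zero, Matrix.cons_val_one, mul_zero,
      negMulLog_zero, zero_add]
    rw [show 1 / 2 * a + 1 / 2 * a = a by ring, show 1 / 2 * (b - a) = (b - a) / 2 by ring, hz]
    linarith
  · have h := jfun_sum_le (p := fun _ : Fin 2 => (1 / 2 : ℝ)) (fun _ => by norm_num)
      (u := ![![a, a], ![b - a, 0]]) (by
        intro k i
        fin_cases k <;> fin_cases i <;> simp <;> linarith)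
    have e1 : (fun i => ∑ k, (![![a, a], ![b - a, 0]] : Fin 2 → Fin 2 → ℝ) k i) = ![b, a] := by
      funext i
      fin_cases i <;> simp [Fin.sum_univ_two]
    rw [e1] at h
    refine h.trans ?_
    simp only [jfun, Fin.sum_univ_two, Matrix.cons_val_zero, Matrix.cons_val_one, mul_zero,
      negMulLog_zero, add_zero]
    rw [show 1 / 2 * a + 1 / 2 * a = a by ring, show 1 / 2 * (b - a) = (b - a) / 2 by ring, hz]
    linarith

theorem jfun_half_le {a b : ℝ} (ha : 0 ≤ a) (hb : 0 ≤ b) :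
    jfun (fun _ : Fin 2 => (1 / 2 : ℝ)) ![a, b] ≤ log 2 / 2 * |b - a| := by
  rcases le_total a b with h | h
  · rw [abs_of_nonneg (by linarith)]
    exact jfun_half_le' ha h _ (Or.inl rfl)
  · rw [abs_of_nonpos (by linarith), neg_sub]
    exact jfun_half_le' hb h _ (Or.inr rfl)

/-- total variation of a small shift, on cells -/
theorem integral_abs_shift_le {B : Measure ℝ} [IsProbabilityMeasure B] (hB : BSupp B) {e D : ℝ}
    (he : 0 ≤ e) :
    ∫ y, |B.real (Ico (y - e) (y - e + D)) - B.real (Ico y (y + D))| ≤ 2 * e := by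
  have i1 : Integrable fun y => B.real (Ico (y - e) (y - e + e)) :=
    (integrable_cell hB e).comp_sub_right e
  have i2 : Integrable fun y => B.real (Ico (y + (D - e)) (y + (D - e) + e)) :=
    (integrable_cell hB e).comp_add_right (D - e)
  have h1 : ∀ y, |B.real (Ico (y - e) (y - e + D)) - B.real (Ico y (y + D))| ≤
      B.real (Ico (y - e) (y - e + e)) + B.real (Ico (y + (D - e)) (y + (D - e) + e)) := by
    intro y
    rw [abs_le]
    constructor
    · have h2 : B.real (Ico y (y + D)) ≤ B.real (Ico (y - e) (y - e + D)) +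
          B.real (Ico (y + (D - e)) (y + (D - e) + e)) := by
        refine (measureReal_mono ?_).trans (measureReal_union_le _ _)
        intro x hx
        rcases lt_or_ge x (y + (D - e)) with h | h
        · exact Or.inl ⟨by linarith [hx.1], by linarith⟩
        · exact Or.inr ⟨h, by linarith [hx.2]⟩
      have h3 : 0 ≤ B.real (Ico (y - e) (y - e + e)) := measureReal_nonneg
      linarith
    · have h2 : B.real (Ico (y - e) (y - e + D)) ≤ B.real (Ico (y - e) (y - e + e)) +
          B.real (Ico y (y + D)) := by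
        refine (measureReal_mono ?_).trans (measureReal_union_le _ _)
        intro x hx
        rcases lt_or_ge x y with h | h
        · exact Or.inl ⟨hx.1, by linarith⟩
        · exact Or.inr ⟨h, by linarith [hx.2]⟩
      have h3 : 0 ≤ B.real (Ico (y + (D - e)) (y + (D - e) + e)) := measureReal_nonneg
      linarith
  have h4 : ∫ y, |B.real (Ico (y - e) (y - e + D)) - B.real (Ico y (y + D))| ≤
      ∫ y, (B.real (Ico (y - e) (y - e + e)) + B.real (Ico (y + (D - e)) (y + (D - e) + e))) :=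
    integral_mono (((integrable_cell hB D).comp_sub_right e).sub (integrable_cell hB D)).abs
      (i1.add i2) h1
  rw [integral_add i1 i2, integral_sub_right_eq_self (fun y => B.real (Ico y (y + e))) e,
    integral_add_right_eq_self (fun y => B.real (Ico y (y + e))) (D - e), integral_cell he,
    probReal_univ] at h4
  linarith

/-- the coarse gain is trivial -/
theorem gain_two_le {B : Measure ℝ} [IsProbabilityMeasure B] (hB : BSupp B) {e D : ℝ}
    (he : 0 ≤ e) (hD : 0 < D) :
    Hs (addLaw (fun _ : Fin 2 => (1 / 2 : ℝ)) ![0, e] B) D - Hs B D ≤ e * log 2 / D := by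
  rw [Hs_addLaw_sub (by simp), J_eq (fun _ => by norm_num) (fun k => hB.shift _)]
  have h1 : ∀ y, jfun (fun _ : Fin 2 => (1 / 2 : ℝ))
      (fun i => (shift ((![0, e] : Fin 2 → ℝ) i) B).real (Ico y (y + D))) ≤
      log 2 / 2 * |B.real (Ico (y - e) (y - e + D)) - B.real (Ico y (y + D))| := by
    intro y
    have h2 := jfun_half_le (a := B.real (Ico y (y + D))) (b := B.real (Ico (y - e) (y - e + D)))
      measureReal_nonneg measureReal_nonneg
    have h3 : (fun i => (shift ((![0, e] : Fin 2 → ℝ) i) B).real (Ico y (y + D))) =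
        ![B.real (Ico y (y + D)), B.real (Ico (y - e) (y - e + D))] := by
      funext i
      rw [shift_real]
      fin_cases i <;> simp
    rw [h3]; exact h2
  have h4 := integral_mono (integrable_jfun (fun _ => by norm_num) (fun k => hB.shift _) D)
    ((((integrable_cell hB D).comp_sub_right e).sub (integrable_cell hB D)).abs.const_mul
      (log 2 / 2)) h1
  rw [integral_const_mul] at h4
  have h5 := integral_abs_shift_le hB he (D := D)
  have h6 : 0 ≤ log 2 / 2 := div_nonneg (log_nonneg (by norm_num)) (by norm_num)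
  have h7 := h4.trans (mul_le_mul_of_nonneg_left h5 h6)
  calc _ ≤ 1 / D * (log 2 / 2 * (2 * e)) := mul_le_mul_of_nonneg_left h7 (by positivity)
    _ = e * log 2 / D := by field_simp

end coarse

section macroSec

/-- **Macro lemma**: a base with a uniform deficit gains a definite amount in a bounded window of
scales from a fair coin of size `e`. -/
theorem macro_raw {K : ℕ} (hK : 0 < K) {B : Measure ℝ} [IsProbabilityMeasure B] (hB : BSupp B)
    (hdef : ∀ d, 0 < d → Hs B d - Hs B (K * d) ≤ log K - 12) {r e : ℝ} (hr : 0 < r)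
    (h1 : r ≤ e) (h2 : e < 2 * r) :
    1 / (8 * (K : ℝ) ^ 2) ≤
      (Hs (addLaw (fun _ : Fin 2 => (1 / 2 : ℝ)) ![0, e] B) r -
        Hs (addLaw (fun _ : Fin 2 => (1 / 2 : ℝ)) ![0, e] B) ((16 * K ^ 2 : ℕ) * r)) -
      (Hs B r - Hs B ((16 * K ^ 2 : ℕ) * r)) := by
  have hK' : (0 : ℝ) < K := by exact_mod_cast hK
  have he : 0 < e := hr.trans_le h1
  -- fine gain
  have g1 := gain_ge_window (binLaw (4 * K ^ 2) e) hB hr hK
  have g2 := Hs_bin_ge hK hr h1
  have g3 : Hs (binLaw (4 * K ^ 2) e).law (K * r) ≤ 11 :=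
    Hs_bin_le hK he.le (by positivity) (by nlinarith)
  have g4 := hdef r hr
  have g5 := Hs_addList_replicate_le (twoLaw e) (4 * K ^ 2) hB hr.le
  rw [addList_two] at g5
  rw [log_mul two_ne_zero hK'.ne'] at g2
  have hlog2 : 0 ≤ log 2 := log_nonneg (by norm_num)
  have g6 : 1 ≤ (4 * (K : ℝ) ^ 2) * (Hs ((twoLaw e).add B) r - Hs B r) := by
    push_cast at g5
    linarith
  have g7 : 1 / (4 * (K : ℝ) ^ 2) ≤ Hs ((twoLaw e).add B) r - Hs B r := by
    rw [div_le_iff₀ (by positivity)]; linarith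
  -- coarse gain
  have g8 := gain_two_le hB he.le (D := ((16 * K ^ 2 : ℕ) : ℝ) * r) (by push_cast; positivity)
  have g9 : e * log 2 / (((16 * K ^ 2 : ℕ) : ℝ) * r) ≤ 1 / (8 * (K : ℝ) ^ 2) := by
    rw [div_le_div_iff₀ (by push_cast; positivity) (by positivity)]
    have h3 : log 2 ≤ 1 := by
      have := log_le_sub_one_of_pos (show (0 : ℝ) < 2 by norm_num)
      linarith
    have h4 : e * log 2 ≤ 2 * r * 1 := mul_le_mul h2.le h3 hlog2 (by positivity)
    push_cast
    nlinarith [sq_nonneg (K : ℝ)]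
  have g10 : (twoLaw e).add B = addLaw (fun _ : Fin 2 => (1 / 2 : ℝ)) ![0, e] B := rfl
  rw [g10] at g7
  have g11 : 1 / (4 * (K : ℝ) ^ 2) = 2 * (1 / (8 * (K : ℝ) ^ 2)) := by field_simp; norm_num
  rw [g11] at g7
  linarith

/-- the deficit of an affine copy -/
theorem deficit_map {μ : Measure ℝ} [IsFiniteMeasure μ] {K : ℕ} {c : ℝ}
    (h : ∀ d, 0 < d → Hs μ d - Hs μ (K * d) ≤ c) {a : ℝ} (ha : a ≠ 0) (b : ℝ) {d : ℝ}
    (hd : 0 < d) :
    Hs (μ.map fun x => a * x + b) d - Hs (μ.map fun x => a * x + b) (K * d) ≤ c := by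
  have ha' : 0 < |a| := abs_pos.mpr ha
  have h1 : ∀ e : ℝ, Hs (μ.map fun x => a * x + b) e = Hs μ (e / |a|) := by
    intro e
    have h2 := Hs_map ha b μ (e / |a|)
    have h3 : |a| * (e / |a|) = e := by field_simp
    rw [h3] at h2
    exact h2
  rw [h1, h1, mul_div_assoc]
  exact h _ (div_pos hd ha')

/-- **uniform deficit of a self-similar measure of entropy dimension `< 1`** -/
theorem exists_deficit {ι : Type*} [Fintype ι] {r t p : ι → ℝ} {μ : Measure ℝ}
    [IsProbabilityMeasure μ] (hp : ∀ i, 0 ≤ p i) (hp1 : ∑ i, p i = 1)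
    (hr0 : ∀ i, r i ≠ 0) (hr1 : ∀ i, |r i| < 1) (hμ : BSupp μ)
    (hself : μ = mix p fun i => μ.map fun x => r i * x + t i) {D C' : ℝ} (hD1 : D < 1)
    (hD : ∃ᶠ x : ℝ in atTop, Hs μ (exp (-x)) ≤ D * x + C') (c : ℝ) :
    ∃ K : ℕ, 0 < K ∧ ∀ d, 0 < d → Hs μ d - Hs μ (K * d) ≤ log K - c := by
  classical
  have hne : Nonempty ι := by
    by_contra hcon
    rw [not_nonempty_iff] at hcon
    rw [Finset.univ_eq_empty, Finset.sum_empty] at hp1
    exact zero_ne_one hp1
  set ρ := Finset.univ.inf' Finset.univ_nonempty fun i => |r i| with hρ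
  set σ := Finset.univ.sup' Finset.univ_nonempty fun i => |r i| with hσ
  have h1 : 0 < ρ := (Finset.lt_inf'_iff _).mpr fun i _ => abs_pos.mpr (hr0 i)
  have h2 : ∀ i, ρ ≤ |r i| := fun i => Finset.inf'_le _ (Finset.mem_univ i)
  have h3 : ∀ i, |r i| ≤ σ := fun i =>
    Finset.le_sup' (fun i => |r i|) (Finset.mem_univ i)
  have h4 : σ < 1 := (Finset.sup'_lt_iff _).mpr fun i _ => hr1 i
  set D' := max D 0 with hD'
  have h5 : D' < 1 := max_lt hD1 one_pos
  have h6 : ∃ᶠ x : ℝ in atTop, Hs μ (exp (-x)) ≤ D' * x + C' := by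
    refine (hD.and_eventually (eventually_ge_atTop 0)).mono ?_
    rintro x ⟨hx, hx0⟩
    exact hx.trans (by linarith [mul_le_mul_of_nonneg_right (le_max_left D 0) hx0])
  have h7 : Tendsto (fun K : ℕ => (1 - D') * log K) atTop atTop :=
    (tendsto_log_atTop.comp tendsto_natCast_atTop_atTop).const_mul_atTop (by linarith)
  obtain ⟨K, hK, hK0⟩ := ((h7.eventually_ge_atTop (log (1 / ρ) + log 2 + c)).and
    (eventually_gt_atTop 0)).exists
  refine ⟨K, hK0, fun d hd => ?_⟩
  have h8 := uniform_deficit hp hp1 h1 h2 h3 h4 hμ hself (le_max_right D 0) h6 hK0 hd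
  linarith

end macroSec

end Crest.Agent.R98
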