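import Crest.Agent.R98.Ent

/-!
R98 / TOneA (helper290): the gain lemma for couplings (T1, parts (1),(2) of note 9947).
-/

set_option autoImplicit false

open MeasureTheory Set Real

namespace Crest.Agent.R98.TOne

/-- window entropy of `ν` between the scales `n r` and `r` -/
noncomputable def W (ν : Measure ℝ) (n : ℕ) (r : ℝ) : ℝ := Hs ν r - Hs ν (n * r)

/-- concavity of the window entropy (arbitrary nonnegative weights) -/
theorem W_mix_ge {ι : Type*} [Fintype ι] {p : ι → ℝ} (hp : ∀ i, 0 ≤ p i) {ν : ι → Measure ℝ}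
    [∀ i, IsFiniteMeasure (ν i)] (hν : ∀ i, BSupp (ν i)) {n : ℕ} (hn : 0 < n) {r : ℝ}
    (hr : 0 < r) : ∑ i, p i * W (ν i) n r ≤ W (mix p ν) n r := by
  have h := J_nsmul_le hp hν hr hn
  unfold J at h
  unfold W
  simp only [mul_sub, Finset.sum_sub_distrib]
  linarith

/-- the weights `1/2, 1/2` -/
noncomputable def half : Fin 2 → ℝ := fun _ => 1 / 2

theorem half_nonneg (i : Fin 2) : 0 ≤ half i := by unfold half; norm_num

theorem half_sum : ∑ i, half i = 1 := by unfold half; simp

/-- the law of `B` plus a fair choice between `a` and `b` -/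
noncomputable def two (a b : ℝ) (B : Measure ℝ) : Measure ℝ := addLaw half ![a, b] B

instance (a b : ℝ) (B : Measure ℝ) [IsFiniteMeasure B] : IsFiniteMeasure (two a b B) := by
  unfold two; infer_instance

theorem two_eq (a b : ℝ) (B : Measure ℝ) :
    two a b B = ENNReal.ofReal (1 / 2) • shift a B + ENNReal.ofReal (1 / 2) • shift b B := by
  unfold two addLaw mix half
  rw [Fin.sum_univ_two]
  rfl

theorem two_comm (a b : ℝ) (B : Measure ℝ) : two a b B = two b a B := by
  rw [two_eq, two_eq, add_comm]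

theorem shift_two (c a b : ℝ) (B : Measure ℝ) : shift c (two a b B) = two (c + a) (c + b) B := by
  rw [two_eq, two_eq]
  have h1 : ∀ μ₁ μ₂ : Measure ℝ, shift c (μ₁ + μ₂) = shift c μ₁ + shift c μ₂ := by
    intro μ₁ μ₂
    unfold shift
    rw [Measure.map_add _ _ (by fun_prop)]
  have h2 : ∀ μ : Measure ℝ, shift c (ENNReal.ofReal (1 / 2) • μ) =
      ENNReal.ofReal (1 / 2) • shift c μ := by
    intro μ
    unfold shift
    rw [Measure.map_smul]
  rw [h1, h2, h2, shift_shift, shift_shift]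

theorem Hs_two (a b : ℝ) (B : Measure ℝ) (d : ℝ) :
    Hs (two a b B) d = Hs (two 0 |b - a| B) d := by
  rcases le_total a b with h | h
  · rw [abs_of_nonneg (sub_nonneg.2 h), ← Hs_shift a (two 0 (b - a) B) d, shift_two]
    simp
  · rw [abs_of_nonpos (sub_nonpos.2 h), two_comm a b, ← Hs_shift b (two 0 (-(b - a)) B) d,
      shift_two]
    simp

theorem W_two (a b : ℝ) (B : Measure ℝ) (n : ℕ) (r : ℝ) :
    W (two a b B) n r = W (two 0 |b - a| B) n r := by
  unfold W
  rw [Hs_two a b B r, Hs_two a b B (n * r)]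

theorem W_le_two (a b : ℝ) {B : Measure ℝ} [IsFiniteMeasure B] (hB : BSupp B) {n : ℕ}
    (hn : 0 < n) {r : ℝ} (hr : 0 < r) : W B n r ≤ W (two a b B) n r := by
  have := Hs_addLaw_nsmul half_nonneg half_sum ![a, b] hB hr hn
  unfold W two
  linarith

section coupling

variable {κ : Type*} [Fintype κ]

/-- a law is the mixture of the fair two point laws over any self-coupling -/
theorem addLaw_eq_mix_two {q s : κ → ℝ} {M : κ → κ → ℝ} (hM : ∀ k l, 0 ≤ M k l)
    (hrow : ∀ k, ∑ l, M k l = q k) (hcol : ∀ l, ∑ k, M k l = q l) (B : Measure ℝ) :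
    addLaw q s B = mix (fun z : κ × κ => M z.1 z.2) (fun z => two (s z.1) (s z.2) B) := by
  unfold addLaw mix
  simp only [two_eq, smul_add, Finset.sum_add_distrib, Fintype.sum_prod_type]
  have hhalf : ENNReal.ofReal (1 / 2) + ENNReal.ofReal (1 / 2) = 1 := by
    rw [← ENNReal.ofReal_add (by norm_num) (by norm_num)]; norm_num
  have e1 : ∑ x, ∑ y, ENNReal.ofReal (M x y) • ENNReal.ofReal (1 / 2) • shift (s x) B =
      ENNReal.ofReal (1 / 2) • ∑ k, ENNReal.ofReal (q k) • shift (s k) B := by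
    rw [Finset.smul_sum]
    refine Finset.sum_congr rfl fun x _ => ?_
    rw [← Finset.sum_smul, ← ENNReal.ofReal_sum_of_nonneg (fun l _ => hM x l), hrow, smul_comm]
  have e2 : ∑ x, ∑ y, ENNReal.ofReal (M x y) • ENNReal.ofReal (1 / 2) • shift (s y) B =
      ENNReal.ofReal (1 / 2) • ∑ k, ENNReal.ofReal (q k) • shift (s k) B := by
    rw [Finset.sum_comm, Finset.smul_sum]
    refine Finset.sum_congr rfl fun y _ => ?_
    rw [← Finset.sum_smul, ← ENNReal.ofReal_sum_of_nonneg (fun l _ => hM l y), hcol, smul_comm]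
  rw [e1, e2, ← add_smul, hhalf, one_smul]

/-- the macro property of the base `B` at scale `r` -/
def Macro (B : Measure ℝ) (n : ℕ) (r c : ℝ) : Prop :=
  ∀ e, r ≤ e → e < 2 * r → c ≤ W (two 0 e B) n r - W B n r

/-- GAIN LEMMA: for any coupling `(T, T')` of the law of `T` with itself the window gain is at
least `c P(r ≤ |T - T'| < 2 r)` -/
theorem gain_coupling {q s : κ → ℝ} {M : κ → κ → ℝ} (hM : ∀ k l, 0 ≤ M k l)
    (hrow : ∀ k, ∑ l, M k l = q k) (hcol : ∀ l, ∑ k, M k l = q l) (hq1 : ∑ k, q k = 1)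
    {B : Measure ℝ} [IsFiniteMeasure B] (hB : BSupp B) {n : ℕ} (hn : 0 < n) {r c : ℝ}
    (hr : 0 < r) (hmac : Macro B n r c) :
    c * ∑ k, ∑ l, (if r ≤ |s l - s k| ∧ |s l - s k| < 2 * r then M k l else 0) ≤
      W (addLaw q s B) n r - W B n r := by
  have hBt : ∀ z : κ × κ, BSupp (two (s z.1) (s z.2) B) := fun z => hB.addLaw _ _
  have h1 := W_mix_ge (p := fun z : κ × κ => M z.1 z.2) (fun z => hM z.1 z.2)
    (ν := fun z => two (s z.1) (s z.2) B) hBt hn hr
  rw [← addLaw_eq_mix_two hM hrow hcol] at h1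
  rw [Fintype.sum_prod_type] at h1
  have hsum1 : ∑ k, ∑ l, M k l = 1 := by simp only [hrow, hq1]
  have h2 : ∀ k l, M k l * W B n r + c * (if r ≤ |s l - s k| ∧ |s l - s k| < 2 * r then M k l
      else 0) ≤ M k l * W (two (s k) (s l) B) n r := by
    intro k l
    split_ifs with h
    · have := hmac _ h.1 h.2
      rw [W_two]
      nlinarith [hM k l]
    · have := mul_le_mul_of_nonneg_left (W_le_two (s k) (s l) hB hn hr) (hM k l)
      linarith
  have h3 := Finset.sum_le_sum fun k (_ : k ∈ Finset.univ) =>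
    Finset.sum_le_sum fun l (_ : l ∈ Finset.univ) => h2 k l
  simp only [Finset.sum_add_distrib, ← Finset.sum_mul, ← Finset.mul_sum] at h3
  rw [hsum1] at h3
  linarith

end coupling

end Crest.Agent.R98.TOne
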