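/-
Row 98: the macro lemma in the form used by `R98/TOne*`.
-/
import Mathlib
import Crest.Agent.R98.Macro
import Crest.Agent.R98.TOneA

open MeasureTheory Set Real Filter

namespace Crest.Agent.R98

/-- **Macro property** from the uniform deficit. -/
theorem macro_of_deficit {B : Measure ℝ} [IsProbabilityMeasure B] (hB : BSupp B) {K : ℕ}
    (hK : 0 < K) (hdef : ∀ d, 0 < d → Hs B d - Hs B (K * d) ≤ log K - 12) {r : ℝ} (hr : 0 < r) :
    TOne.Macro B (16 * K ^ 2) r (1 / (8 * (K : ℝ) ^ 2)) := fun e h1 h2 =>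
  macro_raw hK hB hdef hr h1 h2

/-- The macro property at all scales, uniformly for all affine copies of a self-similar measure
of entropy dimension `< 1`. -/
theorem exists_macro {ι : Type*} [Fintype ι] {r t p : ι → ℝ} {μ : Measure ℝ}
    [IsProbabilityMeasure μ] (hp : ∀ i, 0 ≤ p i) (hp1 : ∑ i, p i = 1)
    (hr0 : ∀ i, r i ≠ 0) (hr1 : ∀ i, |r i| < 1) (hμ : BSupp μ)
    (hself : μ = mix p fun i => μ.map fun x => r i * x + t i) {D C' : ℝ} (hD1 : D < 1)
    (hD : ∃ᶠ x : ℝ in atTop, Hs μ (exp (-x)) ≤ D * x + C') :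
    ∃ n : ℕ, ∃ c : ℝ, 0 < n ∧ 0 < c ∧ ∀ a b : ℝ, a ≠ 0 → ∀ ρ : ℝ, 0 < ρ →
      TOne.Macro (μ.map fun x => a * x + b) n ρ c := by
  obtain ⟨K, hK, hdef⟩ := exists_deficit hp hp1 hr0 hr1 hμ hself hD1 hD 12
  have hK' : (0 : ℝ) < K := by exact_mod_cast hK
  refine ⟨16 * K ^ 2, 1 / (8 * (K : ℝ) ^ 2), by positivity, by positivity, ?_⟩
  intro a b ha ρ hρ
  have : IsProbabilityMeasure (μ.map fun x => a * x + b) :=
    Measure.isProbabilityMeasure_map (by fun_prop)
  exact macro_of_deficit (hμ.map_affine a b) hK (fun d hd => deficit_map hdef ha b hd) hρ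

end Crest.Agent.R98
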