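import Crest.Agent.R98.TOneD
import Crest.Agent.R98.MacroT
import Crest.Agent.R98.Cluster

/-!
R98 / TOneE (helper290): T1a, T1b of note 10296 (window gains of a finite law over a base with the
macro property), conditional gains, overlapping windows.
-/

set_option autoImplicit false

open MeasureTheory Set Real Filter

namespace Crest.Agent.R98.TOne

/-! ### overlapping windows -/

/-- dyadic overlap -/
theorem overlap_le {f : ℕ → ℝ} (hf : Antitone f) (L p : ℕ) :
    ∑ i ∈ Finset.range L, (f i - f (i + p)) ≤ p * (f 0 - f (L + p)) := by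
  induction p with
  | zero => simp
  | succ p ih =>
    have h1 : ∀ i, f i - f (i + (p + 1)) = (f i - f (i + p)) + (f (p + i) - f (p + (i + 1))) := by
      intro i
      rw [add_comm p i, show p + (i + 1) = i + (p + 1) by ring]
      ring
    simp only [h1, Finset.sum_add_distrib]
    have h2 : ∑ i ∈ Finset.range L, (f (p + i) - f (p + (i + 1))) = f p - f (p + L) := by
      have := Finset.sum_range_sub' (fun i => f (p + i)) L
      simpa using this
    rw [h2]
    have h3 : f (p + L) ≥ f (L + (p + 1)) := hf (by omega)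
    have h4 : f (L + p) ≥ f (L + (p + 1)) := hf (by omega)
    have h5 : f p ≤ f 0 := hf (by omega)
    have h6 : (p : ℝ) * (f 0 - f (L + p)) ≤ p * (f 0 - f (L + (p + 1))) :=
      mul_le_mul_of_nonneg_left (by linarith) (Nat.cast_nonneg p)
    push_cast
    linarith

/-- windows `[a + j w, a + j w + A]` of a monotone function -/
theorem windows_le {f : ℕ → ℝ} (hf : Monotone f) (a A w J : ℕ) (hw : 0 < w) :
    ∑ j ∈ Finset.range J, (f (a + j * w + A) - f (a + j * w)) ≤
      (A / w + 1 : ℕ) * (f (a + J * w + A) - f a) := by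
  set K := A / w + 1 with hK
  have hAK : A ≤ K * w := by
    have := Nat.div_add_mod A w
    have h2 := Nat.mod_lt A hw
    rw [hK]
    nlinarith
  have h1 : ∀ j, f (a + j * w + A) - f (a + j * w) ≤
      ∑ i ∈ Finset.range K, (min (f (a + (j + i + 1) * w)) (f (a + J * w + A)) -
        min (f (a + (j + i) * w)) (f (a + J * w + A))) ∨ J ≤ j := by
    intro j
    by_cases hj : J ≤ j
    · exact Or.inr hj
    · left
      push Not at hj
      have h2 := Finset.sum_range_sub (fun i => min (f (a + (j + i) * w)) (f (a + J * w + A))) K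
      simp only [← add_assoc, add_zero] at h2
      rw [h2]
      have h3 : f (a + j * w + A) ≤ min (f (a + (j + K) * w)) (f (a + J * w + A)) := by
        refine le_min (hf ?_) (hf ?_)
        · nlinarith
        · nlinarith
      have h4 : min (f (a + j * w)) (f (a + J * w + A)) ≤ f (a + j * w) := min_le_left _ _
      linarith
  have h5 : ∑ j ∈ Finset.range J, (f (a + j * w + A) - f (a + j * w)) ≤
      ∑ j ∈ Finset.range J, ∑ i ∈ Finset.range K,
        (min (f (a + (j + i + 1) * w)) (f (a + J * w + A)) -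
        min (f (a + (j + i) * w)) (f (a + J * w + A))) := by
    refine Finset.sum_le_sum fun j hj => ?_
    rcases h1 j with h | h
    · exact h
    · exact absurd (Finset.mem_range.1 hj) (by omega)
  refine h5.trans ?_
  rw [Finset.sum_comm]
  have h6 : ∀ i ∈ Finset.range K, ∑ j ∈ Finset.range J,
      (min (f (a + (j + i + 1) * w)) (f (a + J * w + A)) -
        min (f (a + (j + i) * w)) (f (a + J * w + A))) ≤ f (a + J * w + A) - f a := by
    intro i _
    have h7 := Finset.sum_range_sub (fun j => min (f (a + (j + i) * w)) (f (a + J * w + A))) J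
    have h8 : ∀ j, j + 1 + i = j + i + 1 := fun j => by ring
    simp only [h8, zero_add] at h7
    rw [h7]
    have h9 : min (f (a + (J + i) * w)) (f (a + J * w + A)) ≤ f (a + J * w + A) := min_le_right _ _
    have h10 : f a ≤ min (f (a + i * w)) (f (a + J * w + A)) :=
      le_min (hf (by omega)) (hf (by nlinarith))
    linarith
  refine (Finset.sum_le_sum h6).trans ?_
  rw [Finset.sum_const, Finset.card_range, nsmul_eq_mul]

/-! ### information `I(r) = Hs (ν * B) r - Hs B r` -/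

section info

variable {κ : Type*} [Fintype κ] {q : κ → ℝ} (s : κ → ℝ)

/-- information of the law `(q, s)` over the base `B` at scale `r` -/
noncomputable def info (q s : κ → ℝ) (B : Measure ℝ) (r : ℝ) : ℝ :=
  Hs (addLaw q s B) r - Hs B r

theorem gain_eq_info (q s : κ → ℝ) (B : Measure ℝ) (n : ℕ) (r : ℝ) :
    gain q s B n r = info q s B r - info q s B (n * r) := by
  unfold gain W info
  ring

theorem info_nonneg (hq : ∀ k, 0 ≤ q k) (hq1 : ∑ k, q k = 1) {B : Measure ℝ}
    [IsFiniteMeasure B] (hB : BSupp B) {r : ℝ} (hr : 0 < r) : 0 ≤ info q s B r :=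
  sub_nonneg.2 (Hs_le_addLaw hq hq1 s hB hr.le)

theorem info_le (hq : ∀ k, 0 ≤ q k) (hq1 : ∑ k, q k = 1) {B : Measure ℝ}
    [IsProbabilityMeasure B] (hB : BSupp B) {r : ℝ} (hr : 0 < r) :
    info q s B r ≤ ∑ k, negMulLog (q k) := by
  have := Hs_addLaw_le hq hq1 s hB hr
  unfold info
  linarith

theorem info_nsmul_le (hq : ∀ k, 0 ≤ q k) (hq1 : ∑ k, q k = 1) {B : Measure ℝ}
    [IsFiniteMeasure B] (hB : BSupp B) {n : ℕ} (hn : 0 < n) {r : ℝ} (hr : 0 < r) :
    info q s B (n * r) ≤ info q s B r := by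
  have := gain_nonneg s hq hq1 hB hn hr
  rw [gain_eq_info] at this
  linarith

theorem info_antitone (hq : ∀ k, 0 ≤ q k) (hq1 : ∑ k, q k = 1) {B : Measure ℝ}
    [IsFiniteMeasure B] (hB : BSupp B) {r : ℝ} (hr : 0 < r) :
    Antitone fun i : ℕ => info q s B (2 ^ i * r) := by
  refine antitone_nat_of_succ_le fun i => ?_
  have := info_nsmul_le s hq hq1 hB (n := 2) (by norm_num) (r := 2 ^ i * r) (by positivity)
  rw [pow_succ]
  rw [← mul_assoc] at this
  push_cast at this
  rwa [mul_comm (2 : ℝ) (2 ^ i)] at this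

/-- sum of the window gains over dyadic scales -/
theorem sum_gain_dyadic (hq : ∀ k, 0 ≤ q k) (hq1 : ∑ k, q k = 1) {B : Measure ℝ}
    [IsFiniteMeasure B] (hB : BSupp B) {r : ℝ} (hr : 0 < r) (L p : ℕ) :
    ∑ i ∈ Finset.range L, gain q s B (2 ^ p) (2 ^ i * r) ≤ p * gain q s B (2 ^ (L + p)) r := by
  have h1 := overlap_le (info_antitone s hq hq1 hB hr) L p
  have h2 : ∀ i, gain q s B (2 ^ p) (2 ^ i * r) =
      info q s B (2 ^ i * r) - info q s B (2 ^ (i + p) * r) := by
    intro i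
    rw [gain_eq_info]
    congr 2
    push_cast
    ring
  simp only [h2]
  refine h1.trans (le_of_eq ?_)
  rw [gain_eq_info]
  push_cast
  simp

/-! ### T1a -/

theorem ind_dyadic {b x : ℝ} (L : ℕ) :
    (if b ≤ x ∧ x < 2 ^ L * b then (1 : ℝ) else 0) ≤
      ∑ i ∈ Finset.range L, if 2 ^ i * b ≤ x ∧ x < 2 * (2 ^ i * b) then (1 : ℝ) else 0 := by
  induction L with
  | zero =>
    simp only [pow_zero, one_mul, Finset.range_zero, Finset.sum_empty]
    rw [if_neg (fun h => by linarith [h.1, h.2])]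
  | succ L ih =>
    rw [Finset.sum_range_succ]
    by_cases h : b ≤ x ∧ x < 2 ^ (L + 1) * b
    · rw [if_pos h]
      by_cases h2 : x < 2 ^ L * b
      · rw [if_pos ⟨h.1, h2⟩] at ih
        have : (0 : ℝ) ≤ if 2 ^ L * b ≤ x ∧ x < 2 * (2 ^ L * b) then (1 : ℝ) else 0 := by
          split_ifs <;> norm_num
        linarith
      · push Not at h2
        rw [if_pos (⟨h2, by rw [pow_succ] at h; linarith [h.2]⟩ :
          2 ^ L * b ≤ x ∧ x < 2 * (2 ^ L * b))]
        have : (0 : ℝ) ≤ ∑ i ∈ Finset.range L,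
            if 2 ^ i * b ≤ x ∧ x < 2 * (2 ^ i * b) then (1 : ℝ) else 0 :=
          Finset.sum_nonneg fun i _ => by split_ifs <;> norm_num
        linarith
    · rw [if_neg h]
      have h3 : (0 : ℝ) ≤ if 2 ^ L * b ≤ x ∧ x < 2 * (2 ^ L * b) then (1 : ℝ) else 0 := by
        split_ifs <;> norm_num
      have h4 : (0 : ℝ) ≤ ∑ i ∈ Finset.range L,
          if 2 ^ i * b ≤ x ∧ x < 2 * (2 ^ i * b) then (1 : ℝ) else 0 :=
        Finset.sum_nonneg fun i _ => by split_ifs <;> norm_num
      linarith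

/-- T1a: pairs at distance in `[b, 2^L b)` versus the gain in the window `(2^(L+p) b, b)` -/
theorem T1a (hq : ∀ k, 0 ≤ q k) (hq1 : ∑ k, q k = 1) {B : Measure ℝ} [IsFiniteMeasure B]
    (hB : BSupp B) {p : ℕ} {c : ℝ} (hc : 0 ≤ c) (hmac : ∀ r, 0 < r → Macro B (2 ^ p) r c)
    {b : ℝ} (hb : 0 < b) (L : ℕ) :
    c * ∑ k, ∑ l, (if b ≤ |s l - s k| ∧ |s l - s k| < 2 ^ L * b then q k * q l else 0) ≤
      p * gain q s B (2 ^ (L + p)) b := by
  refine le_trans ?_ (sum_gain_dyadic s hq hq1 hB hb L p)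
  have h1 : ∀ i ∈ Finset.range L, c * ∑ k, ∑ l,
      (if 2 ^ i * b ≤ |s l - s k| ∧ |s l - s k| < 2 * (2 ^ i * b) then q k * q l else 0) ≤
      gain q s B (2 ^ p) (2 ^ i * b) := by
    intro i _
    have hr : 0 < 2 ^ i * b := by positivity
    exact gain_coupling (s := s) (M := fun k l => q k * q l)
      (fun k l => mul_nonneg (hq k) (hq l)) (fun k => by rw [← Finset.mul_sum, hq1, mul_one])
      (fun l => by rw [← Finset.sum_mul, hq1, one_mul]) hq1 hB (by positivity) hr (hmac _ hr)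
  refine le_trans ?_ (Finset.sum_le_sum h1)
  rw [← Finset.mul_sum]
  refine mul_le_mul_of_nonneg_left ?_ hc
  have h3 : ∑ i ∈ Finset.range L, ∑ k, ∑ l,
      (if 2 ^ i * b ≤ |s l - s k| ∧ |s l - s k| < 2 * (2 ^ i * b) then q k * q l else 0) =
      ∑ k, ∑ l, ∑ i ∈ Finset.range L,
      (if 2 ^ i * b ≤ |s l - s k| ∧ |s l - s k| < 2 * (2 ^ i * b) then q k * q l else 0) := by
    rw [Finset.sum_comm]
    exact Finset.sum_congr rfl fun k _ => Finset.sum_comm
  rw [h3]
  refine Finset.sum_le_sum fun k _ => Finset.sum_le_sum fun l _ => ?_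
  have h2 := mul_le_mul_of_nonneg_left (ind_dyadic (b := b) (x := |s l - s k|) L)
    (mul_nonneg (hq k) (hq l))
  rw [Finset.mul_sum] at h2
  simpa only [mul_ite, mul_one, mul_zero] using h2

/-! ### T1b -/

/-- geometric convolution -/
theorem sum_geom_conv (g : ℕ → ℝ) (M : ℕ) :
    ∑ i ∈ Finset.range (M + 1), ∑ a ∈ Finset.range (i + 1), (1 / 2 : ℝ) ^ a * g (i - a) +
      ∑ a ∈ Finset.range (M + 1), (1 / 2 : ℝ) ^ a * g (M - a) =
      2 * ∑ i ∈ Finset.range (M + 1), g i := by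
  induction M with
  | zero => simp; ring
  | succ M ih =>
    have h1 : ∑ a ∈ Finset.range (M + 1 + 1), (1 / 2 : ℝ) ^ a * g (M + 1 - a) =
        (1 / 2) * ∑ a ∈ Finset.range (M + 1), (1 / 2 : ℝ) ^ a * g (M - a) + g (M + 1) := by
      rw [Finset.sum_range_succ']
      simp only [pow_zero, one_mul, Nat.sub_zero, Finset.mul_sum]
      congr 1
      refine Finset.sum_congr rfl fun a _ => ?_
      rw [pow_succ, Nat.add_sub_add_right]
      ring
    rw [Finset.sum_range_succ _ (M + 1), Finset.sum_range_succ g (M + 1), h1]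
    linarith

theorem sum_geom_conv_le {g : ℕ → ℝ} (hg : ∀ i, 0 ≤ g i) (M : ℕ) :
    ∑ i ∈ Finset.range M, ∑ a ∈ Finset.range (i + 1), (1 / 2 : ℝ) ^ a * g (i - a) ≤
      2 * ∑ i ∈ Finset.range M, g i := by
  rcases M with _ | M
  · simp
  · rw [← sum_geom_conv g M]
    have : 0 ≤ ∑ a ∈ Finset.range (M + 1), (1 / 2 : ℝ) ^ a * g (M - a) :=
      Finset.sum_nonneg fun a _ => mul_nonneg (by positivity) (hg _)
    linarith

theorem gain_le_log (hq : ∀ k, 0 ≤ q k) (hq1 : ∑ k, q k = 1) {B : Measure ℝ}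
    [IsProbabilityMeasure B] (hB : BSupp B) {n : ℕ} (hn : 0 < n) {r : ℝ} (hr : 0 < r) :
    gain q s B n r ≤ log n := by
  have : IsProbabilityMeasure (addLaw q s B) := isProbabilityMeasure_addLaw hq hq1 s _
  have h1 := W_le_log (hB.addLaw q s) hn hr
  have h2 := W_nonneg hB hn hr
  unfold gain
  linarith

/-- one scale -/
theorem sig_le_split (hq : ∀ k, 0 ≤ q k) (hq1 : ∑ k, q k = 1) {B : Measure ℝ}
    [IsProbabilityMeasure B] (hB : BSupp B) {p : ℕ} {c : ℝ} (hc : 0 < c)
    (hmac : ∀ r, 0 < r → Macro B (2 ^ p) r c) {r : ℝ} (hr : 0 < r) (i : ℕ) :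
    sig q s (2 ^ i * r) ≤ (2 / c) * (∑ a ∈ Finset.range (i + 1),
      (1 / 2 : ℝ) ^ a * gain q s B (2 ^ p) (2 ^ (i - a) * r) + (1 / 2) ^ i * (p * log 2)) := by
  have hpos : 0 < 2 ^ i * r := by positivity
  have h1 := sig_le_tsum s hq hq1 hB (n := 2 ^ p) (by positivity) hc hmac hpos
  refine h1.trans ?_
  rw [tsum_mul_left]
  refine mul_le_mul_of_nonneg_left ?_ (by positivity)
  set G := fun a : ℕ => (1 / 2 : ℝ) ^ a * gain q s B (2 ^ p) ((1 / 2) ^ a * (2 ^ i * r)) with hG
  have hG0 : ∀ a, 0 ≤ G a := fun a => mul_nonneg (by positivity)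
    (gain_nonneg s hq hq1 hB (by positivity) (by positivity))
  have hGle : ∀ a, G a ≤ (1 / 2 : ℝ) ^ a * (p * log 2) := by
    intro a
    refine mul_le_mul_of_nonneg_left ?_ (by positivity)
    have := gain_le_log s hq hq1 hB (n := 2 ^ p) (by positivity) (r := (1 / 2) ^ a * (2 ^ i * r))
      (by positivity)
    push_cast at this
    rwa [log_pow] at this
  have hsum : Summable G := Summable.of_nonneg_of_le hG0 hGle
    (summable_geometric_two.mul_right _)
  rw [← hsum.sum_add_tsum_nat_add (i + 1)]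
  refine add_le_add (le_of_eq ?_) ?_
  · refine Finset.sum_congr rfl fun a ha => ?_
    rw [hG]
    have ha' : a ≤ i := by have := Finset.mem_range.1 ha; omega
    have h2 : (1 / 2 : ℝ) ^ a * (2 ^ i * r) = 2 ^ (i - a) * r := by
      obtain ⟨j, rfl⟩ := Nat.exists_eq_add_of_le ha'
      rw [Nat.add_sub_cancel_left, pow_add, ← mul_assoc, ← mul_assoc, ← mul_pow]
      norm_num
    simp only [h2]
  · have hs2 : Summable fun a : ℕ => (1 / 2 : ℝ) ^ (a + (i + 1)) * (p * log 2) :=
      ((summable_nat_add_iff (i + 1)).2 summable_geometric_two).mul_right _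
    calc ∑' a, G (a + (i + 1)) ≤ ∑' a : ℕ, (1 / 2 : ℝ) ^ (a + (i + 1)) * (p * log 2) :=
          Summable.tsum_le_tsum (fun a => hGle _) ((summable_nat_add_iff (i + 1)).2 hsum) hs2
      _ = (1 / 2) ^ i * (p * log 2) := by
          have h3 : ∀ a : ℕ, (1 / 2 : ℝ) ^ (a + (i + 1)) * (p * log 2) =
              (1 / 2 : ℝ) ^ a * ((1 / 2) ^ (i + 1) * (p * log 2)) := by
            intro a; rw [pow_add]; ring
          simp only [h3]
          rw [tsum_mul_right, tsum_geometric_two, pow_succ]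
          ring

/-- sum of the branching numbers over a window -/
theorem sum_sig_le (hq : ∀ k, 0 ≤ q k) (hq1 : ∑ k, q k = 1) {B : Measure ℝ}
    [IsProbabilityMeasure B] (hB : BSupp B) {p : ℕ} {c : ℝ} (hc : 0 < c)
    (hmac : ∀ r, 0 < r → Macro B (2 ^ p) r c) {r : ℝ} (hr : 0 < r) (M : ℕ) :
    ∑ i ∈ Finset.range M, sig q s (2 ^ i * r) ≤
      (4 / c) * (p * gain q s B (2 ^ (M + p)) r + p * log 2) := by
  have hlog : 0 ≤ (p : ℝ) * log 2 := mul_nonneg (Nat.cast_nonneg p) (log_nonneg (by norm_num))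
  have hg : ∀ i : ℕ, 0 ≤ gain q s B (2 ^ p) (2 ^ i * r) := fun i =>
    gain_nonneg s hq hq1 hB (by positivity) (by positivity)
  calc ∑ i ∈ Finset.range M, sig q s (2 ^ i * r)
      ≤ ∑ i ∈ Finset.range M, (2 / c) * (∑ a ∈ Finset.range (i + 1),
      (1 / 2 : ℝ) ^ a * gain q s B (2 ^ p) (2 ^ (i - a) * r) + (1 / 2) ^ i * (p * log 2)) :=
        Finset.sum_le_sum fun i _ => sig_le_split s hq hq1 hB hc hmac hr i
    _ = (2 / c) * (∑ i ∈ Finset.range M, ∑ a ∈ Finset.range (i + 1),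
      (1 / 2 : ℝ) ^ a * gain q s B (2 ^ p) (2 ^ (i - a) * r) +
        (∑ i ∈ Finset.range M, (1 / 2 : ℝ) ^ i) * (p * log 2)) := by
        rw [← Finset.mul_sum, Finset.sum_add_distrib, Finset.sum_mul]
    _ ≤ (2 / c) * (2 * ∑ i ∈ Finset.range M, gain q s B (2 ^ p) (2 ^ i * r) + 2 * (p * log 2)) := by
        refine mul_le_mul_of_nonneg_left (add_le_add
          (sum_geom_conv_le (g := fun i => gain q s B (2 ^ p) (2 ^ i * r)) hg M) ?_) (by positivity)
        refine mul_le_mul_of_nonneg_right ?_ hlog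
        exact sum_geometric_two_le M
    _ ≤ (2 / c) * (2 * (p * gain q s B (2 ^ (M + p)) r) + 2 * (p * log 2)) := by
        have := sum_gain_dyadic s hq hq1 hB hr M p
        gcongr
    _ = _ := by ring

theorem law_eq_addLaw (q s : κ → ℝ) : HsCell.law q s = addLaw q s (Measure.dirac 0) := by
  unfold HsCell.law addLaw
  congr 1
  funext a
  unfold shift
  rw [Measure.map_dirac' (by fun_prop)]
  simp

/-- a law of diameter at most `d` has entropy at most `log 2` at scale `d` -/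
theorem Hs_diam_le (hq : ∀ k, 0 ≤ q k) (hq1 : ∑ k, q k = 1) {d : ℝ} (hd : 0 < d)
    (h : ∀ k l, q k ≠ 0 → q l ≠ 0 → |s k - s l| ≤ d) :
    Hs (addLaw q s (Measure.dirac 0)) d ≤ log 2 := by
  have h1 := Cluster.Hs_law_le_of_small hq hd.le le_rfl hd h
  rw [hq1, law_eq_addLaw, div_self hd.ne'] at h1
  simpa using h1

/-- T1b: the entropy of a law of diameter at most `2^M r` at scale `r` versus the gain in the
window `(2^(M+p) r, r)` -/
theorem T1b (hq : ∀ k, 0 ≤ q k) (hq1 : ∑ k, q k = 1) {B : Measure ℝ}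
    [IsProbabilityMeasure B] (hB : BSupp B) {p : ℕ} {c : ℝ} (hc : 0 < c)
    (hmac : ∀ r, 0 < r → Macro B (2 ^ p) r c) {r : ℝ} (hr : 0 < r) (M : ℕ)
    (hdiam : ∀ k l, q k ≠ 0 → q l ≠ 0 → |s k - s l| ≤ 2 ^ M * r) {t : ℝ} (ht : 0 < t)
    (ht2 : t ≤ 2) :
    Hs (addLaw q s (Measure.dirac 0)) r ≤ log 2 + M * t +
      log (2 / t) * ((4 / c) * (p * gain q s B (2 ^ (M + p)) r + p * log 2)) := by
  have h1 := Hs_diam_le s hq hq1 (d := 2 ^ M * r) (by positivity) hdiam
  have h2 : Hs (addLaw q s (Measure.dirac 0)) r - Hs (addLaw q s (Measure.dirac 0)) (2 ^ M * r) =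
      ∑ i ∈ Finset.range M, (Hs (addLaw q s (Measure.dirac 0)) (2 ^ i * r) -
        Hs (addLaw q s (Measure.dirac 0)) (2 ^ (i + 1) * r)) := by
    have := Finset.sum_range_sub' (fun i => Hs (addLaw q s (Measure.dirac 0)) (2 ^ i * r)) M
    simpa using this.symm
  have h3 : ∑ i ∈ Finset.range M, (Hs (addLaw q s (Measure.dirac 0)) (2 ^ i * r) -
        Hs (addLaw q s (Measure.dirac 0)) (2 ^ (i + 1) * r)) ≤
      ∑ i ∈ Finset.range M, (t + log (2 / t) * sig q s (2 ^ i * r)) := by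
    refine Finset.sum_le_sum fun i _ => ?_
    have := Hs_law_sub_le s hq hq1 (d := 2 ^ i * r) (by positivity) ht ht2
    rwa [← mul_assoc, ← pow_succ'] at this
  have h4 := sum_sig_le s hq hq1 hB hc hmac hr M
  have hlog : 0 ≤ log (2 / t) := log_nonneg ((one_le_div ht).2 ht2)
  have h5 := mul_le_mul_of_nonneg_left h4 hlog
  rw [Finset.sum_add_distrib, Finset.sum_const, Finset.card_range, nsmul_eq_mul,
    ← Finset.mul_sum] at h3
  linarith

end info

/-! ### conditional gains -/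

section conditional

variable {κ C : Type*} [Fintype κ] [Fintype C] {q : κ → ℝ} (s : κ → ℝ) (lab : κ → C)

/-- a law is the mixture of its conditional laws -/
theorem addLaw_eq_mix_cond (hq : ∀ k, 0 ≤ q k) (B : Measure ℝ) :
    addLaw q s B = mix (fib q lab) fun c => addLaw (cond q lab c) s B := by
  classical
  unfold addLaw mix
  simp only [Finset.smul_sum, smul_smul]
  rw [Finset.sum_comm]
  refine Finset.sum_congr rfl fun k _ => ?_
  rw [← Finset.sum_smul]
  congr 1
  have h1 : ∀ c, ENNReal.ofReal (fib q lab c) * ENNReal.ofReal (cond q lab c k) =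
      if lab k = c then ENNReal.ofReal (q k) else 0 := by
    intro c
    rw [← ENNReal.ofReal_mul (fib_nonneg lab hq c), fib_mul_cond lab hq]
    split_ifs <;> simp
  simp only [h1]
  rw [Finset.sum_ite_eq Finset.univ (lab k), if_pos (Finset.mem_univ _)]

/-- the gains of the pieces -/
theorem sum_gain_cond_le (hq : ∀ k, 0 ≤ q k) (hq1 : ∑ k, q k = 1) {B : Measure ℝ}
    [IsFiniteMeasure B] (hB : BSupp B) {n : ℕ} (hn : 0 < n) {r : ℝ} (hr : 0 < r) :
    ∑ c, fib q lab c * gain (cond q lab c) s B n r ≤ gain q s B n r := by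
  have h1 := W_mix_ge (fib_nonneg lab hq) (ν := fun c => addLaw (cond q lab c) s B)
    (fun c => hB.addLaw _ _) hn hr
  rw [← addLaw_eq_mix_cond s lab hq B] at h1
  unfold gain
  simp only [mul_sub, Finset.sum_sub_distrib]
  rw [← Finset.sum_mul, fib_sum lab hq1, one_mul]
  linarith

end conditional

/-! ### macro property with a power of two -/

theorem exists_macro_two_pow {ι : Type*} [Fintype ι] {r t p : ι → ℝ} {μ : Measure ℝ}
    [IsProbabilityMeasure μ] (hp : ∀ i, 0 ≤ p i) (hp1 : ∑ i, p i = 1)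
    (hr0 : ∀ i, r i ≠ 0) (hr1 : ∀ i, |r i| < 1) (hμ : BSupp μ)
    (hself : μ = mix p fun i => μ.map fun x => r i * x + t i) {D C' : ℝ} (hD1 : D < 1)
    (hD : ∃ᶠ x : ℝ in atTop, Hs μ (exp (-x)) ≤ D * x + C') :
    ∃ n : ℕ, ∃ c : ℝ, 0 < c ∧ ∀ a b : ℝ, a ≠ 0 → ∀ ρ : ℝ, 0 < ρ →
      Macro (μ.map fun x => a * x + b) (2 ^ n) ρ c := by
  classical
  have hne : Nonempty ι := by
    by_contra hcon
    rw [not_nonempty_iff] at hcon
    rw [Finset.univ_eq_empty, Finset.sum_empty] at hp1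
    exact zero_ne_one hp1
  set ρ := Finset.univ.inf' Finset.univ_nonempty fun i => |r i| with hρ
  set σ := Finset.univ.sup' Finset.univ_nonempty fun i => |r i| with hσ
  have h1 : 0 < ρ := (Finset.lt_inf'_iff _).mpr fun i _ => abs_pos.mpr (hr0 i)
  have h2 : ∀ i, ρ ≤ |r i| := fun i => Finset.inf'_le _ (Finset.mem_univ i)
  have h3 : ∀ i, |r i| ≤ σ := fun i =>
    Finset.le_sup' (fun i => |r i|) (Finset.mem_univ i)
  have h4 : σ < 1 := (Finset.sup'_lt_iff _).mpr fun i _ => hr1 i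
  set D' := max D 0 with hD'
  have h5 : D' < 1 := max_lt hD1 one_pos
  have h6 : ∃ᶠ x : ℝ in atTop, Hs μ (exp (-x)) ≤ D' * x + C' := by
    refine (hD.and_eventually (eventually_ge_atTop 0)).mono ?_
    rintro x ⟨hx, hx0⟩
    exact hx.trans (by linarith [mul_le_mul_of_nonneg_right (le_max_left D 0) hx0])
  have h7 : Tendsto (fun a : ℕ => (1 - D') * log ((2 ^ a : ℕ) : ℝ)) atTop atTop := by
    refine Tendsto.const_mul_atTop (by linarith) ?_
    refine tendsto_log_atTop.comp (tendsto_natCast_atTop_atTop.comp ?_)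
    exact Filter.tendsto_atTop_mono (fun a => (Nat.lt_two_pow_self (n := a)).le) tendsto_id
  obtain ⟨a, ha⟩ := (h7.eventually_ge_atTop (log (1 / ρ) + log 2 + 12)).exists
  have hK : 0 < 2 ^ a := by positivity
  have hdef : ∀ d, 0 < d → Hs μ d - Hs μ ((2 ^ a : ℕ) * d) ≤ log ((2 ^ a : ℕ) : ℝ) - 12 := by
    intro d hd
    have h8 := uniform_deficit hp hp1 h1 h2 h3 h4 hμ hself (le_max_right D 0) h6 hK hd
    linarith
  refine ⟨4 + 2 * a, 1 / (8 * (((2 ^ a : ℕ) : ℝ)) ^ 2), by positivity, ?_⟩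
  intro a' b ha' ρ' hρ'
  have : IsProbabilityMeasure (μ.map fun x => a' * x + b) :=
    Measure.isProbabilityMeasure_map (by fun_prop)
  have h9 := macro_of_deficit (hμ.map_affine a' b) hK (fun d hd => deficit_map hdef ha' b hd) hρ'
  have h10 : 16 * (2 ^ a) ^ 2 = 2 ^ (4 + 2 * a) := by
    rw [pow_add, pow_mul']
    norm_num
  rwa [h10] at h9

end Crest.Agent.R98.TOne
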