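import Crest.Agent.R98.KNode
import Crest.Agent.R98.TOneE
import Crest.Agent.R98.KCut

/-!
R98 / KGain (helper226): the averaged gain function satisfies the axioms `Gain` of the tree sum;
cut of a node into children (form of `KCut.exists_labels'` used by the node inequality); the two
facts T1a, T1b (TOneE) for the averaged gain.
-/

set_option autoImplicit false
set_option linter.unusedSectionVars false

open Real Set MeasureTheory

namespace Crest.Agent.R98.K

variable {κ : Type*} [Fintype κ]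

theorem addLaw_eq_mix_cnd {U : Type*} [Fintype U] {p : κ → ℝ} (hp : ∀ a, 0 ≤ p a) (f : κ → U)
    (v : κ → ℝ) (B : Measure ℝ) :
    addLaw p v B = mix (lm p f) fun u => addLaw (cnd p f u) v B := by
  unfold addLaw mix
  simp only [Finset.smul_sum, smul_smul]
  rw [Finset.sum_comm]
  refine Finset.sum_congr rfl fun k _ => ?_
  rw [← Finset.sum_smul]
  congr 1
  have h1 : ∀ u, ENNReal.ofReal (lm p f u) * ENNReal.ofReal (cnd p f u k) =
      ENNReal.ofReal (rs p f u k) := by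
    intro u
    rw [← ENNReal.ofReal_mul (lm_nonneg f hp u), lm_mul_cnd f hp]
  simp only [h1]
  rw [← ENNReal.ofReal_sum_of_nonneg fun u _ => rs_nonneg f hp u k, sum_rs]

/-- averaged gain at the scale `u0 / 2^i` -/
noncomputable def Gav {𝒬 : Type*} [Fintype 𝒬] (v : κ → ℝ) (w : 𝒬 → ℝ) (B : 𝒬 → Measure ℝ)
    (u0 : ℝ) (p : κ → ℝ) (i : ℕ) : ℝ := ∑ Q, w Q * TOne.info p v (B Q) (u0 / 2 ^ i)

section gav

variable {𝒬 : Type*} [Fintype 𝒬] {v : κ → ℝ} {w : 𝒬 → ℝ} {B : 𝒬 → Measure ℝ} {u0 : ℝ}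

theorem info_sub_sum {U : Type*} [Fintype U] {p : κ → ℝ} (hp : IsPW p) (f : κ → U)
    (B : Measure ℝ) (d : ℝ) :
    TOne.info p v B d - ∑ u, lm p f u * TOne.info (cnd p f u) v B d =
      J (lm p f) (fun u => addLaw (cnd p f u) v B) d := by
  have hone : ∑ u, lm p f u = 1 := by rw [sum_lm, hp.2]
  unfold J TOne.info
  rw [← addLaw_eq_mix_cnd hp.1 f v B]
  simp only [mul_sub, Finset.sum_sub_distrib]
  rw [← Finset.sum_mul, hone]
  ring

theorem scale_eq (hu : 0 < u0) {i j : ℕ} (hij : i ≤ j) :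
    u0 / 2 ^ i = ((2 ^ (j - i) : ℕ) : ℝ) * (u0 / 2 ^ j) := by
  push_cast
  have h : (2:ℝ) ^ j = 2 ^ (j - i) * 2 ^ i := by rw [← pow_add]; congr 1; omega
  rw [h]
  field_simp

theorem J_scale_le {U : Type*} [Fintype U] {p : κ → ℝ} (hp : IsPW p) (f : κ → U)
    {B : Measure ℝ} [IsProbabilityMeasure B] (hB : BSupp B) (hu : 0 < u0) {i j : ℕ} (hij : i ≤ j) :
    J (lm p f) (fun u => addLaw (cnd p f u) v B) (u0 / 2 ^ i) ≤
      J (lm p f) (fun u => addLaw (cnd p f u) v B) (u0 / 2 ^ j) := by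
  rw [scale_eq hu hij]
  exact J_nsmul_le (fun u => lm_nonneg f hp.1 u) (fun u => hB.addLaw _ _) (by positivity)
    (by positivity)

theorem info_scale_le {p : κ → ℝ} (hp : IsPW p) {B : Measure ℝ} [IsProbabilityMeasure B]
    (hB : BSupp B) (hu : 0 < u0) {i j : ℕ} (hij : i ≤ j) :
    TOne.info p v B (u0 / 2 ^ i) ≤ TOne.info p v B (u0 / 2 ^ j) := by
  rw [scale_eq hu hij]
  exact TOne.info_nsmul_le v hp.1 hp.2 hB (by positivity) (by positivity)

theorem gain_Gav (hw : ∀ Q, 0 ≤ w Q) [∀ Q, IsProbabilityMeasure (B Q)] (hB : ∀ Q, BSupp (B Q))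
    (hu : 0 < u0) : Gain (Gav v w B u0) := by
  refine ⟨fun p hp i => ?_, fun p hp i j hij => ?_, fun N f p hp i j hij => ?_⟩
  · refine Finset.sum_nonneg fun Q _ => mul_nonneg (hw Q) ?_
    exact TOne.info_nonneg v hp.1 hp.2 (hB Q) (by positivity)
  · exact Finset.sum_le_sum fun Q _ =>
      mul_le_mul_of_nonneg_left (info_scale_le hp (hB Q) hu hij) (hw Q)
  · have h1 : ∀ i, Gav v w B u0 p i - ∑ u, lm p f u * Gav v w B u0 (cnd p f u) i =
        ∑ Q, w Q * J (lm p f) (fun u => addLaw (cnd p f u) v (B Q)) (u0 / 2 ^ i) := by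
      intro i
      have h2 : ∀ Q, J (lm p f) (fun u => addLaw (cnd p f u) v (B Q)) (u0 / 2 ^ i) =
          TOne.info p v (B Q) (u0 / 2 ^ i) -
            ∑ u, lm p f u * TOne.info (cnd p f u) v (B Q) (u0 / 2 ^ i) :=
        fun Q => (info_sub_sum hp f (B Q) _).symm
      simp only [h2, Gav, mul_sub, Finset.sum_sub_distrib, Finset.mul_sum]
      congr 1
      rw [Finset.sum_comm]
      refine Finset.sum_congr rfl fun Q _ => Finset.sum_congr rfl fun u _ => ?_
      ring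
    rw [h1, h1]
    exact Finset.sum_le_sum fun Q _ =>
      mul_le_mul_of_nonneg_left (J_scale_le hp f (hB Q) hu hij) (hw Q)

/-- the averaged information of the partition into children -/
theorem Gav_sub_eq {U : Type*} [Fintype U] {p : κ → ℝ} (hp : IsPW p) (f : κ → U) (i : ℕ) :
    Gav v w B u0 p i - ∑ u, lm p f u * Gav v w B u0 (cnd p f u) i =
      ∑ Q, w Q * J (lm p f) (fun u => addLaw (cnd p f u) v (B Q)) (u0 / 2 ^ i) := by
  have h2 : ∀ Q, J (lm p f) (fun u => addLaw (cnd p f u) v (B Q)) (u0 / 2 ^ i) =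
      TOne.info p v (B Q) (u0 / 2 ^ i) -
        ∑ u, lm p f u * TOne.info (cnd p f u) v (B Q) (u0 / 2 ^ i) :=
    fun Q => (info_sub_sum hp f (B Q) _).symm
  simp only [h2, Gav, mul_sub, Finset.sum_sub_distrib, Finset.mul_sum]
  congr 1
  rw [Finset.sum_comm]
  refine Finset.sum_congr rfl fun Q _ => Finset.sum_congr rfl fun u _ => ?_
  ring

end gav

/-- cut of a node -/
theorem cut_node {p v : κ → ℝ} (hp : IsPW p) {d b η δ L : ℝ} (hd : 0 < d) (hb : 0 < b)
    (hη : 0 < η) (hη1 : η ≤ 1) (hδ : 0 < δ) (hδ1 : δ ≤ 1)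
    (hbd : 8 * b * (3 + 2 * (log (1 / (η * δ)) / η)) ≤ d) (hL : 0 ≤ L) (hD : Dm v p L) :
    ∃ (N : ℕ) (f : κ → Fin N), (N : ℝ) ≤ 2 * L / d + 3 ∧ (∀ u, Dm v (cnd p f u) d) ∧
      ∀ u, δ ≤ lm p f u → ∑ a, (open Classical in if f a = u ∧
        ∃ b', p b' ≠ 0 ∧ f b' ≠ u ∧ |v a - v b'| < b then p a else 0) ≤ 2 * η * lm p f u := by
  classical
  obtain ⟨l, _, h2, h3, h4⟩ := KCut.exists_labels' (q := p) (v := v) hp.1 hp.2.le hd hb hη hη1 hδ hδ1 hbd
  set S : Finset κ := Finset.univ.filter fun a => p a ≠ 0 with hS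
  set T : Finset ℤ := S.image l with hT
  have hne : S.Nonempty := by
    by_contra h
    rw [Finset.not_nonempty_iff_eq_empty] at h
    have : ∑ a, p a = 0 := by
      refine Finset.sum_eq_zero fun a _ => ?_
      by_contra ha
      have : a ∈ S := Finset.mem_filter.2 ⟨Finset.mem_univ a, ha⟩
      rw [h] at this
      exact absurd this (Finset.notMem_empty a)
    rw [hp.2] at this
    norm_num at this
  obtain ⟨a₀, ha₀⟩ := hne
  have hmem : ∀ a, p a ≠ 0 → l a ∈ T := fun a ha =>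
    Finset.mem_image_of_mem l (Finset.mem_filter.2 ⟨Finset.mem_univ a, ha⟩)
  have ha₀' : l a₀ ∈ T := Finset.mem_image_of_mem l ha₀
  let e : T ≃ Fin T.card := T.equivFin
  let f : κ → Fin T.card := fun a => if h : l a ∈ T then e ⟨l a, h⟩ else e ⟨l a₀, ha₀'⟩
  have hf : ∀ a (h : l a ∈ T), f a = e ⟨l a, h⟩ := fun a h => dif_pos h
  have hfeq : ∀ a b, l a ∈ T → l b ∈ T → (f a = f b ↔ l a = l b) := by
    intro a b ha hb
    rw [hf a ha, hf b hb, e.injective.eq_iff, Subtype.mk.injEq]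
  have hfu : ∀ u a, l a ∈ T → (f a = u ↔ l a = (e.symm u : ℤ)) := by
    intro u a ha
    rw [hf a ha]
    constructor
    · intro h; rw [← h, e.symm_apply_apply]
    · intro h
      have : (⟨l a, ha⟩ : T) = e.symm u := Subtype.ext h
      rw [this, e.apply_symm_apply]
  refine ⟨T.card, f, ?_, ?_, ?_⟩
  · refine h4 S L hL fun a ha b hb => ?_
    exact hD a b (Finset.mem_filter.1 ha).2 (Finset.mem_filter.1 hb).2
  · intro u a b ha hb
    obtain ⟨ha1, ha2⟩ := cnd_ne_zero f ha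
    obtain ⟨hb1, hb2⟩ := cnd_ne_zero f hb
    have := (hfeq a b (hmem a ha2) (hmem b hb2)).1 (ha1.trans hb1.symm)
    exact (h2 a b this).le
  · intro u hu
    have hlm : lm p f u = ∑ a, if l a = (e.symm u : ℤ) then p a else 0 := by
      unfold lm
      refine Finset.sum_congr rfl fun a _ => ?_
      by_cases ha : p a = 0
      · by_cases h : f a = u
        · rw [rs_of_eq f h, ha]; simp
        · rw [rs_of_ne f h, ha]; simp
      · by_cases h : f a = u
        · rw [rs_of_eq f h, if_pos ((hfu u a (hmem a ha)).1 h)]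
        · rw [rs_of_ne f h, if_neg (fun h' => h ((hfu u a (hmem a ha)).2 h'))]
    rcases h3 (e.symm u : ℤ) with h | h
    · rw [← hlm] at h
      exact absurd hu (not_le.2 h)
    · rw [hlm]
      refine le_trans (Finset.sum_le_sum fun a _ => ?_) h
      by_cases hpa : p a = 0
      · rw [hpa]; simp
      by_cases h5 : f a = u ∧ ∃ b', p b' ≠ 0 ∧ f b' ≠ u ∧ |v a - v b'| < b
      · obtain ⟨h6, b', h7, h8, h9⟩ := h5
        rw [if_pos ⟨h6, b', h7, h8, h9⟩, if_pos]
        refine ⟨(hfu u a (hmem a hpa)).1 h6, b', ?_, h9⟩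
        intro h10
        exact h8 ((hfu u b' (hmem b' h7)).2 h10)
      · rw [if_neg h5]
        split_ifs
        · exact hp.1 a
        · exact le_rfl

section tone

variable {𝒬 : Type*} [Fintype 𝒬] {v : κ → ℝ} {w : 𝒬 → ℝ} {B : 𝒬 → Measure ℝ} {u0 : ℝ}

/-- T1a for the averaged gain: `y - x = L` dyadic scales, diameter at most `u0 / 2^(x+t+1)` -/
theorem T1a_Gav (hw : ∀ Q, 0 ≤ w Q) (hw1 : ∑ Q, w Q = 1) [∀ Q, IsProbabilityMeasure (B Q)]
    (hB : ∀ Q, BSupp (B Q)) (hu : 0 < u0) {t : ℕ} {c : ℝ} (hc : 0 ≤ c)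
    (hmac : ∀ Q r, 0 < r → TOne.Macro (B Q) (2 ^ t) r c) {p : κ → ℝ} (hp : IsPW p)
    {x y : ℕ} (hxy : x + t + 1 ≤ y) (hD : Dm v p (u0 / 2 ^ (x + t + 1))) :
    c * ∑ a, ∑ b', (if u0 / 2 ^ y ≤ |v a - v b'| then p a * p b' else 0) ≤
      t * (Gav v w B u0 p y - Gav v w B u0 p x) := by
  have hb : 0 < u0 / 2 ^ y := by positivity
  set X := ∑ a, ∑ b', (if u0 / 2 ^ y ≤ |v a - v b'| then p a * p b' else 0) with hX
  have h1 : ∀ Q, c * X ≤ t * (TOne.info p v (B Q) (u0 / 2 ^ y) - TOne.info p v (B Q) (u0 / 2 ^ x)) := by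
    intro Q
    have h2 := TOne.T1a v hp.1 hp.2 (hB Q) hc (hmac Q) hb (y - x - t)
    have h3 : X ≤ ∑ k, ∑ l, (if u0 / 2 ^ y ≤ |v l - v k| ∧
        |v l - v k| < 2 ^ (y - x - t) * (u0 / 2 ^ y) then p k * p l else 0) := by
      refine Finset.sum_le_sum fun a _ => Finset.sum_le_sum fun b' _ => ?_
      by_cases hz : p a * p b' = 0
      · rw [hz]; simp
      · have ha : p a ≠ 0 := left_ne_zero_of_mul hz
        have hb' : p b' ≠ 0 := right_ne_zero_of_mul hz
        by_cases h4 : u0 / 2 ^ y ≤ |v a - v b'|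
        · rw [if_pos h4, if_pos]
          refine ⟨by rwa [abs_sub_comm] at h4, ?_⟩
          have h5 := hD b' a hb' ha
          refine lt_of_le_of_lt h5 ?_
          have h6 : (2:ℝ) ^ y = 2 ^ (y - x - t) * 2 ^ (x + t) := by
            rw [← pow_add]; congr 1; omega
          rw [h6, pow_succ]
          have : 2 ^ (y - x - t) * (u0 / (2 ^ (y - x - t) * 2 ^ (x + t))) = u0 / 2 ^ (x + t) := by
            field_simp
          rw [this]
          refine div_lt_div_of_pos_left hu (by positivity) ?_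
          have : (0:ℝ) < 2 ^ (x + t) := by positivity
          linarith
        · rw [if_neg h4]
          split_ifs
          · exact mul_nonneg (hp.1 _) (hp.1 _)
          · exact le_rfl
    have h4 := mul_le_mul_of_nonneg_left h3 hc
    refine h4.trans (h2.trans (le_of_eq ?_))
    rw [TOne.gain_eq_info]
    congr 3
    rw [scale_eq hu (show x ≤ y by omega)]
    congr 3
    omega
  have h2 := Finset.sum_le_sum fun Q (_ : Q ∈ Finset.univ) => mul_le_mul_of_nonneg_left (h1 Q) (hw Q)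
  rw [← Finset.sum_mul, hw1, one_mul] at h2
  refine h2.trans (le_of_eq ?_)
  unfold Gav
  rw [← Finset.sum_sub_distrib, Finset.mul_sum]
  refine Finset.sum_congr rfl fun Q _ => ?_
  ring

/-- T1b for the averaged gain -/
theorem T1b_Gav (hw : ∀ Q, 0 ≤ w Q) (hw1 : ∑ Q, w Q = 1) [∀ Q, IsProbabilityMeasure (B Q)]
    (hB : ∀ Q, BSupp (B Q)) (hu : 0 < u0) {t : ℕ} {c : ℝ} (hc : 0 < c)
    (hmac : ∀ Q r, 0 < r → TOne.Macro (B Q) (2 ^ t) r c) {p : κ → ℝ} (hp : IsPW p)
    {x M : ℕ} (hD : Dm v p (u0 / 2 ^ (x + t))) {s : ℝ} (hs : 0 < s) (hs2 : s ≤ 2) :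
    Hs (addLaw p v (Measure.dirac 0)) (u0 / 2 ^ (x + t + M)) ≤ log 2 + M * s +
      log (2 / s) * ((4 / c) * (t * (Gav v w B u0 p (x + t + M) - Gav v w B u0 p x) +
        t * log 2)) := by
  have h1 : ∀ Q, Hs (addLaw p v (Measure.dirac 0)) (u0 / 2 ^ (x + t + M)) ≤ log 2 + M * s +
      log (2 / s) * ((4 / c) * (t * (TOne.info p v (B Q) (u0 / 2 ^ (x + t + M)) -
        TOne.info p v (B Q) (u0 / 2 ^ x)) + t * log 2)) := by
    intro Q
    have h2 := TOne.T1b v hp.1 hp.2 (hB Q) hc (hmac Q)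
      (show 0 < u0 / 2 ^ (x + t + M) by positivity) M (fun k l hk hl => by
        have := hD k l hk hl
        refine this.trans (le_of_eq ?_)
        rw [scale_eq hu (show x + t ≤ x + t + M by omega)]
        push_cast
        congr 2
        omega) hs hs2
    refine h2.trans (le_of_eq ?_)
    rw [TOne.gain_eq_info]
    have h3 : ((2 ^ (M + t) : ℕ) : ℝ) * (u0 / 2 ^ (x + t + M)) = u0 / 2 ^ x := by
      rw [scale_eq hu (show x ≤ x + t + M by omega)]
      congr 3
      omega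
    rw [h3]
  have h2 := Finset.sum_le_sum fun Q (_ : Q ∈ Finset.univ) => mul_le_mul_of_nonneg_left (h1 Q) (hw Q)
  rw [← Finset.sum_mul, hw1, one_mul] at h2
  refine h2.trans (le_of_eq ?_)
  have h3 : ∀ Q, w Q * (log 2 + M * s + log (2 / s) * ((4 / c) *
      (t * (TOne.info p v (B Q) (u0 / 2 ^ (x + t + M)) - TOne.info p v (B Q) (u0 / 2 ^ x)) +
        t * log 2))) = w Q * (log 2 + M * s + log (2 / s) * ((4 / c) * (t * log 2))) +
      log (2 / s) * (4 / c) * t * (w Q * TOne.info p v (B Q) (u0 / 2 ^ (x + t + M)) -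
        w Q * TOne.info p v (B Q) (u0 / 2 ^ x)) := fun Q => by ring
  simp only [h3]
  rw [Finset.sum_add_distrib, ← Finset.sum_mul, hw1, one_mul, ← Finset.mul_sum,
    Finset.sum_sub_distrib]
  unfold Gav
  ring

end tone

end Crest.Agent.R98.K
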