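import Mathlib

/-!
Row 98, case K: choice of the parameters `q, w, m` (helper383).
-/

set_option autoImplicit false
open Filter Topology

namespace Crest.Agent.R98.K

/-- polynomials in `w` are beaten by `2^w` -/
theorem eventually_poly_le_two_pow (C : ℝ) (k : ℕ) :
    ∀ᶠ w : ℕ in atTop, C * (w : ℝ) ^ k ≤ 2 ^ w := by
  have h : Tendsto (fun w : ℕ => (w : ℝ) ^ k / 2 ^ w) atTop (𝓝 0) :=
    tendsto_pow_const_div_const_pow_of_one_lt k one_lt_two
  have h2 : Tendsto (fun w : ℕ => C * ((w : ℝ) ^ k / 2 ^ w)) atTop (𝓝 (C * 0)) := h.const_mul C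
  rw [mul_zero] at h2
  filter_upwards [h2.eventually (ge_mem_nhds one_pos)] with w hw
  have h3 : (0 : ℝ) < 2 ^ w := by positivity
  rw [← mul_div_assoc, div_le_iff₀ h3, one_mul] at hw
  exact hw

/-- choice of the scale parameters -/
theorem exists_params {P : ℝ → ℝ → ℝ → ℝ} {C : ℝ}
    (hM : ∀ Q0 : ℕ, ∃ q : ℕ, Q0 ≤ q ∧ ∀ s : ℝ, (q : ℝ) ^ 2 ≤ s → ∀ a b : ℝ, 0 ≤ b →
      P s a b ≤ C * (1 + Real.log s) ^ 3 * (b + 1 / q))
    {K : ℕ} (hK : 4 ≤ K) {σ : ℝ} (hσ : 0 < σ) (W0 : ℕ) :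
    ∃ w m : ℕ, W0 ≤ w ∧ W0 ≤ m ∧ (m : ℝ) ≤ 2 ^ ((2 * K + 1) * w) ∧
      ∀ a : ℝ, P (σ * m) a (8 / 2 ^ ((K - 2) * w)) ≤ 1 / 2 ^ ((K - 3) * w) := by
  -- thresholds for w
  have e1 := eventually_poly_le_two_pow ((2 ^ (2 * K) / σ + 1)) 0
  -- log bound constant
  set c : ℝ := 1 + Real.log (2 ^ (2 * K) + σ) + 2 * K with hc
  have hc0 : 0 < c := by
    have h1 : 0 ≤ Real.log (2 ^ (2 * K) + σ) := Real.log_nonneg (by
      have : (1 : ℝ) ≤ 2 ^ (2 * K) := one_le_pow₀ one_le_two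
      linarith)
    positivity
  have e2 := eventually_poly_le_two_pow (|C| * c ^ 3 * 9) 3
  obtain ⟨w1, hw1⟩ := eventually_atTop.mp (e1.and e2)
  set W1 : ℕ := max (max w1 W0) (max 1 ⌈σ * W0⌉₊) with hW1
  obtain ⟨q, hq, hqM⟩ := hM (2 ^ (K * W1))
  have hK0 : 0 < K := by omega
  have hq1 : 1 ≤ q := le_trans Nat.one_le_two_pow hq
  have hqr : (1 : ℝ) ≤ q := by exact_mod_cast hq1
  set w : ℕ := Nat.log 2 q / K with hw
  set m : ℕ := ⌈(q : ℝ) ^ 2 / σ⌉₊ with hm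
  have hlogq : K * W1 ≤ Nat.log 2 q := Nat.le_log_of_pow_le one_lt_two hq
  have hwW1 : W1 ≤ w := by
    rw [hw, Nat.le_div_iff_mul_le hK0, mul_comm]; exact hlogq
  have hw1' : w1 ≤ w := le_trans (le_trans (le_max_left _ _) (le_max_left _ _)) hwW1
  have hW0 : W0 ≤ w := le_trans (le_trans (le_max_right _ _) (le_max_left _ _)) hwW1
  have h1w : 1 ≤ w := le_trans (le_trans (le_max_left _ _) (le_max_right _ _)) hwW1
  have hσW0 : ⌈σ * W0⌉₊ ≤ W1 := le_trans (le_max_right _ _) (le_max_right _ _)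
  have hwr : (1 : ℝ) ≤ w := by exact_mod_cast h1w
  obtain ⟨hp1, hp2⟩ := hw1 w hw1'
  simp only [pow_zero, mul_one] at hp1
  -- bounds on q
  have hqlow : 2 ^ (K * w) ≤ q := by
    have h1 : K * w ≤ Nat.log 2 q := by rw [hw]; exact Nat.mul_div_le _ _
    exact (Nat.pow_le_pow_right (by norm_num) h1).trans (Nat.pow_log_le_self 2 (by omega))
  have hqup : q < 2 ^ (K * (w + 1)) := by
    have h1 : Nat.log 2 q < K * (w + 1) := by
      rw [hw]
      have := Nat.lt_mul_div_succ (Nat.log 2 q) hK0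
      simpa [Nat.succ_eq_add_one] using this
    exact Nat.lt_pow_of_log_lt one_lt_two h1
  have hqlow' : (2 : ℝ) ^ (K * w) ≤ q := by exact_mod_cast hqlow
  have hqup' : (q : ℝ) < 2 ^ (K * (w + 1)) := by exact_mod_cast hqup
  have hq2up : (q : ℝ) ^ 2 ≤ 2 ^ (2 * K) * 2 ^ (2 * K * w) := by
    calc (q : ℝ) ^ 2 ≤ (2 ^ (K * (w + 1))) ^ 2 := by gcongr
      _ = 2 ^ (2 * K) * 2 ^ (2 * K * w) := by
        rw [← pow_mul, ← pow_add]; congr 1; ring
  have h2pos : (0 : ℝ) < 2 ^ (2 * K * w) := by positivity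
  have h2one : (1 : ℝ) ≤ 2 ^ (2 * K * w) := one_le_pow₀ one_le_two
  -- bounds on m
  have hmlow : (q : ℝ) ^ 2 ≤ σ * m := by
    have := Nat.le_ceil ((q : ℝ) ^ 2 / σ)
    rw [div_le_iff₀ hσ] at this
    linarith
  have hmup : (m : ℝ) ≤ (q : ℝ) ^ 2 / σ + 1 := (Nat.ceil_lt_add_one (by positivity)).le
  have hsup : σ * m ≤ (2 ^ (2 * K) + σ) * 2 ^ (2 * K * w) := by
    calc σ * m ≤ σ * ((q : ℝ) ^ 2 / σ + 1) := by gcongr
      _ = (q : ℝ) ^ 2 + σ := by field_simp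
      _ ≤ 2 ^ (2 * K) * 2 ^ (2 * K * w) + σ * 2 ^ (2 * K * w) := by
        refine add_le_add hq2up ?_
        exact le_mul_of_one_le_right hσ.le h2one
      _ = (2 ^ (2 * K) + σ) * 2 ^ (2 * K * w) := by ring
  refine ⟨w, m, hW0, ?_, ?_, ?_⟩
  · -- W0 ≤ m
    have h1 : σ * W0 ≤ w := by
      have h2 := Nat.le_ceil (σ * W0)
      have h3 : ((⌈σ * W0⌉₊ : ℕ) : ℝ) ≤ w := by exact_mod_cast hσW0.trans hwW1
      exact h2.trans h3
    have h4 : (w : ℝ) ≤ q := by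
      have h5 : w < 2 ^ w := Nat.lt_two_pow_self
      have h6 : 2 ^ w ≤ 2 ^ (K * w) := Nat.pow_le_pow_right (by norm_num) (Nat.le_mul_of_pos_left _ hK0)
      exact_mod_cast (h5.le.trans h6).trans hqlow
    have h7 : (q : ℝ) ≤ (q : ℝ) ^ 2 := by nlinarith
    have h8 : σ * W0 ≤ σ * m := by linarith
    have h9 : (W0 : ℝ) ≤ m := le_of_mul_le_mul_left h8 hσ
    exact_mod_cast h9
  · calc (m : ℝ) ≤ (q : ℝ) ^ 2 / σ + 1 := hmup
      _ ≤ 2 ^ (2 * K) * 2 ^ (2 * K * w) / σ + 2 ^ (2 * K * w) := by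
        refine add_le_add ?_ h2one
        gcongr
      _ = (2 ^ (2 * K) / σ + 1) * 2 ^ (2 * K * w) := by ring
      _ ≤ 2 ^ w * 2 ^ (2 * K * w) := by gcongr
      _ = 2 ^ ((2 * K + 1) * w) := by rw [← pow_add]; congr 1; ring
  · intro a
    have h1 := hqM (σ * m) hmlow a (8 / 2 ^ ((K - 2) * w)) (by positivity)
    have hs1 : 1 ≤ σ * m := by nlinarith
    have hlogs0 : 0 ≤ Real.log (σ * m) := Real.log_nonneg hs1
    have hlogs : 1 + Real.log (σ * m) ≤ c * w := by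
      have h2 : Real.log (σ * m) ≤ Real.log (2 ^ (2 * K) + σ) + (2 * K * w : ℕ) * Real.log 2 := by
        calc Real.log (σ * m) ≤ Real.log ((2 ^ (2 * K) + σ) * 2 ^ (2 * K * w)) :=
              Real.log_le_log (by linarith) hsup
          _ = _ := by rw [Real.log_mul (by positivity) (by positivity), Real.log_pow]
      have h3 : Real.log 2 ≤ 1 := by
        have := Real.log_two_lt_d9; linarith
      have h4 : 0 ≤ Real.log (2 ^ (2 * K) + σ) := Real.log_nonneg (by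
        have : (1 : ℝ) ≤ 2 ^ (2 * K) := one_le_pow₀ one_le_two
        linarith)
      have h5 : ((2 * K * w : ℕ) : ℝ) * Real.log 2 ≤ 2 * K * w := by
        push_cast
        have : (0 : ℝ) ≤ 2 * K * w := by positivity
        nlinarith
      rw [hc]
      nlinarith
    have h6 : (1 + Real.log (σ * m)) ^ 3 ≤ (c * w) ^ 3 := by gcongr
    have h7 : (8 : ℝ) / 2 ^ ((K - 2) * w) + 1 / q ≤ 9 / 2 ^ ((K - 2) * w) := by
      have h8 : (1 : ℝ) / q ≤ 1 / 2 ^ ((K - 2) * w) := by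
        refine one_div_le_one_div_of_le (by positivity) ?_
        refine le_trans ?_ hqlow'
        exact pow_le_pow_right₀ one_le_two (Nat.mul_le_mul_right _ (by omega))
      calc (8 : ℝ) / 2 ^ ((K - 2) * w) + 1 / q ≤ 8 / 2 ^ ((K - 2) * w) + 1 / 2 ^ ((K - 2) * w) := by
            gcongr
        _ = 9 / 2 ^ ((K - 2) * w) := by ring
    have h9 : (0 : ℝ) ≤ 8 / 2 ^ ((K - 2) * w) + 1 / q := by positivity
    calc P (σ * m) a (8 / 2 ^ ((K - 2) * w))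
        ≤ C * (1 + Real.log (σ * m)) ^ 3 * (8 / 2 ^ ((K - 2) * w) + 1 / q) := h1
      _ ≤ |C| * (c * w) ^ 3 * (9 / 2 ^ ((K - 2) * w)) := by
          have h10 : C * (1 + Real.log (σ * m)) ^ 3 ≤ |C| * (c * w) ^ 3 := by
            calc C * (1 + Real.log (σ * m)) ^ 3 ≤ |C| * (1 + Real.log (σ * m)) ^ 3 := by
                  gcongr; exact le_abs_self C
              _ ≤ |C| * (c * w) ^ 3 := by gcongr
          have h11 : 0 ≤ |C| * (c * w) ^ 3 := by positivity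
          calc _ ≤ |C| * (c * w) ^ 3 * (8 / 2 ^ ((K - 2) * w) + 1 / q) := by gcongr
            _ ≤ _ := by gcongr
      _ = (|C| * c ^ 3 * 9 * (w : ℝ) ^ 3) / 2 ^ ((K - 2) * w) := by ring
      _ ≤ 2 ^ w / 2 ^ ((K - 2) * w) := by gcongr
      _ = 1 / 2 ^ ((K - 3) * w) := by
          rw [div_eq_div_iff (by positivity) (by positivity), one_mul, ← pow_add]
          congr 1
          have : K - 2 = (K - 3) + 1 := by omega
          rw [this]; ring

/-- the negligible term -/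
theorem eventually_negl_le {K cl A : ℕ} {Cl : ℝ}
    (hA : (2 * K + 1) * cl + 3 ≤ A) :
    ∀ᶠ w : ℕ in atTop, ∀ m : ℕ, (m : ℝ) ≤ 2 ^ ((2 * K + 1) * w) →
      ∀ N : ℝ, N ≤ Cl * (m : ℝ) ^ cl → N * 2 ^ (w + 3) * (A * w) / 2 ^ (A * w) ≤ 1 := by
  filter_upwards [eventually_poly_le_two_pow (|Cl|) 0, eventually_poly_le_two_pow (8 * A) 1]
    with w h1 h2 m hm N hN
  simp only [pow_zero, mul_one, pow_one] at h1 h2
  rw [div_le_one (by positivity)]
  have h3 : N ≤ 2 ^ w * 2 ^ ((2 * K + 1) * w * cl) := by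
    calc N ≤ Cl * (m : ℝ) ^ cl := hN
      _ ≤ |Cl| * (m : ℝ) ^ cl := by gcongr; exact le_abs_self _
      _ ≤ 2 ^ w * (2 ^ ((2 * K + 1) * w)) ^ cl := by gcongr
      _ = _ := by rw [← pow_mul]
  have h0 : (0 : ℝ) ≤ 2 ^ (w + 3) * (A * w) := by positivity
  calc N * 2 ^ (w + 3) * (A * w) = N * (2 ^ (w + 3) * (A * w)) := by ring
    _ ≤ 2 ^ w * 2 ^ ((2 * K + 1) * w * cl) * (2 ^ (w + 3) * (A * w)) := by gcongr
    _ = 2 ^ w * 2 ^ ((2 * K + 1) * w * cl) * 2 ^ w * (8 * A * w) := by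
        rw [pow_add 2 w 3]; ring
    _ ≤ 2 ^ w * 2 ^ ((2 * K + 1) * w * cl) * 2 ^ w * 2 ^ w := by gcongr
    _ = 2 ^ (w + (2 * K + 1) * w * cl + w + w) := by
        rw [← pow_add, ← pow_add, ← pow_add]
    _ ≤ 2 ^ (A * w) := by
        refine pow_le_pow_right₀ one_le_two ?_
        calc w + (2 * K + 1) * w * cl + w + w = ((2 * K + 1) * cl + 3) * w := by ring
          _ ≤ A * w := Nat.mul_le_mul_right _ hA

end Crest.Agent.R98.K
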