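import Crest.Agent.R98.Part

/-!
R98 / KTree (helper226): the tree sum of the rank `≥ 2` argument (helper383, notes 10295, 10296).

Abstract form: `G p i` is the information gain of the finite law `p` (weights on `κ`) at the dyadic
scale `i`; the only property of `G` which is used is that for every partition of `κ` the increment
`G p i - ∑ P_u G p_u i` is nondecreasing in `i`.
-/

set_option autoImplicit false

open Real Set

namespace Crest.Agent.R98.K

variable {κ : Type*} [Fintype κ]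

set_option linter.unusedSectionVars false

/-- probability weights -/
def IsPW (p : κ → ℝ) : Prop := (∀ a, 0 ≤ p a) ∧ ∑ a, p a = 1

/-- restriction of the weights to a label -/
noncomputable def rs {U : Type*} (p : κ → ℝ) (f : κ → U) (u : U) : κ → ℝ :=
  Set.indicator {a | f a = u} p

/-- mass of a label -/
noncomputable def lm {U : Type*} (p : κ → ℝ) (f : κ → U) (u : U) : ℝ := ∑ a, rs p f u a

/-- conditional weights on a label -/
noncomputable def cnd {U : Type*} (p : κ → ℝ) (f : κ → U) (u : U) : κ → ℝ :=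
  fun a => rs p f u a / lm p f u

/-- entropy of the weights -/
noncomputable def H0 (p : κ → ℝ) : ℝ := ∑ a, negMulLog (p a)

/-- diameter of the support -/
def Dm (v : κ → ℝ) (p : κ → ℝ) (d : ℝ) : Prop := ∀ a b, p a ≠ 0 → p b ≠ 0 → |v a - v b| ≤ d

section basic

variable {U : Type*} {p : κ → ℝ} (f : κ → U)

theorem rs_nonneg (hp : ∀ a, 0 ≤ p a) (u : U) (a : κ) : 0 ≤ rs p f u a :=
  indicator_nonneg (fun _ _ => hp _) a

theorem rs_of_eq {u : U} {a : κ} (h : f a = u) : rs p f u a = p a :=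
  indicator_of_mem (show a ∈ {a | f a = u} from h) p

theorem rs_of_ne {u : U} {a : κ} (h : f a ≠ u) : rs p f u a = 0 :=
  indicator_of_notMem (show a ∉ {a | f a = u} from h) p

theorem lm_nonneg (hp : ∀ a, 0 ≤ p a) (u : U) : 0 ≤ lm p f u :=
  Finset.sum_nonneg fun a _ => rs_nonneg f hp u a

theorem sum_rs [Fintype U] (a : κ) : ∑ u, rs p f u a = p a := by
  classical
  rw [Finset.sum_eq_single (f a)]
  · exact rs_of_eq f rfl
  · intro u _ hu
    exact rs_of_ne f (fun h => hu h.symm)
  · intro h; exact absurd (Finset.mem_univ _) h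

theorem sum_lm [Fintype U] : ∑ u, lm p f u = ∑ a, p a := by
  unfold lm
  rw [Finset.sum_comm]
  exact Finset.sum_congr rfl fun a _ => sum_rs f a

theorem lm_mul_cnd (hp : ∀ a, 0 ≤ p a) (u : U) (a : κ) : lm p f u * cnd p f u a = rs p f u a := by
  unfold cnd
  by_cases h : lm p f u = 0
  · have h1 : rs p f u a = 0 := by
      have h2 := (Finset.sum_eq_zero_iff_of_nonneg fun a _ => rs_nonneg f hp u a).1 h
      exact h2 a (Finset.mem_univ a)
    rw [h, h1, zero_mul]
  · field_simp

theorem isPW_cnd (hp : ∀ a, 0 ≤ p a) {u : U} (hu : lm p f u ≠ 0) : IsPW (cnd p f u) := by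
  refine ⟨fun a => div_nonneg (rs_nonneg f hp u a) (lm_nonneg f hp u), ?_⟩
  unfold cnd
  rw [← Finset.sum_div]
  exact div_self hu

theorem cnd_ne_zero {u : U} {a : κ} (h : cnd p f u a ≠ 0) : f a = u ∧ p a ≠ 0 := by
  by_cases h1 : f a = u
  · refine ⟨h1, fun h2 => h ?_⟩
    unfold cnd
    rw [rs_of_eq f h1, h2, zero_div]
  · exact absurd (by unfold cnd; rw [rs_of_ne f h1, zero_div]) h

theorem Dm.cnd {v : κ → ℝ} {d : ℝ} (h : Dm v p d) (u : U) : Dm v (cnd p f u) d := by
  intro a b ha hb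
  exact h a b (cnd_ne_zero f ha).2 (cnd_ne_zero f hb).2

/-- chain rule -/
theorem H0_chain [Fintype U] (hp : ∀ a, 0 ≤ p a) :
    H0 p = ∑ u, negMulLog (lm p f u) + ∑ u, lm p f u * H0 (cnd p f u) := by
  have h1 : ∀ u, ∑ a, negMulLog (rs p f u a) =
      negMulLog (lm p f u) + lm p f u * H0 (cnd p f u) := by
    intro u
    by_cases hu : lm p f u = 0
    · have h2 : ∀ a, rs p f u a = 0 := fun a =>
        (Finset.sum_eq_zero_iff_of_nonneg fun a _ => rs_nonneg f hp u a).1 hu a
          (Finset.mem_univ a)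
      simp [hu, h2]
    · have h3 : ∀ a, negMulLog (rs p f u a) =
          cnd p f u a * negMulLog (lm p f u) + lm p f u * negMulLog (cnd p f u a) := by
        intro a
        rw [← lm_mul_cnd f hp u a, negMulLog_mul]
      rw [Finset.sum_congr rfl fun a _ => h3 a, Finset.sum_add_distrib, ← Finset.sum_mul,
        ← Finset.mul_sum, (isPW_cnd f hp hu).2, one_mul]
      rfl
  have h4 : H0 p = ∑ u, ∑ a, negMulLog (rs p f u a) := by
    unfold H0
    rw [Finset.sum_comm]
    refine Finset.sum_congr rfl fun a _ => ?_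
    classical
    rw [Finset.sum_eq_single (f a)]
    · rw [rs_of_eq f rfl]
    · intro u _ hu
      rw [rs_of_ne f (fun h => hu h.symm), negMulLog_zero]
    · intro h; exact absurd (Finset.mem_univ _) h
  rw [h4, Finset.sum_congr rfl fun u _ => h1 u, Finset.sum_add_distrib]

end basic

/-- the only property of the gain function which is used -/
def Gain (G : (κ → ℝ) → ℕ → ℝ) : Prop :=
  (∀ p, IsPW p → ∀ i, 0 ≤ G p i) ∧
  (∀ p, IsPW p → ∀ i j, i ≤ j → G p i ≤ G p j) ∧
  ∀ (N : ℕ) (f : κ → Fin N) (p : κ → ℝ), IsPW p → ∀ i j, i ≤ j →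
    G p i - ∑ u, lm p f u * G (cnd p f u) i ≤ G p j - ∑ u, lm p f u * G (cnd p f u) j

theorem sum_lm_mul_le {U : Type*} [Fintype U] {p : κ → ℝ} (hp : IsPW p) (f : κ → U)
    {X : U → ℝ} {c : ℝ} (h : ∀ u, lm p f u ≠ 0 → X u ≤ c) : ∑ u, lm p f u * X u ≤ c := by
  have h1 : ∑ u, lm p f u * X u ≤ ∑ u, lm p f u * c := by
    refine Finset.sum_le_sum fun u _ => ?_
    by_cases hu : lm p f u = 0
    · rw [hu, zero_mul, zero_mul]
    · exact mul_le_mul_of_nonneg_left (h u hu) (lm_nonneg f hp.1 u)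
  rwa [← Finset.sum_mul, sum_lm, hp.2, one_mul] at h1

theorem sum_lm_mul_mono {U : Type*} [Fintype U] {p : κ → ℝ} (hp : IsPW p) (f : κ → U)
    {X Y : U → ℝ} (h : ∀ u, lm p f u ≠ 0 → X u ≤ Y u) :
    ∑ u, lm p f u * X u ≤ ∑ u, lm p f u * Y u := by
  refine Finset.sum_le_sum fun u _ => ?_
  by_cases hu : lm p f u = 0
  · rw [hu, zero_mul, zero_mul]
  · exact mul_le_mul_of_nonneg_left (h u hu) (lm_nonneg f hp.1 u)

/-- the node inequality: the weights `p` have a partition into children of diameter `≤ d'` with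
entropy controlled by gains -/
def Node (G : (κ → ℝ) → ℕ → ℝ) (v : κ → ℝ) (C negl : ℝ) (r e e' : ℕ) (d' : ℝ) (p : κ → ℝ) : Prop :=
  ∃ (N : ℕ) (f : κ → Fin N), (∀ u, Dm v (cnd p f u) d') ∧
    ∑ u, negMulLog (lm p f u) ≤
      C * (G p r - ∑ u, lm p f u * G (cnd p f u) r) + C * (G p r - G p e) +
      C * ∑ u, lm p f u * (G (cnd p f u) r - G (cnd p f u) e') + negl

/-- THE TREE SUM -/
theorem tree_sum {G : (κ → ℝ) → ℕ → ℝ} (hG : Gain G) {v : κ → ℝ} {C negl : ℝ} (hC : 0 ≤ C)
    (hnegl : 0 ≤ negl) {d : ℕ → ℝ} {ρ η : ℕ → ℕ} {J I : ℕ} (hηρ : ∀ j, η j ≤ ρ j)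
    (hη : ∀ j, η j ≤ η (j + 1)) (hηρ' : ∀ j, η (j + 1) ≤ ρ j)
    (hI : ∀ j < J, ρ j ≤ I) (Act : Finset ℕ)
    (hbot : ∀ p, IsPW p → Dm v p (d J) → H0 p ≤ 0)
    (hnode : ∀ j < J, ∀ p, IsPW p → Dm v p (d j) → ¬ Dm v p (d (j + 1)) →
      j ∈ Act ∧ Node G v C negl (ρ j) (η j) (η (j + 1)) (d (j + 1)) p) :
    ∀ k ≤ J, ∀ p, IsPW p → Dm v p (d (J - k)) →
      H0 p ≤ C * (G p I + 2 * ∑ i ∈ Finset.Ico (J - k) J, (G p (ρ i) - G p (η i))) +
        negl * ((Act.filter fun i => J - k ≤ i ∧ i < J).card : ℝ) := by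
  intro k
  induction k with
  | zero =>
    intro _ p hp hD
    have h1 := hbot p hp hD
    have h2 := hG.1 p hp I
    simp only [Nat.sub_zero, Finset.Ico_self, Finset.sum_empty, mul_zero, add_zero]
    have : (0 : ℝ) ≤ negl * ((Act.filter fun i => J ≤ i ∧ i < J).card : ℝ) := by positivity
    nlinarith
  | succ k ih =>
    intro hk p hp hD
    set j := J - (k + 1) with hj
    have hj1 : J - k = j + 1 := by omega
    have hjJ : j < J := by omega
    rw [hj1] at ih
    have hsplit : ∀ p, ∑ i ∈ Finset.Ico j J, (G p (ρ i) - G p (η i)) =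
        (G p (ρ j) - G p (η j)) + ∑ i ∈ Finset.Ico (j + 1) J, (G p (ρ i) - G p (η i)) := by
      intro p
      rw [← Finset.sum_Ioo_add_eq_sum_Ico hjJ, add_comm]
      congr 1
    have hcard : (Act.filter fun i => j + 1 ≤ i ∧ i < J) ⊆ Act.filter fun i => j ≤ i ∧ i < J := by
      intro i hi
      rw [Finset.mem_filter] at hi ⊢
      exact ⟨hi.1, by omega, hi.2.2⟩
    by_cases hD' : Dm v p (d (j + 1))
    · have h1 := ih (by omega) p hp hD'
      have h2 := hG.2.1 p hp _ _ (hηρ j)
      have h3 : ((Act.filter fun i => j + 1 ≤ i ∧ i < J).card : ℝ) ≤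
          ((Act.filter fun i => j ≤ i ∧ i < J).card : ℝ) := by
        exact_mod_cast Finset.card_le_card hcard
      have h4 := mul_le_mul_of_nonneg_left h3 hnegl
      rw [hsplit]
      have h5 : C * (G p I + 2 * ∑ i ∈ Finset.Ico (j + 1) J, (G p (ρ i) - G p (η i))) ≤
          C * (G p I + 2 * ((G p (ρ j) - G p (η j)) +
            ∑ i ∈ Finset.Ico (j + 1) J, (G p (ρ i) - G p (η i)))) := by
        refine mul_le_mul_of_nonneg_left ?_ hC
        linarith
      linarith
    · obtain ⟨hact, N, f, hch, hineq⟩ := hnode j hjJ p hp hD hD'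
      have hcard' : ((Act.filter fun i => j + 1 ≤ i ∧ i < J).card : ℝ) + 1 ≤
          ((Act.filter fun i => j ≤ i ∧ i < J).card : ℝ) := by
        have hss : insert j (Act.filter fun i => j + 1 ≤ i ∧ i < J) ⊆
            Act.filter fun i => j ≤ i ∧ i < J := by
          intro i hi
          rcases Finset.mem_insert.1 hi with h | h
          · rw [h, Finset.mem_filter]; exact ⟨hact, le_rfl, hjJ⟩
          · exact hcard h
        have h1 := Finset.card_le_card hss
        rw [Finset.card_insert_of_notMem (by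
          intro h; rw [Finset.mem_filter] at h; omega)] at h1
        exact_mod_cast h1
      set m := ((Act.filter fun i => j + 1 ≤ i ∧ i < J).card : ℝ) with hm
      -- the children
      have hchild : ∑ u, lm p f u * H0 (cnd p f u) ≤
          C * (∑ u, lm p f u * G (cnd p f u) I + 2 * ∑ i ∈ Finset.Ico (j + 1) J,
            ∑ u, lm p f u * (G (cnd p f u) (ρ i) - G (cnd p f u) (η i))) + negl * m := by
        have h1 : ∑ u, lm p f u * H0 (cnd p f u) ≤ ∑ u, lm p f u *
            (C * (G (cnd p f u) I + 2 * ∑ i ∈ Finset.Ico (j + 1) J,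
              (G (cnd p f u) (ρ i) - G (cnd p f u) (η i))) + negl * m) :=
          sum_lm_mul_mono hp f fun u hu => ih (by omega) _ (isPW_cnd f hp.1 hu) (hch u)
        refine h1.trans (le_of_eq ?_)
        have h2 : ∑ u, lm p f u = 1 := by rw [sum_lm, hp.2]
        rw [Finset.sum_comm (s := Finset.Ico (j + 1) J)]
        calc ∑ u, lm p f u * (C * (G (cnd p f u) I + 2 * ∑ i ∈ Finset.Ico (j + 1) J,
              (G (cnd p f u) (ρ i) - G (cnd p f u) (η i))) + negl * m)
            = ∑ u, (C * (lm p f u * G (cnd p f u) I) + C * (2 * ∑ i ∈ Finset.Ico (j + 1) J,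
                lm p f u * (G (cnd p f u) (ρ i) - G (cnd p f u) (η i))) +
                lm p f u * (negl * m)) := by
              refine Finset.sum_congr rfl fun u _ => ?_
              rw [← Finset.mul_sum]; ring
          _ = _ := by
              rw [Finset.sum_add_distrib, Finset.sum_add_distrib, ← Finset.sum_mul, h2,
                ← Finset.mul_sum, ← Finset.mul_sum, ← Finset.mul_sum]
              ring
      -- windows of deeper levels
      have hwin : ∀ i, ∑ u, lm p f u * (G (cnd p f u) (ρ i) - G (cnd p f u) (η i)) ≤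
          G p (ρ i) - G p (η i) := by
        intro i
        have h1 := hG.2.2 N f p hp _ _ (hηρ i)
        simp only [mul_sub, Finset.sum_sub_distrib]
        linarith
      have hwins : ∑ i ∈ Finset.Ico (j + 1) J,
          ∑ u, lm p f u * (G (cnd p f u) (ρ i) - G (cnd p f u) (η i)) ≤
          ∑ i ∈ Finset.Ico (j + 1) J, (G p (ρ i) - G p (η i)) :=
        Finset.sum_le_sum fun i _ => hwin i
      -- the second window of the node
      have hw2 : ∑ u, lm p f u * (G (cnd p f u) (ρ j) - G (cnd p f u) (η (j + 1))) ≤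
          G p (ρ j) - G p (η j) := by
        have h1 := hG.2.2 N f p hp _ _ (hηρ' j)
        have h2 := hG.2.1 p hp _ _ (hη j)
        simp only [mul_sub, Finset.sum_sub_distrib]
        linarith
      -- the information part
      have hinf := hG.2.2 N f p hp _ _ (hI j hjJ)
      rw [H0_chain f hp.1, hsplit]
      have k1 := mul_le_mul_of_nonneg_left hwins hC
      have k2 := mul_le_mul_of_nonneg_left hw2 hC
      have k3 := mul_le_mul_of_nonneg_left hinf hC
      have k4 := mul_le_mul_of_nonneg_left hcard' hnegl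
      nlinarith [hineq, hchild, k1, k2, k3, k4]

/-- telescoping of overlapping windows -/
theorem sum_windows {g : ℕ → ℝ} (hg : Monotone g) {ρ η : ℕ → ℕ} (hη : Monotone η) {T : ℕ}
    (hT : ∀ i, ρ i ≤ η (i + T)) (J : ℕ) :
    ∑ i ∈ Finset.range J, (g (ρ i) - g (η i)) ≤ T * (g (η (J + T)) - g (η 0)) := by
  have h1 : ∑ i ∈ Finset.range J, (g (ρ i) - g (η i)) ≤
      ∑ i ∈ Finset.range J, (g (η (i + T)) - g (η i)) :=
    Finset.sum_le_sum fun i _ => sub_le_sub_right (hg (hT i)) _
  refine h1.trans ?_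
  have h2 : ∀ T' : ℕ, ∑ i ∈ Finset.range J, (g (η (i + T')) - g (η i)) ≤
      T' * (g (η (J + T')) - g (η 0)) := by
    intro T'
    induction T' with
    | zero => simp
    | succ T' ih =>
      have h3 : ∑ i ∈ Finset.range J, (g (η (i + (T' + 1))) - g (η i)) =
          ∑ i ∈ Finset.range J, (g (η (i + T')) - g (η i)) + (g (η (J + T')) - g (η T')) := by
        have h4 : ∑ i ∈ Finset.range J, (g (η (i + 1 + T')) - g (η (i + T'))) =
            g (η (J + T')) - g (η T') := by
          have h5 := Finset.sum_range_sub (fun i => g (η (i + T'))) J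
          simpa using h5
        rw [← h4, ← Finset.sum_add_distrib]
        refine Finset.sum_congr rfl fun i _ => ?_
        rw [show i + (T' + 1) = i + 1 + T' by omega]
        ring
      rw [h3]
      have h6 : g (η (J + T')) ≤ g (η (J + (T' + 1))) := hg (hη (by omega))
      have h7 : g (η 0) ≤ g (η T') := hg (hη (by omega))
      have h8 : (T' : ℝ) * g (η (J + T')) ≤ T' * g (η (J + (T' + 1))) :=
        mul_le_mul_of_nonneg_left h6 (by positivity)
      push_cast
      nlinarith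
  exact h2 T

/-- the top of the tree: entropy of the weights inside the pieces of a partition whose gains at the
scale `i₀` are at most `c₀` -/
theorem tree_top {G : (κ → ℝ) → ℕ → ℝ} (hG : Gain G) {v : κ → ℝ} {C negl : ℝ} (hC : 0 ≤ C)
    (hnegl : 0 ≤ negl) {d : ℕ → ℝ} {ρ η : ℕ → ℕ} {J I T : ℕ} (hηρ : ∀ j, η j ≤ ρ j)
    (hη : Monotone η) (hηρ' : ∀ j, η (j + 1) ≤ ρ j) (hT : ∀ i, ρ i ≤ η (i + T))
    (hI : ∀ j < J, ρ j ≤ I) (hI' : η (J + T) ≤ I) (Act : Finset ℕ)
    (hbot : ∀ p, IsPW p → Dm v p (d J) → H0 p ≤ 0)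
    (hnode : ∀ j < J, ∀ p, IsPW p → Dm v p (d j) → ¬ Dm v p (d (j + 1)) →
      j ∈ Act ∧ Node G v C negl (ρ j) (η j) (η (j + 1)) (d (j + 1)) p)
    {N : ℕ} (f : κ → Fin N) {p : κ → ℝ} (hp : IsPW p) (hf : ∀ u, Dm v (cnd p f u) (d 0))
    {i₀ : ℕ} (hi₀ : i₀ ≤ I) {c₀ : ℝ} (hc₀ : ∀ u, lm p f u ≠ 0 → G (cnd p f u) i₀ ≤ c₀) :
    ∑ u, lm p f u * H0 (cnd p f u) ≤
      C * ((G p I - G p i₀) + c₀ + 2 * (T * (G p I - G p (η 0)))) + negl * (Act.card : ℝ) := by
  have htree : ∀ p, IsPW p → Dm v p (d 0) →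
      H0 p ≤ C * (G p I + 2 * ∑ i ∈ Finset.range J, (G p (ρ i) - G p (η i))) +
        negl * (Act.card : ℝ) := by
    intro p hp hD
    have h1 := tree_sum hG hC hnegl hηρ (fun j => hη (Nat.le_succ j)) hηρ' hI Act hbot hnode J
      le_rfl p hp (by rwa [Nat.sub_self])
    rw [Nat.sub_self] at h1
    have h2 : ((Act.filter fun i => 0 ≤ i ∧ i < J).card : ℝ) ≤ (Act.card : ℝ) := by
      exact_mod_cast Finset.card_filter_le _ _
    have h3 := mul_le_mul_of_nonneg_left h2 hnegl
    rw [← Finset.range_eq_Ico] at h1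
    linarith
  have h1 : ∑ u, lm p f u * H0 (cnd p f u) ≤ ∑ u, lm p f u *
      (C * (G (cnd p f u) I + 2 * ∑ i ∈ Finset.range J,
        (G (cnd p f u) (ρ i) - G (cnd p f u) (η i))) + negl * (Act.card : ℝ)) :=
    sum_lm_mul_mono hp f fun u hu => htree _ (isPW_cnd f hp.1 hu) (hf u)
  have hone : ∑ u, lm p f u = 1 := by rw [sum_lm, hp.2]
  have h2 : ∑ u, lm p f u * (C * (G (cnd p f u) I + 2 * ∑ i ∈ Finset.range J,
        (G (cnd p f u) (ρ i) - G (cnd p f u) (η i))) + negl * (Act.card : ℝ)) =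
      C * (∑ u, lm p f u * G (cnd p f u) I + 2 * ∑ i ∈ Finset.range J,
        ∑ u, lm p f u * (G (cnd p f u) (ρ i) - G (cnd p f u) (η i))) + negl * (Act.card : ℝ) := by
    rw [Finset.sum_comm (s := Finset.range J)]
    calc _ = ∑ u, (C * (lm p f u * G (cnd p f u) I) + C * (2 * ∑ i ∈ Finset.range J,
                lm p f u * (G (cnd p f u) (ρ i) - G (cnd p f u) (η i))) +
                lm p f u * (negl * (Act.card : ℝ))) := by
              refine Finset.sum_congr rfl fun u _ => ?_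
              rw [← Finset.mul_sum]; ring
      _ = _ := by
              rw [Finset.sum_add_distrib, Finset.sum_add_distrib, ← Finset.sum_mul, hone,
                ← Finset.mul_sum, ← Finset.mul_sum, ← Finset.mul_sum]
              ring
  rw [h2] at h1
  refine h1.trans ?_
  have hwin : ∑ i ∈ Finset.range J,
      ∑ u, lm p f u * (G (cnd p f u) (ρ i) - G (cnd p f u) (η i)) ≤
      ∑ i ∈ Finset.range J, (G p (ρ i) - G p (η i)) := by
    refine Finset.sum_le_sum fun i _ => ?_
    have h1 := hG.2.2 N f p hp _ _ (hηρ i)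
    simp only [mul_sub, Finset.sum_sub_distrib]
    linarith
  have htel := sum_windows (g := G p) (fun i j hij => hG.2.1 p hp i j hij) hη hT J
  have hmono := hG.2.1 p hp _ _ hI'
  have hT' : (T : ℝ) * (G p (η (J + T)) - G p (η 0)) ≤ T * (G p I - G p (η 0)) :=
    mul_le_mul_of_nonneg_left (by linarith) (by positivity)
  have hinf : ∑ u, lm p f u * G (cnd p f u) I ≤ (G p I - G p i₀) + c₀ := by
    have h3 := hG.2.2 N f p hp _ _ hi₀
    have h4 := sum_lm_mul_le hp f hc₀
    linarith
  have h5 := mul_le_mul_of_nonneg_left (show ∑ u, lm p f u * G (cnd p f u) I +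
    2 * ∑ i ∈ Finset.range J, ∑ u, lm p f u * (G (cnd p f u) (ρ i) - G (cnd p f u) (η i)) ≤
    (G p I - G p i₀) + c₀ + 2 * (T * (G p I - G p (η 0))) by linarith) hC
  linarith

end Crest.Agent.R98.K
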