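import Crest.Agent.R98.Goal
import Crest.Agent.R98.Bridge
import Crest.Agent.R98.TOneE
import Crest.Agent.R98.KStop
import Crest.Agent.R98.KLocW
import Crest.Agent.R98.KTree
import Crest.Agent.R98.KParam
import Crest.Agent.R98.KConv

/-!
Row 98, case K: frozen interface (helper383).  `KMain` follows (file `R98/KMain.lean`) from the
`Prop`s below; every owner proves one of them.
-/

set_option autoImplicit false
open MeasureTheory Crest.AnalysisR Set Filter Topology Real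

namespace Crest.Agent.R98.K

open Crest.Agent.R98.TOne Crest.Agent.R98.Part Crest.Agent.R098.Upper

section defs

variable {ι : Type*} [Fintype ι]

/-- lengths -/
noncomputable def el (r : ι → ℝ) (i : ι) : ℝ := -Real.log |r i|

/-- type of a word, in a finite type -/
noncomputable def ty {m : ℕ} (u : Fin m → ι) : ι → Fin (m + 1) :=
  fun i => ⟨wtype u i, Nat.lt_succ_of_le (wtype_le u i)⟩

/-- slope of the words of type `τ` -/
noncomputable def rt (r : ι → ℝ) {m : ℕ} (τ : ι → Fin (m + 1)) : ℝ := ∏ i, r i ^ (τ i : ℕ)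

/-- translation part of a word -/
noncomputable def zz (r t : ι → ℝ) {m : ℕ} (u : Fin m → ι) : ℝ := ∑ i, cw r u i * t i

/-- law of the words of length `m` given the type -/
noncomputable def qT (p : ι → ℝ) {m : ℕ} (τ : ι → Fin (m + 1)) : (Fin m → ι) → ℝ :=
  TOne.cond (pw p) ty τ

/-- probability of the type -/
noncomputable def pT (p : ι → ℝ) {m : ℕ} (τ : ι → Fin (m + 1)) : ℝ :=
  TOne.fib (pw p) (ty : (Fin m → ι) → _) τ

/-- the base measure of type `τ` and stopped word `Q` -/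
noncomputable def bT (r : ι → ℝ) (μ : Measure ℝ) {m : ℕ} (τ : ι → Fin (m + 1)) (Q : List ι) :
    Measure ℝ := μ.map fun x => (rt r τ * (Q.map r).prod) * x

/-- gain of the law of type `τ` over the base of `(τ, Q)` at the dyadic scale `i` -/
noncomputable def GT (r t p : ι → ℝ) (μ : Measure ℝ) {m : ℕ} (τ : ι → Fin (m + 1)) (Q : List ι)
    (i : ℕ) : ℝ :=
  Hs (addLaw (qT p τ) (zz r t) (bT r μ τ Q)) ((1 / 2) ^ i) - Hs (bT r μ τ Q) ((1 / 2) ^ i)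

/-- entropy of the values given the dyadic cells at scale `x₀` -/
noncomputable def HA {Ω : Type*} [Fintype Ω] (q v : Ω → ℝ) (x₀ : ℕ) : ℝ :=
  HS q (Setoid.ker v) - HS q (Setoid.ker fun a => ⌊v a * 2 ^ x₀⌋)

/-- the top scale -/
noncomputable def X0 (χ ε : ℝ) (m : ℕ) : ℕ := ⌈(1 + 3 * ε) * χ * m / Real.log 2⌉₊

end defs

universe u

open Classical in
/-- (ONE) one-type theorem, owner 226 (uses DET of 9, CUT of 800, T1a/T1b of 290/272). -/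
def OneP : Prop :=
  ∀ (K A a : ℕ) (c C1 R : ℝ), 16 ≤ K → 1 ≤ A → 0 < c → 1 ≤ R →
  ∃ (Ct : ℝ) (w0 : ℕ), 0 ≤ Ct ∧ ∀ w : ℕ, w0 ≤ w →
  ∀ (Ω : Type u) [Fintype Ω] (𝒬 : Type u) [Fintype 𝒬] (q v : Ω → ℝ) (w' ρ : 𝒬 → ℝ)
    (μ : Measure ℝ) [IsProbabilityMeasure μ] (ρ0 : ℝ),
    IsPW q → IsPW w' → BSupp μ → 0 < ρ0 → (∀ Q, ρ0 ≤ |ρ Q|) → (∀ Q, |ρ Q| ≤ R * ρ0) →
    (∀ b : ℝ, b ≠ 0 → ∀ s, 0 < s → Macro (μ.map fun x => b * x) (2 ^ a) s c) →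
    (∀ L : ℕ, 0 < L → ∀ d, 0 < d → Hs μ d - Hs μ (L * d) ≤ (1 - 8 / K) * log L + C1) →
    (∀ y : ℝ, ∑ Q, (if y ≤ log |ρ Q| ∧ log |ρ Q| ≤ y + 8 / 2 ^ ((K - 2) * w)
      then w' Q else 0) ≤ 1 / 2 ^ ((K - 3) * w)) →
    ∀ x₀ : ℕ, a + 1 ≤ x₀ → ∀ Act : Finset ℕ,
    (∀ j, (∃ k l, q k ≠ 0 ∧ q l ≠ 0 ∧ (1 / 2 : ℝ) ^ (x₀ + (j + 1) * w) < |v k - v l| ∧
      |v k - v l| ≤ (1 / 2) ^ (x₀ + j * w)) → j ∈ Act) →
    ∃ i₀, ∀ i, i₀ ≤ i →
      HA q v x₀ ≤ Ct * (∑ Q, w' Q *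
        ((Hs (addLaw q v (μ.map fun x => ρ Q * x)) ((1 / 2) ^ i) -
            Hs (μ.map fun x => ρ Q * x) ((1 / 2) ^ i)) -
         (Hs (addLaw q v (μ.map fun x => ρ Q * x)) ((1 / 2) ^ (x₀ - (a + 1))) -
            Hs (μ.map fun x => ρ Q * x) ((1 / 2) ^ (x₀ - (a + 1))))) + 1) +
        Act.card * (2 ^ (w + 3) * (A * w) / 2 ^ (A * w))

/-- hypotheses on the system -/
structure Sys {ι : Type*} [Fintype ι] (r t p : ι → ℝ) (μ : Measure ℝ) (D C : ℝ) : Prop where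
  hr : ∀ i, r i ≠ 0 ∧ |r i| < 1
  hp : ∀ i, 0 < p i
  hp1 : ∑ i, p i = 1
  hμ : IsSelfSimilarMeasure r t p μ
  hD0 : 0 ≤ D
  hD1 : D ≤ 1
  hC : 0 ≤ C
  hle : ∀ x : ℝ, 0 ≤ x → Hs μ (exp (-x)) ≤ D * x + C
  htend : Tendsto (fun x : ℝ => Hs μ (exp (-x)) / x) atTop (𝓝 D)

/-- total information at the dyadic scale `i` of the words of length `m` followed by the words
stopped at `s`: `Hs μ - ∑ pT wtL Hs (bT τ Q)` -/
noncomputable def Itot {ι : Type*} [Fintype ι] (r p : ι → ℝ) (μ : Measure ℝ) (m n : ℕ) (s : ℝ)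
    (i : ℕ) : ℝ :=
  Hs μ ((1 / 2) ^ i) - ∑ u : Fin m → ι, pw p u * ∑ Q ∈ stp (el r) n s,
    wtL p Q * Hs μ ((1 / 2) ^ i / |rho r u * (Q.map r).prod|)

/-- mean number of letters of the stopped words -/
noncomputable def EQ {ι : Type*} [Fintype ι] (r p : ι → ℝ) (n : ℕ) (s : ℝ) : ℝ :=
  ∑ Q ∈ stp (el r) n s, wtL p Q * Q.length

open Classical in
/-- (G1) the gains of the types are at most the increments of the total information. Owner 272. -/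
def G1P : Prop :=
  ∀ (ι : Type u) [Fintype ι] [Nonempty ι] (r t p : ι → ℝ) (μ : Measure ℝ) (D C : ℝ),
    Sys r t p μ D C → ∀ (m n : ℕ) (s : ℝ) (i i' : ℕ), i' ≤ i →
      ∑ τ : ι → Fin (m + 1), pT p τ * ∑ Q ∈ stp (el r) n s,
        wtL p Q * (GT r t p μ τ Q i - GT r t p μ τ Q i') ≤
      Itot r p μ m n s i - Itot r p μ m n s i'

/-- (G2) upper bound of the total information. Owner 136. -/
def G2P : Prop :=
  ∀ (ι : Type u) [Fintype ι] [Nonempty ι] (r t p : ι → ℝ) (μ : Measure ℝ) (D C : ℝ),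
    Sys r t p μ D C → ∃ C2 : ℝ, ∀ (m n : ℕ) (s : ℝ) (i : ℕ), 0 ≤ s →
      Itot r p μ m n s i ≤ D * lyapunovExp r p * (m + EQ r p n s) + C2

/-- (G3) lower bound of the total information at the top scale. Owner 173. -/
def G3P : Prop :=
  ∀ (ι : Type u) [Fintype ι] [Nonempty ι] (r t p : ι → ℝ) (μ : Measure ℝ) (D C : ℝ),
    Sys r t p μ D C → ∀ ε : ℝ, 0 < ε → ε < 1 → ∀ a : ℕ, ∀ η : ℝ, 0 < η →
    ∀ᶠ m : ℕ in atTop, ∀ n : ℕ, (∀ i, ε * lyapunovExp r p * m ≤ n * el r i) →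
      D * lyapunovExp r p * (m + EQ r p n (ε * lyapunovExp r p * m)) - η * m ≤
        Itot r p μ m n (ε * lyapunovExp r p * m) (X0 (lyapunovExp r p) ε m - a)

open Classical in
/-- (GAMMA): total gain over all types and stopped words below the scale `X0 - a`. From
`G1P`, `G2P`, `G3P` (383). -/
def GammaP : Prop :=
  ∀ (ι : Type u) [Fintype ι] [Nonempty ι] (r t p : ι → ℝ) (μ : Measure ℝ) (D C : ℝ),
    Sys r t p μ D C → ∀ ε : ℝ, 0 < ε → ε < 1 → ∀ a : ℕ, ∀ η : ℝ, 0 < η →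
    ∀ᶠ m : ℕ in atTop, ∀ n : ℕ, (∀ i, ε * lyapunovExp r p * m ≤ n * el r i) →
    ∀ i : ℕ, X0 (lyapunovExp r p) ε m ≤ i →
      ∑ τ : ι → Fin (m + 1), pT p τ * ∑ Q ∈ stp (el r) n (ε * lyapunovExp r p * m),
        wtL p Q * (GT r t p μ τ Q i - GT r t p μ τ Q (X0 (lyapunovExp r p) ε m - a)) ≤ η * m

open Classical in
/-- (FINAL). Owner 430. -/
def FinalP : Prop :=
  ∀ (ι : Type u) [Fintype ι] [Nonempty ι] (r t p : ι → ℝ) (μ : Measure ℝ) (D C : ℝ),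
    Sys r t p μ D C → ∃ C' : ℝ, ∀ m : ℕ, 1 ≤ m → ∀ x₀ : ℕ,
      rwEntropyRate r t p * m ≤ D * (x₀ * Real.log 2) + C' + Fintype.card ι * Real.log (m + 1) +
        ∑ τ : ι → Fin (m + 1), pT p τ * HA (qT p τ) (zz r t) x₀

open Classical in
/-- (MULT), owner 566 (`exists_conv` of 399 gives `q`). -/
def MultP : Prop :=
  ∀ (ι : Type u) [Fintype ι] [Nonempty ι] (r p : ι → ℝ), (∀ i, r i ≠ 0 ∧ |r i| < 1) →
    (∀ i, 0 < p i) → ∑ i, p i = 1 → IrrRatio r → ∀ N1 : ℝ,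
    ∃ C : ℝ, ∀ Q0 : ℕ, ∃ q : ℕ, Q0 ≤ q ∧ ∀ s : ℝ, (q : ℝ) ^ 2 ≤ s →
      ∀ n : ℕ, (∀ i, s ≤ n * el r i) → (n : ℝ) ≤ N1 * s → ∀ a b : ℝ, 0 ≤ b →
      ∑ Q ∈ stp (el r) n s, (if a ≤ LL (el r) Q ∧ LL (el r) Q ≤ a + b
        then wtL p Q else 0) ≤ C * (1 + Real.log s) ^ 3 * (b + 1 / q)

end Crest.Agent.R98.K
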