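import Mathlib

set_option autoImplicit false
open Finset Module

/-!
# Location lemma (row 98, rank ≥ 2)

For a linear form `n ↦ ∑ n k * e k` on integer vectors with entries bounded by `B`, the nonzero
absolute values lie in at most `card κ` windows `[x, K x]`, with `K = M * (M! * (M B²)^M)`-ish.
-/

namespace Crest.Agent.R98.K

variable {κ : Type*} [Fintype κ]

/-- integer vector as rational vector -/
def toQ (n : κ → ℤ) : κ → ℚ := fun k => (n k : ℚ)

/-- the Cramer constant -/
def cramerC (M B : ℕ) : ℕ := Nat.factorial M * (M * B ^ 2 + 1) ^ M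

theorem cramerC_mono {r M : ℕ} (h : r ≤ M) (B : ℕ) :
    Nat.factorial r * (M * B ^ 2 + 1) ^ r ≤ cramerC M B := by
  unfold cramerC
  exact Nat.mul_le_mul (Nat.factorial_le h) (Nat.pow_le_pow_right (by omega) h)

/-- Cramer's rule with bounds, through the Gram matrix. -/
theorem cramer_bound (B : ℕ) (r : ℕ) (f : Fin r → κ → ℤ) (hf : ∀ i k, |f i k| ≤ B)
    (hind : LinearIndependent ℚ (fun i => toQ (f i)))
    (n : κ → ℤ) (hn : ∀ k, |n k| ≤ B) (c : Fin r → ℚ)
    (hc : ∀ k, (n k : ℚ) = ∑ i, c i * f i k) (i : Fin r) :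
    |c i| ≤ (cramerC (Fintype.card κ) B : ℚ) := by
  set M := Fintype.card κ with hM
  -- Gram matrix
  let G : Matrix (Fin r) (Fin r) ℤ := Matrix.of (fun j i => ∑ k, f j k * f i k)
  let b : Fin r → ℤ := fun j => ∑ k, f j k * n k
  have hr : r ≤ M := by
    have := hind.fintype_card_le_finrank
    simpa using this
  have hG : ∀ j i, |G j i| ≤ ((M * B ^ 2 + 1 : ℕ) : ℤ) := by
    intro j i
    have hGji : G j i = ∑ k, f j k * f i k := rfl
    rw [hGji]
    calc |∑ k, f j k * f i k| ≤ ∑ k, |f j k * f i k| := Finset.abs_sum_le_sum_abs _ _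
      _ ≤ ∑ _k : κ, (B : ℤ) * B := by
          refine Finset.sum_le_sum fun k _ => ?_
          rw [abs_mul]
          exact mul_le_mul (hf j k) (hf i k) (abs_nonneg _) (by positivity)
      _ = (M * B ^ 2 : ℕ) := by
          rw [Finset.sum_const, Finset.card_univ, nsmul_eq_mul, ← hM]; push_cast; ring
      _ ≤ _ := by push_cast; linarith
  have hb : ∀ j, |b j| ≤ ((M * B ^ 2 + 1 : ℕ) : ℤ) := by
    intro j
    calc |b j| ≤ ∑ k, |f j k * n k| := Finset.abs_sum_le_sum_abs _ _
      _ ≤ ∑ _k : κ, (B : ℤ) * B := by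
          refine Finset.sum_le_sum fun k _ => ?_
          rw [abs_mul]
          exact mul_le_mul (hf j k) (hn k) (abs_nonneg _) (by positivity)
      _ = (M * B ^ 2 : ℕ) := by
          rw [Finset.sum_const, Finset.card_univ, nsmul_eq_mul, ← hM]; push_cast; ring
      _ ≤ _ := by push_cast; linarith
  -- G c = b over ℚ
  let GQ : Matrix (Fin r) (Fin r) ℚ := G.map (Int.cast : ℤ → ℚ)
  have hGQ : ∀ j i, GQ j i = ∑ k, (f j k : ℚ) * (f i k : ℚ) := by
    intro j i
    show ((∑ k, f j k * f i k : ℤ) : ℚ) = _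
    push_cast
    rfl
  have hGc : GQ.mulVec c = fun j => (b j : ℚ) := by
    funext j
    simp only [Matrix.mulVec, dotProduct, b]
    push_cast
    simp_rw [hGQ, Finset.sum_mul]
    rw [Finset.sum_comm]
    refine Finset.sum_congr rfl fun k _ => ?_
    rw [hc k, Finset.mul_sum]
    refine Finset.sum_congr rfl fun i _ => by ring
  -- det ≠ 0
  have hdet : GQ.det ≠ 0 := by
    intro h0
    obtain ⟨v, hv0, hv⟩ := Matrix.exists_mulVec_eq_zero_iff.mpr h0
    -- v^T G v = |∑ v_i f_i|^2 = 0
    have hq : ∑ k, (∑ i, v i * (f i k : ℚ)) ^ 2 = 0 := by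
      have h1 : ∑ j, v j * (GQ.mulVec v) j = ∑ k, (∑ i, v i * (f i k : ℚ)) ^ 2 := by
        simp only [Matrix.mulVec, dotProduct]
        simp_rw [hGQ, Finset.sum_mul, Finset.mul_sum]
        have : ∀ j : Fin r, ∑ i, ∑ k, v j * ((f j k : ℚ) * (f i k : ℚ) * v i)
            = ∑ k, ∑ i, v j * ((f j k : ℚ) * (f i k : ℚ) * v i) := fun j => Finset.sum_comm
        simp_rw [this]
        rw [Finset.sum_comm]
        refine Finset.sum_congr rfl fun k _ => ?_
        rw [sq, Finset.sum_mul_sum]
        refine Finset.sum_congr rfl fun i _ => Finset.sum_congr rfl fun j _ => by ring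
      rw [← h1, hv]
      simp
    have hz : ∀ k, ∑ i, v i * (f i k : ℚ) = 0 := by
      intro k
      have := (Finset.sum_eq_zero_iff_of_nonneg (fun k _ => sq_nonneg _)).mp hq k (Finset.mem_univ k)
      exact pow_eq_zero_iff (two_ne_zero) |>.mp this
    apply hv0
    have := Fintype.linearIndependent_iff.mp hind v (by
      funext k
      simp only [Finset.sum_apply, Pi.smul_apply, toQ, smul_eq_mul, Pi.zero_apply]
      exact hz k)
    funext i
    exact this i
  have hdetZ : (G.det : ℚ) = GQ.det := by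
    simp only [GQ]
    have := RingHom.map_det (Int.castRingHom ℚ) G
    simpa [RingHom.mapMatrix_apply] using this
  have hdetge : (1 : ℚ) ≤ |GQ.det| := by
    rw [← hdetZ]
    have : G.det ≠ 0 := by
      intro h
      apply hdet
      rw [← hdetZ, h]
      simp
    have h1 : (1 : ℤ) ≤ |G.det| := Int.one_le_abs this
    exact_mod_cast h1
  -- Cramer
  have hcr : GQ.det * c i = (GQ.updateCol i (fun j => (b j : ℚ))).det := by
    have h1 : GQ.cramer (GQ.mulVec c) = GQ.det • c := by
      rw [Matrix.cramer_eq_adjugate_mulVec, Matrix.mulVec_mulVec, Matrix.adjugate_mul,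
        Matrix.smul_mulVec, Matrix.one_mulVec]
    have := congrFun h1 i
    rw [hGc, Matrix.cramer_apply] at this
    simpa using this.symm
  have hup : |(GQ.updateCol i (fun j => (b j : ℚ))).det| ≤ (cramerC M B : ℚ) := by
    have h1 := Matrix.det_le (A := GQ.updateCol i (fun j => (b j : ℚ)))
      (abv := AbsoluteValue.abs) (x := ((M * B ^ 2 + 1 : ℕ) : ℚ)) (by
        intro j l
        by_cases hl : l = i
        · subst hl
          rw [Matrix.updateCol_self]
          have := hb j
          simp only [AbsoluteValue.abs_apply]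
          exact_mod_cast this
        · rw [Matrix.updateCol_ne hl]
          have := hG j l
          simp only [AbsoluteValue.abs_apply]
          have h3 : GQ j l = ((G j l : ℤ) : ℚ) := rfl
          rw [h3]
          exact_mod_cast this)
    simp only [AbsoluteValue.abs_apply, Fintype.card_fin, nsmul_eq_mul] at h1
    refine h1.trans ?_
    have := cramerC_mono hr B
    exact_mod_cast this
  calc |c i| ≤ |GQ.det| * |c i| := by
        nlinarith [abs_nonneg (c i)]
    _ = |GQ.det * c i| := (abs_mul _ _).symm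
    _ ≤ _ := by rw [hcr]; exact hup

/-- the value of the linear form -/
noncomputable def val (e : κ → ℝ) (n : κ → ℤ) : ℝ := |∑ k, (n k : ℝ) * e k|

/-- If `n` lies in the rational span of vectors of `S` (entries bounded by `B`) at which the form
is at most `x`, then the form is at most `M * cramerC * x` at `n`. -/
theorem val_le_of_span (e : κ → ℝ) (B : ℕ) (S : Set (κ → ℤ)) (hS : ∀ n ∈ S, ∀ k, |n k| ≤ B)
    (x : ℝ) (hx0 : 0 ≤ x) (hx : ∀ n ∈ S, val e n ≤ x) (n : κ → ℤ) (hn : ∀ k, |n k| ≤ B)
    (hspan : toQ n ∈ Submodule.span ℚ (toQ '' S)) :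
    val e n ≤ (Fintype.card κ * cramerC (Fintype.card κ) B : ℕ) * x := by
  obtain ⟨b, hbS, hbspan, hbind⟩ := exists_linearIndependent ℚ (toQ '' S)
  have hfin : b.Finite := hbind.setFinite
  have : Fintype b := hfin.fintype
  let r := Fintype.card b
  let eqv : Fin r ≃ b := (Fintype.equivFin b).symm
  have hmem : ∀ i : Fin r, ∃ m ∈ S, toQ m = (eqv i : κ → ℚ) := fun i => by
    obtain ⟨m, hm, hme⟩ := hbS (eqv i).2
    exact ⟨m, hm, hme⟩
  choose f hfS hfe using hmem
  have hind : LinearIndependent ℚ (fun i => toQ (f i)) := by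
    have h1 : (fun i => toQ (f i)) = (fun y : b => (y : κ → ℚ)) ∘ eqv := by
      funext i; exact hfe i
    rw [h1]
    exact hbind.comp _ eqv.injective
  have hspan' : toQ n ∈ Submodule.span ℚ (Set.range (fun i => toQ (f i))) := by
    have h1 : Set.range (fun i => toQ (f i)) = b := by
      ext y
      constructor
      · rintro ⟨i, rfl⟩
        show toQ (f i) ∈ b
        rw [hfe i]; exact (eqv i).2
      · intro hy
        refine ⟨eqv.symm ⟨y, hy⟩, ?_⟩
        show toQ (f _) = y
        rw [hfe]; simp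
    rw [h1, hbspan]
    exact hspan
  obtain ⟨c, hc⟩ := (Submodule.mem_span_range_iff_exists_fun ℚ).mp hspan'
  have hc' : ∀ k, (n k : ℚ) = ∑ i, c i * (f i k : ℚ) := by
    intro k
    have := congrFun hc k
    simp only [Finset.sum_apply, Pi.smul_apply, toQ, smul_eq_mul] at this
    exact this.symm
  have hcb := cramer_bound B r f (fun i k => hS _ (hfS i) k) hind n hn c hc'
  have hr : r ≤ Fintype.card κ := by
    have := hind.fintype_card_le_finrank
    simpa using this
  have hreal : ∑ k, (n k : ℝ) * e k = ∑ i, (c i : ℝ) * ∑ k, (f i k : ℝ) * e k := by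
    simp_rw [Finset.mul_sum]
    rw [Finset.sum_comm]
    refine Finset.sum_congr rfl fun k _ => ?_
    have : (n k : ℝ) = ∑ i, (c i : ℝ) * (f i k : ℝ) := by
      have := congrArg (fun q : ℚ => (q : ℝ)) (hc' k)
      push_cast at this
      exact this
    rw [this, Finset.sum_mul]
    refine Finset.sum_congr rfl fun i _ => by ring
  unfold val
  rw [hreal]
  calc |∑ i, (c i : ℝ) * ∑ k, (f i k : ℝ) * e k|
      ≤ ∑ i, |(c i : ℝ) * ∑ k, (f i k : ℝ) * e k| := Finset.abs_sum_le_sum_abs _ _
    _ ≤ ∑ _i : Fin r, (cramerC (Fintype.card κ) B : ℝ) * x := by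
        refine Finset.sum_le_sum fun i _ => ?_
        rw [abs_mul]
        refine mul_le_mul ?_ (hx _ (hfS i)) (abs_nonneg _) (by positivity)
        have := hcb i
        have h2 : ((|c i| : ℚ) : ℝ) ≤ ((cramerC (Fintype.card κ) B : ℚ) : ℝ) := by exact_mod_cast this
        push_cast at h2
        exact h2
    _ = (r : ℝ) * ((cramerC (Fintype.card κ) B : ℝ) * x) := by
        rw [Finset.sum_const, Finset.card_univ, nsmul_eq_mul, Fintype.card_fin]
    _ ≤ _ := by
        push_cast
        rw [mul_assoc]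
        refine mul_le_mul_of_nonneg_right (by exact_mod_cast hr) (by positivity)

/-- LOCATION LEMMA. -/
theorem location (e : κ → ℝ) (B : ℕ) (D : Set (κ → ℤ)) (hD : ∀ n ∈ D, ∀ k, |n k| ≤ B) :
    ∃ X : Finset ℝ, X.card ≤ Fintype.card κ ∧ (∀ x ∈ X, 0 < x) ∧
      ∀ n ∈ D, val e n ≠ 0 → ∃ x ∈ X, x ≤ val e n ∧
        val e n ≤ (Fintype.card κ * cramerC (Fintype.card κ) B : ℕ) * x := by
  classical
  -- D is finite
  have hfin : D.Finite := by
    refine Set.Finite.subset (Set.Finite.pi' (t := fun _ : κ => Set.Icc (-(B : ℤ)) B)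
      (fun _ => Set.finite_Icc _ _)) ?_
    intro n hn k
    exact abs_le.mp (hD n hn k)
  let sub : ℝ → Set (κ → ℤ) := fun x => {n ∈ D | val e n ≤ x}
  let V : ℝ → Submodule ℚ (κ → ℚ) := fun x => Submodule.span ℚ (toQ '' sub x)
  have hVmono : ∀ x y, x ≤ y → V x ≤ V y := fun x y hxy =>
    Submodule.span_mono (Set.image_mono fun n hn => ⟨hn.1, hn.2.trans hxy⟩)
  -- candidates of rank d
  let cand : ℕ → Set ℝ := fun d =>
    {x | ∃ n ∈ D, val e n = x ∧ 0 < x ∧ finrank ℚ (V x) = d}
  have hcfin : ∀ d, (cand d).Finite := fun d => by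
    refine Set.Finite.subset (hfin.image (val e)) ?_
    rintro x ⟨n, hn, hx, -⟩
    exact ⟨n, hn, hx⟩
  let mn : ℕ → ℝ := fun d => if h : (cand d).Nonempty then (hcfin d).toFinset.min'
    ((Set.Finite.toFinset_nonempty _).mpr h) else 1
  let X : Finset ℝ := ((Finset.range (Fintype.card κ)).image (fun d => mn (d + 1))).filter (0 < ·)
  refine ⟨X, ?_, fun x hx => (Finset.mem_filter.mp hx).2, ?_⟩
  · refine (Finset.card_filter_le _ _).trans (Finset.card_image_le.trans ?_)
    simp
  · intro n hn hne
    have hpos : 0 < val e n := lt_of_le_of_ne (abs_nonneg _) (Ne.symm hne)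
    set d := finrank ℚ (V (val e n)) with hd
    have hnsub : n ∈ sub (val e n) := ⟨hn, le_rfl⟩
    have hnV : toQ n ∈ V (val e n) := Submodule.subset_span (Set.mem_image_of_mem _ hnsub)
    have hn0 : toQ n ≠ 0 := by
      intro h0
      apply hne
      have : ∀ k, n k = 0 := fun k => by
        have := congrFun h0 k
        simpa [toQ] using this
      simp [val, this]
    have hd1 : 1 ≤ d := by
      by_contra hlt
      have hd0 : finrank ℚ (V (val e n)) = 0 := by omega
      have := Submodule.finrank_eq_zero.mp hd0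
      rw [this] at hnV
      exact hn0 (by simpa using hnV)
    have hdM : d ≤ Fintype.card κ := by
      have := Submodule.finrank_le (V (val e n))
      simpa using this
    have hvcand : val e n ∈ cand d := ⟨n, hn, rfl, hpos, rfl⟩
    have hcand : (cand d).Nonempty := ⟨val e n, hvcand⟩
    have hmn : mn d = (hcfin d).toFinset.min' ((Set.Finite.toFinset_nonempty _).mpr hcand) := by
      simp only [mn]; rw [dif_pos hcand]
    have hmem : mn d ∈ cand d := by
      rw [hmn]
      exact (Set.Finite.mem_toFinset _).mp (Finset.min'_mem _ _)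
    have hle : mn d ≤ val e n := by
      rw [hmn]
      exact Finset.min'_le _ _ ((Set.Finite.mem_toFinset _).mpr hvcand)
    obtain ⟨n₁, hn₁, hv₁, hpos₁, hrank⟩ := hmem
    refine ⟨mn d, ?_, hle, ?_⟩
    · refine Finset.mem_filter.mpr ⟨Finset.mem_image.mpr ⟨d - 1, ?_, ?_⟩, hpos₁⟩
      · exact Finset.mem_range.mpr (by omega)
      · show mn (d - 1 + 1) = mn d
        rw [Nat.sub_add_cancel hd1]
    · have hVeq : V (mn d) = V (val e n) :=
        Submodule.eq_of_le_of_finrank_eq (hVmono _ _ hle) hrank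
      have hspan : toQ n ∈ Submodule.span ℚ (toQ '' sub (mn d)) := by
        show toQ n ∈ V (mn d)
        rw [hVeq]; exact hnV
      exact val_le_of_span e B (sub (mn d)) (fun m hm => hD m hm.1) (mn d) hpos₁.le
        (fun m hm => hm.2) n (hD n hn) hspan

end Crest.Agent.R98.K
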