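import Crest.Agent.R98.KFull

/-!
Row 98, case K assembled: `kmain` (some ratio of logarithms irrational).
-/

set_option autoImplicit false

namespace Crest.Agent.R98.K

universe u

/-- Case K of the main theorem. -/
theorem kmain : Crest.Agent.R98.KMain.{u} :=
  kmain_full

end Crest.Agent.R98.K
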