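import Crest.Agent.R98.KTree

/-!
R98 / KNode (helper226): the node inequality of the rank `≥ 2` argument (helper383, note 10296,
paragraph (SUM)), as an inequality between real numbers.
-/

set_option autoImplicit false
set_option linter.unusedSectionVars false

open Real Set

namespace Crest.Agent.R98.K

variable {κ : Type*} [Fintype κ]

theorem negMulLog_le_of_le {x δ : ℝ} (hx : 0 ≤ x) (hxδ : x ≤ δ) (hδ : 0 < δ)
    (hδ1 : δ ≤ exp (-1)) : negMulLog x ≤ negMulLog δ := by
  have hlog : log δ ≤ -1 := by
    have := log_le_log hδ hδ1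
    rwa [log_exp] at this
  rcases hx.eq_or_lt with h0 | h0
  · rw [← h0, negMulLog_zero]
    exact negMulLog_nonneg hδ.le (hδ1.trans (by rw [exp_le_one_iff]; norm_num))
  · have h1 : log (δ / x) ≤ δ / x - 1 := log_le_sub_one_of_pos (by positivity)
    rw [log_div hδ.ne' h0.ne'] at h1
    have h2 : x * (log δ - log x) ≤ x * (δ / x - 1) := mul_le_mul_of_nonneg_left h1 h0.le
    have h3 : x * (δ / x - 1) = δ - x := by field_simp
    unfold negMulLog
    nlinarith

/-- probability that two independent points lie in different children -/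
theorem sum_lm_one_sub_le {p : κ → ℝ} (hp : IsPW p) {v : κ → ℝ} {N : ℕ} (f : κ → Fin N)
    {δ0 θ b : ℝ} (hδ : 0 ≤ δ0) (hθ : 0 ≤ θ) (hθ1 : θ ≤ 1 / 2)
    (hnear : ∀ u, δ0 ≤ lm p f u → ∑ a, (open Classical in if f a = u ∧
      ∃ b', p b' ≠ 0 ∧ f b' ≠ u ∧ |v a - v b'| < b then p a else 0) ≤ θ * lm p f u) :
    ∑ u, lm p f u * (1 - lm p f u) ≤
      2 * (∑ a, ∑ b', (if b ≤ |v a - v b'| then p a * p b' else 0) + N * δ0) := by
  classical
  have hlm : ∀ u, lm p f u = ∑ a, if f a = u then p a else 0 := by
    intro u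
    unfold lm
    refine Finset.sum_congr rfl fun a _ => ?_
    split_ifs with h
    · exact rs_of_eq f h
    · exact rs_of_ne f h
  have hone : ∑ u, lm p f u = 1 := by rw [sum_lm, hp.2]
  have hle1 : ∀ u, lm p f u ≤ 1 := fun u => by
    rw [← hone]
    exact Finset.single_le_sum (fun u _ => lm_nonneg f hp.1 u) (Finset.mem_univ u)
  have h0 : ∀ u, 0 ≤ lm p f u := fun u => lm_nonneg f hp.1 u
  -- pairs in different children
  have hX : ∀ u, lm p f u * (1 - lm p f u) =
      ∑ a, if f a = u then p a * ∑ b', (if f b' ≠ u then p b' else 0) else 0 := by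
    intro u
    have h1 : 1 - lm p f u = ∑ b', if f b' ≠ u then p b' else 0 := by
      rw [hlm u, ← hp.2, ← Finset.sum_sub_distrib]
      refine Finset.sum_congr rfl fun a _ => ?_
      by_cases h : f a = u <;> simp [h]
    rw [h1, hlm u, Finset.sum_mul]
    refine Finset.sum_congr rfl fun a _ => ?_
    split_ifs <;> simp
  have hXu : ∀ u, lm p f u * (1 - lm p f u) ≤
      (∑ a, if f a = u then ∑ b', (if b ≤ |v a - v b'| then p a * p b' else 0) else 0) +
      (θ * (lm p f u * (1 - lm p f u)) + δ0) := by
    intro u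
    have h2 : lm p f u * (1 - lm p f u) ≤
        (∑ a, if f a = u then ∑ b', (if b ≤ |v a - v b'| then p a * p b' else 0) else 0) +
        ∑ a, (if f a = u ∧ ∃ b', p b' ≠ 0 ∧ f b' ≠ u ∧ |v a - v b'| < b then p a else 0) *
          (1 - lm p f u) := by
      rw [hX u, ← Finset.sum_add_distrib]
      refine Finset.sum_le_sum fun a _ => ?_
      by_cases h : f a = u
      · rw [if_pos h, if_pos h]
        by_cases hn : ∃ b', p b' ≠ 0 ∧ f b' ≠ u ∧ |v a - v b'| < b
        · rw [if_pos ⟨h, hn⟩]
          have h3 : ∑ b', (if f b' ≠ u then p b' else 0) = 1 - lm p f u := by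
            rw [hlm u, ← hp.2, ← Finset.sum_sub_distrib]
            refine Finset.sum_congr rfl fun a _ => ?_
            by_cases h : f a = u <;> simp [h]
          rw [h3]
          have h4 : 0 ≤ ∑ b', (if b ≤ |v a - v b'| then p a * p b' else 0) :=
            Finset.sum_nonneg fun b' _ => by
              split_ifs
              · exact mul_nonneg (hp.1 _) (hp.1 _)
              · exact le_rfl
          linarith
        · rw [if_neg (fun h' => hn h'.2), zero_mul, add_zero, Finset.mul_sum]
          refine Finset.sum_le_sum fun b' _ => ?_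
          by_cases hb' : f b' ≠ u
          · rw [if_pos hb']
            by_cases hpb : p b' = 0
            · rw [hpb]; simp
            · have h5 : b ≤ |v a - v b'| := by
                by_contra hc
                exact hn ⟨b', hpb, hb', not_le.1 hc⟩
              rw [if_pos h5]
          · rw [if_neg hb', mul_zero]
            split_ifs
            · exact mul_nonneg (hp.1 _) (hp.1 _)
            · exact le_rfl
      · rw [if_neg h, if_neg h, if_neg (fun h' => h h'.1)]
        simp
    refine h2.trans (add_le_add le_rfl ?_)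
    rw [← Finset.sum_mul]
    have h6 : (0:ℝ) ≤ 1 - lm p f u := by linarith [hle1 u]
    by_cases hu : δ0 ≤ lm p f u
    · have h7 := hnear u hu
      have h8 := mul_le_mul_of_nonneg_right h7 h6
      have h9 : θ * lm p f u * (1 - lm p f u) = θ * (lm p f u * (1 - lm p f u)) := by ring
      rw [h9] at h8
      refine (le_of_eq ?_).trans (h8.trans (by linarith))
      congr 1
    · have h10 : ∑ a, (if f a = u ∧ ∃ b', p b' ≠ 0 ∧ f b' ≠ u ∧ |v a - v b'| < b then p a else 0) ≤
          lm p f u := by
        rw [hlm u]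
        refine Finset.sum_le_sum fun a _ => ?_
        by_cases h : f a = u
        · rw [if_pos h]
          split_ifs
          · exact le_rfl
          · exact hp.1 a
        · rw [if_neg h, if_neg (fun h' => h h'.1)]
      have h11 : (∑ a, (if f a = u ∧ ∃ b', p b' ≠ 0 ∧ f b' ≠ u ∧ |v a - v b'| < b then p a
          else 0)) * (1 - lm p f u) ≤ lm p f u * 1 :=
        mul_le_mul h10 (by linarith [h0 u]) h6 (h0 u)
      have h12 : 0 ≤ θ * (lm p f u * (1 - lm p f u)) := mul_nonneg hθ (mul_nonneg (h0 u) h6)
      push Not at hu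
      linarith
  have h13 := Finset.sum_le_sum fun u (_ : u ∈ Finset.univ) => hXu u
  rw [Finset.sum_add_distrib, Finset.sum_add_distrib, ← Finset.mul_sum] at h13
  have h14 : ∑ u : Fin N, ∑ a, (if f a = u then ∑ b', (if b ≤ |v a - v b'| then p a * p b' else 0)
      else 0) = ∑ a, ∑ b', (if b ≤ |v a - v b'| then p a * p b' else 0) := by
    rw [Finset.sum_comm]
    refine Finset.sum_congr rfl fun a _ => ?_
    rw [Finset.sum_ite_eq]
    simp
  rw [h14, Finset.sum_const, Finset.card_univ, Fintype.card_fin, nsmul_eq_mul] at h13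
  have h15 : 0 ≤ ∑ u, lm p f u * (1 - lm p f u) :=
    Finset.sum_nonneg fun u _ => mul_nonneg (h0 u) (by linarith [hle1 u])
  nlinarith

/-- THE NODE INEQUALITY -/
theorem node_ineq {p : κ → ℝ} (hp : IsPW p) {v : κ → ℝ} {N : ℕ} (f : κ → Fin N)
    {δ0 θ b : ℝ} (hδ : 0 < δ0) (hδ1 : δ0 ≤ exp (-1)) (hθ : 0 ≤ θ) (hθ1 : θ ≤ 1 / 2)
    (hnear : ∀ u, δ0 ≤ lm p f u → ∑ a, (open Classical in if f a = u ∧
      ∃ b', p b' ≠ 0 ∧ f b' ≠ u ∧ |v a - v b'| < b then p a else 0) ≤ θ * lm p f u)
    {E g : Fin N → ℝ} (hE0 : ∀ u, lm p f u ≠ 0 → 0 ≤ E u) (hg0 : ∀ u, lm p f u ≠ 0 → 0 ≤ g u)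
    {π0 lam C3 c4 R : ℝ} (hπ : 0 < π0) (hc4 : 0 < c4) (hR : 1 ≤ R) (hlam : 2 * C3 / π0 ≤ lam)
    (hRl : -log δ0 ≤ R * lam)
    (hdet : ∀ u, δ0 ≤ lm p f u →
      π0 * min (-log (lm p f u)) lam - C3 ≤ E u ∨ c4 * lam ≤ g u) :
    ∑ u, negMulLog (lm p f u) ≤
      2 * R / π0 * ∑ u, lm p f u * E u + R / c4 * ∑ u, lm p f u * g u +
      exp (2 * C3 / π0) * (2 * (∑ a, ∑ b', (if b ≤ |v a - v b'| then p a * p b' else 0) + N * δ0)) +
      N * negMulLog δ0 := by
  have hone : ∑ u, lm p f u = 1 := by rw [sum_lm, hp.2]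
  have hle1 : ∀ u, lm p f u ≤ 1 := fun u => by
    rw [← hone]
    exact Finset.single_le_sum (fun u _ => lm_nonneg f hp.1 u) (Finset.mem_univ u)
  have h0 : ∀ u, 0 ≤ lm p f u := fun u => lm_nonneg f hp.1 u
  have hδle : δ0 ≤ 1 := hδ1.trans (by rw [exp_le_one_iff]; norm_num)
  have hη0 : 0 ≤ negMulLog δ0 := negMulLog_nonneg hδ.le hδle
  have hkey : ∀ u, negMulLog (lm p f u) ≤
      2 * R / π0 * (lm p f u * E u) + R / c4 * (lm p f u * g u) +
      exp (2 * C3 / π0) * (lm p f u * (1 - lm p f u)) + negMulLog δ0 := by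
    intro u
    by_cases hu0 : lm p f u = 0
    · rw [hu0, negMulLog_zero]; simp [hη0]
    have hpos : 0 < lm p f u := lt_of_le_of_ne (h0 u) (Ne.symm hu0)
    have t1 : 0 ≤ 2 * R / π0 * (lm p f u * E u) :=
      mul_nonneg (by positivity) (mul_nonneg (h0 u) (hE0 u hu0))
    have t2 : 0 ≤ R / c4 * (lm p f u * g u) :=
      mul_nonneg (by positivity) (mul_nonneg (h0 u) (hg0 u hu0))
    have t3 : 0 ≤ exp (2 * C3 / π0) * (lm p f u * (1 - lm p f u)) :=
      mul_nonneg (exp_pos _).le (mul_nonneg (h0 u) (by linarith [hle1 u]))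
    by_cases hu : δ0 ≤ lm p f u
    · have hs0 : 0 ≤ -log (lm p f u) := by
        have := log_nonpos (h0 u) (hle1 u); linarith
      have hsR : -log (lm p f u) ≤ R * lam := by
        have := log_le_log hδ hu; linarith
      have hneg : negMulLog (lm p f u) = lm p f u * (-log (lm p f u)) := by unfold negMulLog; ring
      rw [hneg]
      rcases hdet u hu with h | h
      · by_cases hs : 2 * C3 / π0 ≤ -log (lm p f u)
        · have hmin : 2 * C3 / π0 ≤ min (-log (lm p f u)) lam := le_min hs hlam
          have hE : π0 / 2 * min (-log (lm p f u)) lam ≤ E u := by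
            have h1 : C3 ≤ π0 / 2 * min (-log (lm p f u)) lam := by
              have := mul_le_mul_of_nonneg_left hmin (by positivity : 0 ≤ π0 / 2)
              have e : π0 / 2 * (2 * C3 / π0) = C3 := by field_simp
              linarith
            linarith
          have hmin2 : -log (lm p f u) / R ≤ min (-log (lm p f u)) lam := by
            refine le_min ?_ ?_
            · exact div_le_self hs0 hR
            · rw [div_le_iff₀ (by linarith)]; linarith
          have h2 : -log (lm p f u) ≤ 2 * R / π0 * E u := by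
            have h3 : π0 / 2 * (-log (lm p f u) / R) ≤ E u :=
              (mul_le_mul_of_nonneg_left hmin2 (by positivity)).trans hE
            have h4 := mul_le_mul_of_nonneg_left h3 (by positivity : 0 ≤ 2 * R / π0)
            have e : 2 * R / π0 * (π0 / 2 * (-log (lm p f u) / R)) = -log (lm p f u) := by
              have : R ≠ 0 := by positivity
              field_simp
            linarith
          have h5 := mul_le_mul_of_nonneg_left h2 (h0 u)
          have e : lm p f u * (2 * R / π0 * E u) = 2 * R / π0 * (lm p f u * E u) := by ring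
          linarith
        · push Not at hs
          have h1 : -log (lm p f u) ≤ exp (2 * C3 / π0) * (1 - lm p f u) := by
            have h2 : log (1 / lm p f u) ≤ 1 / lm p f u - 1 :=
              log_le_sub_one_of_pos (by positivity)
            rw [one_div, log_inv] at h2
            have h3 : (lm p f u)⁻¹ - 1 = (lm p f u)⁻¹ * (1 - lm p f u) := by field_simp
            have h4 : (lm p f u)⁻¹ ≤ exp (2 * C3 / π0) := by
              rw [← exp_log (inv_pos.2 hpos), exp_le_exp, log_inv]
              exact hs.le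
            rw [h3] at h2
            exact h2.trans (mul_le_mul_of_nonneg_right h4 (by linarith [hle1 u]))
          have h5 := mul_le_mul_of_nonneg_left h1 (h0 u)
          have e : lm p f u * (exp (2 * C3 / π0) * (1 - lm p f u)) =
            exp (2 * C3 / π0) * (lm p f u * (1 - lm p f u)) := by ring
          linarith
      · have h1 : -log (lm p f u) ≤ R / c4 * g u := by
          have h2 := mul_le_mul_of_nonneg_left h (by positivity : 0 ≤ R / c4)
          have e : R / c4 * (c4 * lam) = R * lam := by field_simp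
          linarith
        have h5 := mul_le_mul_of_nonneg_left h1 (h0 u)
        have e : lm p f u * (R / c4 * g u) = R / c4 * (lm p f u * g u) := by ring
        linarith
    · push Not at hu
      have := negMulLog_le_of_le (h0 u) hu.le hδ hδ1
      linarith
  have h1 := Finset.sum_le_sum fun u (_ : u ∈ Finset.univ) => hkey u
  rw [Finset.sum_add_distrib, Finset.sum_add_distrib, Finset.sum_add_distrib, ← Finset.mul_sum,
    ← Finset.mul_sum, ← Finset.mul_sum, Finset.sum_const, Finset.card_univ, Fintype.card_fin,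
    nsmul_eq_mul] at h1
  have h2 := mul_le_mul_of_nonneg_left (sum_lm_one_sub_le hp f hδ.le hθ hθ1 hnear)
    (exp_pos (2 * C3 / π0)).le
  linarith

end Crest.Agent.R98.K
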