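import Crest.Agent.R98.KGain

/-!
R98 / KOne (helper226): the one-type theorem of case K (helper383, note 10554 (1)): entropy of the
atoms of a finite law inside the cells of size `d0`, bounded by the increment of the averaged gain.
-/

set_option autoImplicit false
set_option linter.unusedSectionVars false

open Real Set MeasureTheory

namespace Crest.Agent.R98.K

variable {κ : Type*} [Fintype κ]

/-- the detection property (output of KDet) at the scales `u0 / 2^i`: child index `x`, fine index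
`y`, separation index `z` -/
def Det {𝒬 : Type*} [Fintype 𝒬] (v : κ → ℝ) (w : 𝒬 → ℝ) (B : 𝒬 → Measure ℝ) (u0 : ℝ)
    (θ π0 lam C3 : ℝ) (x₀ x y z : ℕ) : Prop :=
  ∀ (N : ℕ) (f : κ → Fin N) (p : κ → ℝ), IsPW p → Dm v p (u0 / 2 ^ x₀) →
    (∀ u, Dm v (cnd p f u) (u0 / 2 ^ x)) →
    ∃ E : Fin N → ℝ, (∀ u, lm p f u ≠ 0 → 0 ≤ E u) ∧
      ∑ u, lm p f u * E u = Gav v w B u0 p y - ∑ u, lm p f u * Gav v w B u0 (cnd p f u) y ∧
      ∀ u, lm p f u ≠ 0 →
        ∑ a, (open Classical in if f a = u ∧ ∃ b', p b' ≠ 0 ∧ f b' ≠ u ∧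
          |v a - v b'| < u0 / 2 ^ z then p a else 0) ≤ θ * lm p f u →
        Hs (addLaw (cnd p f u) v (Measure.dirac 0)) (u0 / 2 ^ y) ≤ lam →
        π0 * min (-log (lm p f u)) lam - C3 ≤ E u

/-- the constant of the node inequality -/
noncomputable def nodeC (K A t : ℕ) (c C3 : ℝ) : ℝ :=
  2 * A * K + A * (4 * (log (4 * K / log 2) * (4 / c)) * (t + 1)) + 2 * exp (2 * K * C3) * (t / c)

theorem nodeC_nonneg (K A t : ℕ) {c : ℝ} (C3 : ℝ) (hc : 0 < c) (hK : 2 ≤ K) :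
    0 ≤ nodeC K A t c C3 := by
  unfold nodeC
  have h1 : 0 ≤ log (4 * K / log 2) := by
    refine log_nonneg ?_
    rw [le_div_iff₀ (log_pos (by norm_num)), one_mul]
    have h2 : log 2 ≤ 1 := by have := log_two_lt_d9; linarith
    have h3 : (2:ℝ) ≤ K := by exact_mod_cast hK
    linarith
  positivity

/-- the conditions on `w` -/
structure WLarge (K A t : ℕ) (c C3 : ℝ) (w : ℕ) : Prop where
  one : 1 ≤ w
  cut : 8 * (3 + 4 * K * (log (2 * K) + A * (w * log 2))) ≤ 2 ^ w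
  tb : log (4 * K / log 2) * (4 / c) * (t * log 2) + log 2 ≤ w * log 2 / 4
  det : 2 * K * C3 ≤ w * log 2
  neg : 2 * exp (2 * K * C3) ≤ w
  e : exp 1 ≤ 2 ^ (A * w)

theorem idx_eq (K w j t : ℕ) (hK : 2 ≤ K) :
    w * (j + 1) + 1 + t + (K - 1) * w = t + 1 + w * j + K * w := by
  obtain ⟨k, rfl⟩ : ∃ k, K = k + 1 := ⟨K - 1, by omega⟩
  simp only [Nat.add_sub_cancel]
  ring

theorem L0_pos {K : ℕ} {c : ℝ} (hK : 2 ≤ K) (hc : 0 < c) :
    0 < log (4 * K / log 2) * (4 / c) := by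
  have hK' : (2:ℝ) ≤ K := by exact_mod_cast hK
  refine mul_pos (log_pos ?_) (by positivity)
  rw [lt_div_iff₀ (log_pos (by norm_num)), one_mul]
  have h2 : log 2 ≤ 1 := by have := log_two_lt_d9; linarith
  linarith

/-- a child of large entropy at the fine scale has a large gain -/
theorem child_tb {𝒬 : Type*} [Fintype 𝒬] {v : κ → ℝ} {w' : 𝒬 → ℝ} {B : 𝒬 → Measure ℝ}
    (hw : ∀ Q, 0 ≤ w' Q) (hw1 : ∑ Q, w' Q = 1) [∀ Q, IsProbabilityMeasure (B Q)]
    (hB : ∀ Q, BSupp (B Q)) {K w A t : ℕ} (hK : 2 ≤ K) {c C3 : ℝ} (hc : 0 < c)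
    (hW : WLarge K A t c C3 w)
    (hmac : ∀ Q r, 0 < r → TOne.Macro (B Q) (2 ^ t) r c) {u0 : ℝ} (hu : 0 < u0) (j : ℕ)
    {p : κ → ℝ} (hp : IsPW p) (hD : Dm v p (u0 / 2 ^ (t + 1 + w * (j + 1))))
    (hbig : w * log 2 < Hs (addLaw p v (Measure.dirac 0)) (u0 / 2 ^ (t + 1 + w * j + K * w))) :
    1 / (4 * (log (4 * K / log 2) * (4 / c)) * (t + 1)) * (w * log 2) ≤
      Gav v w' B u0 p (t + 1 + w * j + K * w) - Gav v w' B u0 p (w * (j + 1)) := by
  have hlog2 : 0 < log 2 := log_pos (by norm_num)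
  have hlog2' : log 2 ≤ 1 := by have := log_two_lt_d9; linarith
  have hK' : (2:ℝ) ≤ K := by exact_mod_cast hK
  have hL0pos := L0_pos hK hc
  have hGain := gain_Gav (v := v) hw hB hu
  have h1 := T1b_Gav (v := v) hw hw1 hB hu hc hmac hp (x := w * (j + 1) + 1) (M := (K - 1) * w)
    (by rw [show w * (j + 1) + 1 + t = t + 1 + w * (j + 1) by ring]; exact hD)
    (s := log 2 / (2 * K)) (by positivity)
    (by rw [div_le_iff₀ (by positivity)]; nlinarith)
  rw [idx_eq K w j t hK] at h1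
  have h2 : log (2 / (log 2 / (2 * K))) * (4 / c) = log (4 * K / log 2) * (4 / c) := by
    congr 2; field_simp; ring
  have hηρ' : w * (j + 1) ≤ t + 1 + w * j + K * w := by nlinarith
  have hg0 := sub_nonneg.2 (hGain.2.1 _ hp _ _ hηρ')
  have h5' := hGain.2.1 _ hp (w * (j + 1)) (w * (j + 1) + 1) (by omega)
  have h7 := hW.tb
  generalize Gav v w' B u0 p (t + 1 + w * j + K * w) = g1 at *
  generalize Gav v w' B u0 p (w * (j + 1)) = g2 at *
  generalize Gav v w' B u0 p (w * (j + 1) + 1) = g3 at *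
  have h3 : (((K - 1) * w : ℕ) : ℝ) * (log 2 / (2 * K)) ≤ w * log 2 / 2 := by
    have h4 : (((K - 1) * w : ℕ) : ℝ) ≤ K * w := by
      rw [← Nat.cast_mul]
      exact_mod_cast Nat.mul_le_mul_right w (Nat.sub_le K 1)
    calc (((K - 1) * w : ℕ) : ℝ) * (log 2 / (2 * K)) ≤ K * w * (log 2 / (2 * K)) :=
          mul_le_mul_of_nonneg_right h4 (by positivity)
      _ = w * log 2 / 2 := by field_simp
  rw [← mul_assoc, h2] at h1
  generalize log (4 * K / log 2) * (4 / c) = L0 at *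
  have h4 : g1 - g3 ≤ g1 - g2 := by linarith
  have h5 : L0 * (t * (g1 - g3) + t * log 2) ≤ L0 * (t * (g1 - g2) + t * log 2) := by
    refine mul_le_mul_of_nonneg_left ?_ hL0pos.le
    have := mul_le_mul_of_nonneg_left h4 (Nat.cast_nonneg (α := ℝ) t)
    linarith
  have h6 : w * log 2 < log 2 + w * log 2 / 2 + L0 * (t * (g1 - g2) + t * log 2) := by
    linarith
  have h8 : w * log 2 / 4 ≤ L0 * (t * (g1 - g2)) := by
    have e : L0 * (t * (g1 - g2) + t * log 2) = L0 * (t * (g1 - g2)) + L0 * (t * log 2) := by ring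
    rw [e] at h6
    linarith
  have h9 : L0 * (t * (g1 - g2)) ≤ L0 * ((t + 1) * (g1 - g2)) := by
    refine mul_le_mul_of_nonneg_left ?_ hL0pos.le
    nlinarith
  have h10 : w * log 2 ≤ 4 * L0 * (t + 1) * (g1 - g2) := by linarith
  rw [one_div, inv_mul_le_iff₀ (by positivity)]
  linarith

set_option maxHeartbeats 1600000 in
/-- **the node inequality at an active node** -/
theorem node_active {𝒬 : Type*} [Fintype 𝒬] {v : κ → ℝ} {w' : 𝒬 → ℝ} {B : 𝒬 → Measure ℝ}
    (hw : ∀ Q, 0 ≤ w' Q) (hw1 : ∑ Q, w' Q = 1) [∀ Q, IsProbabilityMeasure (B Q)]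
    (hB : ∀ Q, BSupp (B Q)) {K w A t : ℕ} (hK : 2 ≤ K) (hA : 1 ≤ A) {c C3 : ℝ} (hc : 0 < c)
    (hW : WLarge K A t c C3 w)
    (hmac : ∀ Q r, 0 < r → TOne.Macro (B Q) (2 ^ t) r c) {u0 : ℝ} (hu : 0 < u0) (j : ℕ)
    (hdet : Det v w' B u0 (1 / K) (1 / K) (w * log 2) C3 (t + 1 + w * j) (t + 1 + w * (j + 1))
      (t + 1 + w * j + K * w) (t + 1 + w * j + 2 * w))
    {p : κ → ℝ} (hp : IsPW p) (hD : Dm v p (u0 / 2 ^ (t + 1 + w * j))) :
    Node (Gav v w' B u0) v (nodeC K A t c C3) (2 ^ (w + 3) * (A * w) / 2 ^ (A * w))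
      (t + 1 + w * j + K * w) (w * j) (w * (j + 1)) (u0 / 2 ^ (t + 1 + w * (j + 1))) p := by
  have hlog2 : 0 < log 2 := log_pos (by norm_num)
  have hK' : (2:ℝ) ≤ K := by exact_mod_cast hK
  have hA' : (1:ℝ) ≤ A := by exact_mod_cast hA
  have hw' : (1:ℝ) ≤ w := by exact_mod_cast hW.one
  set d := u0 / 2 ^ (t + 1 + w * (j + 1)) with hd
  set b := u0 / 2 ^ (t + 1 + w * j + 2 * w) with hb
  set δ0 : ℝ := 1 / 2 ^ (A * w) with hδ0
  have hdpos : 0 < d := by positivity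
  have hbpos : 0 < b := by positivity
  have hδpos : 0 < δ0 := by positivity
  have hδ1 : δ0 ≤ exp (-1) := by
    rw [exp_neg, hδ0, one_div]
    exact inv_anti₀ (exp_pos 1) hW.e
  have hδle : δ0 ≤ 1 := hδ1.trans (by rw [exp_le_one_iff]; norm_num)
  have hlogδ : -log δ0 = A * (w * log 2) := by
    rw [hδ0, one_div, log_inv, log_pow]; push_cast; ring
  have hbd : b = d / 2 ^ w := by
    rw [hb, hd, div_div, ← pow_add]
    congr 2
    ring
  have hcut : 8 * b * (3 + 2 * (log (1 / (1 / (2 * K) * δ0)) / (1 / (2 * K)))) ≤ d := by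
    have h1 : log (1 / (1 / (2 * K) * δ0)) = log (2 * K) + A * (w * log 2) := by
      rw [one_div, mul_inv, one_div, inv_inv, log_mul (by positivity) (by positivity), log_inv,
        hlogδ]
    rw [h1, hbd]
    have h2 : (log (2 * K) + A * (w * log 2)) / (1 / (2 * K)) =
        2 * K * (log (2 * K) + A * (w * log 2)) := by
      field_simp
    rw [h2]
    have h3 := hW.cut
    have h4 : 8 * (d / 2 ^ w) * (3 + 2 * (2 * K * (log (2 * K) + A * (w * log 2)))) =
        d / 2 ^ w * (8 * (3 + 4 * K * (log (2 * K) + A * (w * log 2)))) := by ring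
    rw [h4]
    calc d / 2 ^ w * (8 * (3 + 4 * K * (log (2 * K) + A * (w * log 2))))
        ≤ d / 2 ^ w * 2 ^ w := mul_le_mul_of_nonneg_left h3 (by positivity)
      _ = d := by field_simp
  obtain ⟨N, f, hN, hch, hnear⟩ := cut_node hp (d := d) (b := b) (η := 1 / (2 * K)) (δ := δ0)
    (L := u0 / 2 ^ (t + 1 + w * j)) hdpos hbpos (by positivity)
    (by rw [div_le_one (by positivity)]; linarith) hδpos hδle hcut (by positivity) hD
  have h2η : 2 * (1 / (2 * (K:ℝ))) = 1 / K := by field_simp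
  rw [h2η] at hnear
  have hN4 : (N : ℝ) ≤ 2 ^ (w + 2) := by
    have h1 : u0 / 2 ^ (t + 1 + w * j) / d = 2 ^ w := by
      rw [hd, show t + 1 + w * (j + 1) = t + 1 + w * j + w by ring, pow_add (2:ℝ) _ w]
      field_simp
    have h2 : 2 * (u0 / 2 ^ (t + 1 + w * j)) / d = 2 * 2 ^ w := by
      rw [mul_div_assoc, h1]
    rw [h2] at hN
    have h3 : (2:ℝ) ≤ 2 ^ w := by
      calc (2:ℝ) = 2 ^ 1 := by norm_num
        _ ≤ 2 ^ w := pow_le_pow_right₀ (by norm_num) hW.one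
    rw [pow_add]
    nlinarith
  obtain ⟨E, hE0, hEsum, hEdet⟩ := hdet N f p hp hD hch
  have hGain := gain_Gav (v := v) hw hB hu
  set G := Gav v w' B u0 with hG
  set ρ := t + 1 + w * j + K * w with hρ
  -- second window
  have hηρ' : w * (j + 1) ≤ ρ := by
    rw [hρ]; nlinarith [hW.one, hK]
  let g : Fin N → ℝ := fun u => G (cnd p f u) ρ - G (cnd p f u) (w * (j + 1))
  have hg0 : ∀ u, lm p f u ≠ 0 → 0 ≤ g u := fun u hu0 =>
    sub_nonneg.2 (hGain.2.1 _ (isPW_cnd f hp.1 hu0) _ _ hηρ')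
  set L0 := log (4 * K / log 2) * (4 / c) with hL0
  have hL0pos : 0 < L0 := L0_pos hK hc
  have htb : ∀ u, lm p f u ≠ 0 →
      w * log 2 < Hs (addLaw (cnd p f u) v (Measure.dirac 0)) (u0 / 2 ^ ρ) →
      1 / (4 * L0 * (t + 1)) * (w * log 2) ≤ g u := fun u hu0 hbig =>
    child_tb hw hw1 hB hK hc hW hmac hu j (isPW_cnd f hp.1 hu0) (hch u) hbig
  have hdet' : ∀ u, δ0 ≤ lm p f u →
      1 / (K:ℝ) * min (-log (lm p f u)) (w * log 2) - C3 ≤ E u ∨
        1 / (4 * L0 * (t + 1)) * (w * log 2) ≤ g u := by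
    intro u hu
    have hu0 : lm p f u ≠ 0 := (hδpos.trans_le hu).ne'
    rcases le_or_gt (Hs (addLaw (cnd p f u) v (Measure.dirac 0)) (u0 / 2 ^ ρ)) (w * log 2) with h | h
    · exact Or.inl (hEdet u hu0 (hnear u hu) h)
    · exact Or.inr (htb u hu0 h)
  have hnode := node_ineq hp f hδpos hδ1 (θ := 1 / K) (by positivity)
    (by rw [div_le_div_iff₀ (by positivity) (by norm_num)]; linarith) hnear hE0 hg0
    (π0 := 1 / K) (lam := w * log 2) (C3 := C3) (c4 := 1 / (4 * L0 * (t + 1))) (R := A)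
    (by positivity) (by positivity) hA'
    (by have := hW.det; rw [div_div_eq_mul_div]; linarith)
    (by rw [hlogδ]) hdet'
  -- first window
  have hT1a := T1a_Gav (v := v) hw hw1 hB hu hc.le hmac hp (x := w * j)
    (y := t + 1 + w * j + 2 * w) (by omega) (by
      rw [show w * j + t + 1 = t + 1 + w * j by ring]; exact hD)
  have hbρ : t + 1 + w * j + 2 * w ≤ ρ := by
    rw [hρ]; exact Nat.add_le_add_left (Nat.mul_le_mul_right w hK) _
  have hpair : ∑ a, ∑ b', (if b ≤ |v a - v b'| then p a * p b' else 0) ≤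
      t / c * (G p ρ - G p (w * j)) := by
    have h1 := hGain.2.1 p hp _ _ hbρ
    have h2 : (t:ℝ) * (G p (t + 1 + w * j + 2 * w) - G p (w * j)) ≤ t * (G p ρ - G p (w * j)) :=
      mul_le_mul_of_nonneg_left (by linarith) (by positivity)
    have h3 := hT1a.trans h2
    rw [div_mul_eq_mul_div, le_div_iff₀ hc]
    linarith
  have hηρ : w * j ≤ ρ := by rw [hρ]; nlinarith
  have hwin0 : 0 ≤ G p ρ - G p (w * j) := sub_nonneg.2 (hGain.2.1 p hp _ _ hηρ)
  have hinf0 : 0 ≤ G p ρ - ∑ u, lm p f u * G (cnd p f u) ρ := by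
    rw [← hEsum]
    refine Finset.sum_nonneg fun u _ => ?_
    by_cases hu0 : lm p f u = 0
    · rw [hu0, zero_mul]
    · exact mul_nonneg (lm_nonneg f hp.1 u) (hE0 u hu0)
  have hgs0 : 0 ≤ ∑ u, lm p f u * g u := by
    refine Finset.sum_nonneg fun u _ => ?_
    by_cases hu0 : lm p f u = 0
    · rw [hu0, zero_mul]
    · exact mul_nonneg (lm_nonneg f hp.1 u) (hg0 u hu0)
  refine ⟨N, f, hch, ?_⟩
  rw [hEsum] at hnode
  have hRc : (A:ℝ) / (1 / (4 * L0 * (t + 1))) = A * (4 * L0 * (t + 1)) := by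
    field_simp
  have hπ : 2 * (A:ℝ) / (1 / K) = 2 * A * K := by field_simp
  have hex : 2 * C3 / (1 / (K:ℝ)) = 2 * K * C3 := by field_simp
  rw [hRc, hπ, hex] at hnode
  set CC := nodeC K A t c C3 with hCC
  have hCCdef : CC = 2 * A * K + A * (4 * L0 * (t + 1)) + 2 * exp (2 * K * C3) * (t / c) := rfl
  have k1 : 2 * A * K * (G p ρ - ∑ u, lm p f u * G (cnd p f u) ρ) ≤
      CC * (G p ρ - ∑ u, lm p f u * G (cnd p f u) ρ) := by
    refine mul_le_mul_of_nonneg_right ?_ hinf0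
    rw [hCCdef]
    have : 0 ≤ A * (4 * L0 * (t + 1)) + 2 * exp (2 * K * C3) * (t / c) := by positivity
    linarith
  have k2 : A * (4 * L0 * (t + 1)) * ∑ u, lm p f u * g u ≤ CC * ∑ u, lm p f u * g u := by
    refine mul_le_mul_of_nonneg_right ?_ hgs0
    rw [hCCdef]
    have : 0 ≤ 2 * A * K + 2 * exp (2 * K * C3) * (t / c) := by positivity
    linarith
  have k3 : 2 * exp (2 * K * C3) * ∑ a, ∑ b', (if b ≤ |v a - v b'| then p a * p b' else 0) ≤
      CC * (G p ρ - G p (w * j)) := by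
    have h1 := mul_le_mul_of_nonneg_left hpair (show 0 ≤ 2 * exp (2 * K * C3) by positivity)
    refine h1.trans ?_
    rw [← mul_assoc]
    refine mul_le_mul_of_nonneg_right ?_ hwin0
    rw [hCCdef]
    have : 0 ≤ 2 * A * K + A * (4 * L0 * (t + 1)) := by positivity
    linarith
  have k4 : exp (2 * K * C3) * (2 * (N * δ0)) + N * negMulLog δ0 ≤
      2 ^ (w + 3) * (A * w) / 2 ^ (A * w) := by
    have h1 : negMulLog δ0 = δ0 * (A * (w * log 2)) := by
      rw [← hlogδ]; unfold negMulLog; ring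
    rw [h1]
    have h2 : 2 * exp (2 * K * C3) + A * (w * log 2) ≤ 2 * (A * w) := by
      have h3 := hW.neg
      have h4 : log 2 ≤ 1 := by have := log_two_lt_d9; linarith
      have h5 : (w:ℝ) ≤ A * w := le_mul_of_one_le_left (by positivity) hA'
      have h6 : A * (w * log 2) ≤ A * (w * 1) := by gcongr
      linarith
    calc exp (2 * K * C3) * (2 * (N * δ0)) + N * (δ0 * (A * (w * log 2)))
        = N * δ0 * (2 * exp (2 * K * C3) + A * (w * log 2)) := by ring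
      _ ≤ 2 ^ (w + 2) * δ0 * (2 * (A * w)) := by gcongr
      _ = 2 ^ (w + 3) * (A * w) / 2 ^ (A * w) := by
          rw [hδ0, pow_succ (2:ℝ) (w + 2)]; ring
  have hsumg : ∑ u, lm p f u * (G (cnd p f u) ρ - G (cnd p f u) (w * (j + 1))) =
      ∑ u, lm p f u * g u := rfl
  rw [hsumg]
  have hexp : exp (2 * K * C3) * (2 * (∑ a, ∑ b', (if b ≤ |v a - v b'| then p a * p b' else 0) +
      N * δ0)) = 2 * exp (2 * K * C3) * (∑ a, ∑ b', (if b ≤ |v a - v b'| then p a * p b' else 0)) +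
      exp (2 * K * C3) * (2 * (N * δ0)) := by ring
  rw [hexp] at hnode
  linarith

end Crest.Agent.R98.K
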