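import Crest.Agent.R98.KOne
import Crest.Agent.R98.Cluster

/-!
R98 / KOneB (helper226): the one-type theorem of case K (helper383, note 10554 (1)).
-/

set_option autoImplicit false
set_option linter.unusedSectionVars false

open Real Set MeasureTheory

namespace Crest.Agent.R98.K

open Part

section inj

variable {κ : Type*} [Fintype κ]

/-- a law whose support has diameter smaller than all gaps is a point mass -/
theorem H0_nonpos_of_point {v : κ → ℝ} (hv : Function.Injective v) {p : κ → ℝ} (hp : IsPW p)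
    {d : ℝ} (hD : Dm v p d) (hd : ∀ a b, a ≠ b → d < |v a - v b|) : H0 p ≤ 0 := by
  unfold H0
  refine Finset.sum_nonpos fun a _ => ?_
  by_cases ha : p a = 0
  · rw [ha, negMulLog_zero]
  · have h1 : ∀ b, b ≠ a → p b = 0 := by
      intro b hb
      by_contra h
      have h2 := hD a b ha h
      have h3 := hd a b (Ne.symm hb)
      linarith
    have h2 : p a = 1 := by
      rw [← hp.2, Finset.sum_eq_single a (fun b _ hb => h1 b hb)
        (fun h => absurd (Finset.mem_univ a) h)]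
    rw [h2, negMulLog_one]

/-- information at a coarse scale of a law of small diameter -/
theorem info_le_log_two {p v : κ → ℝ} (hp : IsPW p) {B : Measure ℝ} [IsProbabilityMeasure B]
    (hB : BSupp B) {d : ℝ} (hd : 0 < d) (hD : Dm v p d) : TOne.info p v B d ≤ log 2 := by
  have h1 := Hs_addLaw_conv_le hp.1 hp.2 v (A := Measure.dirac 0) (B := B) bsupp_dirac_zero hB hd.le
  have h2 := TOne.Hs_diam_le v hp.1 hp.2 hd hD
  rw [Measure.dirac_zero_conv] at h1
  have h3 : 0 ≤ Hs (Measure.dirac (0:ℝ)) d :=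
    Hs_nonneg (by simp) hd.le
  unfold TOne.info
  linarith

/-- **one type, distinct values** -/
theorem one_inj {𝒬 : Type*} [Fintype 𝒬] {v : κ → ℝ} (hv : Function.Injective v) {w' : 𝒬 → ℝ}
    {B : 𝒬 → Measure ℝ} (hw : ∀ Q, 0 ≤ w' Q) (hw1 : ∑ Q, w' Q = 1)
    [∀ Q, IsProbabilityMeasure (B Q)] (hB : ∀ Q, BSupp (B Q)) {K w A t : ℕ} (hK : 2 ≤ K)
    (hA : 1 ≤ A) {c C3 : ℝ} (hc : 0 < c) (hW : WLarge K A t c C3 w)
    (hmac : ∀ Q r, 0 < r → TOne.Macro (B Q) (2 ^ t) r c) {u0 : ℝ} (hu : 0 < u0)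
    (hdet : ∀ j, Det v w' B u0 (1 / K) (1 / K) (w * log 2) C3 (t + 1 + w * j)
      (t + 1 + w * (j + 1)) (t + 1 + w * j + K * w) (t + 1 + w * j + 2 * w))
    (Act : Finset ℕ) (hAct : ∀ j a b, u0 / 2 ^ (t + 1 + w * (j + 1)) < |v a - v b| →
      |v a - v b| ≤ u0 / 2 ^ (t + 1 + w * j) → j ∈ Act)
    {N : ℕ} (f : κ → Fin N) {p : κ → ℝ} (hp : IsPW p)
    (hf : ∀ u, Dm v (cnd p f u) (u0 / 2 ^ (t + 1))) :
    ∃ n0, ∀ n ≥ n0, ∑ u, lm p f u * H0 (cnd p f u) ≤
      nodeC K A t c C3 * (1 + 2 * (K + t + 1)) *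
        ((Gav v w' B u0 p (t + 1 + n) - Gav v w' B u0 p 0) + 1) +
      2 ^ (w + 3) * (A * w) / 2 ^ (A * w) * (Act.card : ℝ) := by
  classical
  have hGain := gain_Gav (v := v) hw hB hu
  have hCnn := nodeC_nonneg K A t C3 hc hK
  -- minimal gap
  obtain ⟨J, hJ⟩ : ∃ J : ℕ, ∀ a b, a ≠ b → u0 / 2 ^ (t + 1 + w * J) < |v a - v b| := by
    obtain ⟨δ, hδ, hδ'⟩ : ∃ δ > 0, ∀ a b, a ≠ b → δ ≤ |v a - v b| := by
      by_cases hne : (Finset.univ.filter fun x : κ × κ => x.1 ≠ x.2).Nonempty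
      · obtain ⟨x, hx, hmin⟩ := Finset.exists_min_image _ (fun x : κ × κ => |v x.1 - v x.2|) hne
        refine ⟨|v x.1 - v x.2|, abs_pos.2 (sub_ne_zero.2 fun h => (Finset.mem_filter.1 hx).2
          (hv h)), fun a b hab => hmin (a, b) (Finset.mem_filter.2 ⟨Finset.mem_univ _, hab⟩)⟩
      · refine ⟨1, one_pos, fun a b hab => ?_⟩
        exact absurd ⟨(a, b), Finset.mem_filter.2 ⟨Finset.mem_univ _, hab⟩⟩ hne
    obtain ⟨J, hJ⟩ := exists_pow_lt_of_lt_one (show 0 < δ / u0 by positivity)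
      (show (1 / 2 : ℝ) < 1 by norm_num)
    refine ⟨J, fun a b hab => lt_of_lt_of_le ?_ (hδ' a b hab)⟩
    have h1 : J ≤ t + 1 + w * J := by nlinarith [hW.one]
    have h2 : u0 / 2 ^ (t + 1 + w * J) ≤ u0 / 2 ^ J := by
      refine div_le_div_of_nonneg_left hu.le (by positivity) (pow_le_pow_right₀ (by norm_num) h1)
    refine lt_of_le_of_lt h2 ?_
    rw [lt_div_iff₀ hu] at hJ
    rw [one_div, inv_pow] at hJ
    rw [div_eq_mul_inv]
    linarith
  refine ⟨w * (J + (K + t + 1)), fun n hn => ?_⟩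
  set I := t + 1 + n with hI
  set G := Gav v w' B u0 with hG
  have h1w := hW.one
  have hηmono : Monotone fun j : ℕ => w * j := fun i j hij => Nat.mul_le_mul_left w hij
  have hmain := tree_top hGain (v := v) (C := nodeC K A t c C3)
    (negl := 2 ^ (w + 3) * (A * w) / 2 ^ (A * w)) hCnn (by positivity)
    (d := fun j => u0 / 2 ^ (t + 1 + w * j)) (ρ := fun j => t + 1 + w * j + K * w)
    (η := fun j => w * j) (J := J) (I := I) (T := K + t + 1)
    (fun j => by show w * j ≤ t + 1 + w * j + K * w; omega) hηmono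
    (fun j => by show w * (j + 1) ≤ t + 1 + w * j + K * w; nlinarith)
    (fun i => by show t + 1 + w * i + K * w ≤ w * (i + (K + t + 1)); nlinarith)
    (fun j hj => by
      show t + 1 + w * j + K * w ≤ I
      rw [hI]
      have : w * j + K * w ≤ w * (J + (K + t + 1)) := by
        have h2 : w * j ≤ w * J := Nat.mul_le_mul_left w hj.le
        nlinarith
      omega)
    (by show w * (J + (K + t + 1)) ≤ I; omega) Act
    (fun p hp hD => H0_nonpos_of_point hv hp hD hJ)
    (fun j hj p hp hD hD' => ?_) f hp (by simpa using hf) (i₀ := t + 1) (by omega)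
    (c₀ := log 2) (fun u hu0 => ?_)
  · -- conclusion
    refine hmain.trans ?_
    have h3 : G p 0 ≤ G p (t + 1) := hGain.2.1 p hp _ _ (by omega)
    have h4 : G p 0 ≤ G p I := hGain.2.1 p hp _ _ (by omega)
    have h5 : log 2 ≤ 1 := by have := log_two_lt_d9; linarith
    have h6 : (G p I - G p (t + 1)) + log 2 +
        2 * (((K + t + 1 : ℕ) : ℝ) * (G p I - G p (w * 0))) ≤
        (1 + 2 * (K + t + 1)) * ((G p I - G p 0) + 1) := by
      have h7 : (0:ℝ) ≤ 2 * (K + t + 1) := by positivity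
      push_cast
      rw [mul_zero]
      nlinarith
    have h8 := mul_le_mul_of_nonneg_left h6 hCnn
    calc _ ≤ _ := add_le_add_left h8 _
      _ = _ := by ring
  · -- node
    have hnot : ∃ a b, p a ≠ 0 ∧ p b ≠ 0 ∧ u0 / 2 ^ (t + 1 + w * (j + 1)) < |v a - v b| := by
      unfold Dm at hD'
      push Not at hD'
      obtain ⟨a, b, h2, h3, h4⟩ := hD'
      exact ⟨a, b, h2, h3, h4⟩
    obtain ⟨a, b, h2, h3, h4⟩ := hnot
    exact ⟨hAct j a b h4 (hD a b h2 h3),
      node_active hw hw1 hB hK hA hc hW hmac hu j (hdet j) hp hD⟩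
  · -- gain at the top scale
    have hpc := isPW_cnd f hp.1 hu0
    show ∑ Q, w' Q * TOne.info (cnd p f u) v (B Q) (u0 / 2 ^ (t + 1)) ≤ log 2
    calc ∑ Q, w' Q * TOne.info (cnd p f u) v (B Q) (u0 / 2 ^ (t + 1))
        ≤ ∑ Q, w' Q * log 2 := Finset.sum_le_sum fun Q _ => mul_le_mul_of_nonneg_left
          (info_le_log_two hpc (hB Q) (by positivity) (hf u)) (hw Q)
      _ = log 2 := by rw [← Finset.sum_mul, hw1, one_mul]

end inj

end Crest.Agent.R98.K
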