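import Crest.Agent.R98.KOneB
import Crest.Agent.R98.KDetI
import Crest.Agent.R98.KIface

/-!
R98 / KOneP (helper226): the one-type theorem `OneP` of the frozen interface of case K.
-/

set_option autoImplicit false
set_option linter.unusedSectionVars false

open Real Set MeasureTheory Filter Topology

namespace Crest.Agent.R98.K

/-! ### passing to distinct values -/

section quot

variable {Ω : Type*} [Fintype Ω]

theorem HS_ker_congr {β γ : Type*} {q : Ω → ℝ} {g : Ω → β} {h : Ω → γ}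
    (hgh : ∀ a b, q a ≠ 0 → q b ≠ 0 → (g a = g b ↔ h a = h b)) :
    Part.HS q (Setoid.ker g) = Part.HS q (Setoid.ker h) := by
  unfold Part.HS
  congr 1
  refine Finset.sum_congr rfl fun a _ => ?_
  by_cases ha : q a = 0
  · rw [ha, zero_mul, zero_mul]
  · congr 2
    unfold Part.cm
    refine Finset.sum_congr rfl fun b _ => ?_
    by_cases hb : q b = 0
    · by_cases h1 : b ∈ {b | (Setoid.ker g) b a}
      · rw [indicator_of_mem h1, hb]
        by_cases h2 : b ∈ {b | (Setoid.ker h) b a}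
        · rw [indicator_of_mem h2, hb]
        · rw [indicator_of_notMem h2]
      · rw [indicator_of_notMem h1]
        by_cases h2 : b ∈ {b | (Setoid.ker h) b a}
        · rw [indicator_of_mem h2, hb]
        · rw [indicator_of_notMem h2]
    · by_cases h1 : b ∈ {b | (Setoid.ker g) b a}
      · rw [indicator_of_mem h1, indicator_of_mem]
        exact (hgh b a hb ha).1 h1
      · rw [indicator_of_notMem h1, indicator_of_notMem]
        exact fun h2 => h1 ((hgh b a hb ha).2 h2)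

open Classical in
/-- the set of values of positive mass -/
noncomputable def vals (q v : Ω → ℝ) : Finset ℝ :=
  (Finset.univ.filter fun a => q a ≠ 0).image v

theorem mem_vals {q v : Ω → ℝ} {a : Ω} (ha : q a ≠ 0) : v a ∈ vals q v := by
  classical
  exact Finset.mem_image_of_mem v (Finset.mem_filter.2 ⟨Finset.mem_univ a, ha⟩)

theorem exists_of_vals {q v : Ω → ℝ} (x : vals q v) : ∃ a, q a ≠ 0 ∧ v a = x := by
  classical
  obtain ⟨a, ha, hax⟩ := Finset.mem_image.1 x.2
  exact ⟨a, (Finset.mem_filter.1 ha).2, hax⟩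

theorem exists_lift {q : Ω → ℝ} (hq : IsPW q) (v : Ω → ℝ) :
    ∃ c : Ω → vals q v, ∀ a, q a ≠ 0 → ((c a : vals q v) : ℝ) = v a := by
  classical
  obtain ⟨a₀, ha₀⟩ : ∃ a, q a ≠ 0 := by
    by_contra h
    push Not at h
    have : ∑ a, q a = 0 := Finset.sum_eq_zero fun a _ => h a
    rw [hq.2] at this
    norm_num at this
  refine ⟨fun a => if h : v a ∈ vals q v then ⟨v a, h⟩ else ⟨v a₀, mem_vals ha₀⟩, fun a ha => ?_⟩
  simp only [dif_pos (mem_vals ha)]

theorem addLaw_lift {q v : Ω → ℝ} (hq : IsPW q) {c : Ω → vals q v}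
    (hc : ∀ a, q a ≠ 0 → ((c a : vals q v) : ℝ) = v a) (B : Measure ℝ) :
    addLaw (lm q c) (fun x : vals q v => (x : ℝ)) B = addLaw q v B := by
  classical
  unfold addLaw mix
  have h1 : ∀ x : vals q v, ENNReal.ofReal (lm q c x) • shift (x : ℝ) B =
      ∑ a, ENNReal.ofReal (rs q c x a) • shift (x : ℝ) B := by
    intro x
    rw [← Finset.sum_smul]
    unfold lm
    rw [ENNReal.ofReal_sum_of_nonneg fun a _ => rs_nonneg c hq.1 x a]
  simp only [h1]
  rw [Finset.sum_comm]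
  refine Finset.sum_congr rfl fun a _ => ?_
  rw [Finset.sum_eq_single (c a)]
  · rw [rs_of_eq c rfl]
    by_cases ha : q a = 0
    · rw [ha, ENNReal.ofReal_zero, zero_smul, zero_smul]
    · rw [hc a ha]
  · intro x _ hx
    rw [rs_of_ne c (fun h => hx h.symm), ENNReal.ofReal_zero, zero_smul]
  · intro h; exact absurd (Finset.mem_univ _) h

theorem lm_lm {β γ : Type*} [Fintype β] [Fintype γ] {q : Ω → ℝ} (c : Ω → β) (f : β → γ) (u : γ) :
    lm (lm q c) f u = lm q (f ∘ c) u := by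
  classical
  have h1 : ∀ x : β, rs (lm q c) f u x = ∑ a, if f x = u then rs q c x a else 0 := by
    intro x
    by_cases h : f x = u
    · rw [rs_of_eq f h]
      simp only [if_pos h]
      rfl
    · rw [rs_of_ne f h]
      simp only [if_neg h, Finset.sum_const_zero]
  have h2 : lm (lm q c) f u = ∑ x, rs (lm q c) f u x := rfl
  rw [h2]
  simp only [h1]
  rw [Finset.sum_comm]
  refine Finset.sum_congr rfl fun a _ => ?_
  rw [Finset.sum_eq_single (c a)]
  · rw [rs_of_eq c rfl]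
    by_cases h : f (c a) = u
    · rw [if_pos h, rs_of_eq (f ∘ c) h]
    · rw [if_neg h, rs_of_ne (f ∘ c) h]
  · intro x _ hx
    rw [rs_of_ne c (fun h => hx h.symm)]
    simp
  · intro h; exact absurd (Finset.mem_univ _) h

theorem HA_eq {q v : Ω → ℝ} (hq : IsPW q) {c : Ω → vals q v}
    (hc : ∀ a, q a ≠ 0 → ((c a : vals q v) : ℝ) = v a) (x₀ : ℕ) :
    ∃ (N : ℕ) (f : vals q v → Fin N),
      (∀ u, Dm (fun x : vals q v => (x : ℝ)) (cnd (lm q c) f u) ((1 / 2) ^ x₀)) ∧
      HA q v x₀ = ∑ u, lm (lm q c) f u * H0 (cnd (lm q c) f u) := by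
  classical
  let T : Finset ℤ := Finset.univ.image fun x : vals q v => ⌊(x : ℝ) * 2 ^ x₀⌋
  let e : T ≃ Fin T.card := T.equivFin
  have hmem : ∀ x : vals q v, ⌊(x : ℝ) * 2 ^ x₀⌋ ∈ T := fun x =>
    Finset.mem_image_of_mem _ (Finset.mem_univ x)
  let f : vals q v → Fin T.card := fun x => e ⟨_, hmem x⟩
  have hf : ∀ x y, f x = f y ↔ ⌊(x : ℝ) * 2 ^ x₀⌋ = ⌊(y : ℝ) * 2 ^ x₀⌋ := by
    intro x y
    show e _ = e _ ↔ _
    rw [e.injective.eq_iff, Subtype.mk.injEq]
  have hlm : ∀ x, 0 ≤ lm q c x := fun x => lm_nonneg c hq.1 x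
  refine ⟨T.card, f, ?_, ?_⟩
  · intro u x y hx hy
    have h1 := (cnd_ne_zero f hx).1
    have h2 := (cnd_ne_zero f hy).1
    have h3 := (hf x y).1 (h1.trans h2.symm)
    have h4 := Int.abs_sub_lt_one_of_floor_eq_floor h3
    rw [← sub_mul, abs_mul, abs_of_pos (show (0:ℝ) < 2 ^ x₀ by positivity)] at h4
    rw [one_div, inv_pow, ← one_div, le_div_iff₀ (by positivity)]
    exact h4.le
  · have h1 : Part.HS q (Setoid.ker v) = H0 (lm q c) := by
      have h2 : Part.HS q (Setoid.ker v) = Part.HS q (Setoid.ker c) := by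
        refine HS_ker_congr fun a b ha hb => ?_
        rw [← hc a ha, ← hc b hb, Subtype.coe_inj]
      rw [h2, Cluster.HS_ker_eq_sum_res]
      rfl
    have h3 : Part.HS q (Setoid.ker fun a => ⌊v a * 2 ^ x₀⌋) =
        ∑ u, negMulLog (lm (lm q c) f u) := by
      have h4 : Part.HS q (Setoid.ker fun a => ⌊v a * 2 ^ x₀⌋) =
          Part.HS q (Setoid.ker (f ∘ c)) := by
        refine HS_ker_congr fun a b ha hb => ?_
        rw [Function.comp, Function.comp, hf, hc a ha, hc b hb]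
      rw [h4, Cluster.HS_ker_eq_sum_res]
      refine Finset.sum_congr rfl fun u _ => ?_
      rw [lm_lm]
      rfl
    unfold HA
    rw [h1, h3, H0_chain f hlm]
    ring

end quot

/-! ### large `w` -/

theorem eventually_lin_le_pow (a b : ℝ) : ∀ᶠ w : ℕ in atTop, a + b * w ≤ 2 ^ w := by
  have h0 := tendsto_pow_const_div_const_pow_of_one_lt 0 (show (1:ℝ) < 2 by norm_num)
  have h1 := tendsto_pow_const_div_const_pow_of_one_lt 1 (show (1:ℝ) < 2 by norm_num)
  have h2 := (h0.const_mul a).add (h1.const_mul b)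
  simp only [mul_zero, add_zero] at h2
  filter_upwards [h2.eventually_lt_const (show (0:ℝ) < 1 by norm_num)] with w hw
  have h3 : (0:ℝ) < 2 ^ w := by positivity
  have h4 : a * ((w:ℝ) ^ 0 / 2 ^ w) + b * ((w:ℝ) ^ 1 / 2 ^ w) = (a + b * w) / 2 ^ w := by
    rw [pow_zero, pow_one]; ring
  rw [h4, div_lt_one h3] at hw
  exact hw.le

theorem eventually_const_le (a b : ℝ) (hb : 0 < b) : ∀ᶠ w : ℕ in atTop, a ≤ w * b := by
  filter_upwards [(tendsto_natCast_atTop_atTop (R := ℝ)).eventually_ge_atTop (a / b)] with w hw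
  exact (div_le_iff₀ hb).1 hw

theorem eventually_WLarge (K A t : ℕ) (hA : 1 ≤ A) (c C3 : ℝ) :
    ∀ᶠ w : ℕ in atTop, WLarge K A t c C3 w := by
  have hl2 : 0 < log 2 := log_pos (by norm_num)
  filter_upwards [eventually_ge_atTop 2,
    eventually_lin_le_pow (8 * (3 + 4 * K * log (2 * K))) (8 * (4 * K * (A * log 2))),
    eventually_const_le (log (4 * K / log 2) * (4 / c) * (t * log 2) + log 2) (log 2 / 4)
      (by positivity),
    eventually_const_le (2 * K * C3) (log 2) hl2,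
    eventually_const_le (2 * exp (2 * K * C3)) 1 one_pos] with w h1 h2 h3 h4 h5
  refine ⟨by omega, ?_, ?_, h4, by rwa [mul_one] at h5, ?_⟩
  · calc 8 * (3 + 4 * K * (log (2 * K) + A * (w * log 2))) =
        8 * (3 + 4 * K * log (2 * K)) + 8 * (4 * K * (A * log 2)) * w := by ring
      _ ≤ 2 ^ w := h2
  · calc _ ≤ w * (log 2 / 4) := h3
      _ = w * log 2 / 4 := by ring
  · have h6 : 2 ≤ A * w := by nlinarith
    calc exp 1 ≤ 2 ^ 2 := by have := exp_one_lt_d9; norm_num; linarith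
      _ ≤ 2 ^ (A * w) := pow_le_pow_right₀ (by norm_num) h6

universe u

/-- **the one-type theorem** -/
theorem oneP : OneP.{u} := by
  classical
  intro K A a c C1 R hK hA hc hR
  have hl2 : 0 < log 2 := log_pos (by norm_num)
  obtain ⟨w0, hw0⟩ := ((eventually_WLarge K A a hA c 3).and
    (eventually_const_le (log (2 * R) + (C1 + log 2) + log 3) (log 2) hl2)).exists_forall_of_atTop
  refine ⟨nodeC K A a c 3 * (1 + 2 * (K + a + 1)), w0,
    mul_nonneg (nodeC_nonneg K A a 3 hc (by omega)) (by positivity), ?_⟩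
  intro w hw Ω _ 𝒬 _ q v w' ρ μ _ ρ0 hq hw' hμ hρ0 hρ1 hρ2 hmac hdef hmult x₀ hx₀ Act hAct
  obtain ⟨hW, hWc⟩ := hw0 w hw
  obtain ⟨cc, hcc⟩ := exists_lift hq v
  obtain ⟨N, f, hfD, hHA⟩ := HA_eq hq hcc x₀
  have hpq : IsPW (lm q cc) := ⟨fun x => lm_nonneg cc hq.1 x, by rw [sum_lm, hq.2]⟩
  set u0 : ℝ := (1 / 2) ^ (x₀ - (a + 1)) with hu0
  have hu0pos : 0 < u0 := by positivity
  have hsc : ∀ i : ℕ, u0 / 2 ^ i = (1 / 2) ^ (x₀ - (a + 1) + i) := by
    intro i
    rw [hu0, pow_add, one_div, inv_pow, inv_pow]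
    rfl
  have hsc' : ∀ i : ℕ, u0 / 2 ^ (a + 1 + i) = (1 / 2) ^ (x₀ + i) := by
    intro i
    rw [hsc]
    congr 1
    omega
  have hρne : ∀ Q, ρ Q ≠ 0 := fun Q h => by
    have := hρ1 Q
    rw [h, abs_zero] at this
    linarith
  have hbs : ∀ Q, BSupp (scal (ρ Q) μ) := fun Q => bsupp_scal hμ (ρ Q)
  have hdefR := deficit_real hμ hK hdef
  obtain ⟨n0, hn0⟩ := one_inj (v := fun x : vals q v => (x : ℝ)) Subtype.coe_injective
    (w' := w') (B := fun Q => scal (ρ Q) μ) hw'.1 hw'.2 hbs (K := K) (w := w) (A := A) (t := a)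
    (by omega) hA hc hW (fun Q r hr => hmac (ρ Q) (hρne Q) r hr) hu0pos
    (fun j => det_Det hμ hK hW.one _ hw' hu0pos hWc hρ0 hρ1 hρ2 hmult hdefR _ _) Act
    (fun j x y hxy hxy' => by
      obtain ⟨k, hk, hkx⟩ := exists_of_vals x
      obtain ⟨l, hl, hly⟩ := exists_of_vals y
      refine hAct j ⟨k, l, hk, hl, ?_, ?_⟩
      · rw [hkx, hly, mul_comm (j + 1) w, ← hsc']; exact hxy
      · rw [hkx, hly, mul_comm j w, ← hsc']; exact hxy') f hpq
    (fun u => by
      have h := hsc' 0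
      rw [add_zero, add_zero] at h
      rw [h]
      exact hfD u)
  refine ⟨x₀ + n0, fun i hi => ?_⟩
  have hmain := hn0 (i - x₀) (by omega)
  rw [← hHA] at hmain
  have hG : ∀ j : ℕ, Gav (fun x : vals q v => (x : ℝ)) w' (fun Q => scal (ρ Q) μ) u0 (lm q cc) j =
      ∑ Q, w' Q * (Hs (addLaw q v (μ.map fun x => ρ Q * x)) (u0 / 2 ^ j) -
        Hs (μ.map fun x => ρ Q * x) (u0 / 2 ^ j)) := by
    intro j
    unfold Gav TOne.info
    refine Finset.sum_congr rfl fun Q _ => ?_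
    rw [addLaw_lift hq hcc]
    rfl
  rw [hG, hG] at hmain
  have e1 : u0 / 2 ^ (a + 1 + (i - x₀)) = (1 / 2) ^ i := by
    rw [hsc']; congr 1; omega
  have e2 : u0 / 2 ^ 0 = u0 := by rw [pow_zero, div_one]
  rw [e1, e2, ← Finset.sum_sub_distrib] at hmain
  have e3 : ∀ Q, w' Q * (Hs (addLaw q v (μ.map fun x => ρ Q * x)) ((1 / 2) ^ i) -
      Hs (μ.map fun x => ρ Q * x) ((1 / 2) ^ i)) -
      w' Q * (Hs (addLaw q v (μ.map fun x => ρ Q * x)) u0 - Hs (μ.map fun x => ρ Q * x) u0) =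
      w' Q * ((Hs (addLaw q v (μ.map fun x => ρ Q * x)) ((1 / 2) ^ i) -
      Hs (μ.map fun x => ρ Q * x) ((1 / 2) ^ i)) -
      (Hs (addLaw q v (μ.map fun x => ρ Q * x)) u0 - Hs (μ.map fun x => ρ Q * x) u0)) :=
    fun Q => by ring
  simp only [e3] at hmain
  rw [mul_comm (Act.card : ℝ) _]
  exact hmain

end Crest.Agent.R98.K
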