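import Crest.Agent.R98.TOneB

/-!
R98 / TOneC (helper290): branching number versus window gains (T1, pure form):
`sig q s d ≤ ∑' i, (2/c) 2^{-i} (W (T * B) n (2^{-i} d) - W B n (2^{-i} d))`.
-/

set_option autoImplicit false

open MeasureTheory Set Real

namespace Crest.Agent.R98.TOne

variable {κ : Type*} [Fintype κ] {q : κ → ℝ} (s : κ → ℝ)

theorem sum_abs_eq {M : κ → κ → ℝ} (hM : ∀ k l, M k l = M l k) {r : ℝ} (hr : 0 < r) :
    ∑ k, ∑ l, (if r ≤ |s l - s k| ∧ |s l - s k| < 2 * r then M k l else 0) =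
      2 * ∑ k, ∑ l, (if r ≤ s l - s k ∧ s l - s k < 2 * r then M k l else 0) := by
  have h1 : ∀ k l, (if r ≤ |s l - s k| ∧ |s l - s k| < 2 * r then M k l else 0) =
      (if r ≤ s l - s k ∧ s l - s k < 2 * r then M k l else 0) +
      (if r ≤ s k - s l ∧ s k - s l < 2 * r then M k l else 0) := by
    intro k l
    rcases le_total (s k) (s l) with h | h
    · rw [abs_of_nonneg (sub_nonneg.2 h)]
      have h2 : ¬ (r ≤ s k - s l ∧ s k - s l < 2 * r) := fun h3 => by linarith [h3.1]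
      rw [if_neg h2, add_zero]
    · rw [abs_of_nonpos (sub_nonpos.2 h), neg_sub]
      have h2 : ¬ (r ≤ s l - s k ∧ s l - s k < 2 * r) := fun h3 => by linarith [h3.1]
      rw [if_neg h2, zero_add]
  simp only [h1, Finset.sum_add_distrib]
  have h2 : ∑ k, ∑ l, (if r ≤ s k - s l ∧ s k - s l < 2 * r then M k l else 0) =
      ∑ k, ∑ l, (if r ≤ s l - s k ∧ s l - s k < 2 * r then M k l else 0) := by
    rw [Finset.sum_comm]
    refine Finset.sum_congr rfl fun k _ => Finset.sum_congr rfl fun l _ => ?_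
    rw [hM l k]
  rw [h2]; ring

theorem Mc_le_one (hq : ∀ k, 0 ≤ q k) (hq1 : ∑ k, q k = 1) {D : ℝ} (hD : 0 < D) (k l : κ) :
    Mc q s D k l ≤ 1 := by
  have h1 : Mc q s D k l ≤ ∑ l, Mc q s D k l :=
    Finset.single_le_sum (f := fun l => Mc q s D k l) (fun l _ => Mc_nonneg s hq hD.le k l)
      (Finset.mem_univ l)
  rw [Mc_row s hq hD] at h1
  have h2 : q k ≤ ∑ k, q k := Finset.single_le_sum (fun k _ => hq k) (Finset.mem_univ k)
  linarith

/-- window lengths -/
noncomputable def Dw (d : ℝ) (i : ℕ) : ℝ := if i ≤ 1 then 2 * d else 4 * ((1 / 2) ^ i * d)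

theorem Dw_pos {d : ℝ} (hd : 0 < d) (i : ℕ) : 0 < Dw d i := by
  unfold Dw
  split_ifs <;> positivity

/-- the contribution of the pairs at distance about `2^{-i} d` -/
noncomputable def aterm (q s : κ → ℝ) (d : ℝ) (i : ℕ) (k l : κ) : ℝ :=
  if (1 / 2) ^ i * d ≤ s l - s k ∧ s l - s k < 2 * ((1 / 2) ^ i * d) then
    4 * (1 / 2) ^ i * Mc q s (Dw d i) k l else 0

theorem aterm_nonneg (hq : ∀ k, 0 ≤ q k) {d : ℝ} (hd : 0 < d) (i : ℕ) (k l : κ) :
    0 ≤ aterm q s d i k l := by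
  unfold aterm
  split_ifs
  · have := Mc_nonneg s hq (Dw_pos hd i).le k l
    positivity
  · exact le_rfl

theorem summable_aterm (hq : ∀ k, 0 ≤ q k) (hq1 : ∑ k, q k = 1) {d : ℝ} (hd : 0 < d) (k l : κ) :
    Summable fun i => aterm q s d i k l := by
  have hg : Summable fun i : ℕ => 4 * (1 / 2 : ℝ) ^ i :=
    (summable_geometric_two).mul_left 4
  refine Summable.of_nonneg_of_le (fun i => aterm_nonneg s hq hd i k l) (fun i => ?_) hg
  unfold aterm
  split_ifs
  · have h1 := Mc_le_one s hq hq1 (Dw_pos hd i) k l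
    have h2 : (0 : ℝ) ≤ 4 * (1 / 2) ^ i := by positivity
    nlinarith
  · positivity

theorem pair_le_tsum (hq : ∀ k, 0 ≤ q k) (hq1 : ∑ k, q k = 1) {d : ℝ} (hd : 0 < d) (k l : κ) :
    (1 / d) * ∫ y, Gs q s d k l y ≤ ∑' i, aterm q s d i k l := by
  by_cases h : s l - s k ≤ 0 ∨ 2 * d ≤ s l - s k
  · simp only [Gs_eq_zero s h, integral_zero, mul_zero]
    exact tsum_nonneg fun i => aterm_nonneg s hq hd i k l
  · push Not at h
    obtain ⟨h0, h2⟩ := h
    have hex : ∃ i : ℕ, (1 / 2 : ℝ) ^ i * d ≤ s l - s k := by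
      obtain ⟨i, hi⟩ := exists_pow_lt_of_lt_one (div_pos h0 hd) (show (1 / 2 : ℝ) < 1 by norm_num)
      exact ⟨i, by rw [lt_div_iff₀ hd] at hi; exact hi.le⟩
    classical
    obtain ⟨i, hi, hmin⟩ : ∃ i : ℕ, (1 / 2 : ℝ) ^ i * d ≤ s l - s k ∧
        ∀ j < i, ¬ ((1 / 2 : ℝ) ^ j * d ≤ s l - s k) :=
      ⟨Nat.find hex, Nat.find_spec hex, fun j hj => Nat.find_min hex hj⟩
    have hi2 : s l - s k < 2 * ((1 / 2) ^ i * d) := by
      rcases i with _ | j
      · simpa using h2
      · have h3 := hmin j (Nat.lt_succ_self j)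
        rw [pow_succ]
        push Not at h3
        linarith
    have hterm : (1 / d) * ∫ y, Gs q s d k l y ≤ aterm q s d i k l := by
      unfold aterm
      rw [if_pos ⟨hi, hi2⟩]
      unfold Dw
      split_ifs with h1
      · refine (pair_le_coarse s hq hd k l).trans ?_
        have h4 := Mc_nonneg s hq (by positivity : (0:ℝ) ≤ 2 * d) k l
        have h5 : (2 : ℝ) ≤ 4 * (1 / 2) ^ i := by
          interval_cases i <;> norm_num
        exact mul_le_mul_of_nonneg_right h5 h4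
      · have h4 : 4 * ((1 / 2 : ℝ) ^ i * d) ≤ d := by
          have h5 : (1 / 2 : ℝ) ^ i ≤ (1 / 2) ^ 2 :=
            pow_le_pow_of_le_one (by norm_num) (by norm_num) (by omega)
          nlinarith
        have h6 := pair_le_fine s hq (by positivity) h4 hi hi2
        have h7 := mul_le_mul_of_nonneg_left h6 (by positivity : (0:ℝ) ≤ 1 / d)
        refine h7.trans (le_of_eq ?_)
        field_simp
    exact hterm.trans ((summable_aterm s hq hq1 hd k l).le_tsum i
      fun j _ => aterm_nonneg s hq hd j k l)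

/-- window gain of `T` over the base `B` -/
noncomputable def gain (q s : κ → ℝ) (B : Measure ℝ) (n : ℕ) (r : ℝ) : ℝ :=
  W (addLaw q s B) n r - W B n r

theorem gain_nonneg (hq : ∀ k, 0 ≤ q k) (hq1 : ∑ k, q k = 1) {B : Measure ℝ}
    [IsFiniteMeasure B] (hB : BSupp B) {n : ℕ} (hn : 0 < n) {r : ℝ} (hr : 0 < r) :
    0 ≤ gain q s B n r := by
  have := Hs_addLaw_nsmul hq hq1 s hB hr hn
  unfold gain W
  linarith

theorem gain_le (hq : ∀ k, 0 ≤ q k) (hq1 : ∑ k, q k = 1) {B : Measure ℝ}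
    [IsProbabilityMeasure B] (hB : BSupp B) {n : ℕ} (hn : 0 < n) {r : ℝ} (hr : 0 < r) :
    gain q s B n r ≤ ∑ k, negMulLog (q k) := by
  have hn' : (0 : ℝ) < n := by exact_mod_cast hn
  have h1 := Hs_addLaw_le hq hq1 s hB hr
  have h2 := Hs_le_addLaw hq hq1 s hB (d := n * r) (by positivity)
  unfold gain W
  linarith

/-- T1, pure form -/
theorem sig_le_tsum (hq : ∀ k, 0 ≤ q k) (hq1 : ∑ k, q k = 1) {B : Measure ℝ}
    [IsProbabilityMeasure B] (hB : BSupp B) {n : ℕ} (hn : 0 < n) {c : ℝ} (hc : 0 < c)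
    (hmac : ∀ r, 0 < r → Macro B n r c) {d : ℝ} (hd : 0 < d) :
    sig q s d ≤ ∑' i : ℕ, (2 / c) * ((1 / 2) ^ i * gain q s B n ((1 / 2) ^ i * d)) := by
  have hterm : ∀ i, ∑ k, ∑ l, aterm q s d i k l ≤
      (2 / c) * ((1 / 2) ^ i * gain q s B n ((1 / 2) ^ i * d)) := by
    intro i
    have hr : 0 < (1 / 2 : ℝ) ^ i * d := by positivity
    have h1 := gain_coupling (s := s) (M := Mc q s (Dw d i))
      (fun k l => Mc_nonneg s hq (Dw_pos hd i).le k l) (Mc_row s hq (Dw_pos hd i))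
      (Mc_col s hq (Dw_pos hd i)) hq1 hB hn hr (hmac _ hr)
    rw [sum_abs_eq s (fun k l => Mc_comm s _ k l) hr] at h1
    have h2 : ∑ k, ∑ l, aterm q s d i k l = 4 * (1 / 2) ^ i * ∑ k, ∑ l,
        (if (1 / 2) ^ i * d ≤ s l - s k ∧ s l - s k < 2 * ((1 / 2) ^ i * d) then
          Mc q s (Dw d i) k l else 0) := by
      rw [Finset.mul_sum]
      refine Finset.sum_congr rfl fun k _ => ?_
      rw [Finset.mul_sum]
      refine Finset.sum_congr rfl fun l _ => ?_
      unfold aterm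
      split_ifs <;> simp
    rw [h2]
    set Sg := ∑ k, ∑ l, (if (1 / 2) ^ i * d ≤ s l - s k ∧ s l - s k < 2 * ((1 / 2) ^ i * d) then
          Mc q s (Dw d i) k l else 0) with hSg
    change c * (2 * Sg) ≤ gain q s B n ((1 / 2) ^ i * d) at h1
    have h3 : Sg ≤ gain q s B n ((1 / 2) ^ i * d) / (2 * c) := by
      rw [le_div_iff₀ (by positivity)]; linarith
    calc 4 * (1 / 2) ^ i * Sg ≤ 4 * (1 / 2) ^ i * (gain q s B n ((1 / 2) ^ i * d) / (2 * c)) :=
          mul_le_mul_of_nonneg_left h3 (by positivity)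
      _ = _ := by field_simp; ring
  have hsumR : Summable fun i : ℕ => (2 / c) * ((1 / 2) ^ i * gain q s B n ((1 / 2) ^ i * d)) := by
    refine Summable.mul_left _ ?_
    refine Summable.of_nonneg_of_le (fun i => mul_nonneg (by positivity)
      (gain_nonneg s hq hq1 hB hn (by positivity)))
      (fun i => mul_le_mul_of_nonneg_left (gain_le s hq hq1 hB hn (by positivity))
        (by positivity)) ?_
    exact summable_geometric_two.mul_right _
  rw [sig_eq s hq hd, Finset.mul_sum]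
  simp only [Finset.mul_sum]
  calc ∑ k, ∑ l, (1 / d) * ∫ y, Gs q s d k l y ≤ ∑ k, ∑ l, ∑' i, aterm q s d i k l :=
        Finset.sum_le_sum fun k _ => Finset.sum_le_sum fun l _ => pair_le_tsum s hq hq1 hd k l
    _ = ∑' i, ∑ k, ∑ l, aterm q s d i k l := by
        rw [Summable.tsum_finsetSum fun k _ => summable_sum fun l _ =>
          summable_aterm s hq hq1 hd k l]
        refine Finset.sum_congr rfl fun k _ => ?_
        rw [Summable.tsum_finsetSum fun l _ => summable_aterm s hq hq1 hd k l]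
    _ ≤ _ := by
        refine Summable.tsum_le_tsum hterm ?_ hsumR
        exact summable_sum fun k _ => summable_sum fun l _ => summable_aterm s hq hq1 hd k l

end Crest.Agent.R98.TOne
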