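/-
Row 98, rank at least two (note 10296): the lemmas T1a and T1b.
-/
import Mathlib
import Crest.Agent.R98.MacroT
import Crest.Agent.R98.TOneC
import Crest.Agent.R98.Cluster

set_option linter.unusedVariables false
set_option linter.unusedSectionVars false

open MeasureTheory Set Real Filter
open scoped ENNReal Topology

namespace Crest.Agent.R98.K

open Crest.Agent.R98.TOne

/-! ### macro property with a power of two -/

/-- uniform deficit with a power of two -/
theorem exists_deficit_pow {ι : Type*} [Fintype ι] {r t p : ι → ℝ} {μ : Measure ℝ}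
    [IsProbabilityMeasure μ] (hp : ∀ i, 0 ≤ p i) (hp1 : ∑ i, p i = 1)
    (hr0 : ∀ i, r i ≠ 0) (hr1 : ∀ i, |r i| < 1) (hμ : BSupp μ)
    (hself : μ = mix p fun i => μ.map fun x => r i * x + t i) {D C' : ℝ} (hD1 : D < 1)
    (hD : ∃ᶠ x : ℝ in atTop, Hs μ (exp (-x)) ≤ D * x + C') (c : ℝ) :
    ∃ k : ℕ, ∀ d, 0 < d → Hs μ d - Hs μ ((2 ^ k : ℕ) * d) ≤ log (2 ^ k : ℕ) - c := by
  classical
  have hne : Nonempty ι := by
    by_contra hcon
    rw [not_nonempty_iff] at hcon
    rw [Finset.univ_eq_empty, Finset.sum_empty] at hp1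
    exact zero_ne_one hp1
  set ρ := Finset.univ.inf' Finset.univ_nonempty fun i => |r i| with hρ
  set σ := Finset.univ.sup' Finset.univ_nonempty fun i => |r i| with hσ
  have h1 : 0 < ρ := (Finset.lt_inf'_iff _).mpr fun i _ => abs_pos.mpr (hr0 i)
  have h2 : ∀ i, ρ ≤ |r i| := fun i => Finset.inf'_le _ (Finset.mem_univ i)
  have h3 : ∀ i, |r i| ≤ σ := fun i =>
    Finset.le_sup' (fun i => |r i|) (Finset.mem_univ i)
  have h4 : σ < 1 := (Finset.sup'_lt_iff _).mpr fun i _ => hr1 i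
  set D' := max D 0 with hD'
  have h5 : D' < 1 := max_lt hD1 one_pos
  have h6 : ∃ᶠ x : ℝ in atTop, Hs μ (exp (-x)) ≤ D' * x + C' := by
    refine (hD.and_eventually (eventually_ge_atTop 0)).mono ?_
    rintro x ⟨hx, hx0⟩
    exact hx.trans (by linarith [mul_le_mul_of_nonneg_right (le_max_left D 0) hx0])
  have h7 : Tendsto (fun k : ℕ => (1 - D') * log ((2 ^ k : ℕ) : ℝ)) atTop atTop :=
    ((tendsto_log_atTop.comp tendsto_natCast_atTop_atTop).comp
      (tendsto_pow_atTop_atTop_of_one_lt (by norm_num : 1 < 2))).const_mul_atTop (by linarith)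
  obtain ⟨k, hk⟩ := (h7.eventually_ge_atTop (log (1 / ρ) + log 2 + c)).exists
  refine ⟨k, fun d hd => ?_⟩
  have h8 := uniform_deficit hp hp1 h1 h2 h3 h4 hμ hself (le_max_right D 0) h6
    (K := 2 ^ k) (by positivity) hd
  linarith

/-- the macro property with `n = 2 ^ a`, for all affine copies -/
theorem exists_macro_pow {ι : Type*} [Fintype ι] {r t p : ι → ℝ} {μ : Measure ℝ}
    [IsProbabilityMeasure μ] (hp : ∀ i, 0 ≤ p i) (hp1 : ∑ i, p i = 1)
    (hr0 : ∀ i, r i ≠ 0) (hr1 : ∀ i, |r i| < 1) (hμ : BSupp μ)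
    (hself : μ = mix p fun i => μ.map fun x => r i * x + t i) {D C' : ℝ} (hD1 : D < 1)
    (hD : ∃ᶠ x : ℝ in atTop, Hs μ (exp (-x)) ≤ D * x + C') :
    ∃ a : ℕ, ∃ c : ℝ, 0 < c ∧ ∀ α β : ℝ, α ≠ 0 → ∀ ρ : ℝ, 0 < ρ →
      Macro (μ.map fun x => α * x + β) (2 ^ a) ρ c := by
  obtain ⟨k, hdef⟩ := exists_deficit_pow hp hp1 hr0 hr1 hμ hself hD1 hD 12
  have hK' : (0 : ℝ) < (2 ^ k : ℕ) := by positivity
  refine ⟨4 + 2 * k, 1 / (8 * ((2 ^ k : ℕ) : ℝ) ^ 2), by positivity, ?_⟩
  intro α β hα ρ hρ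
  have : IsProbabilityMeasure (μ.map fun x => α * x + β) :=
    Measure.isProbabilityMeasure_map (by fun_prop)
  have h := macro_of_deficit (hμ.map_affine α β) (K := 2 ^ k) (by positivity)
    (fun d hd => deficit_map hdef hα β hd) hρ
  have h2 : 16 * (2 ^ k) ^ 2 = 2 ^ (4 + 2 * k) := by
    rw [pow_add, ← pow_mul, mul_comm k 2]; norm_num
  rwa [h2] at h

/-! ### gains -/

section gains

variable {κ : Type*} [Fintype κ] {q s : κ → ℝ} {B : Measure ℝ}

/-- the gain of `T` (weights `q`, values `s`) over the base `B` at cell size `d` -/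
noncomputable def gainAt (q s : κ → ℝ) (B : Measure ℝ) (d : ℝ) : ℝ :=
  Hs (addLaw q s B) d - Hs B d

theorem gainAt_nonneg (hq : ∀ k, 0 ≤ q k) (hq1 : ∑ k, q k = 1) [IsFiniteMeasure B] (hB : BSupp B)
    {d : ℝ} (hd : 0 ≤ d) : 0 ≤ gainAt q s B d :=
  sub_nonneg.mpr (Hs_le_addLaw hq hq1 s hB hd)

theorem gainAt_nsmul_le (hq : ∀ k, 0 ≤ q k) (hq1 : ∑ k, q k = 1) [IsFiniteMeasure B]
    (hB : BSupp B) {d : ℝ} (hd : 0 < d) {n : ℕ} (hn : 0 < n) :
    gainAt q s B (n * d) ≤ gainAt q s B d :=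
  Hs_addLaw_nsmul hq hq1 s hB hd hn

theorem gainAt_pow_le (hq : ∀ k, 0 ≤ q k) (hq1 : ∑ k, q k = 1) [IsFiniteMeasure B]
    (hB : BSupp B) {d : ℝ} (hd : 0 < d) (i j : ℕ) :
    gainAt q s B (2 ^ (i + j) * d) ≤ gainAt q s B (2 ^ i * d) := by
  have h := gainAt_nsmul_le (s := s) hq hq1 hB (d := 2 ^ i * d) (by positivity) (n := 2 ^ j)
    (by positivity)
  have h2 : ((2 ^ j : ℕ) : ℝ) * (2 ^ i * d) = 2 ^ (i + j) * d := by
    push_cast; ring
  rwa [h2] at h

theorem gain_eq (n : ℕ) (r : ℝ) :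
    gain q s B n r = gainAt q s B r - gainAt q s B (n * r) := by
  unfold gain W gainAt
  ring

end gains

/-- telescoping with overlap `a` -/
theorem sum_window_le {x : ℕ → ℝ} (hx : ∀ i, x (i + 1) ≤ x i) (a J : ℕ) :
    ∑ j ∈ Finset.range J, (x j - x (j + a)) ≤ a * (x 0 - x (J + a)) := by
  have hanti : Antitone x := antitone_nat_of_succ_le hx
  have h1 : ∀ j, x j - x (j + a) = ∑ i ∈ Finset.range a, (x (j + i) - x (j + (i + 1))) := by
    intro j
    rw [Finset.sum_range_sub' fun i => x (j + i)]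
    simp
  have h2 : ∀ i, ∑ j ∈ Finset.range J, (x (j + i) - x (j + (i + 1))) = x i - x (J + i) := by
    intro i
    have := Finset.sum_range_sub' (fun j => x (j + i)) J
    simp only [zero_add] at this
    rw [← this]
    refine Finset.sum_congr rfl fun j _ => ?_
    rw [show j + (i + 1) = j + 1 + i by ring]
  simp only [h1]
  rw [Finset.sum_comm]
  simp only [h2]
  calc ∑ i ∈ Finset.range a, (x i - x (J + i))
      ≤ ∑ i ∈ Finset.range a, (x 0 - x (J + a)) := by
        refine Finset.sum_le_sum fun i hi => ?_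
        have h3 : x i ≤ x 0 := hanti (Nat.zero_le i)
        have h4 : x (J + a) ≤ x (J + i) :=
          hanti (Nat.add_le_add_left (Finset.mem_range.mp hi).le J)
        linarith
    _ = _ := by rw [Finset.sum_const, Finset.card_range, nsmul_eq_mul]

section T1

variable {κ : Type*} [Fintype κ] {q s : κ → ℝ} {B : Measure ℝ} [IsProbabilityMeasure B]

/-- total window gain over the dyadic scales `2 ^ j r`, `j < J` -/
theorem sum_gain_le (hq : ∀ k, 0 ≤ q k) (hq1 : ∑ k, q k = 1) (hB : BSupp B) {r : ℝ} (hr : 0 < r)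
    (a J : ℕ) :
    ∑ j ∈ Finset.range J, gain q s B (2 ^ a) (2 ^ j * r) ≤
      a * (gainAt q s B r - gainAt q s B (2 ^ (J + a) * r)) := by
  have h := sum_window_le (x := fun j => gainAt q s B (2 ^ j * r))
    (fun i => gainAt_pow_le hq hq1 hB hr i 1) a J
  simp only [pow_zero, one_mul] at h
  refine le_trans (le_of_eq ?_) h
  refine Finset.sum_congr rfl fun j _ => ?_
  rw [gain_eq]
  congr 2
  push_cast
  ring

omit [Fintype κ] in
theorem pair_dyadic_le {b : ℝ} (hb : 0 < b) {w : ℝ} (hw : 0 ≤ w) (v : ℝ) (J : ℕ) :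
    (if b ≤ v ∧ v < 2 ^ J * b then w else 0) ≤
      ∑ j ∈ Finset.range J, (if 2 ^ j * b ≤ v ∧ v < 2 * (2 ^ j * b) then w else 0) := by
  have hnn : ∀ J : ℕ, 0 ≤ ∑ j ∈ Finset.range J,
      (if 2 ^ j * b ≤ v ∧ v < 2 * (2 ^ j * b) then w else 0) := fun J =>
    Finset.sum_nonneg fun j _ => by split_ifs <;> simp [hw]
  induction J with
  | zero =>
    rw [if_neg]
    · simp
    · rintro ⟨h2, h3⟩
      rw [pow_zero, one_mul] at h3
      linarith
  | succ J ih =>
    rw [Finset.sum_range_succ]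
    by_cases h : 2 ^ J * b ≤ v
    · by_cases h' : v < 2 ^ (J + 1) * b
      · have h4 : v < 2 * (2 ^ J * b) := by rw [pow_succ] at h'; linarith
        rw [if_pos (show 2 ^ J * b ≤ v ∧ v < 2 * (2 ^ J * b) from ⟨h, h4⟩)]
        have h5 : (if b ≤ v ∧ v < 2 ^ (J + 1) * b then w else 0) ≤ w := by
          split_ifs
          · exact le_rfl
          · exact hw
        linarith [hnn J]
      · rw [if_neg (fun h7 => h' h7.2)]
        refine add_nonneg (hnn J) ?_
        split_ifs
        · exact hw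
        · exact le_rfl
    · have h8 : (b ≤ v ∧ v < 2 ^ (J + 1) * b) ↔ (b ≤ v ∧ v < 2 ^ J * b) := by
        constructor
        · rintro ⟨h9, _⟩; exact ⟨h9, not_le.mp h⟩
        · rintro ⟨h9, h10⟩
          refine ⟨h9, h10.trans_le ?_⟩
          rw [pow_succ]
          have : 0 < 2 ^ J * b := by positivity
          linarith
      rw [if_congr h8 rfl rfl, if_neg (show ¬ (2 ^ J * b ≤ v ∧ v < 2 * (2 ^ J * b)) from
        fun h11 => h h11.1), add_zero]
      exact ih

/-- **T1a**: separated pairs produce gain. -/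
theorem T1a (hq : ∀ k, 0 ≤ q k) (hq1 : ∑ k, q k = 1) (hB : BSupp B) {a : ℕ} {c : ℝ}
    (hc : 0 < c) (hmac : ∀ r, 0 < r → Macro B (2 ^ a) r c) {b : ℝ} (hb : 0 < b) (J : ℕ) :
    c * ∑ k, ∑ l, (if b ≤ |s l - s k| ∧ |s l - s k| < 2 ^ J * b then q k * q l else 0) ≤
      a * (gainAt q s B b - gainAt q s B (2 ^ (J + a) * b)) := by
  refine le_trans ?_ (sum_gain_le (s := s) hq hq1 hB hb a J)
  have h1 : ∀ j ∈ Finset.range J, c * ∑ k, ∑ l,
      (if 2 ^ j * b ≤ |s l - s k| ∧ |s l - s k| < 2 * (2 ^ j * b) then q k * q l else 0) ≤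
      gain q s B (2 ^ a) (2 ^ j * b) := by
    intro j _
    exact gain_coupling (M := fun k l => q k * q l) (fun k l => mul_nonneg (hq k) (hq l))
      (fun k => by rw [← Finset.mul_sum, hq1, mul_one])
      (fun l => by rw [← Finset.sum_mul, hq1, one_mul]) hq1 hB (by positivity) (by positivity)
      (hmac _ (by positivity))
  refine le_trans ?_ (Finset.sum_le_sum h1)
  rw [← Finset.mul_sum]
  refine mul_le_mul_of_nonneg_left ?_ hc.le
  have e1 : ∑ j ∈ Finset.range J, ∑ k, ∑ l,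
      (if 2 ^ j * b ≤ |s l - s k| ∧ |s l - s k| < 2 * (2 ^ j * b) then q k * q l else 0) =
      ∑ k, ∑ l, ∑ j ∈ Finset.range J,
      (if 2 ^ j * b ≤ |s l - s k| ∧ |s l - s k| < 2 * (2 ^ j * b) then q k * q l else 0) := by
    rw [Finset.sum_comm]
    refine Finset.sum_congr rfl fun k _ => ?_
    rw [Finset.sum_comm]
  rw [e1]
  exact Finset.sum_le_sum fun k _ => Finset.sum_le_sum fun l _ =>
    pair_dyadic_le hb (mul_nonneg (hq k) (hq l)) _ J

/-- a discounted sum -/
theorem sum_discount_le {g A : ℕ → ℝ} (h0 : A 0 = g 0) (hs : ∀ m, A (m + 1) = g (m + 1) + 1 / 2 * A m)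
    (hA : ∀ m, 0 ≤ A m) (L : ℕ) :
    ∑ m ∈ Finset.range L, A m ≤ 2 * ∑ m ∈ Finset.range L, g m := by
  rcases L with _ | L
  · simp
  have h : ∀ L : ℕ, ∑ m ∈ Finset.range (L + 1), A m + A L ≤ 2 * ∑ m ∈ Finset.range (L + 1), g m := by
    intro L
    induction L with
    | zero => simp [h0]; linarith
    | succ L ih =>
      rw [Finset.sum_range_succ, Finset.sum_range_succ g, hs]
      have := hs L
      linarith
  linarith [h L, hA L]

/-- the branching numbers of the scales `2 ^ m r`, `m < L` -/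
theorem sum_sig_le (hq : ∀ k, 0 ≤ q k) (hq1 : ∑ k, q k = 1) (hB : BSupp B) {a : ℕ} {c : ℝ}
    (hc : 0 < c) (hmac : ∀ r, 0 < r → Macro B (2 ^ a) r c) {r : ℝ} (hr : 0 < r) (L : ℕ) :
    ∑ m ∈ Finset.range L, sig q s (2 ^ m * r) ≤
      (2 / c) * (2 * (a * (gainAt q s B r - gainAt q s B (2 ^ (L + a) * r))) +
        2 * (a * log 2)) := by
  set g : ℕ → ℝ := fun m => gain q s B (2 ^ a) (2 ^ m * r) with hg
  set M : ℝ := a * log 2 with hM
  have hlog2 : 0 ≤ log 2 := log_nonneg (by norm_num)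
  have hM0 : 0 ≤ M := by positivity
  have hgM : ∀ ρ, 0 < ρ → gain q s B (2 ^ a) ρ ≤ M := by
    intro ρ hρ
    have hprob : IsProbabilityMeasure (addLaw q s B) := isProbabilityMeasure_addLaw hq hq1 s B
    have h1 := Hs_le_nsmul (hB.addLaw q s) hρ (n := 2 ^ a) (by positivity)
    have h2 := Hs_nsmul_le hB hρ (n := 2 ^ a) (by positivity)
    unfold gain W
    rw [Nat.cast_pow, Nat.cast_ofNat, log_pow] at h1
    rw [Nat.cast_pow, Nat.cast_ofNat] at h2 ⊢
    rw [hM]
    linarith
  have hg0 : ∀ ρ, 0 < ρ → 0 ≤ gain q s B (2 ^ a) ρ := fun ρ hρ =>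
    gain_nonneg s hq hq1 hB (by positivity) hρ
  set A : ℕ → ℝ := fun m => ∑ i ∈ Finset.range (m + 1), (1 / 2) ^ i * g (m - i) with hA
  have hA0 : A 0 = g 0 := by simp [hA]
  have hAs : ∀ m, A (m + 1) = g (m + 1) + 1 / 2 * A m := by
    intro m
    simp only [hA]
    rw [Finset.sum_range_succ' _ (m + 1), Finset.mul_sum]
    simp only [pow_zero, one_mul, Nat.sub_zero]
    rw [add_comm]
    congr 1
    refine Finset.sum_congr rfl fun i _ => ?_
    rw [Nat.add_sub_add_right, pow_succ]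
    ring
  have hAn : ∀ m, 0 ≤ A m := fun m =>
    Finset.sum_nonneg fun i _ => mul_nonneg (by positivity) (hg0 _ (by positivity))
  have hterm : ∀ m, sig q s (2 ^ m * r) ≤ (2 / c) * (A m + M * (1 / 2) ^ m) := by
    intro m
    have h1 := sig_le_tsum s hq hq1 hB (n := 2 ^ a) (by positivity) hc hmac
      (d := 2 ^ m * r) (by positivity)
    refine h1.trans ?_
    rw [tsum_mul_left]
    refine mul_le_mul_of_nonneg_left ?_ (by positivity)
    have hsum : Summable fun i : ℕ => (1 / 2 : ℝ) ^ i *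
        gain q s B (2 ^ a) ((1 / 2) ^ i * (2 ^ m * r)) := by
      refine Summable.of_nonneg_of_le (fun i => mul_nonneg (by positivity)
        (hg0 _ (by positivity))) (fun i => mul_le_mul_of_nonneg_left
          (hgM _ (by positivity)) (by positivity)) ?_
      exact summable_geometric_two.mul_right M
    rw [← hsum.sum_add_tsum_nat_add (m + 1)]
    refine add_le_add (le_of_eq ?_) ?_
    · refine Finset.sum_congr rfl fun i hi => ?_
      have him : i ≤ m := Nat.lt_succ_iff.mp (Finset.mem_range.mp hi)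
      simp only [hg]
      congr 2
      have : (2 : ℝ) ^ m = 2 ^ (m - i) * 2 ^ i := by
        rw [← pow_add, Nat.sub_add_cancel him]
      rw [this, one_div_pow]
      field_simp
    · have h2 : ∀ i : ℕ, (1 / 2 : ℝ) ^ (i + (m + 1)) *
          gain q s B (2 ^ a) ((1 / 2) ^ (i + (m + 1)) * (2 ^ m * r)) ≤
          (1 / 2) ^ i * (M * (1 / 2) ^ (m + 1)) := by
        intro i
        have h3 := hgM ((1 / 2) ^ (i + (m + 1)) * (2 ^ m * r)) (by positivity)
        calc (1 / 2 : ℝ) ^ (i + (m + 1)) *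
            gain q s B (2 ^ a) ((1 / 2) ^ (i + (m + 1)) * (2 ^ m * r))
            ≤ (1 / 2) ^ (i + (m + 1)) * M := mul_le_mul_of_nonneg_left h3 (by positivity)
          _ = (1 / 2) ^ i * (M * (1 / 2) ^ (m + 1)) := by rw [pow_add]; ring
      have h5 : Summable fun i : ℕ => (1 / 2 : ℝ) ^ (i + (m + 1)) *
          gain q s B (2 ^ a) ((1 / 2) ^ (i + (m + 1)) * (2 ^ m * r)) :=
        (summable_nat_add_iff (f := fun i : ℕ => (1 / 2 : ℝ) ^ i *
          gain q s B (2 ^ a) ((1 / 2) ^ i * (2 ^ m * r))) (m + 1)).mpr hsum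
      have h6 : Summable fun i : ℕ => (1 / 2 : ℝ) ^ i * (M * (1 / 2) ^ (m + 1)) :=
        summable_geometric_two.mul_right _
      have h4 := Summable.tsum_le_tsum h2 h5 h6
      refine h4.trans (le_of_eq ?_)
      rw [tsum_mul_right, tsum_geometric_two, pow_succ]
      ring
  calc ∑ m ∈ Finset.range L, sig q s (2 ^ m * r)
      ≤ ∑ m ∈ Finset.range L, (2 / c) * (A m + M * (1 / 2) ^ m) :=
        Finset.sum_le_sum fun m _ => hterm m
    _ = (2 / c) * (∑ m ∈ Finset.range L, A m + M * ∑ m ∈ Finset.range L, (1 / 2 : ℝ) ^ m) := by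
        rw [← Finset.mul_sum, Finset.sum_add_distrib, ← Finset.mul_sum]
    _ ≤ _ := by
        refine mul_le_mul_of_nonneg_left ?_ (by positivity)
        have h5 := sum_discount_le hA0 hAs hAn L
        have h6 := sum_gain_le (s := s) hq hq1 hB hr a L
        have h7 : ∑ m ∈ Finset.range L, (1 / 2 : ℝ) ^ m ≤ 2 := by
          have := summable_geometric_two.sum_le_tsum (Finset.range L)
            (fun i _ => by positivity : ∀ i ∉ Finset.range L, (0 : ℝ) ≤ (1 / 2) ^ i)
          rwa [tsum_geometric_two] at this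
        have h8 := mul_le_mul_of_nonneg_left h7 hM0
        simp only [hg] at h5
        linarith

/-- **T1b**: a law of diameter at most `2 ^ L r` with large entropy at scale `r` has a large
gain between the two scales. -/
theorem T1b (hq : ∀ k, 0 ≤ q k) (hq1 : ∑ k, q k = 1) (hB : BSupp B) {a : ℕ} {c : ℝ}
    (hc : 0 < c) (hmac : ∀ r, 0 < r → Macro B (2 ^ a) r c) {r : ℝ} (hr : 0 < r) (L : ℕ)
    (hdiam : ∀ k l, q k ≠ 0 → q l ≠ 0 → |s k - s l| ≤ 2 ^ L * r) {t : ℝ} (ht : 0 < t)
    (ht2 : t ≤ 2) :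
    Hs (addLaw q s (Measure.dirac 0)) r ≤ log 2 + L * t + log (2 / t) *
      ((2 / c) * (2 * (a * (gainAt q s B r - gainAt q s B (2 ^ (L + a) * r))) +
        2 * (a * log 2))) := by
  set H : ℕ → ℝ := fun m => Hs (addLaw q s (Measure.dirac 0)) (2 ^ m * r) with hH
  have h1 : ∀ m, H m - H (m + 1) ≤ t + log (2 / t) * sig q s (2 ^ m * r) := by
    intro m
    have h2 := Hs_law_sub_le s hq hq1 (d := 2 ^ m * r) (by positivity) ht ht2
    simp only [hH]
    rw [pow_succ, show (2 : ℝ) ^ m * 2 * r = 2 * (2 ^ m * r) by ring]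
    exact h2
  have h2 : H 0 - H L ≤ L * t + log (2 / t) * ∑ m ∈ Finset.range L, sig q s (2 ^ m * r) := by
    rw [← Finset.sum_range_sub' H L]
    refine (Finset.sum_le_sum fun m _ => h1 m).trans (le_of_eq ?_)
    rw [Finset.sum_add_distrib, Finset.sum_const, Finset.card_range, nsmul_eq_mul,
      ← Finset.mul_sum]
  have h3 : H L ≤ log 2 := by
    have hprob : IsProbabilityMeasure (addLaw q s (Measure.dirac 0)) :=
      isProbabilityMeasure_addLaw hq hq1 s _
    classical
    -- the leftmost atom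
    have hne : (Finset.univ.filter fun k => q k ≠ 0).Nonempty := by
      by_contra hcon
      rw [Finset.not_nonempty_iff_eq_empty, Finset.filter_eq_empty_iff] at hcon
      have : ∑ k, q k = 0 := Finset.sum_eq_zero fun k hk => not_not.mp (hcon hk)
      rw [hq1] at this
      exact one_ne_zero this
    obtain ⟨k0, hk0, hmin⟩ := Finset.exists_min_image _ s hne
    rw [Finset.mem_filter] at hk0
    have hz : (addLaw q s (Measure.dirac 0)) (Icc (s k0) (s k0 + 2 ^ L * r))ᶜ = 0 := by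
      unfold addLaw mix
      rw [Measure.coe_finsetSum, Finset.sum_apply]
      refine Finset.sum_eq_zero fun k _ => ?_
      rw [Measure.smul_apply, smul_eq_mul]
      by_cases hqk : q k = 0
      · rw [hqk]; simp
      · have hsh : shift (s k) (Measure.dirac (0 : ℝ)) = Measure.dirac (0 + s k) := by
          unfold shift
          rw [Measure.map_dirac]
        simp only [hsh]
        rw [Measure.dirac_apply' _ measurableSet_Icc.compl, indicator_of_notMem]
        · simp
        · rw [mem_compl_iff, not_not]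
          have h4 := hmin k (by rw [Finset.mem_filter]; exact ⟨Finset.mem_univ _, hqk⟩)
          have h5 := (abs_le.mp (hdiam k k0 hqk hk0.2)).2
          constructor <;> simp only [zero_add] <;> linarith
    have h4 := Cluster.Hs_le_of_small (μ := addLaw q s (Measure.dirac 0)) (m := s k0)
      (δ := 2 ^ L * r) (d := 2 ^ L * r) (by positivity) le_rfl (by positivity) hz
    rw [probReal_univ, negMulLog_one, one_mul, zero_add, div_self (by positivity), one_mul] at h4
    exact h4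
  have h4 := sum_sig_le (s := s) hq hq1 hB hc hmac hr L
  have h5 : 0 ≤ log (2 / t) := log_nonneg (by rw [one_le_div ht]; exact ht2)
  have h6 := mul_le_mul_of_nonneg_left h4 h5
  have h7 : H 0 = Hs (addLaw q s (Measure.dirac 0)) r := by simp [hH]
  rw [h7] at h2
  linarith

end T1

end Crest.Agent.R98.K
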