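/-
Row 98, rank at least two: T1a and T1b in the normalisation of `KTree` (scales `(1/2)^i`).
-/
import Mathlib
import Crest.Agent.R98.KT1
import Crest.Agent.R98.HsCell

set_option linter.unusedVariables false
set_option linter.unusedSectionVars false

open MeasureTheory Set Real Filter
open scoped ENNReal Topology

namespace Crest.Agent.R98.K

open Crest.Agent.R98.TOne

variable {κ : Type*} [Fintype κ] {p v : κ → ℝ} {B : Measure ℝ} [IsProbabilityMeasure B]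

omit [IsProbabilityMeasure B] in
theorem law_eq_addLaw (p v : κ → ℝ) : HsCell.law p v = addLaw p v (Measure.dirac 0) := by
  unfold HsCell.law addLaw
  congr 1
  funext k
  simp only [shift]
  rw [Measure.map_dirac, zero_add]

theorem half_pow_scale {x y J : ℕ} (h : y = x + J) : (2 : ℝ) ^ J * (1 / 2) ^ y = (1 / 2) ^ x := by
  rw [h, pow_add, one_div_pow, one_div_pow]
  field_simp

theorem gainAt_scale_le (hq : ∀ a, 0 ≤ p a) (hq1 : ∑ a, p a = 1) (hB : BSupp B) {x y : ℕ}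
    (h : x ≤ y) : gainAt p v B ((1 / 2) ^ x) ≤ gainAt p v B ((1 / 2) ^ y) := by
  obtain ⟨J, rfl⟩ := Nat.exists_eq_add_of_le h
  have h1 := gainAt_pow_le (s := v) hq hq1 hB (d := (1 / 2 : ℝ) ^ (x + J)) (by positivity) 0 J
  rw [zero_add, half_pow_scale rfl, pow_zero, one_mul] at h1
  exact h1

/-- T1a, normalised -/
theorem T1a_dyadic {a : ℕ} {c : ℝ} (hc : 0 < c) (hmac : ∀ r, 0 < r → Macro B (2 ^ a) r c)
    (hB : BSupp B) (hq : ∀ a, 0 ≤ p a) (hq1 : ∑ a, p a = 1) {x y : ℕ} (hx : a + 1 ≤ x)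
    (hxy : x ≤ y) (hdm : ∀ k l, p k ≠ 0 → p l ≠ 0 → |v k - v l| ≤ (1 / 2) ^ x) :
    c / (a + 1) * ∑ k, ∑ l, (if (1 / 2) ^ y ≤ |v k - v l| then p k * p l else 0) ≤
      (Hs (addLaw p v B) ((1 / 2) ^ y) - Hs B ((1 / 2) ^ y)) -
        (Hs (addLaw p v B) ((1 / 2) ^ (x - (a + 1))) - Hs B ((1 / 2) ^ (x - (a + 1)))) := by
  have h1 := T1a (s := v) hq hq1 hB hc hmac (b := (1 / 2) ^ y) (by positivity) (y - x + 1)
  have h2 : (2 : ℝ) ^ (y - x + 1 + a) * (1 / 2) ^ y = (1 / 2) ^ (x - (a + 1)) :=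
    half_pow_scale (by omega)
  rw [h2] at h1
  have h3 : ∑ k, ∑ l, (if (1 / 2) ^ y ≤ |v k - v l| then p k * p l else 0) ≤
      ∑ k, ∑ l, (if (1 / 2) ^ y ≤ |v l - v k| ∧ |v l - v k| < 2 ^ (y - x + 1) * (1 / 2) ^ y then
        p k * p l else 0) := by
    refine Finset.sum_le_sum fun k _ => Finset.sum_le_sum fun l _ => ?_
    by_cases hk : p k = 0
    · simp [hk]
    by_cases hl : p l = 0
    · simp [hl]
    have h4 := hdm k l hk hl
    have h5 : |v l - v k| < 2 ^ (y - x + 1) * (1 / 2) ^ y := by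
      rw [abs_sub_comm, pow_succ, show (2 : ℝ) ^ (y - x) * 2 * (1 / 2) ^ y =
        2 * (2 ^ (y - x) * (1 / 2) ^ y) by ring, half_pow_scale (show y = x + (y - x) by omega)]
      have : (0 : ℝ) < (1 / 2) ^ x := by positivity
      linarith
    rw [abs_sub_comm (v k)]
    split_ifs with h6 h7 h7
    · exact le_rfl
    · exact absurd ⟨h6, h5⟩ h7
    · exact absurd h7.1 h6
    · exact le_rfl
  have h4 := gainAt_scale_le (v := v) hq hq1 hB (show x - (a + 1) ≤ y by omega)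
  have ha : (0 : ℝ) < (a : ℝ) + 1 := by positivity
  have h6 := (mul_le_mul_of_nonneg_left h3 hc.le).trans h1
  have h5 : c * ∑ k, ∑ l, (if (1 / 2) ^ y ≤ |v k - v l| then p k * p l else 0) ≤
      (a + 1) * (gainAt p v B ((1 / 2) ^ y) - gainAt p v B ((1 / 2) ^ (x - (a + 1)))) := by
    nlinarith
  change _ ≤ gainAt p v B ((1 / 2) ^ y) - gainAt p v B ((1 / 2) ^ (x - (a + 1)))
  rw [div_mul_eq_mul_div, div_le_iff₀ ha]
  linarith

/-- T1b, normalised -/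
theorem T1b_dyadic {a : ℕ} {c : ℝ} (hc : 0 < c) (hmac : ∀ r, 0 < r → Macro B (2 ^ a) r c)
    (hB : BSupp B) (hq : ∀ a, 0 ≤ p a) (hq1 : ∑ a, p a = 1) {x l : ℕ} (hx : a + 1 ≤ x)
    (hdm : ∀ k l, p k ≠ 0 → p l ≠ 0 → |v k - v l| ≤ (1 / 2) ^ x) {t : ℝ} (ht : 0 < t)
    (ht2 : t ≤ 2) :
    Hs (HsCell.law p v) ((1 / 2) ^ (x + l)) ≤ log 2 + l * t + log (2 / t) * ((2 / c) *
      (2 * (a * ((Hs (addLaw p v B) ((1 / 2) ^ (x + l)) - Hs B ((1 / 2) ^ (x + l))) -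
        (Hs (addLaw p v B) ((1 / 2) ^ (x - (a + 1))) - Hs B ((1 / 2) ^ (x - (a + 1)))))) +
        2 * (a * log 2))) := by
  have h1 := T1b (s := v) hq hq1 hB hc hmac (r := (1 / 2) ^ (x + l)) (by positivity) l
    (fun k l' hk hl => by rw [half_pow_scale rfl]; exact hdm k l' hk hl) ht ht2
  rw [law_eq_addLaw]
  refine h1.trans ?_
  have h2 : (2 : ℝ) ^ (l + a) * (1 / 2) ^ (x + l) = (1 / 2) ^ (x - a) :=
    half_pow_scale (by omega)
  rw [h2]
  have h3 := gainAt_scale_le (v := v) hq hq1 hB (show x - (a + 1) ≤ x - a by omega)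
  have h5 : 0 ≤ log (2 / t) := log_nonneg (by rw [one_le_div ht]; exact ht2)
  have h6 : gainAt p v B ((1 / 2) ^ (x + l)) - gainAt p v B ((1 / 2) ^ (x - a)) ≤
      gainAt p v B ((1 / 2) ^ (x + l)) - gainAt p v B ((1 / 2) ^ (x - (a + 1))) := by linarith
  change log 2 + l * t + log (2 / t) * ((2 / c) *
      (2 * (a * (gainAt p v B ((1 / 2) ^ (x + l)) - gainAt p v B ((1 / 2) ^ (x - a)))) +
        2 * (a * log 2))) ≤ log 2 + l * t + log (2 / t) * ((2 / c) *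
      (2 * (a * (gainAt p v B ((1 / 2) ^ (x + l)) - gainAt p v B ((1 / 2) ^ (x - (a + 1))))) +
        2 * (a * log 2)))
  gcongr

/-- T1b in the form used by the tree: constants depend only on the macro constants and `κ'`. -/
theorem exists_T1b {a : ℕ} {c : ℝ} (hc : 0 < c) {κ' : ℝ} (hκ : 0 < κ') :
    ∃ c4 : ℝ, ∃ l0 : ℕ, 0 < c4 ∧ ∀ {κ : Type*} [Fintype κ] (p v : κ → ℝ) (B : Measure ℝ)
      [IsProbabilityMeasure B] (hmac : ∀ r, 0 < r → Macro B (2 ^ a) r c) (hB : BSupp B)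
      (hq : ∀ a, 0 ≤ p a) (hq1 : ∑ a, p a = 1) (x l : ℕ) (hx : a + 1 ≤ x) (hl : l0 ≤ l)
      (hdm : ∀ k l, p k ≠ 0 → p l ≠ 0 → |v k - v l| ≤ (1 / 2) ^ x)
      (hH : κ' * l < Hs (HsCell.law p v) ((1 / 2) ^ (x + l))),
      c4 * l ≤ (Hs (addLaw p v B) ((1 / 2) ^ (x + l)) - Hs B ((1 / 2) ^ (x + l))) -
        (Hs (addLaw p v B) ((1 / 2) ^ (x - (a + 1))) - Hs B ((1 / 2) ^ (x - (a + 1)))) := by
  have hlog2 : 0 < log 2 := log_pos (by norm_num)
  set t := min (κ' / 2) 1 with ht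
  have ht0 : 0 < t := lt_min (by positivity) one_pos
  have ht1 : t ≤ 1 := min_le_right _ _
  have hlt : 0 < log (2 / t) := log_pos (by rw [lt_div_iff₀ ht0]; linarith)
  -- `κ' l ≤ log 2 + l t + A Δ + C`
  set A := log (2 / t) * ((2 / c) * (2 * ((a : ℝ) + 1))) with hA
  have hA0 : 0 < A := by positivity
  set C := log 2 + log (2 / t) * ((2 / c) * (2 * (a * log 2))) with hC
  have hC0 : 0 ≤ C := by positivity
  refine ⟨κ' / 4 / A, ⌈4 * C / κ'⌉₊, by positivity, ?_⟩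
  intro κ _ p v B _ hmac hB hq hq1 x l hx hl hdm hH
  have h1 := T1b_dyadic hc hmac hB hq hq1 hx (l := l) hdm ht0 (by linarith)
  set Δ := (Hs (addLaw p v B) ((1 / 2) ^ (x + l)) - Hs B ((1 / 2) ^ (x + l))) -
        (Hs (addLaw p v B) ((1 / 2) ^ (x - (a + 1))) - Hs B ((1 / 2) ^ (x - (a + 1)))) with hΔ
  have hΔ0 : 0 ≤ Δ := by
    have := gainAt_scale_le (v := v) hq hq1 hB (show x - (a + 1) ≤ x + l by omega)
    unfold gainAt at this
    rw [hΔ]; linarith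
  have hl' : 4 * C / κ' ≤ l := (Nat.le_ceil _).trans (by exact_mod_cast hl)
  have h2 : 4 * C ≤ l * κ' := by rwa [div_le_iff₀ hκ] at hl'
  have h3 : (l : ℝ) * t ≤ l * (κ' / 2) :=
    mul_le_mul_of_nonneg_left (min_le_left _ _) (Nat.cast_nonneg l)
  have h4 : log (2 / t) * ((2 / c) * (2 * (a * Δ) + 2 * (a * log 2))) ≤
      A * Δ + log (2 / t) * ((2 / c) * (2 * (a * log 2))) := by
    have h5 : A * Δ = log (2 / t) * ((2 / c) * (2 * (a * Δ))) +
        log (2 / t) * ((2 / c) * (2 * Δ)) := by rw [hA]; ring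
    have h6 : 0 ≤ log (2 / t) * ((2 / c) * (2 * Δ)) := by positivity
    have h7 : log (2 / t) * ((2 / c) * (2 * (a * Δ) + 2 * (a * log 2))) =
        log (2 / t) * ((2 / c) * (2 * (a * Δ))) +
        log (2 / t) * ((2 / c) * (2 * (a * log 2))) := by ring
    linarith
  have h8 : κ' / 4 * l ≤ A * Δ := by
    have h9 : κ' * l < C + l * (κ' / 2) + A * Δ := by
      rw [hC]; linarith
    nlinarith
  rw [div_mul_eq_mul_div, div_le_iff₀ hA0]
  linarith

end Crest.Agent.R98.K
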