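import Crest.Agent.R98.TOneE

/-!
R98 / KTone (helper290): T1a and T1b of note 10296 in the normal form of helper226 (dyadic scales
`(1/2)^i`, `i : ℕ`).
-/

set_option autoImplicit false

open MeasureTheory Set Real Filter

namespace Crest.Agent.R98.K

open TOne

variable {κ : Type*} [Fintype κ]

theorem info_half_mono {q v : κ → ℝ} (hq : ∀ a, 0 ≤ q a) (hq1 : ∑ a, q a = 1) {B : Measure ℝ}
    [IsFiniteMeasure B] (hB : BSupp B) : Monotone fun i : ℕ => info q v B ((1 / 2) ^ i) := by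
  refine monotone_nat_of_le_succ fun i => ?_
  have h := info_nsmul_le v hq hq1 hB (n := 2) (by norm_num) (r := (1 / 2) ^ (i + 1))
    (by positivity)
  have h2 : ((2 : ℕ) : ℝ) * (1 / 2) ^ (i + 1) = (1 / 2) ^ i := by
    rw [pow_succ]; push_cast; ring
  rwa [h2] at h

theorem two_pow_mul_half {a i : ℕ} (h : a ≤ i) :
    (2 : ℝ) ^ a * (1 / 2) ^ i = (1 / 2) ^ (i - a) := by
  obtain ⟨j, rfl⟩ := Nat.exists_eq_add_of_le h
  rw [Nat.add_sub_cancel_left, pow_add, ← mul_assoc, ← mul_pow]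
  norm_num

/-- T1a, dyadic normal form -/
theorem kT1a {p : ℕ} {c : ℝ} (hc : 0 < c) {B : Measure ℝ} [IsProbabilityMeasure B]
    (hB : BSupp B) (hmac : ∀ r, 0 < r → Macro B (2 ^ p) r c) {q v : κ → ℝ}
    (hq : ∀ a, 0 ≤ q a) (hq1 : ∑ a, q a = 1) {x y : ℕ} (hx : p + 1 ≤ x) (hxy : x ≤ y)
    (hdiam : ∀ a b, q a ≠ 0 → q b ≠ 0 → |v a - v b| ≤ (1 / 2) ^ x) :
    c / (p + 1) * ∑ a, ∑ b, (if (1 / 2) ^ y ≤ |v a - v b| then q a * q b else 0) ≤
      (Hs (addLaw q v B) ((1 / 2) ^ y) - Hs B ((1 / 2) ^ y)) -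
      (Hs (addLaw q v B) ((1 / 2) ^ (x - (p + 1))) - Hs B ((1 / 2) ^ (x - (p + 1)))) := by
  have hb : (0 : ℝ) < (1 / 2) ^ y := by positivity
  have h1 := T1a v hq hq1 hB hc.le hmac hb (y - x + 1)
  have hL : (2 : ℝ) ^ (y - x + 1) * (1 / 2) ^ y = 2 * (1 / 2) ^ x := by
    rw [pow_succ, mul_comm ((2 : ℝ) ^ (y - x)), mul_assoc, two_pow_mul_half (by omega)]
    congr 2
    omega
  have h2 : ∑ k, ∑ l, (if (1 / 2) ^ y ≤ |v l - v k| ∧ |v l - v k| < 2 ^ (y - x + 1) * (1 / 2) ^ y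
      then q k * q l else 0) = ∑ a, ∑ b, (if (1 / 2) ^ y ≤ |v a - v b| then q a * q b else 0) := by
    refine Finset.sum_congr rfl fun a _ => Finset.sum_congr rfl fun b _ => ?_
    rw [hL, abs_sub_comm (v b) (v a)]
    by_cases ha : q a = 0
    · simp [ha]
    by_cases hb' : q b = 0
    · simp [hb']
    have h3 := hdiam a b ha hb'
    have h4 : (0 : ℝ) < (1 / 2) ^ x := by positivity
    by_cases h5 : (1 / 2 : ℝ) ^ y ≤ |v a - v b|
    · rw [if_pos h5, if_pos ⟨h5, by linarith⟩]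
    · rw [if_neg h5, if_neg (fun h => h5 h.1)]
  rw [h2] at h1
  have h6 : gain q v B (2 ^ (y - x + 1 + p)) ((1 / 2) ^ y) = info q v B ((1 / 2) ^ y) -
      info q v B ((1 / 2) ^ (x - (p + 1))) := by
    rw [gain_eq_info]
    congr 2
    push_cast
    rw [two_pow_mul_half (by omega)]
    congr 1
    omega
  rw [h6] at h1
  have h7 : 0 ≤ info q v B ((1 / 2) ^ y) - info q v B ((1 / 2) ^ (x - (p + 1))) :=
    sub_nonneg.2 (info_half_mono hq hq1 hB (by omega))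
  have hp1 : (0 : ℝ) < p + 1 := by positivity
  rw [div_mul_eq_mul_div, div_le_iff₀ hp1]
  change _ ≤ (info q v B ((1 / 2) ^ y) - info q v B ((1 / 2) ^ (x - (p + 1)))) * (p + 1)
  nlinarith

/-- the parameter `t` -/
noncomputable def tpar (k : ℝ) : ℝ := min (k / 2) 1

/-- `log (2/t) * (4/c)` -/
noncomputable def Lpar (c k : ℝ) : ℝ := log (2 / tpar k) * (4 / c)

/-- the constant of T1b -/
noncomputable def c4 (p : ℕ) (c k : ℝ) : ℝ := k / (4 * (Lpar c k * (p + 1)))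

/-- the threshold of T1b -/
noncomputable def l0 (p : ℕ) (c k : ℝ) : ℕ := ⌈4 * (log 2 + Lpar c k * (p * log 2)) / k⌉₊

theorem tpar_pos {k : ℝ} (hk : 0 < k) : 0 < tpar k := lt_min (by positivity) one_pos

theorem Lpar_pos {c k : ℝ} (hc : 0 < c) (hk : 0 < k) : 0 < Lpar c k := by
  unfold Lpar
  refine mul_pos (log_pos ?_) (by positivity)
  rw [one_lt_div (tpar_pos hk)]
  have : tpar k ≤ 1 := min_le_right _ _
  linarith

theorem c4_pos {p : ℕ} {c k : ℝ} (hc : 0 < c) (hk : 0 < k) : 0 < c4 p c k := by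
  unfold c4
  have := Lpar_pos hc hk
  positivity

/-- T1b, dyadic normal form -/
theorem kT1b {p : ℕ} {c : ℝ} (hc : 0 < c) {B : Measure ℝ} [IsProbabilityMeasure B]
    (hB : BSupp B) (hmac : ∀ r, 0 < r → Macro B (2 ^ p) r c) {q v : κ → ℝ}
    (hq : ∀ a, 0 ≤ q a) (hq1 : ∑ a, q a = 1) {k : ℝ} (hk : 0 < k) {x l : ℕ} (hx : p + 1 ≤ x)
    (hl : l0 p c k ≤ l)
    (hdiam : ∀ a b, q a ≠ 0 → q b ≠ 0 → |v a - v b| ≤ (1 / 2) ^ x)
    (hH : k * l < Hs (addLaw q v (Measure.dirac 0)) ((1 / 2) ^ (x + l))) :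
    c4 p c k * l ≤
      (Hs (addLaw q v B) ((1 / 2) ^ (x + l)) - Hs B ((1 / 2) ^ (x + l))) -
      (Hs (addLaw q v B) ((1 / 2) ^ (x - (p + 1))) - Hs B ((1 / 2) ^ (x - (p + 1)))) := by
  have hr : (0 : ℝ) < (1 / 2) ^ (x + l) := by positivity
  have ht := tpar_pos hk
  have ht1 : tpar k ≤ 1 := min_le_right _ _
  have htk : tpar k ≤ k / 2 := min_le_left _ _
  have hLp := Lpar_pos hc hk
  have e1 : (2 : ℝ) ^ l * (1 / 2) ^ (x + l) = (1 / 2) ^ x := by
    rw [two_pow_mul_half (by omega)]; congr 1; omega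
  have h1 := T1b v hq hq1 hB hc hmac hr l (by rwa [e1]) ht (by linarith)
  have h6 : gain q v B (2 ^ (l + p)) ((1 / 2) ^ (x + l)) = info q v B ((1 / 2) ^ (x + l)) -
      info q v B ((1 / 2) ^ (x - p)) := by
    rw [gain_eq_info]
    congr 2
    push_cast
    rw [two_pow_mul_half (by omega)]
    congr 1
    omega
  rw [h6] at h1
  have h7 : info q v B ((1 / 2) ^ (x - (p + 1))) ≤ info q v B ((1 / 2) ^ (x - p)) :=
    info_half_mono hq hq1 hB (by omega)
  have h8 : info q v B ((1 / 2) ^ (x - p)) ≤ info q v B ((1 / 2) ^ (x + l)) :=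
    info_half_mono hq hq1 hB (by omega)
  change c4 p c k * l ≤ info q v B ((1 / 2) ^ (x + l)) - info q v B ((1 / 2) ^ (x - (p + 1)))
  set g := info q v B ((1 / 2) ^ (x + l)) - info q v B ((1 / 2) ^ (x - (p + 1))) with hg
  set g' := info q v B ((1 / 2) ^ (x + l)) - info q v B ((1 / 2) ^ (x - p)) with hg'
  have hgg : g' ≤ g := by rw [hg, hg']; linarith
  have hg0 : 0 ≤ g' := by rw [hg']; linarith
  have hl' : 4 * (log 2 + Lpar c k * (p * log 2)) / k ≤ l :=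
    (Nat.le_ceil _).trans (by exact_mod_cast hl)
  rw [div_le_iff₀ hk] at hl'
  have h9 : log (2 / tpar k) * (4 / c * (p * g' + p * log 2)) =
      Lpar c k * (p * g') + Lpar c k * (p * log 2) := by
    unfold Lpar; ring
  rw [h9] at h1
  have h10 : (l : ℝ) * tpar k ≤ l * (k / 2) := mul_le_mul_of_nonneg_left htk (Nat.cast_nonneg l)
  have h11 : (p : ℝ) * g' ≤ (p + 1) * g := by
    have : (p : ℝ) * g' ≤ p * g := mul_le_mul_of_nonneg_left hgg (Nat.cast_nonneg p)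
    linarith
  have h12 := mul_le_mul_of_nonneg_left h11 hLp.le
  have h13 : k * l / 4 ≤ Lpar c k * ((p + 1) * g) := by linarith
  have hp1 : (0 : ℝ) < 4 * (Lpar c k * (p + 1)) := by positivity
  unfold c4
  rw [div_mul_eq_mul_div, div_le_iff₀ hp1]
  linarith

end Crest.Agent.R98.K
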