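import Crest.Agent.R98.Top0
import Crest.Agent.R98.ExactD

/-!
Row 98 (S0129): the exactness step of the final logic in rank one (`KW1r`).
-/

set_option autoImplicit false

namespace Crest.Agent.R98.Top

open Crest.AnalysisR Crest.Agent.R98 Crest.Agent.R98.Part Crest.Agent.R098.Upper Filter Topology
  MeasureTheory Polynomial

set_option linter.unusedSectionVars false

variable {ι : Type*} [Fintype ι]

section poly

lemma l1_X_pow (k : ℕ) : Exact.l1 (X ^ k : ℤ[X]) ≤ 1 := by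
  have h : (X ^ k : ℤ[X]).support ⊆ {k} := by
    intro i hi
    rw [Polynomial.mem_support_iff, Polynomial.coeff_X_pow] at hi
    simp only [Finset.mem_singleton]
    by_contra h
    exact hi (by simp [h])
  rw [Exact.l1_eq_of_subset h]
  simp

lemma l1_ratP (σ : ι → ℝ) (a : ι → ℕ) (i : ι) : Exact.l1 (ratP σ a i) ≤ 1 := by
  unfold ratP
  split_ifs
  · rw [neg_mul, one_mul, Exact.l1_neg]
    exact l1_X_pow _
  · rw [one_mul]
    exact l1_X_pow _

lemma natDegree_ratP (σ : ι → ℝ) (a : ι → ℕ) (i : ι) : (ratP σ a i).natDegree ≤ a i := by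
  unfold ratP
  split_ifs
  · rw [neg_mul, one_mul, Polynomial.natDegree_neg]
    exact Polynomial.natDegree_X_pow_le _
  · rw [one_mul]
    exact Polynomial.natDegree_X_pow_le _

lemma l1_cw_ratP (σ : ι → ℝ) (a : ι → ℕ) {m : ℕ} (u : Fin m → ι) (i : ι) :
    Exact.l1 (cw (ratP σ a) u i) ≤ m := by
  classical
  induction m with
  | zero => simp
  | succ m ih =>
    obtain ⟨b, u, rfl⟩ := exists_cons u
    rw [cw_cons]
    refine (Exact.l1_add _ _).trans ?_
    have h1 : Exact.l1 (if b = i then 1 else 0 : ℤ[X]) ≤ 1 := by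
      split_ifs <;> simp
    have h2 : Exact.l1 (ratP σ a b * cw (ratP σ a) u i) ≤ 1 * m := by
      refine (Exact.l1_mul _ _).trans ?_
      exact mul_le_mul (l1_ratP σ a b) (ih u) (Exact.l1_nonneg _) zero_le_one
    push_cast
    linarith

lemma natDegree_cw_ratP (σ : ι → ℝ) (a : ι → ℕ) {B : ℕ} (hB : ∀ i, a i ≤ B) {m : ℕ}
    (u : Fin m → ι) (i : ι) : (cw (ratP σ a) u i).natDegree ≤ B * m := by
  classical
  induction m with
  | zero => simp
  | succ m ih =>
    obtain ⟨b, u, rfl⟩ := exists_cons u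
    rw [cw_cons]
    refine (Polynomial.natDegree_add_le _ _).trans (max_le ?_ ?_)
    · split_ifs <;> simp
    · refine Polynomial.natDegree_mul_le.trans ?_
      have h1 := natDegree_ratP σ a b
      have h2 := ih u
      have h3 := hB b
      calc _ ≤ B + B * m := by omega
        _ = B * (m + 1) := by ring

lemma aeval_ratP {σ : ι → ℝ} (hσ : IsS σ) (a : ι → ℕ) (z : ℂ) (i : ι) :
    aeval z (ratP σ a i) = (σ i : ℂ) * z ^ a i := by
  unfold ratP
  rcases hσ i with h | h
  · rw [h]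
    norm_num
  · rw [h]
    norm_num

lemma aeval_cw_ratP {σ : ι → ℝ} (hσ : IsS σ) (a : ι → ℕ) (z : ℂ) {m : ℕ} (u : Fin m → ι) (i : ι) :
    aeval z (cw (ratP σ a) u i) = cw (fun i => (σ i : ℂ) * z ^ a i) u i := by
  have h := map_cw ((aeval z : ℤ[X] →ₐ[ℤ] ℂ) : ℤ[X] →+* ℂ) (ratP σ a) u i
  have h2 : (fun i => ((aeval z : ℤ[X] →ₐ[ℤ] ℂ) : ℤ[X] →+* ℂ) (ratP σ a i)) =
      fun i => (σ i : ℂ) * z ^ a i := by
    funext i
    exact aeval_ratP hσ a z i
  rw [h2] at h
  exact h

lemma aeval_difP {σ : ι → ℝ} (hσ : IsS σ) (a : ι → ℕ) (z : ℂ) {m : ℕ} (u v : Fin m → ι) (i : ι) :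
    aeval z (difP σ a u v i) = cw (fun i => (σ i : ℂ) * z ^ a i) u i -
      cw (fun i => (σ i : ℂ) * z ^ a i) v i := by
  unfold difP
  rw [map_sub, aeval_cw_ratP hσ, aeval_cw_ratP hσ]

lemma rayc_eq (σ : ι → ℝ) (a : ι → ℕ) (θ : ℝ) (s : ℂ) :
    rayc σ (fun i => a i * θ) s = fun i => (σ i : ℂ) * (Complex.exp (-(1 + s) * θ)) ^ a i := by
  funext i
  unfold rayc
  rw [← Complex.exp_nat_mul]
  congr 2
  push_cast
  ring

lemma rr_eq (σ : ι → ℝ) (a : ι → ℕ) (θ : ℝ) :
    (fun i => ((rr σ (fun i => a i * θ) i : ℝ) : ℂ)) =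
      fun i => (σ i : ℂ) * ((Real.exp (-θ) : ℝ) : ℂ) ^ a i := by
  funext i
  unfold rr
  push_cast
  rw [← Complex.exp_nat_mul]
  congr 2
  ring

lemma ofReal_cw (r : ι → ℝ) {m : ℕ} (u : Fin m → ι) (i : ι) :
    ((cw r u i : ℝ) : ℂ) = cw (fun i => (r i : ℂ)) u i := by
  have h := map_cw Complex.ofRealHom r u i
  simpa using h

lemma sum_difP_real {σ : ι → ℝ} (hσ : IsS σ) (a : ι → ℕ) (θ : ℝ) {m : ℕ} (u v : Fin m → ι)
    (t : ι → ℝ) : ∑ j, (t j : ℂ) * aeval ((Real.exp (-θ) : ℝ) : ℂ) (difP σ a u v j) =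
      ((cdot (rr σ (fun i => a i * θ)) t u - cdot (rr σ (fun i => a i * θ)) t v : ℝ) : ℂ) := by
  unfold cdot
  simp only [Complex.ofReal_sub, Complex.ofReal_sum, Complex.ofReal_mul]
  rw [← Finset.sum_sub_distrib]
  refine Finset.sum_congr rfl fun j _ => ?_
  rw [aeval_difP hσ, ofReal_cw, ofReal_cw, rr_eq]
  ring

end poly

/-- the complex parameter `s` attached to a point `z` near `exp (-θ)` -/
lemma exists_param {θ : ℝ} (hθ : 0 < θ) {z : ℂ} {δ : ℝ}
    (hz : ‖z - ((Real.exp (-θ) : ℝ) : ℂ)‖ ≤ δ) (hδ : δ * Real.exp θ ≤ 1 / 2) :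
    ∃ s : ℂ, Complex.exp (-(1 + s) * θ) = z ∧ ‖s‖ ≤ 2 * Real.exp θ / θ * δ ∧
      (z = ((Real.exp (-θ) : ℝ) : ℂ) → s = 0) := by
  set w : ℂ := (z - ((Real.exp (-θ) : ℝ) : ℂ)) * ((Real.exp θ : ℝ) : ℂ) with hw
  have hee : ((Real.exp (-θ) : ℝ) : ℂ) * ((Real.exp θ : ℝ) : ℂ) = 1 := by
    rw [← Complex.ofReal_mul, ← Real.exp_add]
    simp
  have hwn : ‖w‖ ≤ δ * Real.exp θ := by
    rw [hw, norm_mul, Complex.norm_real, Real.norm_of_nonneg (Real.exp_pos _).le]
    gcongr
  have hw1 : ‖w‖ ≤ 1 / 2 := hwn.trans hδ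
  have h1w : (1 + w) ≠ 0 := by
    intro h
    have h2 : w = -1 := by linear_combination h
    rw [h2] at hw1
    norm_num at hw1
  have hz1 : z = ((Real.exp (-θ) : ℝ) : ℂ) * (1 + w) := by
    rw [hw]
    linear_combination (-(z - ((Real.exp (-θ) : ℝ) : ℂ))) * hee
  have hθc : (θ : ℂ) ≠ 0 := by exact_mod_cast hθ.ne'
  refine ⟨-Complex.log (1 + w) / θ, ?_, ?_, ?_⟩
  · have h3 : -(1 + -Complex.log (1 + w) / (θ : ℂ)) * θ = -θ + Complex.log (1 + w) := by
      field_simp
      ring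
    rw [h3, Complex.exp_add, Complex.exp_log h1w, hz1]
    push_cast
    rfl
  · rw [norm_div, norm_neg, Complex.norm_real, Real.norm_of_nonneg hθ.le, div_le_iff₀ hθ]
    have h4 := Complex.norm_log_one_add_half_le_self hw1
    have h5 : ‖Complex.log (1 + w)‖ ≤ 2 * (δ * Real.exp θ) := by
      have h6 : (0 : ℝ) ≤ δ * Real.exp θ := (norm_nonneg _).trans hwn
      calc ‖Complex.log (1 + w)‖ ≤ 3 / 2 * ‖w‖ := h4
        _ ≤ 3 / 2 * (δ * Real.exp θ) := by gcongr
        _ ≤ _ := by linarith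
    calc ‖Complex.log (1 + w)‖ ≤ 2 * (δ * Real.exp θ) := h5
      _ = 2 * Real.exp θ / θ * δ * θ := by field_simp
  · intro h
    have h6 : w = 0 := by rw [hw, h, sub_self, zero_mul]
    rw [h6]
    simp

/-- the exactness step in rank one -/
theorem kw1r {σ : ι → ℝ} (hσ : IsS σ) (a : ι → ℕ) (_ha : ∀ i, 1 ≤ a i) {θ : ℝ} (hθ : 0 < θ)
    (t : ι → ℝ) (W : Submodule ℝ (ι → ℝ)) (C₅ : ℝ)
    (hBC : BC2 (rr σ fun i => a i * θ) t W (fun m => m) C₅) :
    ∀ᶠ m : ℕ in atTop, ∃ (s : ℂ) (K : Submodule ℂ (ι → ℂ)),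
      Apx σ (fun i => a i * θ) t W m ((m : ℝ) * (Real.log m) ^ (Fintype.card ι + 4)) 0 0
        (m * Real.log m) s K ∧ (s = 0 ∨ Complex.exp (-(1 + s) * θ) ∈ Cand σ a m) := by
  classical
  set k := Fintype.card ι with hk
  obtain ⟨C, hC1, hC⟩ := Exact.exactness_asymp k
  -- constants
  set lam : ℝ := Real.exp (-θ) with hlam
  have hlam0 : 0 < lam := Real.exp_pos _
  have hlam1 : lam < 1 := by rw [hlam]; exact Real.exp_lt_one_iff.mpr (by linarith)
  set b : ℝ := max (1 / lam) (1 / (1 - lam)) with hb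
  have hb1 : 1 ≤ b := by
    refine le_trans ?_ (le_max_left _ _)
    rw [le_div_iff₀ hlam0]
    linarith
  have hb0 : 0 < b := by linarith
  have hbl : 1 / b ≤ lam := by
    rw [div_le_iff₀ hb0]
    calc (1 : ℝ) = lam * (1 / lam) := by field_simp
      _ ≤ lam * b := by gcongr; exact le_max_left _ _
  have hbl1 : 1 / b ≤ 1 - lam := by
    have h1 : 0 < 1 - lam := by linarith
    rw [div_le_iff₀ hb0]
    calc (1 : ℝ) = (1 - lam) * (1 / (1 - lam)) := by field_simp
      _ ≤ (1 - lam) * b := by gcongr; exact le_max_right _ _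
  set B : ℕ := ∑ i, a i with hB
  have haB : ∀ i, a i ≤ B := fun i => Finset.single_le_sum (f := a) (fun _ _ => Nat.zero_le _)
    (Finset.mem_univ i)
  set A' : ℕ := B + 2 with hA'
  have hA'2 : (2 : ℝ) ≤ (A' : ℝ) := by rw [hA']; push_cast; linarith [(Nat.cast_nonneg B : (0 : ℝ) ≤ B)]
  have hlogA : 0 ≤ Real.log A' := Real.log_nonneg (by linarith)
  have hlogb : 0 ≤ Real.log b := Real.log_nonneg hb1
  set D : ℝ := (C * b * (Real.log A' + 1)) ^ k with hD
  have hD0 : 0 ≤ D := by positivity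
  set c3 : ℝ := 2 * Real.exp θ / θ with hc3
  have hc30 : 0 < c3 := by positivity
  -- eventual largeness of log m
  have hlog : ∀ x : ℝ, ∀ᶠ m : ℕ in atTop, x ≤ Real.log m := fun x =>
    (Real.tendsto_log_atTop.comp tendsto_natCast_atTop_atTop).eventually_ge_atTop x
  filter_upwards [hBC, hlog 1, hlog (C * A' * (Real.log A' + Real.log b + 1)),
    hlog (2 * D + |C₅| + 1), hlog (|Real.log c3| + 1), hlog (θ + 1),
    eventually_ge_atTop 1] with m hBCm hL1 hL2 hL3 hL4 hL5 hm1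
  set L : ℝ := Real.log m with hL
  have hm0 : (1 : ℝ) ≤ m := by exact_mod_cast hm1
  set n : ℕ := A' * m with hn
  have hncast : (n : ℝ) = A' * m := by rw [hn]; push_cast; ring
  have hn2 : 2 ≤ n := by
    rw [hn, hA']
    nlinarith
  have hlogn : Real.log n = Real.log A' + L := by
    rw [hncast, Real.log_mul (by linarith) (by linarith)]
  set G : ℝ := 2 * m * L ^ 2 with hG
  set X : ℝ := (m : ℝ) * L ^ (k + 4) with hX
  set N : ℝ := X - C₅ * m with hN
  have hG1 : C * n * (Real.log n + Real.log b) ≤ G := by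
    rw [hlogn, hncast, hG]
    have h1 : Real.log A' + L + Real.log b ≤ (Real.log A' + Real.log b + 1) * L := by
      nlinarith only [hlogA, hlogb, hL1]
    have h2 : C * A' * (Real.log A' + L + Real.log b) ≤ L * L := by
      calc C * A' * (Real.log A' + L + Real.log b)
          ≤ C * A' * ((Real.log A' + Real.log b + 1) * L) := by gcongr
        _ = (C * A' * (Real.log A' + Real.log b + 1)) * L := by ring
        _ ≤ L * L := by gcongr
    calc C * (A' * m) * (Real.log A' + L + Real.log b)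
        = m * (C * A' * (Real.log A' + L + Real.log b)) := by ring
      _ ≤ m * (L * L) := by gcongr
      _ ≤ 2 * m * L ^ 2 := by nlinarith only [hm0, hL1, mul_nonneg (by linarith : (0 : ℝ) ≤ m) (sq_nonneg L)]
  have hL0 : 0 ≤ L := by linarith
  have hN1 : G * (C * b * Real.log n) ^ k ≤ N := by
    have h1 : C * b * Real.log n ≤ C * b * (Real.log A' + 1) * L := by
      rw [hlogn]
      have h2 : Real.log A' + L ≤ (Real.log A' + 1) * L := by nlinarith only [hlogA, hL1]
      calc C * b * (Real.log A' + L) ≤ C * b * ((Real.log A' + 1) * L) := by gcongr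
        _ = _ := by ring
    have h3 : (C * b * Real.log n) ^ k ≤ D * L ^ k := by
      rw [hD, ← mul_pow]
      apply pow_le_pow_left₀ _ h1
      rw [hlogn]
      positivity
    have h4 : G * (C * b * Real.log n) ^ k ≤ 2 * D * (m * L ^ (k + 2)) := by
      calc G * (C * b * Real.log n) ^ k ≤ G * (D * L ^ k) := by gcongr
        _ = 2 * D * (m * L ^ (k + 2)) := by rw [hG]; ring
    have h5 : C₅ * m ≤ |C₅| * (m * L ^ (k + 2)) := by
      have h6 : (1 : ℝ) ≤ L ^ (k + 2) := one_le_pow₀ hL1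
      calc C₅ * m ≤ |C₅| * m := by gcongr; exact le_abs_self _
        _ ≤ |C₅| * (m * L ^ (k + 2)) := by
          gcongr
          exact le_mul_of_one_le_right (by linarith) h6
    have h7 : (2 * D + |C₅|) * (m * L ^ (k + 2)) ≤ X := by
      have h8 : 2 * D + |C₅| ≤ L ^ 2 := by nlinarith only [hL3, hL1]
      calc (2 * D + |C₅|) * (m * L ^ (k + 2)) ≤ L ^ 2 * (m * L ^ (k + 2)) := by gcongr
        _ = X := by rw [hX]; ring
    rw [hN]
    linarith
  -- the family of near pairs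
  set PP : Set (ι → ℤ[X]) := {P | ∃ u v : Fin m → ι,
    Near (rr σ fun i => a i * θ) t X u v ∧ P = difP σ a u v} with hPP
  have hdeg : ∀ P ∈ PP, ∀ j, (P j).natDegree ≤ n := by
    rintro P ⟨u, v, _, rfl⟩ j
    unfold difP
    refine (Polynomial.natDegree_sub_le _ _).trans (max_le ?_ ?_)
    · refine (natDegree_cw_ratP σ a haB u j).trans ?_
      rw [hn, hA']
      exact Nat.mul_le_mul_right m (by omega)
    · refine (natDegree_cw_ratP σ a haB v j).trans ?_
      rw [hn, hA']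
      exact Nat.mul_le_mul_right m (by omega)
  have hl1 : ∀ P ∈ PP, ∀ j, Exact.l1 (P j) ≤ (n : ℝ) ^ 2 := by
    rintro P ⟨u, v, _, rfl⟩ j
    unfold difP
    rw [sub_eq_add_neg]
    refine (Exact.l1_add _ _).trans ?_
    rw [Exact.l1_neg]
    have h1 := l1_cw_ratP σ a u j
    have h2 := l1_cw_ratP σ a v j
    have h3 : (2 : ℝ) * m ≤ n := by rw [hncast]; nlinarith only [hA'2, hm0]
    have h4 : (1 : ℝ) ≤ n := by linarith
    nlinarith only [h1, h2, h3, h4]
  obtain ⟨z, hz1, hz2, hz3, hz4⟩ := hC ι hk.symm n hn2 b hb1 lam hbl hbl1 G N hG1 hN1 PP hdeg hl1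
  -- the parameter s
  have hmL : L ≤ m * L := le_mul_of_one_le_left hL0 hm0
  have hmL2 : m * L ≤ m * L ^ 2 := by
    have : L ≤ L ^ 2 := by nlinarith only [hL1]
    gcongr
  have hGbig : θ + 1 ≤ G := by
    rw [hG]
    nlinarith only [hL5, hmL, hmL2, mul_nonneg (by linarith : (0 : ℝ) ≤ m) (sq_nonneg L)]
  obtain ⟨s, hs1, hs2, hs3⟩ := exists_param hθ hz1 (by
    rw [← Real.exp_add]
    have h1 : Real.exp (-G + θ) ≤ Real.exp (-1) := Real.exp_le_exp.mpr (by linarith)
    have h2 : Real.exp (-1) ≤ 1 / 2 := by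
      rw [Real.exp_neg, one_div]
      apply inv_anti₀ (by norm_num)
      have := Real.add_one_le_exp (1 : ℝ)
      linarith
    exact h1.trans h2)
  let K : Submodule ℂ (ι → ℂ) :=
    { carrier := {t' | ∀ P ∈ PP, ∑ j, t' j * aeval z (P j) = 0}
      add_mem' := by
        intro x y hx hy P hP
        simp only [Pi.add_apply, add_mul, Finset.sum_add_distrib, hx P hP, hy P hP, add_zero]
      zero_mem' := by
        intro P _
        simp
      smul_mem' := by
        intro c x hx P hP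
        simp only [Pi.smul_apply, smul_eq_mul, mul_assoc, ← Finset.mul_sum, hx P hP, mul_zero] }
  refine ⟨s, K, ⟨?_, ?_, ?_⟩, ?_⟩
  · refine hs2.trans ?_
    rw [← hc3]
    have h1 : c3 ≤ Real.exp (m * L) := by
      calc c3 = Real.exp (Real.log c3) := (Real.exp_log hc30).symm
        _ ≤ _ := Real.exp_le_exp.mpr (by
          have := le_abs_self (Real.log c3)
          linarith)
    calc c3 * Real.exp (-G) ≤ Real.exp (m * L) * Real.exp (-G) := by gcongr
      _ = Real.exp (m * L - G) := by rw [← Real.exp_add]; congr 1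
      _ ≤ Real.exp (-(m * L)) := Real.exp_le_exp.mpr (by rw [hG]; linarith)
  · intro t' ht' u v huv
    have h1 := ht' (difP σ a u v) ⟨u, v, huv, rfl⟩
    rw [rayc_eq, hs1]
    have h2 : ∑ i, (cw (fun i => (σ i : ℂ) * z ^ a i) u i - cw (fun i => (σ i : ℂ) * z ^ a i) v i) *
        t' i = 0 := by
      rw [← h1]
      refine Finset.sum_congr rfl fun j _ => ?_
      rw [aeval_difP hσ]
      ring
    rw [h2, norm_zero]
    simp
  · intro t' ht'
    obtain ⟨t'', h1, h2⟩ := hz4 t' (by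
      rintro P ⟨u, v, huv, rfl⟩
      rw [sum_difP_real hσ, Complex.norm_real, Real.norm_eq_abs]
      have h3 := hBCm u v t' ht'
      refine h3.trans ?_
      have h4 : Real.exp (C₅ * m) * |cdot (rr σ fun i => a i * θ) t u -
          cdot (rr σ fun i => a i * θ) t v| ≤ Real.exp (-N) := by
        calc _ ≤ Real.exp (C₅ * m) * Real.exp (-X) := by
              gcongr
              exact huv.2
          _ = Real.exp (-N) := by
              rw [← Real.exp_add, hN]
              congr 1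
              ring
      gcongr)
    refine ⟨t'', h2, fun i => (h1 i).trans ?_⟩
    apply mul_le_mul_of_nonneg_right _ (norm_nonneg t')
    apply Real.exp_le_exp.mpr
    rw [hG]
    linarith
  · rcases hz3 with h | ⟨e, R, J, he, hR, hne, hroot⟩
    · exact Or.inl (hs3 h)
    · right
      rw [hs1]
      refine ⟨e, R, J, he, ?_, hne, hroot⟩
      intro i
      obtain ⟨u, v, _, huv⟩ := hR i
      exact ⟨u, v, huv⟩

end Crest.Agent.R98.Top
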