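import Mathlib

/-!
Row 98, module MULT, part 1: elementary bounds for binomial coefficients.
-/

set_option autoImplicit false

open Finset

namespace Crest.Agent.R98.Mult

/-- `centralBinom n / 4^n ≤ 1/√(2n+1)`, in squared form. -/
lemma centralBinom_sq_le (n : ℕ) :
    (Nat.centralBinom n : ℝ) ^ 2 * (2 * n + 1) ≤ (4 ^ n) ^ 2 := by
  induction n with
  | zero => simp
  | succ n ih =>
    have h := Nat.succ_mul_centralBinom_succ n
    have h' : ((n : ℝ) + 1) * (Nat.centralBinom (n + 1) : ℝ)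
        = 2 * (2 * n + 1) * (Nat.centralBinom n : ℝ) := by
      exact_mod_cast h
    have hn : (0 : ℝ) < (n : ℝ) + 1 := by positivity
    have e : (Nat.centralBinom (n + 1) : ℝ)
        = 2 * (2 * n + 1) * (Nat.centralBinom n : ℝ) / ((n : ℝ) + 1) := by
      field_simp
      linarith
    rw [e]
    push_cast
    have h0 : (0 : ℝ) ≤ (n : ℝ) := Nat.cast_nonneg n
    rw [div_pow, div_mul_eq_mul_div, div_le_iff₀ (by positivity)]
    have key : (2 * (2 * (n : ℝ) + 1)) ^ 2 * (2 * ((n : ℝ) + 1) + 1) * (Nat.centralBinom n : ℝ) ^ 2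
        ≤ (16 * ((n : ℝ) + 1) ^ 2) * ((Nat.centralBinom n : ℝ) ^ 2 * (2 * n + 1)) := by
      have : (2 * (2 * (n : ℝ) + 1)) ^ 2 * (2 * ((n : ℝ) + 1) + 1)
          ≤ (16 * ((n : ℝ) + 1) ^ 2) * (2 * n + 1) := by nlinarith
      calc _ ≤ (16 * ((n : ℝ) + 1) ^ 2) * (2 * n + 1) * (Nat.centralBinom n : ℝ) ^ 2 :=
            mul_le_mul_of_nonneg_right this (by positivity)
        _ = _ := by ring
    calc (2 * (2 * (n : ℝ) + 1) * (Nat.centralBinom n : ℝ)) ^ 2 * (2 * ((n : ℝ) + 1) + 1)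
        = (2 * (2 * (n : ℝ) + 1)) ^ 2 * (2 * ((n : ℝ) + 1) + 1) * (Nat.centralBinom n : ℝ) ^ 2 := by
          ring
      _ ≤ (16 * ((n : ℝ) + 1) ^ 2) * ((Nat.centralBinom n : ℝ) ^ 2 * (2 * n + 1)) := key
      _ ≤ (16 * ((n : ℝ) + 1) ^ 2) * (4 ^ n) ^ 2 :=
          mul_le_mul_of_nonneg_left ih (by positivity)
      _ = (4 ^ (n + 1)) ^ 2 * ((n : ℝ) + 1) ^ 2 := by ring

/-- `C(m,k) 2^{-m} ≤ 1/√(m+1)`, squared form. -/
lemma choose_sq_le (m k : ℕ) :
    ((m.choose k : ℝ) / 2 ^ m) ^ 2 * (m + 1) ≤ 1 := by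
  have h1 : (m.choose k : ℝ) ≤ (m.choose (m / 2) : ℝ) := by
    exact_mod_cast Nat.choose_le_middle k m
  have h2 : ((m.choose (m / 2) : ℝ) / 2 ^ m) ^ 2 * (m + 1) ≤ 1 := by
    rcases Nat.even_or_odd' m with ⟨n, rfl | rfl⟩
    · have := centralBinom_sq_le n
      have e : (2 * n) / 2 = n := by omega
      rw [e, ← Nat.centralBinom_eq_two_mul_choose, div_pow, div_mul_eq_mul_div,
        div_le_one (by positivity)]
      push_cast
      calc (Nat.centralBinom n : ℝ) ^ 2 * (2 * n + 1) ≤ (4 ^ n) ^ 2 := this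
        _ = (2 ^ (2 * n)) ^ 2 := by rw [pow_mul (2 : ℝ) 2 n]; norm_num
    · have := centralBinom_sq_le (n + 1)
      have e : (2 * n + 1) / 2 = n := by omega
      have hc : Nat.centralBinom (n + 1) = 2 * (2 * n + 1).choose n := by
        rw [Nat.centralBinom_eq_two_mul_choose]
        have : 2 * (n + 1) = (2 * n + 1) + 1 := by ring
        rw [this, Nat.choose_succ_succ' (2 * n + 1) n]
        have h3 : (2 * n + 1).choose (n + 1) = (2 * n + 1).choose n := by
          have := Nat.choose_symm_half n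
          exact this
        rw [h3]; ring
      rw [e, div_pow, div_mul_eq_mul_div, div_le_one (by positivity)]
      rw [hc] at this
      push_cast at this ⊢
      have h4 : ((2 : ℝ) * ((2 * n + 1).choose n : ℝ)) ^ 2 * (2 * n + 1 + 1)
          ≤ (4 ^ (n + 1)) ^ 2 := by
        refine le_trans ?_ this
        apply mul_le_mul_of_nonneg_left _ (by positivity)
        linarith
      have h5 : ((4 : ℝ) ^ (n + 1)) ^ 2 = 4 * (2 ^ (2 * n + 1)) ^ 2 := by
        have : (4 : ℝ) = 2 ^ 2 := by norm_num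
        rw [this, ← pow_mul, ← pow_mul, ← pow_mul, ← pow_add]
        congr 1; ring
      rw [h5] at h4
      nlinarith
  refine le_trans ?_ h2
  apply mul_le_mul_of_nonneg_right _ (by positivity)
  apply pow_le_pow_left₀ (by positivity)
  apply div_le_div_of_nonneg_right h1 (by positivity)

lemma choose_le_inv_sqrt (m k : ℕ) :
    (m.choose k : ℝ) / 2 ^ m ≤ 1 / Real.sqrt (m + 1) := by
  have h := choose_sq_le m k
  have h0 : (0 : ℝ) < (m : ℝ) + 1 := by positivity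
  rw [le_div_iff₀ (Real.sqrt_pos.2 h0)]
  have h1 : ((m.choose k : ℝ) / 2 ^ m * Real.sqrt (m + 1)) ^ 2 ≤ 1 ^ 2 := by
    rw [mul_pow, Real.sq_sqrt h0.le]; simpa using h
  exact (pow_le_pow_iff_left₀ (by positivity) (by norm_num) (by norm_num)).1 h1

/-- `∑_m C(n,m) P^m (1-P)^{n-m}/(m+1) ≤ 1/((n+1)P)`. -/
lemma sum_inv_le (n : ℕ) (P : ℝ) (hP : 0 < P) (hP1 : P ≤ 1) :
    ∑ m ∈ range (n + 1), (n.choose m : ℝ) * P ^ m * (1 - P) ^ (n - m) * (1 / ((m : ℝ) + 1))
      ≤ 1 / (((n : ℝ) + 1) * P) := by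
  have hQ : 0 ≤ 1 - P := by linarith
  have hn : (0 : ℝ) < (n : ℝ) + 1 := by positivity
  have e : ∀ m ∈ range (n + 1),
      (n.choose m : ℝ) * P ^ m * (1 - P) ^ (n - m) * (1 / ((m : ℝ) + 1))
        = (1 / (((n : ℝ) + 1) * P)) *
          (((n + 1).choose (m + 1) : ℝ) * P ^ (m + 1) * (1 - P) ^ ((n + 1) - (m + 1))) := by
    intro m _
    have h := Nat.add_one_mul_choose_eq n m
    have h' : ((n : ℝ) + 1) * (n.choose m : ℝ) = ((n + 1).choose (m + 1) : ℝ) * ((m : ℝ) + 1) := by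
      exact_mod_cast h
    have hm : (0 : ℝ) < (m : ℝ) + 1 := by positivity
    have h3 : (n + 1) - (m + 1) = n - m := by omega
    have h4 : ((n + 1).choose (m + 1) : ℝ) = ((n : ℝ) + 1) * (n.choose m : ℝ) / ((m : ℝ) + 1) := by
      field_simp; linarith
    rw [h3, h4]
    field_simp
    try ring
  rw [Finset.sum_congr rfl e, ← Finset.mul_sum]
  have hsum : ∑ m ∈ range (n + 1), (((n + 1).choose (m + 1) : ℝ) * P ^ (m + 1) *
      (1 - P) ^ ((n + 1) - (m + 1))) ≤ 1 := by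
    have hb : ∑ m ∈ range (n + 1 + 1), (P ^ m * (1 - P) ^ (n + 1 - m) * ((n + 1).choose m : ℝ))
        = 1 := by
      rw [← add_pow]; simp
    rw [Finset.sum_range_succ'] at hb
    have h0 : (0 : ℝ) ≤ P ^ 0 * (1 - P) ^ (n + 1 - 0) * ((n + 1).choose 0 : ℝ) := by
      positivity
    have : ∑ m ∈ range (n + 1), (((n + 1).choose (m + 1) : ℝ) * P ^ (m + 1) *
      (1 - P) ^ ((n + 1) - (m + 1))) = ∑ m ∈ range (n + 1),
        (P ^ (m + 1) * (1 - P) ^ (n + 1 - (m + 1)) * ((n + 1).choose (m + 1) : ℝ)) := by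
      apply Finset.sum_congr rfl; intro m _; ring
    rw [this]; linarith
  have hc : 0 ≤ 1 / (((n : ℝ) + 1) * P) := by positivity
  calc _ ≤ (1 / (((n : ℝ) + 1) * P)) * 1 := mul_le_mul_of_nonneg_left hsum hc
    _ = _ := by ring


/-- `∑_m C(n,m) P^m (1-P)^{n-m}/√(m+1) ≤ 1/√((n+1)P)`. -/
lemma sum_inv_sqrt_le (n : ℕ) (P : ℝ) (hP : 0 < P) (hP1 : P ≤ 1) :
    ∑ m ∈ range (n + 1), (n.choose m : ℝ) * P ^ m * (1 - P) ^ (n - m) *
        (1 / Real.sqrt ((m : ℝ) + 1))
      ≤ 1 / Real.sqrt (((n : ℝ) + 1) * P) := by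
  have hQ : 0 ≤ 1 - P := by linarith
  have hn : (0 : ℝ) < ((n : ℝ) + 1) * P := by positivity
  set t : ℝ := Real.sqrt (((n : ℝ) + 1) * P) with ht
  have ht0 : 0 < t := Real.sqrt_pos.2 hn
  have ht2 : t * t = ((n : ℝ) + 1) * P := Real.mul_self_sqrt hn.le
  have hpt : ∀ m : ℕ, 1 / Real.sqrt ((m : ℝ) + 1) ≤ (1 / 2) * (t * (1 / ((m : ℝ) + 1)) + 1 / t) := by
    intro m
    have hm : (0 : ℝ) < (m : ℝ) + 1 := by positivity
    set r : ℝ := Real.sqrt ((m : ℝ) + 1) with hr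
    have hr0 : 0 < r := Real.sqrt_pos.2 hm
    have hr2 : r * r = (m : ℝ) + 1 := Real.mul_self_sqrt hm.le
    rw [← hr2]
    have : (1 / 2) * (t * (1 / (r * r)) + 1 / t) - 1 / r
        = (t - r) ^ 2 / (2 * t * (r * r)) := by
      field_simp
      ring
    have h2 : 0 ≤ (t - r) ^ 2 / (2 * t * (r * r)) := by positivity
    linarith
  have hb : ∑ m ∈ range (n + 1), ((n.choose m : ℝ) * P ^ m * (1 - P) ^ (n - m)) = 1 := by
    have : ∑ m ∈ range (n + 1), (P ^ m * (1 - P) ^ (n - m) * (n.choose m : ℝ)) = 1 := by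
      rw [← add_pow]; simp
    refine Eq.trans ?_ this
    apply Finset.sum_congr rfl; intro m _; ring
  calc ∑ m ∈ range (n + 1), (n.choose m : ℝ) * P ^ m * (1 - P) ^ (n - m) *
        (1 / Real.sqrt ((m : ℝ) + 1))
      ≤ ∑ m ∈ range (n + 1), (n.choose m : ℝ) * P ^ m * (1 - P) ^ (n - m) *
        ((1 / 2) * (t * (1 / ((m : ℝ) + 1)) + 1 / t)) := by
        apply Finset.sum_le_sum; intro m _
        exact mul_le_mul_of_nonneg_left (hpt m) (by positivity)
    _ = (1 / 2) * (t * ∑ m ∈ range (n + 1), (n.choose m : ℝ) * P ^ m * (1 - P) ^ (n - m) *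
          (1 / ((m : ℝ) + 1)) + (1 / t) *
          ∑ m ∈ range (n + 1), ((n.choose m : ℝ) * P ^ m * (1 - P) ^ (n - m))) := by
        rw [Finset.mul_sum, Finset.mul_sum, ← Finset.sum_add_distrib, Finset.mul_sum]
        apply Finset.sum_congr rfl; intro m _; ring
    _ ≤ (1 / 2) * (t * (1 / (((n : ℝ) + 1) * P)) + (1 / t) * 1) := by
        rw [hb]
        have := sum_inv_le n P hP hP1
        have h3 := mul_le_mul_of_nonneg_left this ht0.le
        linarith
    _ = 1 / t := by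
        rw [← ht2]; field_simp; norm_num

open Polynomial in
/-- sup-norm times total mass bound for products of polynomials with nonnegative coefficients. -/
lemma coeff_mul_le (f g : ℝ[X]) (M : ℝ) (hf0 : ∀ i, 0 ≤ f.coeff i) (hf : ∀ i, f.coeff i ≤ M)
    (hg : ∀ i, 0 ≤ g.coeff i) (k : ℕ) : (f * g).coeff k ≤ M * g.eval 1 := by
  have hM : 0 ≤ M := le_trans (hf0 0) (hf 0)
  rw [coeff_mul, Finset.Nat.sum_antidiagonal_eq_sum_range_succ (fun i j => f.coeff i * g.coeff j)]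
  have h1 : ∑ i ∈ range (k + 1), f.coeff i * g.coeff (k - i)
      ≤ ∑ i ∈ range (k + 1), M * g.coeff (k - i) := by
    apply Finset.sum_le_sum; intro i _
    exact mul_le_mul_of_nonneg_right (hf i) (hg _)
  refine le_trans h1 ?_
  rw [← Finset.mul_sum]
  apply mul_le_mul_of_nonneg_left _ hM
  have h2 : ∑ i ∈ range (k + 1), g.coeff (k - i) = ∑ i ∈ range (k + 1), g.coeff i := by
    have := Finset.sum_range_reflect (fun i => g.coeff i) (k + 1)
    simpa using this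
  rw [h2, eval_eq_sum_range' (n := max (k + 1) (g.natDegree + 1)) (by omega)]
  simp only [one_pow, mul_one]
  apply Finset.sum_le_sum_of_subset_of_nonneg
  · intro i hi; simp only [Finset.mem_range] at *; omega
  · intro i _ _; exact hg i

open Polynomial in
lemma coeff_nonneg_mul (f g : ℝ[X]) (hf : ∀ i, 0 ≤ f.coeff i) (hg : ∀ i, 0 ≤ g.coeff i) :
    ∀ i, 0 ≤ (f * g).coeff i := by
  intro i; rw [coeff_mul]; exact Finset.sum_nonneg fun x _ => mul_nonneg (hf _) (hg _)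

open Polynomial in
lemma coeff_nonneg_pow (f : ℝ[X]) (hf : ∀ i, 0 ≤ f.coeff i) (n : ℕ) :
    ∀ i, 0 ≤ (f ^ n).coeff i := by
  induction n with
  | zero => intro i; simp only [pow_zero, coeff_one]; split_ifs <;> norm_num
  | succ n ih => rw [pow_succ]; exact coeff_nonneg_mul _ _ ih hf

/-- binomial probabilities. -/
noncomputable def bin (n : ℕ) (P : ℝ) (k : ℕ) : ℝ := (n.choose k : ℝ) * P ^ k * (1 - P) ^ (n - k)

open Polynomial in
lemma coeff_lin_pow (n : ℕ) (P : ℝ) (k : ℕ) :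
    ((C P * X + C (1 - P)) ^ n).coeff k = bin n P k := by
  rw [add_pow, finsetSum_coeff]
  simp only [mul_pow, ← C_pow, bin]
  have e : ∀ m ∈ range (n + 1),
      (C (P ^ m) * X ^ m * C ((1 - P) ^ (n - m)) * (n.choose m : ℝ[X])).coeff k
        = if k = m then (n.choose m : ℝ) * P ^ m * (1 - P) ^ (n - m) else 0 := by
    intro m _
    have : (C (P ^ m) * X ^ m * C ((1 - P) ^ (n - m)) * (n.choose m : ℝ[X]))
        = C ((n.choose m : ℝ) * P ^ m * (1 - P) ^ (n - m)) * X ^ m := by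
      rw [← C_eq_natCast]
      simp only [map_mul]
      push_cast
      ring
    rw [this, coeff_C_mul_X_pow]
  rw [Finset.sum_congr rfl e, Finset.sum_ite_eq]
  split_ifs with h
  · rfl
  · have : n < k := by simpa using h
    rw [Nat.choose_eq_zero_of_lt this]; simp

open Polynomial in
/-- sup bound for binomial probabilities, uniformly in `k`. -/
lemma bin_le (n : ℕ) (P : ℝ) (hP : 0 < P) (hP1 : P < 1) (k : ℕ) :
    bin n P k ≤ 1 / Real.sqrt (((n : ℝ) + 1) * (2 * (P * (1 - P)))) := by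
  set d : ℝ := P * (1 - P) with hd
  have hQ : 0 < 1 - P := by linarith
  have hd0 : 0 < d := by positivity
  have hd1 : 2 * d ≤ 1 := by nlinarith [sq_nonneg (P - 1 / 2)]
  have h1 : 0 ≤ P - d := by nlinarith
  have h2 : 0 ≤ 1 - P - d := by nlinarith
  set f : ℝ[X] := C (1 / 2) * X + C (1 - 1 / 2) with hf
  set g : ℝ[X] := C (P - d) * X + C (1 - P - d) with hg
  have hfg : (C P * X + C (1 - P) : ℝ[X]) = C (2 * d) * f + g := by
    have e1 : (C P * X + C (1 - P) : ℝ[X]) = C (2 * d * (1 / 2) + (P - d)) * X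
        + C (2 * d * (1 - 1 / 2) + (1 - P - d)) := by
      congr 2
      · congr 1; ring
      · congr 1; ring
    rw [e1, hf, hg]
    simp only [map_add, map_mul]
    ring
  have hg0 : ∀ i, 0 ≤ g.coeff i := by
    intro i
    rw [hg, coeff_add, coeff_C_mul, coeff_X, coeff_C]
    split_ifs <;> simp <;> linarith
  have hf0 : ∀ m i, 0 ≤ (f ^ m).coeff i := by
    intro m
    apply coeff_nonneg_pow
    intro i
    rw [hf, coeff_add, coeff_C_mul, coeff_X, coeff_C]
    split_ifs <;> norm_num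
  have hfm : ∀ (m i : ℕ), (f ^ m).coeff i ≤ 1 / Real.sqrt ((m : ℝ) + 1) := by
    intro m i
    rw [hf, coeff_lin_pow, bin]
    rcases le_or_gt i m with him | him
    · have e : (m.choose i : ℝ) * (1 / 2) ^ i * (1 - 1 / 2) ^ (m - i)
          = (m.choose i : ℝ) / 2 ^ m := by
        have : (1 - 1 / 2 : ℝ) = 1 / 2 := by norm_num
        rw [this, mul_assoc, ← pow_add]
        have : i + (m - i) = m := by omega
        rw [this, one_div, inv_pow]; rfl
      rw [e]; exact choose_le_inv_sqrt m i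
    · rw [Nat.choose_eq_zero_of_lt him]
      simp only [Nat.cast_zero, zero_mul]
      positivity
  have hg1 : g.eval 1 = 1 - 2 * d := by
    rw [hg]; simp; ring
  rw [← coeff_lin_pow, hfg, add_pow, finsetSum_coeff]
  have hterm : ∀ m ∈ range (n + 1),
      ((C (2 * d) * f) ^ m * g ^ (n - m) * (n.choose m : ℝ[X])).coeff k
        ≤ (n.choose m : ℝ) * (2 * d) ^ m * (1 - 2 * d) ^ (n - m) *
          (1 / Real.sqrt ((m : ℝ) + 1)) := by
    intro m _
    have e : ((C (2 * d) * f) ^ m * g ^ (n - m) * (n.choose m : ℝ[X]))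
        = C ((n.choose m : ℝ) * (2 * d) ^ m) * (f ^ m * g ^ (n - m)) := by
      rw [← C_eq_natCast, mul_pow, ← C_pow]
      simp only [map_mul]
      push_cast
      ring
    rw [e, coeff_C_mul]
    have h3 := coeff_mul_le (f ^ m) (g ^ (n - m)) (1 / Real.sqrt ((m : ℝ) + 1)) (hf0 m) (hfm m)
      (coeff_nonneg_pow g hg0 _) k
    rw [eval_pow, hg1] at h3
    calc (n.choose m : ℝ) * (2 * d) ^ m * (f ^ m * g ^ (n - m)).coeff k
        ≤ (n.choose m : ℝ) * (2 * d) ^ m *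
          (1 / Real.sqrt ((m : ℝ) + 1) * (1 - 2 * d) ^ (n - m)) :=
          mul_le_mul_of_nonneg_left h3 (by positivity)
      _ = _ := by ring
  refine le_trans (Finset.sum_le_sum hterm) ?_
  exact sum_inv_sqrt_le n (2 * d) (by positivity) hd1

lemma bin_nonneg (n : ℕ) (P : ℝ) (hP : 0 ≤ P) (hP1 : P ≤ 1) (k : ℕ) : 0 ≤ bin n P k := by
  unfold bin
  have : 0 ≤ 1 - P := by linarith
  positivity

/-- the two-dimensional local bound. -/
lemma bin_bin_le (n : ℕ) (P p₁ : ℝ) (hP : 0 < P) (hP1 : P < 1) (hp : 0 < p₁) (hp1 : p₁ < 1)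
    (k a : ℕ) (hk : k ≤ n) :
    bin n P k * bin k p₁ a ≤
      (1 / (2 * P * Real.sqrt ((1 - P) * (p₁ * (1 - p₁))))) / ((n : ℝ) + 1) := by
  have hQ : 0 < 1 - P := by linarith
  have hq : 0 < 1 - p₁ := by linarith
  have hn : (0 : ℝ) < (n : ℝ) + 1 := by positivity
  have hkk : (0 : ℝ) < (k : ℝ) + 1 := by positivity
  have hA0 := bin_nonneg n P hP.le hP1.le k
  have hB0 := bin_nonneg k p₁ hp.le hp1.le a
  have hA := bin_le n P hP hP1 k
  have hA' := bin_le (n + 1) P hP hP1 (k + 1)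
  have hB := bin_le k p₁ hp hp1 a
  set A := bin n P k
  set B := bin k p₁ a
  set A' := bin (n + 1) P (k + 1)
  have hA'0 : 0 ≤ A' := bin_nonneg (n + 1) P hP.le hP1.le (k + 1)
  have hrel : A * ((n + 1) * P) = A' * (k + 1) := by
    have h := Nat.add_one_mul_choose_eq n k
    have h' : ((n : ℝ) + 1) * (n.choose k : ℝ) = ((n + 1).choose (k + 1) : ℝ) * ((k : ℝ) + 1) := by
      exact_mod_cast h
    change (n.choose k : ℝ) * P ^ k * (1 - P) ^ (n - k) * ((n + 1) * P)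
      = ((n + 1).choose (k + 1) : ℝ) * P ^ (k + 1) * (1 - P) ^ ((n + 1) - (k + 1)) * (k + 1)
    have h3 : (n + 1) - (k + 1) = n - k := by omega
    rw [h3]
    calc (n.choose k : ℝ) * P ^ k * (1 - P) ^ (n - k) * ((n + 1) * P)
        = (((n : ℝ) + 1) * (n.choose k : ℝ)) * (P ^ (k + 1) * (1 - P) ^ (n - k)) := by ring
      _ = _ := by rw [h']; ring
  -- squares
  have sq_bound : ∀ (x c : ℝ), 0 ≤ x → 0 < c → x ≤ 1 / Real.sqrt c → x ^ 2 * c ≤ 1 := by
    intro x c hx hc h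
    have h1 : x * Real.sqrt c ≤ 1 := by
      rwa [le_div_iff₀ (Real.sqrt_pos.2 hc)] at h
    have h2 : (x * Real.sqrt c) ^ 2 ≤ 1 ^ 2 :=
      pow_le_pow_left₀ (by positivity) h1 2
    rw [mul_pow, Real.sq_sqrt hc.le] at h2
    simpa using h2
  have hA2 : A ^ 2 * (((n : ℝ) + 1) * (2 * (P * (1 - P)))) ≤ 1 :=
    sq_bound _ _ hA0 (by positivity) hA
  have hA'2 : A' ^ 2 * (((n : ℝ) + 1) * (2 * (P * (1 - P)))) ≤ 1 := by
    have := sq_bound _ _ hA'0 (by positivity) hA'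
    refine le_trans ?_ this
    apply mul_le_mul_of_nonneg_left _ (by positivity)
    apply mul_le_mul_of_nonneg_right _ (by positivity)
    push_cast; linarith
  have hB2 : B ^ 2 * (((k : ℝ) + 1) * (2 * (p₁ * (1 - p₁)))) ≤ 1 :=
    sq_bound _ _ hB0 (by positivity) hB
  have hAA : A * A' * (((n : ℝ) + 1) * (2 * (P * (1 - P)))) ≤ 1 := by
    have : A * A' ≤ (A ^ 2 + A' ^ 2) / 2 := by nlinarith [sq_nonneg (A - A')]
    have h3 := mul_le_mul_of_nonneg_right this
      (show 0 ≤ (((n : ℝ) + 1) * (2 * (P * (1 - P)))) by positivity)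
    linarith
  -- (A B)^2 (n+1)^2 * (4 P^2 (1-P) p₁ (1-p₁)) ≤ 1
  have hfin : (A * B * ((n : ℝ) + 1) * (2 * P)) ^ 2 * ((1 - P) * (p₁ * (1 - p₁))) ≤ 1 := by
    have e : (A * B * ((n : ℝ) + 1) * (2 * P)) ^ 2 * ((1 - P) * (p₁ * (1 - p₁)))
        = (A * ((n + 1) * P)) * (A * (((n : ℝ) + 1) * (2 * (P * (1 - P))))) *
          (B ^ 2 * (2 * (p₁ * (1 - p₁)))) := by ring
    rw [e, hrel]
    have e2 : A' * (k + 1) * (A * (((n : ℝ) + 1) * (2 * (P * (1 - P))))) *
          (B ^ 2 * (2 * (p₁ * (1 - p₁))))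
        = (A * A' * (((n : ℝ) + 1) * (2 * (P * (1 - P))))) *
          (B ^ 2 * (((k : ℝ) + 1) * (2 * (p₁ * (1 - p₁))))) := by ring
    rw [e2]
    have hnn : 0 ≤ A * A' * (((n : ℝ) + 1) * (2 * (P * (1 - P)))) := by positivity
    calc _ ≤ 1 * 1 := mul_le_mul hAA hB2 (by positivity) (by norm_num)
      _ = 1 := by norm_num
  have hc : 0 < (1 - P) * (p₁ * (1 - p₁)) := by positivity
  set c := (1 - P) * (p₁ * (1 - p₁)) with hcdef
  have hs : 0 < Real.sqrt c := Real.sqrt_pos.2 hc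
  have h5 : A * B * ((n : ℝ) + 1) * (2 * P) * Real.sqrt c ≤ 1 := by
    have : (A * B * ((n : ℝ) + 1) * (2 * P) * Real.sqrt c) ^ 2 ≤ 1 ^ 2 := by
      rw [mul_pow, Real.sq_sqrt hc.le]; simpa using hfin
    exact (pow_le_pow_iff_left₀ (by positivity) (by norm_num) (by norm_num)).1 this
  rw [div_div, le_div_iff₀ (by positivity)]
  calc A * B * (2 * P * Real.sqrt c * ((n : ℝ) + 1))
      = A * B * ((n : ℝ) + 1) * (2 * P) * Real.sqrt c := by ring
    _ ≤ 1 := h5

end Crest.Agent.R98.Mult
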