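import Crest.Agent.R98.Ent

/-!
R98 / MultEnt (helper399): entropies of finitely supported laws at a given scale: lower bound by the
multiplicity of the cells, upper bound by the number of intervals covering the support, and the
conditional (saturation) inequality.
-/

set_option autoImplicit false

open MeasureTheory Set Real

namespace Crest.Agent.R98.Mult

section

variable {α β κ : Type*} [Fintype α] [Fintype β] [Fintype κ]

omit [Fintype α] in
/-- entropy of at most `M` atoms -/
theorem sum_negMulLog_le {S : Finset α} {p : α → ℝ} (h0 : ∀ a ∈ S, 0 ≤ p a) {M : ℕ}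
    (hM : S.card ≤ M) :
    ∑ a ∈ S, negMulLog (p a) ≤ negMulLog (∑ a ∈ S, p a) + (∑ a ∈ S, p a) * log M := by
  rcases S.eq_empty_or_nonempty with rfl | hS
  · simp
  have hn : (0 : ℝ) < S.card := by exact_mod_cast hS.card_pos
  have hc := concaveOn_negMulLog.le_map_sum (t := S) (w := fun _ => (1 / (S.card : ℝ))) (p := p)
    (fun i _ => by positivity) (by rw [Finset.sum_const, nsmul_eq_mul]; field_simp)
    (fun i hi => h0 i hi)
  simp only [smul_eq_mul] at hc
  rw [← Finset.mul_sum, ← Finset.mul_sum, negMulLog_mul] at hc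
  have h1 : negMulLog (1 / (S.card : ℝ)) = (1 / (S.card : ℝ)) * log S.card := by
    rw [negMulLog, one_div, log_inv]; ring
  rw [h1] at hc
  have hf : 0 ≤ ∑ a ∈ S, p a := Finset.sum_nonneg h0
  have h2 : ∑ a ∈ S, negMulLog (p a) ≤ negMulLog (∑ a ∈ S, p a) + (∑ a ∈ S, p a) * log S.card := by
    have h3 := mul_le_mul_of_nonneg_left hc hn.le
    have e1 : (S.card : ℝ) * (1 / (S.card : ℝ) * ∑ i ∈ S, negMulLog (p i)) =
        ∑ a ∈ S, negMulLog (p a) := by field_simp
    have e2 : (S.card : ℝ) * ((∑ a ∈ S, p a) * (1 / (S.card : ℝ) * log S.card) +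
        1 / (S.card : ℝ) * negMulLog (∑ a ∈ S, p a)) =
        negMulLog (∑ a ∈ S, p a) + (∑ a ∈ S, p a) * log S.card := by field_simp; ring
    rw [e1, e2] at h3
    exact h3
  refine h2.trans ?_
  gcongr

theorem BSupp_dirac (x : ℝ) : BSupp (Measure.dirac x) := by
  refine ⟨|x|, ?_⟩
  rw [Measure.dirac_apply' _ measurableSet_Icc.compl]
  rw [indicator_of_notMem]
  intro h
  exact h ⟨neg_abs_le x, le_abs_self x⟩

theorem dirac_real (x y δ : ℝ) :
    (Measure.dirac x).real (Ico y (y + δ)) = if x ∈ Ico y (y + δ) then 1 else 0 := by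
  rw [Measure.real, Measure.dirac_apply' _ measurableSet_Ico]
  by_cases h : x ∈ Ico y (y + δ)
  · rw [indicator_of_mem h, if_pos h]; simp
  · rw [indicator_of_notMem h, if_neg h]; simp

/-- lower bound for the entropy of a finite law -/
theorem finite_lower {p : α → ℝ} (h0 : ∀ a, 0 ≤ p a) (h1 : ∑ a, p a = 1) (x : α → ℝ) {δ : ℝ}
    (hδ : 0 < δ) {M : ℕ}
    (hM : ∀ y, (Finset.univ.filter fun a => p a ≠ 0 ∧ x a ∈ Ico y (y + δ)).card ≤ M) :
    ∑ a, negMulLog (p a) - log M ≤ Hs (mix p fun a => Measure.dirac (x a)) δ := by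
  classical
  set μ := mix p fun a => Measure.dirac (x a) with hμ
  have : IsProbabilityMeasure μ := isProbabilityMeasure_mix h0 h1 _
  have hB : BSupp μ := BSupp.mix fun a => BSupp_dirac _
  have hf : ∀ y, μ.real (Ico y (y + δ)) = ∑ a, p a * (Measure.dirac (x a)).real (Ico y (y + δ)) :=
    fun y => mix_real h0 _ _
  have hpt : ∀ y, ∑ a, negMulLog (p a) * (Measure.dirac (x a)).real (Ico y (y + δ)) -
      μ.real (Ico y (y + δ)) * log M ≤ negMulLog (μ.real (Ico y (y + δ))) := by
    intro y
    set S := Finset.univ.filter fun a => p a ≠ 0 ∧ x a ∈ Ico y (y + δ) with hS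
    have e1 : ∑ a, negMulLog (p a) * (Measure.dirac (x a)).real (Ico y (y + δ)) =
        ∑ a ∈ S, negMulLog (p a) := by
      rw [hS, Finset.sum_filter]
      refine Finset.sum_congr rfl fun a _ => ?_
      rw [dirac_real]
      by_cases hp : p a = 0
      · simp [hp]
      · by_cases hx : x a ∈ Ico y (y + δ) <;> simp [hp, hx]
    have e2 : μ.real (Ico y (y + δ)) = ∑ a ∈ S, p a := by
      rw [hf, hS, Finset.sum_filter]
      refine Finset.sum_congr rfl fun a _ => ?_
      rw [dirac_real]
      by_cases hp : p a = 0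
      · simp [hp]
      · by_cases hx : x a ∈ Ico y (y + δ) <;> simp [hp, hx]
    rw [e1, e2]
    have := sum_negMulLog_le (S := S) (p := p) (fun a _ => h0 a) (hM y)
    linarith
  have hi1 : ∀ a, Integrable fun y => negMulLog (p a) *
      (Measure.dirac (x a)).real (Ico y (y + δ)) :=
    fun a => (integrable_cell (BSupp_dirac _) δ).const_mul _
  have hint := integral_mono (μ := volume)
    ((integrable_finsetSum _ fun a _ => hi1 a).sub ((integrable_cell hB δ).mul_const (log M)))
    (integrable_negMulLog_cell hB δ) hpt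
  simp only [Pi.sub_apply] at hint
  rw [integral_sub (integrable_finsetSum _ fun a _ => hi1 a)
    ((integrable_cell hB δ).mul_const (log M)), integral_finsetSum _ fun a _ => hi1 a] at hint
  simp only [integral_const_mul, integral_mul_const, integral_cell hδ.le, probReal_univ,
    mul_one] at hint
  rw [← Finset.sum_mul] at hint
  unfold Hs
  rw [one_div, ← div_eq_inv_mul, le_div_iff₀ hδ]
  linarith

/-- upper bound for the entropy by the number of intervals covering the support -/
theorem finite_upper [Nonempty κ] {μ : Measure ℝ} [IsProbabilityMeasure μ] (hB : BSupp μ) {D : ℝ}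
    (hD : 0 < D) (c : κ → ℝ) (hc : μ (⋃ i, Icc (c i) (c i + D))ᶜ = 0) :
    Hs μ D ≤ log (2 * Fintype.card κ) := by
  set N : ℝ := (Fintype.card κ : ℝ) with hN
  have hN0 : 0 < N := by rw [hN]; exact_mod_cast Fintype.card_pos
  set U : Set ℝ := ⋃ i, Icc (c i - D) (c i + D) with hU
  have hUm : MeasurableSet U := MeasurableSet.iUnion fun i => measurableSet_Icc
  have hzero : ∀ y, y ∉ U → μ.real (Ico y (y + D)) = 0 := by
    intro y hy
    have hsub : Ico y (y + D) ⊆ (⋃ i, Icc (c i) (c i + D))ᶜ := by
      intro x hx hx'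
      rw [mem_iUnion] at hx'
      obtain ⟨i, hi⟩ := hx'
      apply hy
      rw [hU, mem_iUnion]
      exact ⟨i, by linarith [hx.2, hi.1], by linarith [hx.1, hi.2]⟩
    rw [Measure.real, measure_mono_null hsub hc]; rfl
  have hvol : volume U ≤ ENNReal.ofReal (2 * D * N) := by
    calc volume U ≤ ∑ i, volume (Icc (c i - D) (c i + D)) := by
          rw [hU]; exact measure_iUnion_fintype_le _ _
      _ = ∑ _i : κ, ENNReal.ofReal (2 * D) := by
          refine Finset.sum_congr rfl fun i _ => ?_
          rw [Real.volume_Icc]; congr 1; ring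
      _ = ENNReal.ofReal (2 * D * N) := by
          rw [Finset.sum_const, Finset.card_univ, nsmul_eq_mul, hN,
            ENNReal.ofReal_mul (show 0 ≤ 2 * D by positivity), ENNReal.ofReal_natCast, mul_comm]
  have hfin : volume U < ⊤ := hvol.trans_lt ENNReal.ofReal_lt_top
  have hvolr : volume.real U ≤ 2 * D * N := by
    rw [Measure.real]
    calc (volume U).toReal ≤ (ENNReal.ofReal (2 * D * N)).toReal :=
          ENNReal.toReal_mono ENNReal.ofReal_ne_top hvol
      _ = 2 * D * N := ENNReal.toReal_ofReal (by positivity)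
  have hpt : ∀ y, negMulLog (μ.real (Ico y (y + D))) ≤
      μ.real (Ico y (y + D)) * (log (2 * N) - 1) + U.indicator (fun _ => 1 / (2 * N)) y := by
    intro y
    by_cases hy : y ∈ U
    · rw [indicator_of_mem hy]
      set t := μ.real (Ico y (y + D)) with ht
      have ht0 : 0 ≤ t := measureReal_nonneg
      rcases ht0.eq_or_lt with h | h
      · rw [← h]; simp; positivity
      · have h1 := log_le_sub_one_of_pos (show 0 < 1 / (2 * N * t) by positivity)
        rw [one_div, log_inv, log_mul (by positivity) h.ne'] at h1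
        have h2 := mul_le_mul_of_nonneg_left h1 h.le
        have h3 : t * ((2 * N * t)⁻¹ - 1) = 1 / (2 * N) - t := by field_simp
        rw [h3] at h2
        rw [negMulLog]
        linarith
    · rw [indicator_of_notMem hy, hzero y hy]; simp
  have hi2 : Integrable (U.indicator fun _ : ℝ => 1 / (2 * N)) := by
    rw [integrable_indicator_iff hUm]
    exact integrableOn_const hfin.ne
  have hint := integral_mono (μ := volume) (integrable_negMulLog_cell hB D)
    (((integrable_cell hB D).mul_const (log (2 * N) - 1)).add hi2) hpt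
  simp only [Pi.add_apply] at hint
  rw [integral_add ((integrable_cell hB D).mul_const (log (2 * N) - 1)) hi2,
    integral_mul_const, integral_cell hD.le, probReal_univ, mul_one,
    integral_indicator_const _ hUm, smul_eq_mul] at hint
  unfold Hs
  rw [one_div, ← div_eq_inv_mul, div_le_iff₀ hD]
  have h4 : volume.real U * (1 / (2 * N)) ≤ D := by
    calc volume.real U * (1 / (2 * N)) ≤ (2 * D * N) * (1 / (2 * N)) := by gcongr
      _ = D := by field_simp
  nlinarith

/-- support of a finite law -/
theorem mix_dirac_null {p : α → ℝ} (x : α → ℝ) {S : Set ℝ}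
    (hSm : MeasurableSet S) (hS : ∀ a, p a ≠ 0 → x a ∈ S) :
    (mix p fun a => Measure.dirac (x a)) Sᶜ = 0 := by
  unfold mix
  rw [Measure.coe_finsetSum, Finset.sum_apply]
  refine Finset.sum_eq_zero fun a _ => ?_
  rw [Measure.smul_apply, smul_eq_mul]
  by_cases hp : p a = 0
  · simp [hp]
  · rw [Measure.dirac_apply' _ hSm.compl, indicator_of_notMem (by simpa using hS a hp), mul_zero]

/-- **saturation inequality**: entropy between the scales `n δ` and `δ` of a finite law, conditional
on a label `b` -/
theorem saturation {P : β → α → ℝ} (h0 : ∀ b a, 0 ≤ P b a) (h1 : ∑ b, ∑ a, P b a = 1)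
    (x : β → α → ℝ) {δ : ℝ} (hδ : 0 < δ) {n : ℕ} (hn : 0 < n) {M : ℕ}
    (hM : ∀ b y, (Finset.univ.filter fun a => P b a ≠ 0 ∧ x b a ∈ Ico y (y + δ)).card ≤ M)
    [Nonempty κ] (c : β → κ → ℝ)
    (hc : ∀ b a, P b a ≠ 0 → ∃ i, x b a ∈ Icc (c b i) (c b i + n * δ)) :
    ∑ b, ∑ a, negMulLog (P b a) - ∑ b, negMulLog (∑ a, P b a) - log M -
      log (2 * Fintype.card κ) ≤
    Hs (mix (fun q : β × α => P q.1 q.2) fun q => Measure.dirac (x q.1 q.2)) δ -
      Hs (mix (fun q : β × α => P q.1 q.2) fun q => Measure.dirac (x q.1 q.2)) (n * δ) := by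
  classical
  have hn' : (0 : ℝ) < n := by exact_mod_cast hn
  set w : β → ℝ := fun b => ∑ a, P b a with hw
  have hw0 : ∀ b, 0 ≤ w b := fun b => Finset.sum_nonneg fun a _ => h0 b a
  have hPw : ∀ b, w b = 0 → ∀ a, P b a = 0 := by
    intro b hb a
    exact (Finset.sum_eq_zero_iff_of_nonneg fun a _ => h0 b a).1 hb a (Finset.mem_univ a)
  -- normalised conditional laws (a Dirac mass when the weight vanishes)
  set ν : β → Measure ℝ := fun b => mix (fun a => P b a / w b) fun a => Measure.dirac (x b a) with hν
  have hmix : mix (fun q : β × α => P q.1 q.2) (fun q => Measure.dirac (x q.1 q.2)) = mix w ν := by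
    unfold mix
    rw [Fintype.sum_prod_type]
    refine Finset.sum_congr rfl fun b _ => ?_
    simp only [hν]
    unfold mix
    rw [Finset.smul_sum]
    refine Finset.sum_congr rfl fun a _ => ?_
    rw [smul_smul, ← ENNReal.ofReal_mul (hw0 b)]
    by_cases hb : w b = 0
    · rw [hPw b hb a, hb]; simp
    · rw [mul_div_cancel₀ _ hb]
  rw [hmix]
  have hBν : ∀ b, BSupp (ν b) := fun b => BSupp.mix fun a => BSupp_dirac _
  have hJ := J_nsmul_le hw0 (ν := ν) hBν hδ hn
  unfold J at hJ
  have hterm : ∀ b, ∑ a, negMulLog (P b a) - negMulLog (w b) - w b * log M -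
      w b * log (2 * Fintype.card κ) ≤ w b * (Hs (ν b) δ - Hs (ν b) (n * δ)) := by
    intro b
    by_cases hb : w b = 0
    · have : ∀ a, P b a = 0 := hPw b hb
      simp [hb, this]
    have hbp : 0 < w b := lt_of_le_of_ne (hw0 b) (Ne.symm hb)
    have hp0 : ∀ a, 0 ≤ P b a / w b := fun a => div_nonneg (h0 b a) hbp.le
    have hp1 : ∑ a, P b a / w b = 1 := by
      rw [← Finset.sum_div]; exact div_self hb
    have : IsProbabilityMeasure (ν b) := isProbabilityMeasure_mix hp0 hp1 _
    have hlow := finite_lower hp0 hp1 (x b) hδ (M := M) (fun y => by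
      refine le_trans (Finset.card_le_card ?_) (hM b y)
      intro a ha
      rw [Finset.mem_filter] at ha ⊢
      refine ⟨ha.1, ?_, ha.2.2⟩
      intro h; apply ha.2.1; rw [h, zero_div])
    have hup := finite_upper (μ := ν b) (hBν b) (D := n * δ) (by positivity) (c b) (by
      refine mix_dirac_null (x b) (MeasurableSet.iUnion fun i => measurableSet_Icc) ?_
      intro a ha
      rw [mem_iUnion]
      exact hc b a (by intro h; apply ha; rw [h, zero_div]))
    have hent : w b * ∑ a, negMulLog (P b a / w b) = ∑ a, negMulLog (P b a) - negMulLog (w b) := by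
      have : ∀ a, w b * negMulLog (P b a / w b) = negMulLog (P b a) + P b a * log (w b) := by
        intro a
        have h3 : P b a = w b * (P b a / w b) := by rw [mul_div_cancel₀ _ hb]
        conv_rhs => rw [h3, negMulLog_mul]
        rw [negMulLog, negMulLog]
        field_simp
        ring
      rw [Finset.mul_sum]
      simp only [this]
      rw [Finset.sum_add_distrib, ← Finset.sum_mul]
      change _ + w b * log (w b) = _
      rw [negMulLog]
      ring
    have h5 : (∑ a, negMulLog (P b a / w b) - log M) - log (2 * Fintype.card κ) ≤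
        Hs (ν b) δ - Hs (ν b) (n * δ) := by linarith
    have h6 := mul_le_mul_of_nonneg_left h5 hbp.le
    rw [mul_sub, mul_sub, hent] at h6
    exact h6
  have hsum := Finset.sum_le_sum fun b (_ : b ∈ Finset.univ) => hterm b
  simp only [Finset.sum_sub_distrib, mul_sub] at hsum
  rw [← Finset.sum_mul, ← Finset.sum_mul] at hsum
  have hw1 : ∑ b, w b = 1 := h1
  rw [hw1, one_mul, one_mul] at hsum
  linarith

end

end Crest.Agent.R98.Mult
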