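import Crest.Agent.R98.MultSat
import Crest.Agent.R98.MultTail

/-!
R98 / MultFib (helper399): from a finite family of words with weights to the data `MData`
(counts of two letters, word of the other letters), and the bound of the conditional entropy.
-/

set_option autoImplicit false

open MeasureTheory Set Real

namespace Crest.Agent.R98.Mult

section lists

variable {ι : Type*} [DecidableEq ι]

/-- the letters different from `i₁, i₂` -/
def othl (i₁ i₂ : ι) (w : List ι) : List ι := w.filter fun i => decide (i ≠ i₁ ∧ i ≠ i₂)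

theorem othl_cons (i₁ i₂ x : ι) (w : List ι) :
    othl i₁ i₂ (x :: w) = if x ≠ i₁ ∧ x ≠ i₂ then x :: othl i₁ i₂ w else othl i₁ i₂ w := by
  unfold othl
  rw [List.filter_cons]
  by_cases h : x ≠ i₁ ∧ x ≠ i₂
  · simp [h]
  · simp only [h, if_false, decide_false]
    simp

theorem length_split {i₁ i₂ : ι} (h : i₁ ≠ i₂) (w : List ι) :
    w.count i₁ + w.count i₂ + (othl i₁ i₂ w).length = w.length := by
  induction w with
  | nil => simp [othl]
  | cons x w ih =>
    rw [List.count_cons, List.count_cons, othl_cons, List.length_cons]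
    by_cases h1 : x = i₁
    · have h2 : x ≠ i₂ := by rw [h1]; exact h
      have h3 : ¬ (x ≠ i₁ ∧ x ≠ i₂) := by tauto
      rw [if_neg h3]; simp [h1, h]; omega
    · by_cases h2 : x = i₂
      · have h3 : ¬ (x ≠ i₁ ∧ x ≠ i₂) := by tauto
        rw [if_neg h3]; simp [h2, Ne.symm h]; omega
      · have h3 : (x ≠ i₁ ∧ x ≠ i₂) := ⟨h1, h2⟩
        rw [if_pos h3, List.length_cons]; simp [h1, h2]; omega

theorem prod_split {i₁ i₂ : ι} (h : i₁ ≠ i₂) {M : Type*} [CommMonoid M] (f : ι → M) (w : List ι) :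
    (w.map f).prod = f i₁ ^ w.count i₁ * f i₂ ^ w.count i₂ * ((othl i₁ i₂ w).map f).prod := by
  induction w with
  | nil => simp [othl]
  | cons x w ih =>
    rw [List.count_cons, List.count_cons, othl_cons, List.map_cons, List.prod_cons, ih]
    by_cases h1 : x = i₁
    · have h2 : x ≠ i₂ := by rw [h1]; exact h
      have h3 : ¬ (x ≠ i₁ ∧ x ≠ i₂) := by tauto
      rw [if_neg h3]
      subst h1
      simp only [beq_self_eq_true, if_true, beq_iff_eq, h2, if_false, add_zero, pow_succ]
      simp only [mul_comm, mul_left_comm, mul_assoc]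
    · by_cases h2 : x = i₂
      · have h3 : ¬ (x ≠ i₁ ∧ x ≠ i₂) := by tauto
        rw [if_neg h3]
        subst h2
        simp only [beq_self_eq_true, if_true, beq_iff_eq, h1, if_false, add_zero, pow_succ]
        simp only [mul_comm, mul_left_comm, mul_assoc]
      · have h3 : (x ≠ i₁ ∧ x ≠ i₂) := ⟨h1, h2⟩
        rw [if_pos h3, List.map_cons, List.prod_cons]
        simp only [beq_iff_eq, h1, h2, if_false, add_zero]
        simp only [mul_comm, mul_left_comm, mul_assoc]

theorem sum_split {i₁ i₂ : ι} (h : i₁ ≠ i₂) (f : ι → ℝ) (w : List ι) :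
    (w.map f).sum = (w.count i₁ : ℝ) * f i₁ + (w.count i₂ : ℝ) * f i₂ +
      ((othl i₁ i₂ w).map f).sum := by
  have key := prod_split h (fun i => Multiplicative.ofAdd (f i)) w
  have e : ∀ l : List ι, (l.map fun i => Multiplicative.ofAdd (f i)).prod =
      Multiplicative.ofAdd (l.map f).sum := by
    intro l
    induction l with
    | nil => simp
    | cons x l ih => rw [List.map_cons, List.prod_cons, List.map_cons, List.sum_cons, ih, ofAdd_add]
  rw [e, e, ← ofAdd_nsmul, ← ofAdd_nsmul, ← ofAdd_add, ← ofAdd_add] at key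
  have := Multiplicative.ofAdd.injective key
  simpa [nsmul_eq_mul] using this

variable [Fintype ι]

omit [DecidableEq ι] in
/-- a family of distinct words of length `n` -/
theorem sum_le_ofFn {Ω : Type*} {wd : Ω → List ι} (hwd : Function.Injective wd) (S : Finset Ω)
    {n : ℕ} (hS : ∀ ω ∈ S, (wd ω).length = n) (F : List ι → ℝ) (hF : ∀ w, 0 ≤ F w) :
    ∑ ω ∈ S, F (wd ω) ≤ ∑ w : Fin n → ι, F (List.ofFn w) := by
  classical
  have h1 : ∑ ω ∈ S, F (wd ω) = ∑ l ∈ S.image wd, F l :=
    (Finset.sum_image fun _ _ _ _ h => hwd h).symm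
  have h2 : ∑ w : Fin n → ι, F (List.ofFn w) =
      ∑ l ∈ (Finset.univ : Finset (Fin n → ι)).image List.ofFn, F l :=
    (Finset.sum_image fun _ _ _ _ h => List.ofFn_injective h).symm
  rw [h1, h2]
  refine Finset.sum_le_sum_of_subset_of_nonneg ?_ fun l _ _ => hF l
  intro l hl
  rw [Finset.mem_image] at hl ⊢
  obtain ⟨ω, hω, rfl⟩ := hl
  have hlen := hS ω hω
  refine ⟨fun i => (wd ω).get (i.cast hlen.symm), Finset.mem_univ _, ?_⟩
  apply List.ext_get
  · simp [hlen]
  · intro m h3 h4
    simp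

theorem fiber_le {Ω : Type*} [Fintype Ω] {wd : Ω → List ι} (hwd : Function.Injective wd)
    {p : ι → ℝ} (hp : ∀ i, 0 ≤ p i) {u : Ω → ℝ} {A : ℝ} (hA : 0 ≤ A)
    (hu : ∀ ω, u ω ≤ A * ((wd ω).map p).prod) {i₁ i₂ : ι} (h : i₁ ≠ i₂) (a₁ a₂ : ℕ)
    (b : List ι) (S : Finset Ω)
    (hS : ∀ ω ∈ S, (wd ω).count i₁ = a₁ ∧ (wd ω).count i₂ = a₂ ∧ othl i₁ i₂ (wd ω) = b) :
    ∑ ω ∈ S, u ω ≤ A * Wt p i₁ i₂ (a₁ + a₂ + b.length) a₁ a₂ b := by
  classical
  have hnn : ∀ w : List ι, 0 ≤ (w.map p).prod := by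
    intro w
    apply List.prod_nonneg
    intro x hx
    obtain ⟨i, _, rfl⟩ := List.mem_map.1 hx
    exact hp i
  calc ∑ ω ∈ S, u ω ≤ ∑ ω ∈ S, A * (if (wd ω).count i₁ = a₁ ∧ (wd ω).count i₂ = a₂ ∧
        othl i₁ i₂ (wd ω) = b then ((wd ω).map p).prod else 0) := by
        refine Finset.sum_le_sum fun ω hω => ?_
        rw [if_pos (hS ω hω)]
        exact hu ω
    _ = A * ∑ ω ∈ S, (if (wd ω).count i₁ = a₁ ∧ (wd ω).count i₂ = a₂ ∧
        othl i₁ i₂ (wd ω) = b then ((wd ω).map p).prod else 0) := by rw [Finset.mul_sum]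
    _ ≤ A * Wt p i₁ i₂ (a₁ + a₂ + b.length) a₁ a₂ b := by
        refine mul_le_mul_of_nonneg_left ?_ hA
        refine (sum_le_ofFn hwd S (n := a₁ + a₂ + b.length) ?_
          (fun w => if w.count i₁ = a₁ ∧ w.count i₂ = a₂ ∧ othl i₁ i₂ w = b then
            (w.map p).prod else 0) ?_).trans (le_of_eq ?_)
        · intro ω hω
          have h1 := length_split h (wd ω)
          obtain ⟨h2, h3, h4⟩ := hS ω hω
          rw [h2, h3, h4] at h1
          exact h1.symm
        · intro w
          split_ifs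
          · exact hnn w
          · exact le_rfl
        · unfold Wt
          refine Finset.sum_congr rfl fun w _ => ?_
          have e1 : ((List.ofFn w).map p).prod = ∏ j, p (w j) := by
            rw [List.map_ofFn, List.prod_ofFn]; rfl
          rw [e1]
          rfl

omit [DecidableEq ι] in
theorem sum_pl_le {f : ι → ℝ} (hf : ∀ i, 0 ≤ f i) (hf1 : ∑ i, f i = 1) (B : Finset (List ι))
    (K : Finset ℕ) (hB : ∀ b ∈ B, b.length ∈ K) : ∑ b ∈ B, pl f b ≤ K.card := by
  classical
  have hk : ∀ k : ℕ, ∑ b ∈ B with b.length = k, pl f b ≤ 1 := by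
    intro k
    refine (sum_le_ofFn (wd := fun b : List ι => b) (fun _ _ h => h) _ (n := k)
      (fun b hb => (Finset.mem_filter.1 hb).2) (pl f) (pl_nonneg f hf)).trans (le_of_eq ?_)
    have e1 : ∀ w : Fin k → ι, pl f (List.ofFn w) = ∏ j, f (w j) := by
      intro w
      unfold pl
      rw [List.map_ofFn, List.prod_ofFn]; rfl
    simp only [e1]
    rw [← Fintype.sum_pow, hf1, one_pow]
  rw [← Finset.sum_fiberwise_of_maps_to hB]
  calc _ ≤ ∑ k ∈ K, (1 : ℝ) := Finset.sum_le_sum fun k _ => hk k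
    _ = K.card := by simp

end lists

section fib

variable {α β : Type*} [Fintype α] [Fintype β]

/-- Gibbs bound for the conditional entropy -/
theorem MData.Hc_ge (M : MData α β) {v : β → ℝ} {κ V : ℝ} (hκ : 0 < κ) (hV : 0 < V)
    (hv : ∀ b, 0 ≤ v b) (hP : ∀ b a, M.P b a ≤ κ * v b) (hS : ∑ b, v b ≤ V) :
    -log κ - log V ≤ M.Hc := by
  unfold MData.Hc
  rw [← Finset.sum_sub_distrib]
  have hterm : ∀ b, (∑ a, M.P b a) * (-log κ - log V) + (∑ a, M.P b a) - v b / V ≤
      ∑ a, negMulLog (M.P b a) - negMulLog (∑ a, M.P b a) := by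
    intro b
    set w : ℝ := ∑ a, M.P b a with hw
    have hw0 : 0 ≤ w := Finset.sum_nonneg fun a _ => M.P0 b a
    rcases hw0.eq_or_lt with h0 | hpos
    · have hz : ∀ a, M.P b a = 0 := by
        intro a
        exact (Finset.sum_eq_zero_iff_of_nonneg fun a _ => M.P0 b a).1 h0.symm a (Finset.mem_univ a)
      rw [← h0]
      simp only [hz, negMulLog_zero, Finset.sum_const_zero, sub_zero, zero_mul, zero_add, zero_sub]
      have := hv b
      have : 0 ≤ v b / V := by positivity
      linarith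
    · have hvb : 0 < v b := by
        by_contra hcon
        have h0 : v b = 0 := le_antisymm (not_lt.1 hcon) (hv b)
        have : w ≤ 0 := by
          rw [hw]
          refine Finset.sum_nonpos fun a _ => ?_
          have := hP b a
          rw [h0, mul_zero] at this
          exact this
        linarith
      have h1 : ∀ a, M.P b a * (-log (κ * v b)) ≤ negMulLog (M.P b a) := by
        intro a
        rcases (M.P0 b a).eq_or_lt with h0 | hp
        · rw [← h0]; simp
        · rw [negMulLog]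
          have := log_le_log hp (hP b a)
          nlinarith
      have h2 : w * (-log (κ * v b)) ≤ ∑ a, negMulLog (M.P b a) := by
        rw [hw, Finset.sum_mul]
        exact Finset.sum_le_sum fun a _ => h1 a
      have h3 : log (κ * v b) = log κ + log (v b) := log_mul hκ.ne' hvb.ne'
      have h4 := log_le_sub_one_of_pos (show 0 < v b / (w * V) by positivity)
      rw [log_div hvb.ne' (by positivity), log_mul hpos.ne' hV.ne'] at h4
      have h5 := mul_le_mul_of_nonneg_left h4 hpos.le
      have h6 : w * (v b / (w * V) - 1) = v b / V - w := by field_simp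
      rw [h6] at h5
      rw [h3] at h2
      have h7 : negMulLog w = - (w * log w) := by rw [negMulLog]; ring
      rw [h7]
      linarith
  have hsum := Finset.sum_le_sum fun b (_ : b ∈ Finset.univ) => hterm b
  rw [Finset.sum_sub_distrib, Finset.sum_add_distrib, ← Finset.sum_mul, M.P1, ← Finset.sum_div] at hsum
  have h8 : (∑ b, v b) / V ≤ 1 := by rw [div_le_one hV]; exact hS
  linarith

/-- push-forward of a finite mixture of Dirac masses -/
theorem mix_fiber {Ω Y : Type*} [Fintype Ω] [Fintype Y] [DecidableEq Y] {u : Ω → ℝ}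
    (hu : ∀ ω, 0 ≤ u ω) (F : Ω → Y) (ν : Y → Measure ℝ) :
    mix u (fun ω => ν (F ω)) = mix (fun y => ∑ ω with F ω = y, u ω) ν := by
  unfold mix
  rw [← Finset.sum_fiberwise (s := Finset.univ) (g := F)]
  refine Finset.sum_congr rfl fun y _ => ?_
  rw [ENNReal.ofReal_sum_of_nonneg fun ω _ => hu ω, Finset.sum_smul]
  refine Finset.sum_congr rfl fun ω hω => ?_
  have := (Finset.mem_filter.1 hω).2
  subst this
  rfl

/-- the mirrored data: inverse multipliers -/
noncomputable def MData.mirror (M : MData α β) : MData α β where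
  l₁ := M.l₁
  l₂ := M.l₂
  l₂pos := M.l₂pos
  P := M.P
  P0 := M.P0
  P1 := M.P1
  a₁ := fun a => -M.a₁ a
  a₂ := fun a => -M.a₂ a
  inj := fun a a' h1 h2 => M.inj a a' (neg_injective h1) (neg_injective h2)
  V := fun b => -M.V b
  s := -(M.s + M.D)
  D := M.D
  D0 := M.D0
  strip := by
    intro b a h
    have := M.strip b a h
    rw [mem_Icc] at this ⊢
    push_cast
    constructor <;> linarith [this.1, this.2]
  m := -M.m - M.W
  W := M.W
  W1 := M.W1
  window := by
    intro b a h
    have := M.window b a h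
    constructor <;> omega
  σ := M.σ
  d := M.d * exp (-M.D)
  d0 := mul_ne_zero M.d0 (exp_pos _).ne'

theorem MData.mirror_Hc (M : MData α β) : M.mirror.Hc = M.Hc := rfl

theorem MData.mirror_x (M : MData α β) (b : β) (a : α) :
    M.mirror.x b a = M.sd (M.σ b a) * exp (-(M.a₁ a * M.l₁ + M.a₂ a * M.l₂ + M.V b) + M.s) := by
  unfold MData.x MData.sd MData.mirror
  push_cast
  have : (-(M.a₁ a : ℝ) * M.l₁ + -(M.a₂ a : ℝ) * M.l₂ + -M.V b - -(M.s + M.D)) =
      (-(M.a₁ a * M.l₁ + M.a₂ a * M.l₂ + M.V b) + M.s) + M.D := by ring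
  rw [this, exp_add]
  have h2 : exp (-M.D) * exp M.D = 1 := by rw [← exp_add]; simp
  cases M.σ b a
  · simp only [Bool.false_eq_true, if_false]
    linear_combination (-(M.d * exp (-(M.a₁ a * M.l₁ + M.a₂ a * M.l₂ + M.V b) + M.s))) * h2
  · simp only [if_true]
    linear_combination (M.d * exp (-(M.a₁ a * M.l₁ + M.a₂ a * M.l₂ + M.V b) + M.s)) * h2

end fib

end Crest.Agent.R98.Mult
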