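import Mathlib

/-!
R98 / MultNT (helper399): best approximation denominators (number theory of the multipliers).
-/

set_option autoImplicit false

namespace Crest.Agent.R98.Mult

/-- the best denominator `q ≤ W` of an irrational `θ` -/
theorem exists_best {θ : ℝ} (hθ : Irrational θ) {W : ℕ} (hW : 1 ≤ W) :
    ∃ (q : ℕ) (P : ℤ), 1 ≤ q ∧ q ≤ W ∧ 0 < |(q : ℝ) * θ - P| ∧
      |(q : ℝ) * θ - P| ≤ 1 / ((W : ℝ) + 1) ∧
      (∀ h k : ℤ, h ≠ 0 → |h| ≤ (W : ℤ) → |(q : ℝ) * θ - P| ≤ |(h : ℝ) * θ - k|) ∧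
      (∀ h k : ℤ, h ≠ 0 → |h| < (q : ℤ) → 1 / (2 * (q : ℝ)) ≤ |(h : ℝ) * θ - k|) := by
  classical
  obtain ⟨q, hq, hmin⟩ := Finset.exists_min_image (Finset.Icc 1 W)
    (fun k : ℕ => |(k : ℝ) * θ - (round ((k : ℝ) * θ) : ℤ)|) ⟨1, Finset.mem_Icc.2 ⟨le_rfl, hW⟩⟩
  rw [Finset.mem_Icc] at hq
  obtain ⟨hq1, hqW⟩ := hq
  set P : ℤ := round ((q : ℝ) * θ) with hP
  set η : ℝ := |(q : ℝ) * θ - P| with hη
  have hq0 : (0 : ℝ) < q := by exact_mod_cast hq1
  -- positive multiples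
  have hnat : ∀ (h : ℕ) (k : ℤ), 1 ≤ h → h ≤ W → η ≤ |(h : ℝ) * θ - k| := by
    intro h k h1 h2
    refine (hmin h (Finset.mem_Icc.2 ⟨h1, h2⟩)).trans ?_
    exact round_le _ _
  have hint : ∀ h k : ℤ, h ≠ 0 → |h| ≤ (W : ℤ) → η ≤ |(h : ℝ) * θ - k| := by
    intro h k h0 hle
    rcases lt_or_gt_of_ne h0 with hneg | hpos
    · have h1 := hnat h.natAbs (-k) (by omega) (by
        have : (h.natAbs : ℤ) = |h| := Int.natCast_natAbs h
        omega)
      have h2 : ((h.natAbs : ℕ) : ℝ) = -(h : ℝ) := by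
        rw [Nat.cast_natAbs, abs_of_neg hneg]; push_cast; ring
      rw [h2] at h1
      have h3 : -(h : ℝ) * θ - ((-k : ℤ) : ℝ) = -((h : ℝ) * θ - k) := by push_cast; ring
      rwa [h3, abs_neg] at h1
    · have h1 := hnat h.natAbs k (by omega) (by
        have : (h.natAbs : ℤ) = |h| := Int.natCast_natAbs h
        omega)
      have h2 : ((h.natAbs : ℕ) : ℝ) = (h : ℝ) := by
        rw [Nat.cast_natAbs, abs_of_pos hpos]
      rwa [h2] at h1
  have hηpos : 0 < η := by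
    rw [hη, abs_pos]
    intro h0
    have h1 : (q : ℝ) * θ = (P : ℝ) := by linarith
    have h2 : θ = ((P / q : ℚ) : ℝ) := by
      push_cast
      field_simp
      linarith
    exact hθ ⟨_, h2.symm⟩
  have hηle : η ≤ 1 / ((W : ℝ) + 1) := by
    obtain ⟨j, k, hk0, hkn, hjk⟩ := Real.exists_int_int_abs_mul_sub_le θ (n := W) (by omega)
    refine (hint k j (by omega) ?_).trans hjk
    rw [abs_of_pos hk0]; exact hkn
  refine ⟨q, P, hq1, hqW, hηpos, hηle, hint, ?_⟩
  -- the multiples below `q`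
  have key : ∀ h k : ℤ, 0 < h → h < (q : ℤ) → 1 / (2 * (q : ℝ)) ≤ |(h : ℝ) * θ - k| := by
    intro h k h0 hlt
    have hh0 : (0 : ℝ) < h := by exact_mod_cast h0
    have hhq : (h : ℝ) < q := by exact_mod_cast hlt
    have hηh : η ≤ |(h : ℝ) * θ - k| := hint h k (by omega) (by
      rw [abs_of_pos h0]; omega)
    rcases le_or_gt ((h : ℝ) * η) (1 / 2) with hc | hc
    · -- determinant
      have hdet : ((h * P - k * q : ℤ) : ℝ) = -(h : ℝ) * ((q : ℝ) * θ - P) +
          q * ((h : ℝ) * θ - k) := by push_cast; ring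
      have hne : h * P - k * q ≠ 0 := by
        intro hz
        have h1 : (h : ℝ) * ((q : ℝ) * θ - P) = q * ((h : ℝ) * θ - k) := by
          rw [hz] at hdet; push_cast at hdet; linarith
        have h2 : (h : ℝ) * η = q * |(h : ℝ) * θ - k| := by
          rw [hη, ← abs_of_pos hh0, ← abs_mul, abs_of_pos hh0, h1, abs_mul, abs_of_pos hq0]
        have h3 : (q : ℝ) * η ≤ q * |(h : ℝ) * θ - k| := mul_le_mul_of_nonneg_left hηh hq0.le
        nlinarith
      have h1 : (1 : ℝ) ≤ |((h * P - k * q : ℤ) : ℝ)| := by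
        have : (1 : ℤ) ≤ |h * P - k * q| := Int.one_le_abs hne
        exact_mod_cast this
      rw [hdet] at h1
      have h2 : |-(h : ℝ) * ((q : ℝ) * θ - P) + q * ((h : ℝ) * θ - k)| ≤
          h * η + q * |(h : ℝ) * θ - k| := by
        refine (abs_add_le _ _).trans ?_
        rw [abs_mul, abs_mul, abs_neg, abs_of_pos hh0, abs_of_pos hq0]
      rw [div_le_iff₀ (by positivity)]
      nlinarith
    · have h1 : 1 / (2 * (q : ℝ)) ≤ η := by
        rw [div_le_iff₀ (by positivity)]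
        nlinarith
      exact h1.trans hηh
  intro h k h0 hlt
  rcases lt_or_gt_of_ne h0 with hneg | hpos
  · have h1 := key (-h) (-k) (by omega) (by
      rw [abs_of_neg hneg] at hlt; exact hlt)
    have h3 : ((-h : ℤ) : ℝ) * θ - ((-k : ℤ) : ℝ) = -((h : ℝ) * θ - k) := by push_cast; ring
    rwa [h3, abs_neg] at h1
  · exact key h k hpos (by rw [abs_of_pos hpos] at hlt; exact hlt)

end Crest.Agent.R98.Mult
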