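import Crest.Agent.R98.MultTail
import Crest.Agent.R98.MultNT

/-!
Row 98, module MULT, part 4: the concentration of the multipliers.
`mult_conc`: `P(S(w) ∈ [a, a+δ]) ≤ C (log s)² (δ + 1/q)` for `[a,a+δ] ⊂ [s,s+L]`, `s ≥ q²`, `q` a best
denominator of `l i₁ / l i₂`.
-/

set_option autoImplicit false

open Finset

namespace Crest.Agent.R98.Mult

variable {ι : Type*} [DecidableEq ι]

/-- decomposition of the length functional -/
lemma sum_eq_cnt (l : ι → ℝ) (i₁ i₂ : ι) (h : i₁ ≠ i₂) {n : ℕ} (w : Fin n → ι) :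
    ∑ j, l (w j) = cnt i₁ w * l i₁ + cnt i₂ w * l i₂ + ((oth i₁ i₂ w).map l).sum := by
  induction n with
  | zero => simp [cnt, oth]
  | succ n ih =>
    rw [Fin.sum_univ_succ]
    have e1 := cnt_cons i₁ (w 0) (Fin.tail w)
    have e2 := cnt_cons i₂ (w 0) (Fin.tail w)
    have e3 := oth_cons i₁ i₂ (w 0) (Fin.tail w)
    rw [Fin.cons_self_tail] at e1 e2 e3
    rw [e1, e2, e3]
    have := ih (Fin.tail w)
    have e4 : ∑ j : Fin n, l (w j.succ) = ∑ j, l (Fin.tail w j) := rfl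
    rw [e4, this]
    by_cases h1 : w 0 = i₁
    · have h2 : w 0 ≠ i₂ := by rw [h1]; exact h
      have h3 : ¬ (w 0 ≠ i₁ ∧ w 0 ≠ i₂) := by tauto
      rw [if_pos h1, if_neg h2, if_neg h3, h1]; push_cast; ring
    · by_cases h2 : w 0 = i₂
      · have h3 : ¬ (w 0 ≠ i₁ ∧ w 0 ≠ i₂) := by tauto
        rw [if_neg h1, if_pos h2, if_neg h3, h2]; push_cast; ring
      · have h3 : (w 0 ≠ i₁ ∧ w 0 ≠ i₂) := ⟨h1, h2⟩
        rw [if_neg h1, if_neg h2, if_pos h3, List.map_cons, List.sum_cons]; push_cast; ring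

/-- separated sets -/
lemma card_sep {α : Type*} (T : Finset α) (f : α → ℝ) (x W q : ℝ) (hq : 0 < q)
    (h1 : ∀ t ∈ T, |f t - x| ≤ W) (hW : 0 ≤ W)
    (h2 : ∀ t ∈ T, ∀ t' ∈ T, t ≠ t' → q ≤ |f t - f t'|) :
    (T.card : ℝ) ≤ 2 * W / q + 1 := by
  have hinj : Set.InjOn (fun t => ⌊(f t - (x - W)) / q⌋) (T : Set α) := by
    intro t ht t' ht' he
    by_contra hne
    have h4 := Int.abs_sub_lt_one_of_floor_eq_floor he
    rw [← sub_div, abs_div, abs_of_pos hq, div_lt_one hq] at h4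
    have h3 := h2 t ht t' ht' hne
    have e : f t - (x - W) - (f t' - (x - W)) = f t - f t' := by ring
    rw [e] at h4
    linarith
  have hmap : ∀ t ∈ T, ⌊(f t - (x - W)) / q⌋ ∈ Finset.Icc (0 : ℤ) ⌊2 * W / q⌋ := by
    intro t ht
    have h3 := abs_le.1 (h1 t ht)
    rw [Finset.mem_Icc]
    constructor
    · apply Int.floor_nonneg.2
      apply div_nonneg _ hq.le
      linarith
    · apply Int.floor_le_floor
      apply div_le_div_of_nonneg_right _ hq.le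
      linarith
  have h5 := Finset.card_le_card_of_injOn _ hmap hinj
  rw [Int.card_Icc] at h5
  have h6 : (0 : ℤ) ≤ ⌊2 * W / q⌋ := Int.floor_nonneg.2 (by positivity)
  have h7 : ((⌊2 * W / q⌋ + 1 - 0).toNat : ℤ) = ⌊2 * W / q⌋ + 1 := by
    rw [Int.toNat_of_nonneg (by omega)]; ring
  have h8 : ((T.card : ℕ) : ℤ) ≤ ⌊2 * W / q⌋ + 1 := by
    rw [← h7]; exact_mod_cast h5
  have h9 : (T.card : ℝ) ≤ (⌊2 * W / q⌋ : ℝ) + 1 := by exact_mod_cast h8
  have h10 := Int.floor_le (2 * W / q)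
  linarith

variable [Fintype ι]

lemma Wt_eq_zero_of_ne (p : ι → ℝ) (i₁ i₂ : ι) (h : i₁ ≠ i₂) (n a₁ a₂ : ℕ) (b : List ι)
    (hn : n ≠ a₁ + a₂ + b.length) : Wt p i₁ i₂ n a₁ a₂ b = 0 := by
  unfold Wt
  apply Finset.sum_eq_zero; intro w _
  rw [if_neg]
  rintro ⟨rfl, rfl, rfl⟩
  exact hn (cnt_add_length i₁ i₂ h w).symm

lemma Wt_eq_zero_of_mem (p : ι → ℝ) (i₁ i₂ : ι) (n a₁ a₂ : ℕ) (b : List ι) (x : ι)
    (hx : x ∈ b) (hx' : x = i₁ ∨ x = i₂) : Wt p i₁ i₂ n a₁ a₂ b = 0 := by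
  unfold Wt
  apply Finset.sum_eq_zero; intro w _
  rw [if_neg]
  rintro ⟨_, _, rfl⟩
  unfold oth at hx
  rw [List.mem_filter] at hx
  simp at hx
  rcases hx' with h | h
  · exact hx.2.1 h
  · exact hx.2.2 h

lemma Wt_nonneg (p : ι → ℝ) (hp : ∀ i, 0 ≤ p i) (i₁ i₂ : ι) (n a₁ a₂ : ℕ) (b : List ι) :
    0 ≤ Wt p i₁ i₂ n a₁ a₂ b := by
  unfold Wt
  apply Finset.sum_nonneg; intro w _
  split_ifs
  · exact Finset.prod_nonneg fun j _ => hp _
  · exact le_rfl

/-- grouping by `(a₁, a₂, b)` -/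
lemma Pr_le_group (p : ι → ℝ) (hp : ∀ i, 0 ≤ p i) (i₁ i₂ : ι) (n : ℕ)
    (E : (Fin n → ι) → Prop) (B : Finset ℕ) (A : List ι → Finset (ℕ × ℕ))
    (hE : ∀ w : Fin n → ι, E w →
      (oth i₁ i₂ w).length ∈ B ∧ (cnt i₁ w, cnt i₂ w) ∈ A (oth i₁ i₂ w)) :
    Pr p n E ≤ ∑ β ∈ B, ∑ v : Fin β → ι, ∑ a ∈ A (List.ofFn v),
      Wt p i₁ i₂ n a.1 a.2 (List.ofFn v) := by
  have hswap : ∑ β ∈ B, ∑ v : Fin β → ι, ∑ a ∈ A (List.ofFn v),
      Wt p i₁ i₂ n a.1 a.2 (List.ofFn v)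
      = ∑ w : Fin n → ι, ∑ β ∈ B, ∑ v : Fin β → ι, ∑ a ∈ A (List.ofFn v),
        (if cnt i₁ w = a.1 ∧ cnt i₂ w = a.2 ∧ oth i₁ i₂ w = List.ofFn v then
          ∏ j, p (w j) else 0) := by
    rw [Finset.sum_comm]
    apply Finset.sum_congr rfl; intro β _
    rw [Finset.sum_comm]
    apply Finset.sum_congr rfl; intro v _
    rw [Finset.sum_comm]
    apply Finset.sum_congr rfl; intro a _
    rfl
  rw [hswap]
  unfold Pr
  apply Finset.sum_le_sum; intro w _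
  have h0 : 0 ≤ ∏ j, p (w j) := Finset.prod_nonneg fun j _ => hp _
  have hnn : ∀ (β : ℕ) (v : Fin β → ι) (a : ℕ × ℕ),
      0 ≤ (if cnt i₁ w = a.1 ∧ cnt i₂ w = a.2 ∧ oth i₁ i₂ w = List.ofFn v then
          ∏ j, p (w j) else 0) := by
    intro β v a; split_ifs
    · exact h0
    · exact le_rfl
  split_ifs with hw
  · obtain ⟨h1, h2⟩ := hE w hw
    refine le_trans ?_ (Finset.single_le_sum (f := fun β => ∑ v : Fin β → ι,
      ∑ a ∈ A (List.ofFn v), (if cnt i₁ w = a.1 ∧ cnt i₂ w = a.2 ∧ oth i₁ i₂ w = List.ofFn v then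
          ∏ j, p (w j) else 0)) (fun β _ => Finset.sum_nonneg fun v _ =>
            Finset.sum_nonneg fun a _ => hnn β v a) h1)
    refine le_trans ?_ (Finset.single_le_sum (f := fun v : Fin (oth i₁ i₂ w).length → ι =>
      ∑ a ∈ A (List.ofFn v), (if cnt i₁ w = a.1 ∧ cnt i₂ w = a.2 ∧ oth i₁ i₂ w = List.ofFn v then
          ∏ j, p (w j) else 0)) (fun v _ =>
            Finset.sum_nonneg fun a _ => hnn _ v a) (Finset.mem_univ (oth i₁ i₂ w).get))
    have hof : List.ofFn (oth i₁ i₂ w).get = oth i₁ i₂ w := List.ofFn_get _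
    rw [hof]
    refine le_trans ?_ (Finset.single_le_sum (f := fun a : ℕ × ℕ =>
      (if cnt i₁ w = a.1 ∧ cnt i₂ w = a.2 ∧ oth i₁ i₂ w = oth i₁ i₂ w then
          ∏ j, p (w j) else 0)) (fun a _ => by
            split_ifs
            · exact h0
            · exact le_rfl) h2)
    simp
  · exact Finset.sum_nonneg fun β _ => Finset.sum_nonneg fun v _ =>
            Finset.sum_nonneg fun a _ => hnn β v a

lemma group_le (p p2 : ι → ℝ) (hp : ∀ i, 0 ≤ p i) (hp2 : ∀ i, 0 ≤ p2 i) (i₁ i₂ : ι)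
    (h : i₁ ≠ i₂) (g : ℕ → ℝ)
    (hW : ∀ n a₁ a₂ b, Wt p i₁ i₂ n a₁ a₂ b ≤ g n * pl p2 b)
    (M : ℕ) (E : (n : ℕ) → (Fin n → ι) → Prop) (B : Finset ℕ) (A : List ι → Finset (ℕ × ℕ))
    (G N : ℝ)
    (hE : ∀ n, n < M → ∀ w : Fin n → ι, E n w →
      (oth i₁ i₂ w).length ∈ B ∧ (cnt i₁ w, cnt i₂ w) ∈ A (oth i₁ i₂ w))
    (hG0 : 0 ≤ G) (hG : ∀ b, ∀ a ∈ A b, g (a.1 + a.2 + b.length) ≤ G)
    (hN : ∀ b, ((A b).card : ℝ) ≤ N) :
    ∑ n ∈ range M, Pr p n (E n) ≤ N * (G * ∑ β ∈ B, (∑ i, p2 i) ^ β) := by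
  have hpl : ∀ (β : ℕ) (v : Fin β → ι), pl p2 (List.ofFn v) = ∏ j, p2 (v j) := by
    intro β v
    unfold pl
    rw [List.map_ofFn, List.prod_ofFn]; rfl
  calc ∑ n ∈ range M, Pr p n (E n)
      ≤ ∑ n ∈ range M, ∑ β ∈ B, ∑ v : Fin β → ι, ∑ a ∈ A (List.ofFn v),
      Wt p i₁ i₂ n a.1 a.2 (List.ofFn v) := by
        apply Finset.sum_le_sum; intro n hn
        exact Pr_le_group p hp i₁ i₂ n (E n) B A (hE n (Finset.mem_range.1 hn))
    _ = ∑ β ∈ B, ∑ v : Fin β → ι, ∑ a ∈ A (List.ofFn v), ∑ n ∈ range M,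
          Wt p i₁ i₂ n a.1 a.2 (List.ofFn v) := by
        rw [Finset.sum_comm]
        apply Finset.sum_congr rfl; intro β _
        rw [Finset.sum_comm]
        apply Finset.sum_congr rfl; intro v _
        rw [Finset.sum_comm]
    _ ≤ ∑ β ∈ B, ∑ v : Fin β → ι, ∑ a ∈ A (List.ofFn v), G * ∏ j, p2 (v j) := by
        apply Finset.sum_le_sum; intro β _
        apply Finset.sum_le_sum; intro v _
        apply Finset.sum_le_sum; intro a ha
        have hnn : 0 ≤ ∏ j, p2 (v j) := Finset.prod_nonneg fun j _ => hp2 _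
        by_cases hm : a.1 + a.2 + (List.ofFn v).length ∈ range M
        · rw [Finset.sum_eq_single_of_mem _ hm (fun n _ hn => Wt_eq_zero_of_ne p i₁ i₂ h n a.1 a.2
            (List.ofFn v) hn)]
          refine le_trans (hW _ _ _ _) ?_
          rw [hpl]
          exact mul_le_mul_of_nonneg_right (hG _ a ha) hnn
        · rw [Finset.sum_eq_zero]
          · positivity
          · intro n hn
            apply Wt_eq_zero_of_ne p i₁ i₂ h
            rintro rfl; exact hm hn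
    _ = ∑ β ∈ B, ∑ v : Fin β → ι, ((A (List.ofFn v)).card : ℝ) * (G * ∏ j, p2 (v j)) := by
        simp only [Finset.sum_const, nsmul_eq_mul]
    _ ≤ ∑ β ∈ B, ∑ v : Fin β → ι, N * (G * ∏ j, p2 (v j)) := by
        apply Finset.sum_le_sum; intro β _
        apply Finset.sum_le_sum; intro v _
        apply mul_le_mul_of_nonneg_right (hN _)
        exact mul_nonneg hG0 (Finset.prod_nonneg fun j _ => hp2 _)
    _ = N * (G * ∑ β ∈ B, (∑ i, p2 i) ^ β) := by
        rw [Finset.mul_sum, Finset.mul_sum]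
        apply Finset.sum_congr rfl; intro β _
        rw [Fintype.sum_pow, Finset.mul_sum, Finset.mul_sum]

/-- the two cases of the local bound in a uniform form. -/
lemma exists_g (p : ι → ℝ) (hp : ∀ i, 0 < p i) (hp1 : ∑ i, p i = 1) (i₁ i₂ : ι)
    (h : i₁ ≠ i₂) :
    ∃ (p2 : ι → ℝ) (g : ℕ → ℝ), (∀ i, 0 ≤ p2 i) ∧
      (∀ n a₁ a₂ b, Wt p i₁ i₂ n a₁ a₂ b ≤ g n * pl p2 b) ∧
      ∃ K : ℝ, 0 < K ∧ ∀ x : ℝ, 0 < x → ∃ G : ℝ, 0 ≤ G ∧ (∀ n : ℕ, x ≤ n → g n ≤ G) ∧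
        ∀ B : Finset ℕ, G * ∑ β ∈ B, (∑ i, p2 i) ^ β ≤ K * (1 / Real.sqrt x + B.card / x) := by
  have hp0 : ∀ i, 0 ≤ p i := fun i => (hp i).le
  have hp₁ := hp i₁
  have hp₂ := hp i₂
  have hsplit : ∀ G : ι → ℝ, ∑ x, G x = G i₁ + G i₂ +
      ∑ x ∈ univ.filter (fun x => x ≠ i₁ ∧ x ≠ i₂), G x := by
    intro G
    rw [← Finset.sum_filter_add_sum_filter_not univ (fun x => x ≠ i₁ ∧ x ≠ i₂) G, add_comm]
    congr 1
    have : univ.filter (fun x => ¬ (x ≠ i₁ ∧ x ≠ i₂)) = {i₁, i₂} := by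
      ext x; simp only [Finset.mem_filter, Finset.mem_univ, true_and, Finset.mem_insert,
        Finset.mem_singleton]; tauto
    rw [this, Finset.sum_pair h]
  have hsum := hsplit p
  rw [hp1] at hsum
  have hrest : 0 ≤ ∑ x ∈ univ.filter (fun x => x ≠ i₁ ∧ x ≠ i₂), p x :=
    Finset.sum_nonneg fun i _ => hp0 i
  rcases lt_or_eq_of_le (show p i₁ + p i₂ ≤ 1 by linarith) with h3 | h3
  · -- at least three letters
    have hq : 0 < 1 - (p i₁ + p i₂) := by linarith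
    set P : ℝ := p i₁ + p i₂ with hP
    set K : ℝ := 1 / (2 * Real.sqrt ((1 - P) * (p i₁ * p i₂))) with hK
    have hKpos : 0 < K := by
      rw [hK]
      have : 0 < Real.sqrt ((1 - P) * (p i₁ * p i₂)) := Real.sqrt_pos.2 (by positivity)
      positivity
    refine ⟨fun i => if i ≠ i₁ ∧ i ≠ i₂ then p i / (1 - P) else 0,
      fun n => K / ((n : ℝ) + 1), ?_, ?_, K, hKpos, ?_⟩
    · intro i; dsimp only; split_ifs
      · exact div_nonneg (hp0 i) hq.le
      · exact le_rfl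
    · intro n a₁ a₂ b
      by_cases hb : ∃ x ∈ b, x = i₁ ∨ x = i₂
      · obtain ⟨x, hx, hx'⟩ := hb
        rw [Wt_eq_zero_of_mem p i₁ i₂ n a₁ a₂ b x hx hx']
        apply mul_nonneg (by positivity)
        apply pl_nonneg
        intro i; split_ifs
        · exact div_nonneg (hp0 i) hq.le
        · exact le_rfl
      · push Not at hb
        refine le_trans (visit_le p hp hp1 i₁ i₂ h h3 n a₁ a₂ b) (le_of_eq ?_)
        rw [← hK]
        congr 1
        unfold pl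
        congr 1
        apply List.map_congr_left
        intro x hx
        rw [if_pos (hb x hx)]
    · intro x hx
      refine ⟨K / x, by positivity, ?_, ?_⟩
      · intro n hn
        apply div_le_div_of_nonneg_left hKpos.le hx
        linarith
      · intro B
        have hs1 : ∑ i, (if i ≠ i₁ ∧ i ≠ i₂ then p i / (1 - P) else 0) = 1 := by
          rw [← Finset.sum_filter, ← Finset.sum_div]
          rw [div_eq_one_iff_eq hq.ne']
          linarith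
        rw [hs1]
        simp only [one_pow, Finset.sum_const, nsmul_eq_mul, mul_one]
        have : 0 ≤ 1 / Real.sqrt x := by positivity
        calc K / x * (B.card : ℝ) = K * (B.card / x) := by ring
          _ ≤ _ := mul_le_mul_of_nonneg_left (by linarith) hKpos.le
  · -- exactly two letters
    have hzero : ∀ x, x ≠ i₁ ∧ x ≠ i₂ → False := by
      intro x hx
      have h4 : ∑ x ∈ univ.filter (fun x => x ≠ i₁ ∧ x ≠ i₂), p x = 0 := by linarith
      have h5 := (Finset.sum_eq_zero_iff_of_nonneg (fun i _ => hp0 i)).1 h4 x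
        (by simp [hx])
      linarith [hp x]
    set c : ℝ := 2 * (p i₁ * p i₂) with hc
    have hcpos : 0 < c := by positivity
    refine ⟨fun _ => 0, fun n => 1 / Real.sqrt (((n : ℝ) + 1) * c), fun _ => le_rfl, ?_,
      1 / Real.sqrt c, by positivity, ?_⟩
    · intro n a₁ a₂ b
      cases b with
      | nil =>
        refine le_trans (visit_le_two p hp i₁ i₂ h h3 n a₁ a₂) (le_of_eq ?_)
        have e : pl (fun _ : ι => (0 : ℝ)) [] = 1 := by simp [pl]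
        rw [e, mul_one]
      | cons x b =>
        rw [Wt_eq_zero_of_mem p i₁ i₂ n a₁ a₂ (x :: b) x (by simp)]
        · simp [pl]
        · by_contra hcon
          push Not at hcon
          exact hzero x hcon
    · intro x hx
      refine ⟨1 / Real.sqrt (x * c), by positivity, ?_, ?_⟩
      · intro n hn
        apply div_le_div_of_nonneg_left zero_le_one (Real.sqrt_pos.2 (by positivity))
        apply Real.sqrt_le_sqrt
        apply mul_le_mul_of_nonneg_right _ hcpos.le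
        linarith
      · intro B
        have h4 : ∑ β ∈ B, (∑ _i : ι, (0 : ℝ)) ^ β ≤ 1 := by
          simp only [Finset.sum_const_zero]
          calc ∑ β ∈ B, (0 : ℝ) ^ β = ∑ β ∈ B, if β = 0 then 1 else 0 := by
                apply Finset.sum_congr rfl; intro β _
                rw [zero_pow_eq]
            _ ≤ 1 := by
                rw [Finset.sum_ite_eq']
                split_ifs <;> norm_num
        have h5 : 0 ≤ 1 / Real.sqrt (x * c) := by positivity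
        calc _ ≤ 1 / Real.sqrt (x * c) * 1 := mul_le_mul_of_nonneg_left h4 h5
          _ = 1 / Real.sqrt c * (1 / Real.sqrt x) := by
              rw [Real.sqrt_mul hx.le]; field_simp
          _ ≤ _ := by
              apply mul_le_mul_of_nonneg_left _ (by positivity)
              have : 0 ≤ (B.card : ℝ) / x := div_nonneg (Nat.cast_nonneg _) hx.le
              linarith

/-- separation of the values `a₁ l₁ + a₂ l₂` -/
lemma sep_pair (l₁ l₂ : ℝ) (hl₂ : 0 < l₂) (q : ℕ) (hq : 1 ≤ q)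
    (hsep : ∀ h k : ℤ, h ≠ 0 → |h| < (q : ℤ) → 1 / (2 * (q : ℝ)) ≤ |(h : ℝ) * (l₁ / l₂) - k|)
    (a a' : ℕ × ℕ) (hne : a ≠ a')
    (hclose : |(a.1 * l₁ + a.2 * l₂) - (a'.1 * l₁ + a'.2 * l₂)| ≤ l₂ / (4 * q)) :
    (q : ℝ) ≤ |(a.1 : ℝ) - a'.1| := by
  have hq' : (1 : ℝ) ≤ q := by exact_mod_cast hq
  by_contra hcon
  push Not at hcon
  set u : ℤ := (a.1 : ℤ) - a'.1 with hu
  set v : ℤ := (a.2 : ℤ) - a'.2 with hv
  have hur : (u : ℝ) = (a.1 : ℝ) - a'.1 := by rw [hu]; push_cast; ring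
  have hvr : (v : ℝ) = (a.2 : ℝ) - a'.2 := by rw [hv]; push_cast; ring
  have hult : |u| < (q : ℤ) := by
    have : |(u : ℝ)| < q := by rw [hur]; exact hcon
    have h2 : ((|u| : ℤ) : ℝ) < ((q : ℤ) : ℝ) := by push_cast; exact this
    exact_mod_cast h2
  have he : (a.1 * l₁ + a.2 * l₂) - (a'.1 * l₁ + a'.2 * l₂) = u * l₁ + v * l₂ := by
    rw [hur, hvr]; ring
  rw [he] at hclose
  have hlt : l₂ / (4 * q) < l₂ / (2 * q) := by
    apply div_lt_div_of_pos_left hl₂ (by positivity)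
    linarith
  by_cases hu0 : u = 0
  · have hv0 : v ≠ 0 := by
      intro hv0
      apply hne
      apply Prod.ext
      · omega
      · omega
    have h1 : (1 : ℝ) ≤ |(v : ℝ)| := by
      have : (1 : ℤ) ≤ |v| := Int.one_le_abs hv0
      have h2 : ((1 : ℤ) : ℝ) ≤ ((|v| : ℤ) : ℝ) := by exact_mod_cast this
      push_cast at h2; exact h2
    rw [hu0] at hclose
    simp only [Int.cast_zero, zero_mul, zero_add] at hclose
    rw [abs_mul, abs_of_pos hl₂] at hclose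
    have h3 : l₂ / (2 * q) ≤ l₂ := by
      apply div_le_self hl₂.le; linarith
    have h4 : l₂ ≤ |(v : ℝ)| * l₂ := by nlinarith
    linarith
  · have h1 := hsep u (-v) hu0 hult
    have h2 : (u : ℝ) * (l₁ / l₂) - ((-v : ℤ) : ℝ) = (u * l₁ + v * l₂) / l₂ := by
      push_cast; field_simp; ring
    rw [h2, abs_div, abs_of_pos hl₂, le_div_iff₀ hl₂] at h1
    have h3 : 1 / (2 * (q : ℝ)) * l₂ = l₂ / (2 * q) := by ring
    rw [h3] at h1
    linarith

omit [DecidableEq ι] [Fintype ι] in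
lemma list_sum_le (l : ι → ℝ) (L : ℝ) (hL : ∀ i, l i ≤ L) (b : List ι) :
    (b.map l).sum ≤ b.length * L := by
  induction b with
  | nil => simp
  | cons x b ih =>
    rw [List.map_cons, List.sum_cons, List.length_cons]
    push_cast
    have := hL x
    nlinarith

set_option maxHeartbeats 2000000 in
/-- concentration on small intervals. -/
theorem small_interval (p l : ι → ℝ) (hp : ∀ i, 0 < p i) (hp1 : ∑ i, p i = 1)
    (L l0 : ℝ) (hl0 : 0 < l0) (hl : ∀ i, l0 ≤ l i) (hL : ∀ i, l i ≤ L)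
    (i₁ i₂ : ι) (hne : i₁ ≠ i₂) :
    ∃ C : ℝ, 0 < C ∧ ∃ s0 : ℝ, 3 ≤ s0 ∧ ∀ q : ℕ, 1 ≤ q →
      (∀ h k : ℤ, h ≠ 0 → |h| < (q : ℤ) →
        1 / (2 * (q : ℝ)) ≤ |(h : ℝ) * (l i₁ / l i₂) - k|) →
      ∀ s : ℝ, s0 ≤ s → (q : ℝ) ^ 2 ≤ s → ∀ a : ℝ, s ≤ a → ∀ M : ℕ,
        ∑ n ∈ range M, Pr p n (fun w => a ≤ ∑ j, l (w j) ∧
          ∑ j, l (w j) ≤ a + l i₂ / (4 * q) ∧ ∑ j, l (w j) ≤ s + L)
          ≤ C * (Real.log s) ^ 2 / q := by
  obtain ⟨C1, hC1, s1, hs1, hT⟩ := tail_sum p l hp hp1 L l0 hl0 hl hL (∑ i, p i * l i) rfl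
  obtain ⟨p2, g, hp2, hW, K, hK, hG⟩ := exists_g p hp hp1 i₁ i₂ hne
  have hp0 : ∀ i, 0 ≤ p i := fun i => (hp i).le
  have hLpos : 0 < L := lt_of_lt_of_le hl0 (le_trans (hl i₁) (hL i₁))
  set chi : ℝ := ∑ i, p i * l i with hchi
  set C3 : ℝ := (2 * C1 + 1) * (K * (Real.sqrt L + L * (6 * C1 + 1))) with hC3
  have hC3pos : 0 < C3 := by
    have : 0 < Real.sqrt L := Real.sqrt_pos.2 hLpos
    positivity
  refine ⟨C1 + C3, by positivity, max 3 s1, le_max_left _ _, ?_⟩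
  intro q hq hsep s hs hqs a ha M
  have hs3 : 3 ≤ s := le_trans (le_max_left _ _) hs
  have hs1' : s1 ≤ s := le_trans (le_max_right _ _) hs
  have hspos : 0 < s := by linarith
  have hq' : (1 : ℝ) ≤ q := by exact_mod_cast hq
  have hqpos : (0 : ℝ) < q := by linarith
  have hlog1 : 1 ≤ Real.log s := by
    rw [Real.le_log_iff_exp_le hspos]
    have := Real.exp_one_lt_d9
    linarith
  set σ : ℝ := Real.sqrt s with hσ
  set lam : ℝ := Real.log s with hlam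
  have hσq : (q : ℝ) ≤ σ := Real.le_sqrt_of_sq_le hqs
  have hσ1 : 1 ≤ σ := le_trans hq' hσq
  have hσpos : 0 < σ := by linarith
  have hσ2 : σ ^ 2 = s := Real.sq_sqrt hspos.le
  have hlampos : 0 < lam := by linarith
  set W : ℝ := C1 * (σ * lam) with hWdef
  have hWpos : 0 < W := by positivity
  have hl₂ : 0 < l i₂ := lt_of_lt_of_le hl0 (hl i₂)
  set δ0 : ℝ := l i₂ / (4 * q) with hδ0
  -- the two parts
  have hsplit : ∀ n, Pr p n (fun w => a ≤ ∑ j, l (w j) ∧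
          ∑ j, l (w j) ≤ a + δ0 ∧ ∑ j, l (w j) ≤ s + L)
      ≤ Pr p n (fun w => s ≤ ∑ j, l (w j) ∧ ∑ j, l (w j) ≤ s + L ∧
        ¬ (|(n : ℝ) - s / chi| ≤ W ∧ ∀ i, |(cnt i w : ℝ) - s * p i / chi| ≤ W))
      + Pr p n (fun w => (a ≤ ∑ j, l (w j) ∧
          ∑ j, l (w j) ≤ a + δ0) ∧ (|(n : ℝ) - s / chi| ≤ W ∧
            ∀ i, |(cnt i w : ℝ) - s * p i / chi| ≤ W)) := by
    intro n
    refine le_trans (Pr_mono p hp0 n ?_) (Pr_or p hp0 n _ _)
    rintro w ⟨h1, h2, h3⟩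
    by_cases h4 : (|(n : ℝ) - s / chi| ≤ W ∧ ∀ i, |(cnt i w : ℝ) - s * p i / chi| ≤ W)
    · right; exact ⟨⟨h1, h2⟩, h4⟩
    · left; exact ⟨by linarith, h3, h4⟩
  have hpart1 := hT s hs1' M
  set B : Finset ℕ := (range M).filter
    (fun β => |(β : ℝ) - (s / chi - s * p i₁ / chi - s * p i₂ / chi)| ≤ 3 * W) with hB
  set A : List ι → Finset (ℕ × ℕ) := fun b => ((range M) ×ˢ (range M)).filter
    (fun c => |(c.1 : ℝ) - s * p i₁ / chi| ≤ W ∧ a ≤ c.1 * l i₁ + c.2 * l i₂ + (b.map l).sum ∧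
      c.1 * l i₁ + c.2 * l i₂ + (b.map l).sum ≤ a + δ0) with hA
  obtain ⟨G, hG0, hGn, hGB⟩ := hG (s / L) (by positivity)
  have hpart2 : ∑ n ∈ range M, Pr p n (fun w => (a ≤ ∑ j, l (w j) ∧
          ∑ j, l (w j) ≤ a + δ0) ∧ (|(n : ℝ) - s / chi| ≤ W ∧
            ∀ i, |(cnt i w : ℝ) - s * p i / chi| ≤ W))
      ≤ (2 * W / q + 1) * (G * ∑ β ∈ B, (∑ i, p2 i) ^ β) := by
    apply group_le p p2 hp0 hp2 i₁ i₂ hne g hW M _ B A G
    · rintro n hn w ⟨⟨h1, h2⟩, h3, h4⟩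
      have hcl := cnt_add_length i₁ i₂ hne w
      have hse := sum_eq_cnt l i₁ i₂ hne w
      have h5 := abs_le.1 h3
      have h6 := abs_le.1 (h4 i₁)
      have h7 := abs_le.1 (h4 i₂)
      have hnr : (n : ℝ) = cnt i₁ w + cnt i₂ w + (oth i₁ i₂ w).length := by
        exact_mod_cast hcl.symm
      constructor
      · rw [hB, Finset.mem_filter, Finset.mem_range]
        refine ⟨by omega, ?_⟩
        rw [abs_le]; constructor <;> linarith
      · rw [hA]
        simp only [Finset.mem_filter, Finset.mem_product, Finset.mem_range]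
        refine ⟨⟨by omega, by omega⟩, h4 i₁, ?_, ?_⟩
        · rw [← hse]; exact h1
        · rw [← hse]; exact h2
    · exact hG0
    · intro b c hc
      rw [hA] at hc
      simp only [Finset.mem_filter, Finset.mem_product, Finset.mem_range] at hc
      apply hGn
      rw [div_le_iff₀ hLpos]
      have h1 := list_sum_le l L hL b
      have h2 : (c.1 : ℝ) * l i₁ ≤ c.1 * L := mul_le_mul_of_nonneg_left (hL i₁) (Nat.cast_nonneg _)
      have h3 : (c.2 : ℝ) * l i₂ ≤ c.2 * L := mul_le_mul_of_nonneg_left (hL i₂) (Nat.cast_nonneg _)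
      push_cast
      linarith [hc.2.2.1]
    · intro b
      apply card_sep (A b) (fun c => (c.1 : ℝ)) (s * p i₁ / chi) W q hqpos
      · intro c hc
        rw [hA] at hc
        simp only [Finset.mem_filter] at hc
        exact hc.2.1
      · exact hWpos.le
      · intro c hc c' hc' hcc
        rw [hA] at hc hc'
        simp only [Finset.mem_filter] at hc hc'
        apply sep_pair (l i₁) (l i₂) hl₂ q hq hsep c c' hcc
        rw [← hδ0, abs_le]
        constructor <;> linarith [hc.2.2.1, hc.2.2.2, hc'.2.2.1, hc'.2.2.2]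
  have hBcard : (B.card : ℝ) ≤ 6 * W + 1 := by
    have := card_sep B (fun β => (β : ℝ)) (s / chi - s * p i₁ / chi - s * p i₂ / chi) (3 * W) 1
      one_pos (by
        intro β hβ
        rw [hB, Finset.mem_filter] at hβ
        exact hβ.2) (by positivity) (by
        intro β _ β' _ hββ
        have h1 : ((β : ℤ) - β') ≠ 0 := by omega
        have h2 := Int.one_le_abs h1
        have h3 : ((1 : ℤ) : ℝ) ≤ ((|(β : ℤ) - β'| : ℤ) : ℝ) := by exact_mod_cast h2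
        push_cast at h3; exact h3)
    linarith
  have hBfin : G * ∑ β ∈ B, (∑ i, p2 i) ^ β ≤ K * (Real.sqrt L + L * (6 * C1 + 1)) * (lam / σ) := by
    refine le_trans (hGB B) ?_
    have h1 : 1 / Real.sqrt (s / L) = Real.sqrt L / σ := by
      rw [Real.sqrt_div hspos.le, ← hσ, one_div_div]
    have h2 : (B.card : ℝ) / (s / L) ≤ L * (6 * C1 + 1) * (lam / σ) := by
      have h3 : (B.card : ℝ) ≤ (6 * C1 + 1) * (σ * lam) := by
        have : 1 ≤ σ * lam := by nlinarith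
        rw [hWdef] at hBcard
        linarith
      calc (B.card : ℝ) / (s / L) ≤ ((6 * C1 + 1) * (σ * lam)) / (s / L) :=
            div_le_div_of_nonneg_right h3 (by positivity)
        _ = L * (6 * C1 + 1) * (lam / σ) := by
            rw [← hσ2]; field_simp
    have h4 : Real.sqrt L / σ ≤ Real.sqrt L * (lam / σ) := by
      rw [← mul_div_assoc]
      apply div_le_div_of_nonneg_right _ hσpos.le
      have : 0 ≤ Real.sqrt L := Real.sqrt_nonneg _
      nlinarith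
    rw [h1]
    calc K * (Real.sqrt L / σ + (B.card : ℝ) / (s / L))
        ≤ K * (Real.sqrt L * (lam / σ) + L * (6 * C1 + 1) * (lam / σ)) :=
          mul_le_mul_of_nonneg_left (add_le_add h4 h2) hK.le
      _ = _ := by ring
  have hN : 2 * W / q + 1 ≤ (2 * C1 + 1) * (σ * lam / q) := by
    have h1 : 1 ≤ σ * lam / q := by
      rw [le_div_iff₀ hqpos]; nlinarith
    have h2 : 2 * W / q = 2 * C1 * (σ * lam / q) := by rw [hWdef]; ring
    rw [h2]; linarith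
  have hcomb : (2 * W / q + 1) * (G * ∑ β ∈ B, (∑ i, p2 i) ^ β) ≤ C3 * lam ^ 2 / q := by
    have h0 : 0 ≤ 2 * W / q + 1 := by positivity
    have h00 : 0 ≤ K * (Real.sqrt L + L * (6 * C1 + 1)) * (lam / σ) := by positivity
    calc (2 * W / q + 1) * (G * ∑ β ∈ B, (∑ i, p2 i) ^ β)
        ≤ (2 * W / q + 1) * (K * (Real.sqrt L + L * (6 * C1 + 1)) * (lam / σ)) :=
          mul_le_mul_of_nonneg_left hBfin h0
      _ ≤ ((2 * C1 + 1) * (σ * lam / q)) * (K * (Real.sqrt L + L * (6 * C1 + 1)) * (lam / σ)) :=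
          mul_le_mul_of_nonneg_right hN h00
      _ = C3 * lam ^ 2 / q := by rw [hC3]; field_simp
  have hfirst : C1 / s ^ 2 ≤ C1 * lam ^ 2 / q := by
    have h1 : (q : ℝ) ≤ q ^ 2 := by nlinarith
    have h2 : (q : ℝ) ≤ s ^ 2 := by nlinarith
    have h3 : 1 ≤ lam ^ 2 := by nlinarith
    calc C1 / s ^ 2 ≤ C1 / q := div_le_div_of_nonneg_left hC1.le hqpos h2
      _ ≤ C1 * lam ^ 2 / q := by
          apply div_le_div_of_nonneg_right _ hqpos.le
          nlinarith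
  calc _ ≤ ∑ n ∈ range M, (Pr p n (fun w => s ≤ ∑ j, l (w j) ∧ ∑ j, l (w j) ≤ s + L ∧
        ¬ (|(n : ℝ) - s / chi| ≤ W ∧ ∀ i, |(cnt i w : ℝ) - s * p i / chi| ≤ W))
      + Pr p n (fun w => (a ≤ ∑ j, l (w j) ∧
          ∑ j, l (w j) ≤ a + δ0) ∧ (|(n : ℝ) - s / chi| ≤ W ∧
            ∀ i, |(cnt i w : ℝ) - s * p i / chi| ≤ W))) := Finset.sum_le_sum fun n _ => hsplit n
    _ ≤ C1 / s ^ 2 + C3 * lam ^ 2 / q := by
        rw [Finset.sum_add_distrib]
        exact add_le_add hpart1 (le_trans hpart2 hcomb)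
    _ ≤ C1 * lam ^ 2 / q + C3 * lam ^ 2 / q := by linarith
    _ = (C1 + C3) * lam ^ 2 / q := by ring

/-- MULT: concentration of the multipliers in `[s, s+L]`. -/
theorem mult_conc (p l : ι → ℝ) (hp : ∀ i, 0 < p i) (hp1 : ∑ i, p i = 1)
    (L l0 : ℝ) (hl0 : 0 < l0) (hl : ∀ i, l0 ≤ l i) (hL : ∀ i, l i ≤ L)
    (i₁ i₂ : ι) (hne : i₁ ≠ i₂) :
    ∃ C : ℝ, 0 < C ∧ ∃ s0 : ℝ, 3 ≤ s0 ∧ ∀ q : ℕ, 1 ≤ q →
      (∀ h k : ℤ, h ≠ 0 → |h| < (q : ℤ) →
        1 / (2 * (q : ℝ)) ≤ |(h : ℝ) * (l i₁ / l i₂) - k|) →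
      ∀ s : ℝ, s0 ≤ s → (q : ℝ) ^ 2 ≤ s → ∀ a δ : ℝ, s ≤ a → 0 ≤ δ → ∀ M : ℕ,
        ∑ n ∈ range M, Pr p n (fun w => a ≤ ∑ j, l (w j) ∧
          ∑ j, l (w j) ≤ a + δ ∧ ∑ j, l (w j) ≤ s + L)
          ≤ C * (Real.log s) ^ 2 * (δ + 1 / q) := by
  obtain ⟨C, hC, s0, hs0, h⟩ := small_interval p l hp hp1 L l0 hl0 hl hL i₁ i₂ hne
  have hp0 : ∀ i, 0 ≤ p i := fun i => (hp i).le
  have hl₂ : 0 < l i₂ := lt_of_lt_of_le hl0 (hl i₂)
  refine ⟨C * (1 + 4 / l i₂), by positivity, s0, hs0, ?_⟩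
  intro q hq hsep s hs hqs a δ ha hδ M
  have hq' : (1 : ℝ) ≤ q := by exact_mod_cast hq
  have hqpos : (0 : ℝ) < q := by linarith
  set δ0 : ℝ := l i₂ / (4 * q) with hδ0
  have hδ0pos : 0 < δ0 := by positivity
  set N : ℕ := ⌊δ / δ0⌋₊ + 1 with hN
  have hcover : ∀ n, Pr p n (fun w => a ≤ ∑ j, l (w j) ∧
          ∑ j, l (w j) ≤ a + δ ∧ ∑ j, l (w j) ≤ s + L)
      ≤ ∑ k : Fin N, Pr p n (fun w => a + (k : ℕ) * δ0 ≤ ∑ j, l (w j) ∧
          ∑ j, l (w j) ≤ a + (k : ℕ) * δ0 + δ0 ∧ ∑ j, l (w j) ≤ s + L) := by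
    intro n
    refine le_trans (Pr_mono p hp0 n ?_) (Pr_exists p hp0 n (fun (k : Fin N) (w : Fin n → ι) =>
      a + (k : ℕ) * δ0 ≤ ∑ j, l (w j) ∧
          ∑ j, l (w j) ≤ a + (k : ℕ) * δ0 + δ0 ∧ ∑ j, l (w j) ≤ s + L))
    rintro w ⟨h1, h2, h3⟩
    have h4 : 0 ≤ (∑ j, l (w j) - a) / δ0 := div_nonneg (by linarith) hδ0pos.le
    have h5 : ⌊(∑ j, l (w j) - a) / δ0⌋₊ < N := by
      rw [hN]
      apply Nat.lt_succ_of_le
      apply Nat.floor_le_floor
      apply div_le_div_of_nonneg_right _ hδ0pos.le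
      linarith
    refine ⟨⟨⌊(∑ j, l (w j) - a) / δ0⌋₊, h5⟩, ?_, ?_, h3⟩
    · have h6 := Nat.floor_le h4
      rw [le_div_iff₀ hδ0pos] at h6
      simp only; linarith
    · have h6 := (Nat.lt_floor_add_one ((∑ j, l (w j) - a) / δ0)).le
      rw [div_le_iff₀ hδ0pos] at h6
      simp only; linarith
  have hNle : (N : ℝ) ≤ 4 * q * δ / l i₂ + 1 := by
    rw [hN]
    push_cast
    have h6 := Nat.floor_le (div_nonneg hδ hδ0pos.le)
    have h7 : δ / δ0 = 4 * q * δ / l i₂ := by rw [hδ0]; field_simp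
    rw [h7] at h6
    rw [h7]
    linarith
  have hlog0 : 0 ≤ C * Real.log s ^ 2 / q := by positivity
  calc _ ≤ ∑ n ∈ range M, ∑ k : Fin N, Pr p n (fun w => a + (k : ℕ) * δ0 ≤ ∑ j, l (w j) ∧
          ∑ j, l (w j) ≤ a + (k : ℕ) * δ0 + δ0 ∧ ∑ j, l (w j) ≤ s + L) :=
        Finset.sum_le_sum fun n _ => hcover n
    _ = ∑ k : Fin N, ∑ n ∈ range M, Pr p n (fun w => a + (k : ℕ) * δ0 ≤ ∑ j, l (w j) ∧
          ∑ j, l (w j) ≤ a + (k : ℕ) * δ0 + δ0 ∧ ∑ j, l (w j) ≤ s + L) := Finset.sum_comm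
    _ ≤ ∑ _k : Fin N, C * Real.log s ^ 2 / q := by
        apply Finset.sum_le_sum; intro k _
        apply h q hq hsep s hs hqs (a + (k : ℕ) * δ0) _ M
        have : 0 ≤ ((k : ℕ) : ℝ) * δ0 := by positivity
        linarith
    _ = N * (C * Real.log s ^ 2 / q) := by
        rw [Finset.sum_const, Finset.card_univ, Fintype.card_fin, nsmul_eq_mul]
    _ ≤ (4 * q * δ / l i₂ + 1) * (C * Real.log s ^ 2 / q) :=
        mul_le_mul_of_nonneg_right hNle hlog0
    _ = C * Real.log s ^ 2 * (4 / l i₂ * δ + 1 / q) := by field_simp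
    _ ≤ C * Real.log s ^ 2 * ((1 + 4 / l i₂) * (δ + 1 / q)) := by
        apply mul_le_mul_of_nonneg_left _ (by positivity)
        have : 0 ≤ 4 / l i₂ * (1 / q) := by positivity
        nlinarith
    _ = C * (1 + 4 / l i₂) * Real.log s ^ 2 * (δ + 1 / q) := by ring

end Crest.Agent.R98.Mult
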