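import Crest.Agent.R98.MultFib

/-!
R98 / MultFinal (helper399): the final statement about the law of multipliers
-/

set_option autoImplicit false

open MeasureTheory Set Real

namespace Crest.Agent.R98.Mult

universe w

section

variable {ι : Type*} [DecidableEq ι] [Fintype ι]

/-- minus the logarithm of the contraction of a word -/
noncomputable def Sl (r : ι → ℝ) (w : List ι) : ℝ := (w.map fun i => -log |r i|).sum

/-- typical words -/
def Typ (p : ι → ℝ) (chi Ct s : ℝ) (w : List ι) : Prop :=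
  |(w.length : ℝ) - s / chi| ≤ Ct * (√s * log s) ∧
    ∀ i, |(w.count i : ℝ) - s * p i / chi| ≤ Ct * (√s * log s)

omit [DecidableEq ι] [Fintype ι] in
theorem exp_Sl {r : ι → ℝ} (hr : ∀ i, r i ≠ 0) (w : List ι) :
    exp (-Sl r w) = |(w.map r).prod| := by
  unfold Sl
  induction w with
  | nil => simp
  | cons x w ih =>
    rw [List.map_cons, List.sum_cons, List.map_cons, List.prod_cons, abs_mul, ← ih, neg_add,
      exp_add, neg_neg, exp_log (abs_pos.2 (hr x))]

variable {Ω : Type*} [Fintype Ω]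

/-- hypotheses on a finite family of words with weights -/
structure Fam (r p : ι → ℝ) (A L s : ℝ) (wd : Ω → List ι) (u : Ω → ℝ) : Prop where
  inj : Function.Injective wd
  nonneg : ∀ ω, 0 ≤ u ω
  sum : ∑ ω, u ω = 1
  le : ∀ ω, u ω ≤ A * ((wd ω).map p).prod
  strip : ∀ ω, u ω ≠ 0 → Sl r (wd ω) ∈ Icc s (s + L)

section construct

variable (r : ι → ℝ) (i₁ i₂ : ι) (wd : Ω → List ι)

/-- labels -/
abbrev Lab (i₁ i₂ : ι) (wd : Ω → List ι) : Type _ :=
  ↥(Finset.univ.image fun ω : Ω => othl i₁ i₂ (wd ω))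

/-- a bound for the lengths -/
def maxLen (wd : Ω → List ι) : ℕ := Finset.univ.sup fun ω : Ω => (wd ω).length

/-- lattice coordinates -/
abbrev Lat (wd : Ω → List ι) : Type := Fin (maxLen wd + 1) × Fin (maxLen wd + 1)

omit [Fintype ι] in
theorem count_lt (i : ι) (ω : Ω) : (wd ω).count i < maxLen wd + 1 := by
  have h1 : (wd ω).length ≤ maxLen wd :=
    Finset.le_sup (f := fun ω : Ω => (wd ω).length) (Finset.mem_univ ω)
  have h2 := List.count_le_length (a := i) (l := wd ω)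
  omega

/-- the coordinates of a word -/
def coord (ω : Ω) : Lab i₁ i₂ wd × Lat wd :=
  (⟨othl i₁ i₂ (wd ω), Finset.mem_image_of_mem _ (Finset.mem_univ ω)⟩,
    ⟨(wd ω).count i₁, count_lt wd i₁ ω⟩, ⟨(wd ω).count i₂, count_lt wd i₂ ω⟩)

omit [Fintype ι] in
theorem coord_eq_iff (ω : Ω) (b : Lab i₁ i₂ wd) (a : Lat wd) :
    coord i₁ i₂ wd ω = (b, a) ↔
      (wd ω).count i₁ = a.1 ∧ (wd ω).count i₂ = a.2 ∧ othl i₁ i₂ (wd ω) = b := by
  unfold coord
  rw [Prod.ext_iff, Prod.ext_iff, Subtype.ext_iff, Fin.ext_iff, Fin.ext_iff]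
  simp only
  tauto

variable {p : ι → ℝ} {A L s : ℝ} {u : Ω → ℝ}

/-- the data of a family of words -/
noncomputable def mdata (hF : Fam r p A L s wd u) (hL : 0 ≤ L) (h12 : i₁ ≠ i₂)
    (hr : ∀ i, r i ≠ 0) (hr1 : |r i₂| < 1) {m : ℤ} {W : ℕ} (hW : 1 ≤ W)
    (hwin : ∀ ω, u ω ≠ 0 → m ≤ (wd ω).count i₁ ∧ ((wd ω).count i₁ : ℤ) ≤ m + W)
    {d : ℝ} (hd : d ≠ 0) : MData (Lat wd) (Lab i₁ i₂ wd) where
  l₁ := -log |r i₁|
  l₂ := -log |r i₂|
  l₂pos := by
    have := log_neg (abs_pos.2 (hr i₂)) hr1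
    linarith
  P := fun b a => ∑ ω with coord i₁ i₂ wd ω = (b, a), u ω
  P0 := fun b a => Finset.sum_nonneg fun ω _ => hF.nonneg ω
  P1 := by
    rw [← hF.sum, ← Finset.sum_fiberwise (s := Finset.univ) (g := coord i₁ i₂ wd),
      Fintype.sum_prod_type]
  a₁ := fun a => ((a.1 : ℕ) : ℤ)
  a₂ := fun a => ((a.2 : ℕ) : ℤ)
  inj := by
    intro a a' h1 h2
    have h1' : (a.1 : ℕ) = a'.1 := by exact_mod_cast h1
    have h2' : (a.2 : ℕ) = a'.2 := by exact_mod_cast h2
    exact Prod.ext (Fin.ext h1') (Fin.ext h2')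
  V := fun b => Sl r b
  s := s
  D := L
  D0 := hL
  strip := by
    intro b a h
    obtain ⟨ω, hω, hne⟩ := Finset.exists_ne_zero_of_sum_ne_zero h
    rw [Finset.mem_filter, coord_eq_iff] at hω
    obtain ⟨_, h1, h2, h3⟩ := hω
    have h4 := hF.strip ω hne
    unfold Sl at h4 ⊢
    rw [sum_split h12, h1, h2, h3] at h4
    push_cast
    exact h4
  m := m
  W := W
  W1 := hW
  window := by
    intro b a h
    obtain ⟨ω, hω, hne⟩ := Finset.exists_ne_zero_of_sum_ne_zero h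
    rw [Finset.mem_filter, coord_eq_iff] at hω
    obtain ⟨_, h1, h2, h3⟩ := hω
    have h4 := hwin ω hne
    rw [h1] at h4
    exact h4
  σ := fun b a => decide (0 < r i₁ ^ (a.1 : ℕ) * r i₂ ^ (a.2 : ℕ) * ((b : List ι).map r).prod)
  d := d
  d0 := hd

variable (hF : Fam r p A L s wd u) (hL : 0 ≤ L) (h12 : i₁ ≠ i₂)
    (hr : ∀ i, r i ≠ 0) (hr1 : |r i₂| < 1) {m : ℤ} {W : ℕ} (hW : 1 ≤ W)
    (hwin : ∀ ω, u ω ≠ 0 → m ≤ (wd ω).count i₁ ∧ ((wd ω).count i₁ : ℤ) ≤ m + W)
    {d : ℝ} (hd : d ≠ 0)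

omit [DecidableEq ι] [Fintype ι] in
theorem prod_ne {r : ι → ℝ} (hr : ∀ i, r i ≠ 0) (w : List ι) : (w.map r).prod ≠ 0 := by
  have := exp_Sl hr w
  intro h0
  rw [h0, abs_zero] at this
  exact (exp_pos _).ne' this

omit [Fintype ι] in
theorem mdata_x (ω : Ω) :
    (mdata r i₁ i₂ wd hF hL h12 hr hr1 hW hwin hd).x (coord i₁ i₂ wd ω).1 (coord i₁ i₂ wd ω).2 =
      d * exp (-s) / ((wd ω).map r).prod := by
  have hR := prod_split h12 r (wd ω)
  have hS : Sl r (wd ω) = ((wd ω).count i₁ : ℝ) * -log |r i₁| + ((wd ω).count i₂ : ℝ) *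
      -log |r i₂| + Sl r (othl i₁ i₂ (wd ω)) := sum_split h12 _ _
  have hE := exp_Sl hr (wd ω)
  have hne := prod_ne hr (wd ω)
  set R : ℝ := ((wd ω).map r).prod with hRd
  unfold MData.x MData.sd mdata coord
  simp only [Int.cast_natCast]
  rw [← hS, ← hR]
  have e1 : exp (Sl r (wd ω) - s) = exp (-s) / |R| := by
    rw [← hE, ← exp_sub]; congr 1; ring
  rw [e1]
  by_cases h : 0 < R
  · rw [if_pos (decide_eq_true h), abs_of_pos h]; ring
  · have h' : R < 0 := lt_of_le_of_ne (not_lt.1 h) hne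
    rw [if_neg (by simpa using not_lt.1 h), abs_of_neg h', div_neg]; ring

omit [Fintype ι] in
theorem mdata_mirror_x (ω : Ω) :
    (mdata r i₁ i₂ wd hF hL h12 hr hr1 hW hwin hd).mirror.x (coord i₁ i₂ wd ω).1
      (coord i₁ i₂ wd ω).2 = d * exp s * ((wd ω).map r).prod := by
  have hR := prod_split h12 r (wd ω)
  have hS : Sl r (wd ω) = ((wd ω).count i₁ : ℝ) * -log |r i₁| + ((wd ω).count i₂ : ℝ) *
      -log |r i₂| + Sl r (othl i₁ i₂ (wd ω)) := sum_split h12 _ _
  have hE := exp_Sl hr (wd ω)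
  have hne := prod_ne hr (wd ω)
  rw [MData.mirror_x]
  set R : ℝ := ((wd ω).map r).prod with hRd
  unfold MData.sd mdata coord
  simp only [Int.cast_natCast]
  rw [← hS, ← hR, exp_add, hE]
  by_cases h : 0 < R
  · rw [if_pos (decide_eq_true h), abs_of_pos h]; ring
  · rw [if_neg (by simpa using not_lt.1 h), abs_of_nonpos (not_lt.1 h)]; ring

omit [Fintype ι] in
theorem mdata_law :
    mix u (fun ω => Measure.dirac (d * exp (-s) / ((wd ω).map r).prod)) =
      (mdata r i₁ i₂ wd hF hL h12 hr hr1 hW hwin hd).law := by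
  classical
  unfold MData.law
  have := mix_fiber hF.nonneg (coord i₁ i₂ wd) (fun q =>
    Measure.dirac ((mdata r i₁ i₂ wd hF hL h12 hr hr1 hW hwin hd).x q.1 q.2))
  simp only [mdata_x] at this
  rw [this]
  rfl

omit [Fintype ι] in
theorem mdata_mirror_law :
    mix u (fun ω => Measure.dirac (d * exp s * ((wd ω).map r).prod)) =
      (mdata r i₁ i₂ wd hF hL h12 hr hr1 hW hwin hd).mirror.law := by
  classical
  unfold MData.law
  have := mix_fiber hF.nonneg (coord i₁ i₂ wd) (fun q =>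
    Measure.dirac ((mdata r i₁ i₂ wd hF hL h12 hr hr1 hW hwin hd).mirror.x q.1 q.2))
  simp only [mdata_mirror_x] at this
  rw [this]
  rfl

/-- conditional entropy of the lattice point -/
theorem mdata_Hc (hp : ∀ i, 0 < p i) (hA : 0 ≤ A) {v : List ι → ℝ} {κ V : ℝ} (hκ : 0 < κ)
    (hV : 0 < V) (hv : ∀ b, 0 ≤ v b)
    (hP : ∀ ω, u ω ≠ 0 → A * Wt p i₁ i₂ (wd ω).length ((wd ω).count i₁) ((wd ω).count i₂)
      (othl i₁ i₂ (wd ω)) ≤ κ * v (othl i₁ i₂ (wd ω)))
    (hS : ∑ b ∈ (Finset.univ.filter fun ω => u ω ≠ 0).image (fun ω => othl i₁ i₂ (wd ω)), v b ≤ V) :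
    -log κ - log V ≤ (mdata r i₁ i₂ wd hF hL h12 hr hr1 hW hwin hd).Hc := by
  classical
  set T : Finset (List ι) :=
    (Finset.univ.filter fun ω => u ω ≠ 0).image (fun ω => othl i₁ i₂ (wd ω)) with hT
  refine MData.Hc_ge _ (v := fun b : Lab i₁ i₂ wd => if (b : List ι) ∈ T then v b else 0) hκ hV
    ?_ ?_ ?_
  · intro b
    split_ifs
    · exact hv b
    · exact le_rfl
  · intro b a
    change ∑ ω with coord i₁ i₂ wd ω = (b, a), u ω ≤ _
    by_cases hz : ∃ ω, coord i₁ i₂ wd ω = (b, a) ∧ u ω ≠ 0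
    · obtain ⟨ω₀, h0, hne⟩ := hz
      rw [coord_eq_iff] at h0
      obtain ⟨h1, h2, h3⟩ := h0
      have hbT : (b : List ι) ∈ T := by
        rw [hT, Finset.mem_image]
        exact ⟨ω₀, Finset.mem_filter.2 ⟨Finset.mem_univ _, hne⟩, h3⟩
      rw [if_pos hbT]
      have h4 := hP ω₀ hne
      rw [← length_split h12 (wd ω₀), h1, h2, h3] at h4
      refine le_trans (fiber_le hF.inj (fun i => (hp i).le) hA hF.le h12 a.1 a.2 b _ ?_) h4
      intro ω hω
      rw [Finset.mem_filter, coord_eq_iff] at hω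
      exact hω.2
    · push Not at hz
      rw [Finset.sum_eq_zero fun ω hω => hz ω (Finset.mem_filter.1 hω).2]
      split_ifs
      · exact mul_nonneg hκ.le (hv b)
      · simp
  · have e1 := Finset.sum_coe_sort (Finset.univ.image (fun ω : Ω => othl i₁ i₂ (wd ω)))
        (fun b => if b ∈ T then v b else 0)
    refine (le_of_eq e1).trans (le_trans ?_ hS)
    rw [← Finset.sum_filter]
    refine Finset.sum_le_sum_of_subset_of_nonneg ?_ fun b _ _ => hv b
    intro b hb
    exact (Finset.mem_filter.1 hb).2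

end construct

omit [DecidableEq ι] [Fintype ι] in
theorem card_le_of_dist {K : Finset ℕ} {D : ℝ} (hD : 0 ≤ D)
    (h : ∀ a ∈ K, ∀ b ∈ K, (a : ℝ) - b ≤ D) : (K.card : ℝ) ≤ D + 1 := by
  rcases K.eq_empty_or_nonempty with rfl | hK
  · simp; linarith
  set m0 := K.min' hK with hm
  have hsub : K ⊆ Finset.Icc m0 (m0 + ⌊D⌋₊) := by
    intro k hk
    rw [Finset.mem_Icc]
    refine ⟨Finset.min'_le _ _ hk, ?_⟩
    have h1 := h k hk m0 (Finset.min'_mem _ _)
    have h2 : m0 ≤ k := Finset.min'_le _ _ hk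
    have h3 : ((k - m0 : ℕ) : ℝ) ≤ D := by push_cast [Nat.cast_sub h2]; exact h1
    have h4 := Nat.le_floor h3
    omega
  have h5 := Finset.card_le_card hsub
  rw [Nat.card_Icc] at h5
  have h6 : (K.card : ℝ) ≤ (⌊D⌋₊ : ℝ) + 1 := by
    have : K.card ≤ ⌊D⌋₊ + 1 := by omega
    exact_mod_cast this
  have := Nat.floor_le hD
  linarith

omit [DecidableEq ι] in
theorem Sl_le {r : ι → ℝ} (hr : ∀ i, r i ≠ 0) (hr1 : ∀ i, |r i| < 1) (w : List ι) :
    Sl r w ≤ w.length * ∑ i, -log |r i| := by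
  have h0 : ∀ i, 0 ≤ -log |r i| := fun i => by
    have := log_neg (abs_pos.2 (hr i)) (hr1 i)
    linarith
  unfold Sl
  induction w with
  | nil => simp
  | cons x w ih =>
    rw [List.map_cons, List.sum_cons, List.length_cons]
    push_cast
    have := Finset.single_le_sum (f := fun i => -log |r i|) (fun i _ => h0 i) (Finset.mem_univ x)
    linarith

/-- conditional entropy of the lattice point: `≥ (1/2) log s - log log s - C` -/
theorem Hc_lower {r p : ι → ℝ} (hr : ∀ i, r i ≠ 0) (hr1 : ∀ i, |r i| < 1) (hp : ∀ i, 0 < p i)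
    (hp1 : ∑ i, p i = 1) {i₁ i₂ : ι} (h12 : i₁ ≠ i₂) {A L Ct chi : ℝ} (hA : 0 < A) (hL : 0 ≤ L)
    (hCt : 0 ≤ Ct) :
    ∃ C : ℝ, 0 ≤ C ∧ ∀ s : ℝ, 3 ≤ s → ∀ (Ω : Type w) [Fintype Ω] (wd : Ω → List ι) (u : Ω → ℝ)
      (hF : Fam r p A L s wd u), (∀ ω, u ω ≠ 0 → Typ p chi Ct s (wd ω)) →
      ∀ {m : ℤ} {W : ℕ} (hW : 1 ≤ W)
        (hwin : ∀ ω, u ω ≠ 0 → m ≤ (wd ω).count i₁ ∧ ((wd ω).count i₁ : ℤ) ≤ m + W)
        {d : ℝ} (hd : d ≠ 0),
      1 / 2 * log s - log (log s) - C ≤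
        (mdata r i₁ i₂ wd hF hL h12 hr (hr1 i₂) hW hwin hd).Hc := by
  have hl : ∀ i, 0 < -log |r i| := fun i => by
    have := log_neg (abs_pos.2 (hr i)) (hr1 i)
    linarith
  set lM : ℝ := ∑ i, -log |r i| with hlM
  have hlM0 : 0 < lM := by
    rw [hlM]
    exact Finset.sum_pos (fun i _ => hl i) ⟨i₁, Finset.mem_univ _⟩
  have hp₁ := hp i₁
  have hp₂ := hp i₂
  have hP2 : p i₁ + p i₂ ≤ 1 := by
    rw [← hp1, ← Finset.sum_pair h12]
    exact Finset.sum_le_sum_of_subset_of_nonneg (Finset.subset_univ _) fun i _ _ => (hp i).le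
  set c : ℝ := 1 / (2 * √((1 - (p i₁ + p i₂)) * (p i₁ * p i₂))) with hc
  set c2 : ℝ := A / √(2 * (p i₁ * p i₂) / lM) with hc2
  refine ⟨|log (A * c * lM)| + |log (6 * Ct + 1)| + |log c2|, by positivity, ?_⟩
  intro s hs Ω _ wd u hF hT m W hW hwin d hd
  have hs0 : 0 < s := by linarith
  have hls : 1 ≤ log s := by
    rw [le_log_iff_exp_le hs0]
    have := exp_one_lt_d9
    linarith
  have hsq : 1 ≤ √s := by rw [one_le_sqrt]; linarith
  have hn : ∀ ω, u ω ≠ 0 → s / lM ≤ ((wd ω).length : ℝ) + 1 := by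
    intro ω hω
    have h1 := (hF.strip ω hω).1
    have h2 := Sl_le hr hr1 (wd ω)
    rw [div_le_iff₀ hlM0]
    nlinarith
  have hlls : 0 ≤ log (log s) := log_nonneg hls
  rcases hP2.lt_or_eq with h3 | h3
  · -- at least three letters
    have hq : 0 < 1 - (p i₁ + p i₂) := by linarith
    have hc0 : 0 < c := by rw [hc]; positivity
    set f : ι → ℝ := fun i => if i = i₁ ∨ i = i₂ then 0 else p i / (1 - (p i₁ + p i₂)) with hf
    have hf0 : ∀ i, 0 ≤ f i := by
      intro i; rw [hf]; dsimp only; split_ifs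
      · exact le_rfl
      · exact div_nonneg (hp i).le hq.le
    have hf1 : ∑ i, f i = 1 := by
      rw [hf]
      have h4 : ∑ i, (if i = i₁ ∨ i = i₂ then 0 else p i / (1 - (p i₁ + p i₂))) =
          ∑ i, p i / (1 - (p i₁ + p i₂)) - ∑ i ∈ ({i₁, i₂} : Finset ι), p i / (1 - (p i₁ + p i₂)) := by
        rw [eq_sub_iff_add_eq, ← Finset.sum_filter_not_add_sum_filter Finset.univ
          (fun i => i = i₁ ∨ i = i₂) (fun i => p i / (1 - (p i₁ + p i₂)))]
        congr 1
        · rw [Finset.sum_filter]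
          refine Finset.sum_congr rfl fun i _ => ?_
          by_cases h : i = i₁ ∨ i = i₂ <;> simp [h]
        · congr 1
          ext i; simp
      rw [h4, ← Finset.sum_div, hp1, Finset.sum_pair h12, ← add_div, ← sub_div, div_self hq.ne']
    have hpl : ∀ w : List ι, pl (fun i => p i / (1 - (p i₁ + p i₂))) (othl i₁ i₂ w) =
        pl f (othl i₁ i₂ w) := by
      intro w
      unfold pl
      congr 1
      refine List.map_congr_left fun i hi => ?_
      unfold othl at hi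
      rw [List.mem_filter] at hi
      have hi2 := of_decide_eq_true hi.2
      rw [hf]
      simp [hi2.1, hi2.2]
    have hV : 0 < 6 * (Ct * (√s * log s)) + 1 := by positivity
    have hκ : 0 < A * c * lM / s := by positivity
    have key := mdata_Hc r i₁ i₂ wd hF hL h12 hr (hr1 i₂) hW hwin hd hp hA.le (v := pl f)
      (κ := A * c * lM / s) (V := 6 * (Ct * (√s * log s)) + 1) hκ hV (pl_nonneg f hf0) ?_ ?_
    · have h5 : log (A * c * lM / s) = log (A * c * lM) - log s := log_div (by positivity) hs0.ne'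
      have h6 : log (6 * (Ct * (√s * log s)) + 1) ≤ log (6 * Ct + 1) + 1 / 2 * log s +
          log (log s) := by
        have h7 : 6 * (Ct * (√s * log s)) + 1 ≤ (6 * Ct + 1) * (√s * log s) := by
          have : 1 ≤ √s * log s := by nlinarith
          nlinarith
        refine (log_le_log hV h7).trans ?_
        rw [log_mul (by positivity) (by positivity), log_mul (by positivity) (by positivity),
          log_sqrt hs0.le]
        linarith
      have h8 := le_abs_self (log (A * c * lM))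
      have h9 := le_abs_self (log (6 * Ct + 1))
      have h10 := abs_nonneg (log c2)
      rw [h5] at key
      linarith
    · intro ω hω
      have h4 := visit_le p hp hp1 i₁ i₂ h12 h3 (wd ω).length ((wd ω).count i₁)
        ((wd ω).count i₂) (othl i₁ i₂ (wd ω))
      rw [hpl, ← hc] at h4
      have h5 := hn ω hω
      have h6 : c / ((wd ω).length + 1) ≤ c * lM / s := by
        rw [div_le_div_iff₀ (by positivity) hs0]
        rw [div_le_iff₀ hlM0] at h5
        nlinarith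
      have h7 := pl_nonneg f hf0 (othl i₁ i₂ (wd ω))
      calc _ ≤ A * (c / ((wd ω).length + 1) * pl f (othl i₁ i₂ (wd ω))) :=
            mul_le_mul_of_nonneg_left h4 hA.le
        _ ≤ A * (c * lM / s * pl f (othl i₁ i₂ (wd ω))) := by gcongr
        _ = _ := by ring
    · refine (sum_pl_le hf0 hf1 _ ((((Finset.univ.filter fun ω => u ω ≠ 0).image
        (fun ω => othl i₁ i₂ (wd ω))).image List.length)) fun b hb =>
          Finset.mem_image_of_mem _ hb).trans ?_
      refine card_le_of_dist (by positivity) ?_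
      have hlen : ∀ a ∈ (((Finset.univ.filter fun ω => u ω ≠ 0).image
          (fun ω => othl i₁ i₂ (wd ω))).image List.length),
          |(a : ℝ) - (s / chi - s * p i₁ / chi - s * p i₂ / chi)| ≤ 3 * (Ct * (√s * log s)) := by
        intro a ha
        rw [Finset.mem_image] at ha
        obtain ⟨b, hb, rfl⟩ := ha
        rw [Finset.mem_image] at hb
        obtain ⟨ω, hω, rfl⟩ := hb
        have h4 := hT ω (Finset.mem_filter.1 hω).2
        have h5 : ((wd ω).count i₁ : ℝ) + (wd ω).count i₂ + (othl i₁ i₂ (wd ω)).length =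
            (wd ω).length := by exact_mod_cast length_split h12 (wd ω)
        have h6 := abs_le.1 h4.1
        have h7 := abs_le.1 (h4.2 i₁)
        have h8 := abs_le.1 (h4.2 i₂)
        rw [abs_le]
        constructor <;> linarith
      intro a ha b hb
      have h4 := abs_le.1 (hlen a ha)
      have h5 := abs_le.1 (hlen b hb)
      linarith
  · -- two letters
    have hall : ∀ i, i = i₁ ∨ i = i₂ := by
      intro i
      by_contra hcon
      push Not at hcon
      have h4 : p i + (p i₁ + p i₂) ≤ 1 := by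
        rw [← Finset.sum_pair h12, ← Finset.sum_insert (by simp [hcon.1, hcon.2]), ← hp1]
        exact Finset.sum_le_sum_of_subset_of_nonneg (Finset.subset_univ _) fun i _ _ => (hp i).le
      have := hp i
      linarith
    have hoth : ∀ w : List ι, othl i₁ i₂ w = [] := by
      intro w
      unfold othl
      rw [List.filter_eq_nil_iff]
      intro i _
      rcases hall i with h | h <;> simp [h]
    have hc20 : 0 < c2 := by rw [hc2]; positivity
    have hκ : 0 < c2 / √s := by positivity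
    have key := mdata_Hc r i₁ i₂ wd hF hL h12 hr (hr1 i₂) hW hwin hd hp hA.le (v := fun _ => 1)
      (κ := c2 / √s) (V := 1) hκ one_pos (fun _ => zero_le_one) ?_ ?_
    · have h5 : log (c2 / √s) = log c2 - 1 / 2 * log s := by
        rw [log_div hc20.ne' (by positivity), log_sqrt hs0.le]; ring
      have h8 := abs_nonneg (log (A * c * lM))
      have h9 := abs_nonneg (log (6 * Ct + 1))
      have h10 := le_abs_self (log c2)
      rw [h5, log_one] at key
      linarith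
    · intro ω hω
      rw [hoth]
      have h4 := visit_le_two p hp i₁ i₂ h12 h3 (wd ω).length ((wd ω).count i₁)
        ((wd ω).count i₂)
      have h5 := hn ω hω
      have h6 : 1 / √((((wd ω).length : ℝ) + 1) * (2 * (p i₁ * p i₂))) ≤
          1 / √(2 * (p i₁ * p i₂) / lM * s) := by
        apply one_div_le_one_div_of_le (by positivity)
        apply sqrt_le_sqrt
        calc 2 * (p i₁ * p i₂) / lM * s = s / lM * (2 * (p i₁ * p i₂)) := by ring
          _ ≤ _ := by gcongr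
      calc _ ≤ A * (1 / √(2 * (p i₁ * p i₂) / lM * s)) :=
            mul_le_mul_of_nonneg_left (h4.trans h6) hA.le
        _ = _ := by rw [sqrt_mul (by positivity), hc2]; field_simp
    · have hsub : (Finset.univ.filter fun ω => u ω ≠ 0).image (fun ω => othl i₁ i₂ (wd ω)) ⊆
          {[]} := by
        intro b hb
        rw [Finset.mem_image] at hb
        obtain ⟨ω, _, rfl⟩ := hb
        rw [Finset.mem_singleton]
        exact hoth _
      have := Finset.card_le_card hsub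
      rw [Finset.card_singleton] at this
      rw [Finset.sum_const, nsmul_eq_mul, mul_one]
      exact_mod_cast this

/-- **saturated windows of the multipliers** -/
theorem mult_sat {r p : ι → ℝ} (hr : ∀ i, r i ≠ 0) (hr1 : ∀ i, |r i| < 1) (hp : ∀ i, 0 < p i)
    (hp1 : ∑ i, p i = 1) {i₁ i₂ : ι} (h12 : i₁ ≠ i₂) {A L Ct chi : ℝ} (hA : 0 < A) (hL : 0 ≤ L)
    (hCt : 0 ≤ Ct) :
    ∃ C s₀ : ℝ, 0 ≤ C ∧ 16 ≤ s₀ ∧ ∀ s : ℝ, s₀ ≤ s → ∀ W : ℕ, √s * log s ^ 2 ≤ W →
      (W : ℝ) ≤ 2 * (√s * log s ^ 2) → ∀ (q : ℕ) (P : ℤ), 1 ≤ q → q ≤ W →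
      0 < |(q : ℝ) * (log |r i₁| / log |r i₂|) - P| →
      |(q : ℝ) * (log |r i₁| / log |r i₂|) - P| ≤ 1 / ((W : ℝ) + 1) →
      (∀ h k : ℤ, h ≠ 0 → |h| ≤ (W : ℤ) →
        |(q : ℝ) * (log |r i₁| / log |r i₂|) - P| ≤ |(h : ℝ) * (log |r i₁| / log |r i₂|) - k|) →
      (∀ h k : ℤ, h ≠ 0 → |h| < (q : ℤ) →
        1 / (2 * (q : ℝ)) ≤ |(h : ℝ) * (log |r i₁| / log |r i₂|) - k|) →
      ∀ (Ω : Type w) [Fintype Ω] (wd : Ω → List ι) (u : Ω → ℝ), Fam r p A L s wd u →
        (∀ ω, u ω ≠ 0 → Typ p chi Ct s (wd ω)) → ∀ d : ℝ, d ≠ 0 →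
      (∀ ζ, ζ = mix u (fun ω => Measure.dirac (d * exp (-s) / ((wd ω).map r).prod)) →
        log q - C * log (log s) ≤
          Hs ζ (|d| * (-log |r i₂| * (1 / (2 * (q : ℝ))))) -
          Hs ζ ((q : ℝ) * (|d| * (-log |r i₂| * (1 / (2 * (q : ℝ)))))) ∧
        log ((W / q + 1 : ℕ) : ℝ) - C * log (log s) ≤
          Hs ζ (|d| * (-log |r i₂| * |(q : ℝ) * (log |r i₁| / log |r i₂|) - P|)) -
          Hs ζ (((W / q + 1 : ℕ) : ℝ) *
            (|d| * (-log |r i₂| * |(q : ℝ) * (log |r i₁| / log |r i₂|) - P|)))) ∧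
      (∀ ζ, ζ = mix u (fun ω => Measure.dirac (d * exp s * ((wd ω).map r).prod)) →
        log q - C * log (log s) ≤
          Hs ζ (|d * exp (-L)| * (-log |r i₂| * (1 / (2 * (q : ℝ))))) -
          Hs ζ ((q : ℝ) * (|d * exp (-L)| * (-log |r i₂| * (1 / (2 * (q : ℝ)))))) ∧
        log ((W / q + 1 : ℕ) : ℝ) - C * log (log s) ≤
          Hs ζ (|d * exp (-L)| * (-log |r i₂| * |(q : ℝ) * (log |r i₁| / log |r i₂|) - P|)) -
          Hs ζ (((W / q + 1 : ℕ) : ℝ) *
            (|d * exp (-L)| * (-log |r i₂| * |(q : ℝ) * (log |r i₁| / log |r i₂|) - P|)))) := by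
  obtain ⟨C1, hC1, hHc⟩ := Hc_lower hr hr1 hp hp1 h12 (A := A) (L := L) (Ct := Ct) (chi := chi)
    hA hL hCt
  set l₂ : ℝ := -log |r i₂| with hl₂
  have hl₂0 : 0 < l₂ := by
    have := log_neg (abs_pos.2 (hr i₂)) (hr1 i₂)
    linarith
  have hθ : -log |r i₁| / l₂ = log |r i₁| / log |r i₂| := by rw [hl₂, neg_div_neg_eq]
  set c1 : ℝ := log (2 * (⌊4 * exp L / l₂⌋₊ + 1 : ℕ)) with hc1
  set c2 : ℝ := log (2 * (2 * ((⌈L / l₂⌉₊ + 3 : ℕ) * (⌈2 * exp (L + l₂)⌉₊ + 1 : ℕ)))) with hc2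
  have hc10 : 0 ≤ c1 := log_nonneg (by
    have : (1 : ℝ) ≤ ((⌊4 * exp L / l₂⌋₊ + 1 : ℕ) : ℝ) := by exact_mod_cast Nat.succ_pos _
    linarith)
  have hc20 : 0 ≤ c2 := log_nonneg (by
    have h1 : (1 : ℝ) ≤ ((⌈L / l₂⌉₊ + 3 : ℕ) : ℝ) := by exact_mod_cast Nat.succ_pos _
    have h2 : (1 : ℝ) ≤ ((⌈2 * exp (L + l₂)⌉₊ + 1 : ℕ) : ℝ) := by exact_mod_cast Nat.succ_pos _
    nlinarith)
  have hlog8 : 0 ≤ log 8 := log_nonneg (by norm_num)
  refine ⟨3 + C1 + c1 + c2 + log 8 + log 2 + log 4, max 16 (exp (2 * Ct)), ?_, le_max_left _ _, ?_⟩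
  · have h1 : 0 ≤ log 2 := log_nonneg (by norm_num)
    have h2 : 0 ≤ log 4 := log_nonneg (by norm_num)
    positivity
  intro s hs W hW1 hW2 q P hq1 hqW hη hηW hmin1 hmin2 Ω _ wd u hF hT d hd
  have hs16 : 16 ≤ s := le_trans (le_max_left _ _) hs
  have hs0 : 0 < s := by linarith
  have hsC : 2 * Ct ≤ log s := by
    rw [le_log_iff_exp_le hs0]; exact le_trans (le_max_right _ _) hs
  have hls : exp 1 ≤ log s := by
    have h1 : log 16 ≤ log s := log_le_log (by norm_num) hs16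
    have h2 : log 16 = 4 * log 2 := by
      rw [show (16 : ℝ) = 2 ^ 4 by norm_num, log_pow]; norm_num
    have h3 := log_two_gt_d9
    have h4 := exp_one_lt_d9
    linarith
  have hls1 : 1 ≤ log s := by
    have := add_one_le_exp (1 : ℝ)
    linarith
  have hls0 : 0 < log s := by linarith
  have hlls : 1 ≤ log (log s) := by rwa [le_log_iff_exp_le hls0]
  have hsq : 1 ≤ √s := by rw [one_le_sqrt]; linarith
  have hq0 : (0 : ℝ) < q := by exact_mod_cast hq1
  have hWpos : 1 ≤ W := le_trans hq1 hqW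
  -- the window
  set T : ℝ := Ct * (√s * log s) with hTd
  have hTW : 2 * T ≤ W := by
    refine le_trans ?_ hW1
    rw [hTd]
    have : 0 ≤ √s * log s := by positivity
    nlinarith
  have hwin : ∀ ω, u ω ≠ 0 → ⌈s * p i₁ / chi - T⌉ ≤ (wd ω).count i₁ ∧
      ((wd ω).count i₁ : ℤ) ≤ ⌈s * p i₁ / chi - T⌉ + W := by
    intro ω hω
    have h1 := abs_le.1 ((hT ω hω).2 i₁)
    have h2 := Int.le_ceil (s * p i₁ / chi - T)
    constructor
    · rw [Int.ceil_le]
      push_cast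
      linarith
    · have : ((wd ω).count i₁ : ℝ) ≤ ⌈s * p i₁ / chi - T⌉ + W := by linarith
      exact_mod_cast this
  have hH := hHc s (by linarith) Ω wd u hF hT hWpos hwin hd
  set M := mdata r i₁ i₂ wd hF hL h12 hr (hr1 i₂) hWpos hwin hd with hM
  -- sizes
  have hK : ((W / q + 1 : ℕ) : ℝ) ≤ 4 * (√s * log s ^ 2) / q := by
    push_cast
    have h1 : ((W / q : ℕ) : ℝ) ≤ W / q := Nat.cast_div_le
    have h2 : (1 : ℝ) ≤ W / q := by
      rw [one_le_div hq0]; exact_mod_cast hqW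
    have h3 : (W : ℝ) / q ≤ 2 * (√s * log s ^ 2) / q := by gcongr
    have h4 : 4 * (√s * log s ^ 2) / q = 2 * (√s * log s ^ 2) / q + 2 * (√s * log s ^ 2) / q := by
      ring
    linarith
  have hKpos : (0 : ℝ) < ((W / q + 1 : ℕ) : ℝ) := by exact_mod_cast Nat.succ_pos _
  have hlogK : log ((W / q + 1 : ℕ) : ℝ) ≤ log 4 + 1 / 2 * log s + 2 * log (log s) - log q := by
    refine (log_le_log hKpos hK).trans (le_of_eq ?_)
    rw [log_div (by positivity) hq0.ne', log_mul (by norm_num) (by positivity),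
      log_mul (by positivity) (by positivity), log_sqrt hs0.le, log_pow]
    push_cast
    ring
  have hlog2K : log ((2 * (W / q + 1) : ℕ) : ℝ) ≤
      log 8 + 1 / 2 * log s + 2 * log (log s) - log q := by
    have : ((2 * (W / q + 1) : ℕ) : ℝ) = 2 * ((W / q + 1 : ℕ) : ℝ) := by push_cast; ring
    rw [this, log_mul (by norm_num) hKpos.ne']
    have h8 : log 8 = log 2 + log 4 := by
      rw [← log_mul (by norm_num) (by norm_num)]; norm_num
    linarith
  -- the main computation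
  have hlog2 : 0 ≤ log 2 := log_nonneg (by norm_num)
  have hlog4 : 0 ≤ log 4 := log_nonneg (by norm_num)
  have bound1 : ∀ H h1 h2 : ℝ, 1 / 2 * log s - log (log s) - C1 ≤ H →
      H - log ((2 * (W / q + 1) : ℕ) : ℝ) - log (2 * (⌊4 * exp L / l₂⌋₊ + 1 : ℕ)) ≤ h1 - h2 →
      log q - (3 + C1 + c1 + c2 + log 8 + log 2 + log 4) * log (log s) ≤ h1 - h2 := by
    intro H h1 h2 hH h
    refine le_trans ?_ h
    rw [← hc1]
    have e1 : (C1 + c1 + c2 + log 8 + log 2 + log 4) * 1 ≤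
        (C1 + c1 + c2 + log 8 + log 2 + log 4) * log (log s) := by gcongr
    linarith
  have bound2 : ∀ H h1 h2 : ℝ, 1 / 2 * log s - log (log s) - C1 ≤ H →
      H - log 2 - log (2 * (2 * (q * ((⌈L / l₂⌉₊ + 3 : ℕ) *
      (⌈2 * exp (L + l₂)⌉₊ + 1 : ℕ))))) ≤ h1 - h2 →
      log ((W / q + 1 : ℕ) : ℝ) - (3 + C1 + c1 + c2 + log 8 + log 2 + log 4) * log (log s) ≤
        h1 - h2 := by
    intro H h1 h2 hH h
    refine le_trans ?_ h
    have e0 : log (2 * (2 * (q * ((⌈L / l₂⌉₊ + 3 : ℕ) * (⌈2 * exp (L + l₂)⌉₊ + 1 : ℕ))))) =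
        log q + c2 := by
      rw [hc2, ← log_mul hq0.ne' (by positivity)]
      congr 1
      push_cast
      ring
    rw [e0]
    have e1 : (C1 + c1 + c2 + log 8 + log 2 + log 4) * 1 ≤
        (C1 + c1 + c2 + log 8 + log 2 + log 4) * log (log s) := by gcongr
    linarith
  refine ⟨?_, ?_⟩
  · intro ζ hζ
    rw [mdata_law r i₁ i₂ wd hF hL h12 hr (hr1 i₂) hWpos hwin hd, ← hM] at hζ
    rw [hζ]
    constructor
    · have := M.sat_mid (q := q) hq1 (by
        intro h k h0 hlt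
        have := hmin2 h k h0 hlt
        change 1 / (2 * (q : ℝ)) ≤ |(h : ℝ) * (-log |r i₁| / l₂) - k|
        rwa [hθ])
      exact bound1 _ _ _ hH this
    · have := M.sat_fine (q := q) (P := P) hq1
        (by change 0 < |(q : ℝ) * (-log |r i₁| / l₂) - P|; rwa [hθ])
        (by change |(q : ℝ) * (-log |r i₁| / l₂) - P| ≤ _; rwa [hθ])
        (by
          intro h k h0 hlt
          have := hmin1 h k h0 hlt
          change |(q : ℝ) * (-log |r i₁| / l₂) - P| ≤ |(h : ℝ) * (-log |r i₁| / l₂) - k|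
          rwa [hθ])
      have h2 := bound2 _ _ _ hH this
      change _ ≤ Hs M.law (|d| * (l₂ * |(q : ℝ) * (-log |r i₁| / l₂) - P|)) -
        Hs M.law (((W / q + 1 : ℕ) : ℝ) * (|d| * (l₂ * |(q : ℝ) * (-log |r i₁| / l₂) - P|))) at h2
      rwa [hθ] at h2
  · intro ζ hζ
    rw [mdata_mirror_law r i₁ i₂ wd hF hL h12 hr (hr1 i₂) hWpos hwin hd, ← hM] at hζ
    rw [hζ]
    constructor
    · have := M.mirror.sat_mid (q := q) hq1 (by
        intro h k h0 hlt
        have := hmin2 h k h0 hlt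
        change 1 / (2 * (q : ℝ)) ≤ |(h : ℝ) * (-log |r i₁| / l₂) - k|
        rwa [hθ])
      exact bound1 _ _ _ hH this
    · have := M.mirror.sat_fine (q := q) (P := P) hq1
        (by change 0 < |(q : ℝ) * (-log |r i₁| / l₂) - P|; rwa [hθ])
        (by change |(q : ℝ) * (-log |r i₁| / l₂) - P| ≤ _; rwa [hθ])
        (by
          intro h k h0 hlt
          have := hmin1 h k h0 hlt
          change |(q : ℝ) * (-log |r i₁| / l₂) - P| ≤ |(h : ℝ) * (-log |r i₁| / l₂) - k|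
          rwa [hθ])
      have h2 := bound2 _ _ _ hH this
      change _ ≤ Hs M.mirror.law (|d * exp (-L)| * (l₂ * |(q : ℝ) * (-log |r i₁| / l₂) - P|)) -
        Hs M.mirror.law (((W / q + 1 : ℕ) : ℝ) *
          (|d * exp (-L)| * (l₂ * |(q : ℝ) * (-log |r i₁| / l₂) - P|))) at h2
      rwa [hθ] at h2

end

end Crest.Agent.R98.Mult
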