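import Crest.Agent.R98.MultEnt
import Crest.Agent.R98.MultNT

/-!
R98 / MultSat (helper399): saturated windows of the law of the multipliers
`x = ± exp (a₁ ℓ₁ + a₂ ℓ₂ + V b - s) d`.
-/

set_option autoImplicit false

open MeasureTheory Set Real

namespace Crest.Agent.R98.Mult

theorem exp_sep {u v : ℝ} (hu : 0 ≤ u) (hv : 0 ≤ v) : |u - v| ≤ |exp u - exp v| := by
  have key : ∀ {u v : ℝ}, 0 ≤ v → v ≤ u → u - v ≤ exp u - exp v := by
    intro u v hv huv
    have h1 : exp u = exp v * exp (u - v) := by rw [← exp_add]; congr 1; ring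
    have h2 := add_one_le_exp (u - v)
    have h3 : 1 ≤ exp v := one_le_exp hv
    rw [h1]
    nlinarith
  rcases le_total v u with h | h
  · have := key hv h
    rw [abs_of_nonneg (by linarith), abs_of_nonneg (by linarith)]; exact this
  · have := key hu h
    rw [abs_sub_comm, abs_sub_comm (exp u), abs_of_nonneg (by linarith),
      abs_of_nonneg (by linarith)]; exact this

theorem exp_lip {u v D : ℝ} (hu : u ≤ D) (hv : v ≤ D) : |exp u - exp v| ≤ exp D * |u - v| := by
  have key : ∀ {u v : ℝ}, u ≤ D → v ≤ u → exp u - exp v ≤ exp D * (u - v) := by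
    intro u v hu huv
    have h1 : exp v = exp u * exp (v - u) := by rw [← exp_add]; congr 1; ring
    have h2 := add_one_le_exp (v - u)
    have h3 : exp u ≤ exp D := exp_le_exp.2 hu
    have h4 := exp_pos u
    rw [h1]
    nlinarith
  rcases le_total v u with h | h
  · rw [abs_of_nonneg (by linarith [exp_le_exp.2 h]), abs_of_nonneg (by linarith)]
    exact key hu h
  · rw [abs_sub_comm, abs_sub_comm u, abs_of_nonneg (by linarith [exp_le_exp.2 h]),
      abs_of_nonneg (by linarith)]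
    exact key hv h

section

variable {α β : Type*} [Fintype α] [Fintype β]

/-- the data of a law of multipliers (labels `b`, lattice coordinates `a₁, a₂`) -/
structure MData (α β : Type*) [Fintype α] [Fintype β] where
  /-- lengths -/
  l₁ : ℝ
  l₂ : ℝ
  l₂pos : 0 < l₂
  /-- weights -/
  P : β → α → ℝ
  P0 : ∀ b a, 0 ≤ P b a
  P1 : ∑ b, ∑ a, P b a = 1
  a₁ : α → ℤ
  a₂ : α → ℤ
  inj : ∀ a a', a₁ a = a₁ a' → a₂ a = a₂ a' → a = a'
  V : β → ℝ
  s : ℝ
  D : ℝ
  D0 : 0 ≤ D
  strip : ∀ b a, P b a ≠ 0 → a₁ a * l₁ + a₂ a * l₂ + V b ∈ Icc s (s + D)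
  m : ℤ
  W : ℕ
  W1 : 1 ≤ W
  window : ∀ b a, P b a ≠ 0 → m ≤ a₁ a ∧ a₁ a ≤ m + W
  /-- signs -/
  σ : β → α → Bool
  d : ℝ
  d0 : d ≠ 0

namespace MData

variable (M : MData α β)

/-- signed size -/
noncomputable def sd (t : Bool) : ℝ := if t then M.d else -M.d

theorem abs_sd (t : Bool) : |M.sd t| = |M.d| := by
  unfold sd; cases t <;> simp

/-- the multipliers -/
noncomputable def x (b : β) (a : α) : ℝ :=
  M.sd (M.σ b a) * exp (M.a₁ a * M.l₁ + M.a₂ a * M.l₂ + M.V b - M.s)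

/-- the law of the multipliers -/
noncomputable def law : Measure ℝ :=
  mix (fun q : β × α => M.P q.1 q.2) fun q => Measure.dirac (M.x q.1 q.2)

/-- conditional entropy of the lattice point given the label -/
noncomputable def Hc : ℝ := ∑ b, ∑ a, negMulLog (M.P b a) - ∑ b, negMulLog (∑ a, M.P b a)

theorem d0' : 0 < |M.d| := abs_pos.2 M.d0

/-- separation of the multipliers -/
theorem x_sep {b : β} {a a' : α} (ha : M.P b a ≠ 0) (ha' : M.P b a' ≠ 0)
    (hs : M.σ b a = M.σ b a') :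
    |M.d| * (M.l₂ * |((M.a₁ a - M.a₁ a' : ℤ) : ℝ) * (M.l₁ / M.l₂) -
      ((M.a₂ a' - M.a₂ a : ℤ) : ℝ)|) ≤ |M.x b a - M.x b a'| := by
  have h1 := M.strip b a ha
  have h2 := M.strip b a' ha'
  unfold x
  rw [hs, ← mul_sub, abs_mul, abs_sd]
  refine mul_le_mul_of_nonneg_left ?_ (abs_nonneg _)
  refine le_trans (le_of_eq ?_) (exp_sep (by linarith [h1.1]) (by linarith [h2.1]))
  have h3 := M.l₂pos
  rw [← abs_of_pos h3, ← abs_mul, abs_of_pos h3]
  congr 1
  push_cast
  field_simp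
  ring

/-- case (b): the window just above the scale of the best denominator -/
theorem sat_fine {q : ℕ} {P : ℤ} (hq1 : 1 ≤ q)
    (hη : 0 < |(q : ℝ) * (M.l₁ / M.l₂) - P|)
    (hηW : |(q : ℝ) * (M.l₁ / M.l₂) - P| ≤ 1 / ((M.W : ℝ) + 1))
    (hmin : ∀ h k : ℤ, h ≠ 0 → |h| ≤ (M.W : ℤ) →
      |(q : ℝ) * (M.l₁ / M.l₂) - P| ≤ |(h : ℝ) * (M.l₁ / M.l₂) - k|) :
    M.Hc - log 2 - log (2 * (2 * (q * ((⌈M.D / M.l₂⌉₊ + 3 : ℕ) *
      (⌈2 * exp (M.D + M.l₂)⌉₊ + 1 : ℕ))))) ≤
      Hs M.law (|M.d| * (M.l₂ * |(q : ℝ) * (M.l₁ / M.l₂) - P|)) -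
      Hs M.law (((M.W / q + 1 : ℕ) : ℝ) * (|M.d| * (M.l₂ * |(q : ℝ) * (M.l₁ / M.l₂) - P|))) := by
  classical
  set θ : ℝ := M.l₁ / M.l₂ with hθ
  set η : ℝ := |(q : ℝ) * θ - P| with hηd
  have hl2 := M.l₂pos
  have hd := M.d0'
  set δ : ℝ := |M.d| * (M.l₂ * η) with hδd
  have hδ : 0 < δ := by positivity
  set K : ℕ := M.W / q + 1 with hK
  have hK0 : 0 < K := Nat.succ_pos _
  have hKr : (0 : ℝ) < K := by exact_mod_cast hK0
  have hq0 : (0 : ℝ) < q := by exact_mod_cast hq1
  set T : ℕ := ⌈M.D / M.l₂⌉₊ + 3 with hT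
  set E : ℕ := ⌈2 * exp (M.D + M.l₂)⌉₊ + 1 with hE
  have hW1 : (1 : ℝ) ≤ M.W := by exact_mod_cast M.W1
  have hη1 : η < 1 := by
    refine hηW.trans_lt ?_
    rw [div_lt_one (by positivity)]; linarith
  have : NeZero q := ⟨by omega⟩
  have : NeZero T := ⟨by omega⟩
  have : NeZero E := ⟨by omega⟩
  -- base points
  set base : β → ℕ → ℝ := fun b r => ((M.m : ℝ) + r) * M.l₁ + M.V b with hbase
  set c0 : β → ℕ → ℤ := fun b r => ⌊(M.s - base b r) / M.l₂⌋ - 1 with hc0
  set c : β → Bool × Fin q × Fin T × Fin E → ℝ := fun b κ =>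
    M.sd κ.1 * exp (base b κ.2.1 + ((c0 b κ.2.1 : ℝ) + (κ.2.2.1 : ℕ)) * M.l₂ - M.s) -
      exp (M.D + M.l₂) * (K * δ) + (κ.2.2.2 : ℕ) * (K * δ) with hc
  have hsat := saturation (P := M.P) M.P0 M.P1 M.x hδ hK0 (M := 2) ?_
    (κ := Bool × Fin q × Fin T × Fin E) c ?_
  · have hcard : (Fintype.card (Bool × Fin q × Fin T × Fin E) : ℝ) = 2 * (q * ((T : ℝ) * E)) := by
      simp [Fintype.card_prod]
    rw [hcard] at hsat
    unfold MData.law MData.Hc
    push_cast at hsat ⊢
    exact hsat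
  · -- multiplicity
    intro b y
    have hinj : Set.InjOn (fun a => M.σ b a)
        (↑(Finset.univ.filter fun a => M.P b a ≠ 0 ∧ M.x b a ∈ Ico y (y + δ)) : Set α) := by
      intro a ha a' ha' hs
      rw [Finset.mem_coe, Finset.mem_filter] at ha ha'
      have h1 := M.x_sep ha.2.1 ha'.2.1 hs
      have h2 : |M.x b a - M.x b a'| < δ := by
        rw [abs_lt]
        constructor
        · linarith [ha.2.2.1, ha'.2.2.2]
        · linarith [ha.2.2.2, ha'.2.2.1]
      have h3 : |((M.a₁ a - M.a₁ a' : ℤ) : ℝ) * θ - ((M.a₂ a' - M.a₂ a : ℤ) : ℝ)| < η := by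
        have := h1.trans_lt h2
        rw [hδd] at this
        have h4 := lt_of_mul_lt_mul_left this (abs_nonneg _)
        exact lt_of_mul_lt_mul_left h4 hl2.le
      by_cases hh : M.a₁ a - M.a₁ a' = 0
      · have h5 : M.a₂ a' - M.a₂ a = 0 := by
          rw [hh] at h3
          push_cast at h3
          rw [zero_mul, zero_sub, abs_neg] at h3
          have h6 : |((M.a₂ a' - M.a₂ a : ℤ) : ℝ)| < 1 := by push_cast; linarith
          by_contra hne
          have := Int.one_le_abs hne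
          have h7 : (1 : ℝ) ≤ |((M.a₂ a' - M.a₂ a : ℤ) : ℝ)| := by exact_mod_cast this
          linarith
        exact M.inj a a' (by omega) (by omega)
      · exfalso
        have h5 := M.window b a ha.2.1
        have h6 := M.window b a' ha'.2.1
        have h7 := hmin (M.a₁ a - M.a₁ a') (M.a₂ a' - M.a₂ a) hh (by rw [abs_le]; constructor <;> omega)
        linarith
    have := Finset.card_le_card_of_injOn (t := (Finset.univ : Finset Bool)) (fun a => M.σ b a)
      (fun _ _ => Finset.mem_coe.2 (Finset.mem_univ _)) hinj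
    simpa using this
  · -- cover
    intro b a ha
    have hst := M.strip b a ha
    have hwi := M.window b a ha
    set i : ℕ := (M.a₁ a - M.m).toNat with hi
    have hi' : (i : ℤ) = M.a₁ a - M.m := Int.toNat_of_nonneg (by omega)
    have hiW : i ≤ M.W := by omega
    set r : ℕ := i % q with hr
    set t : ℕ := i / q with ht
    have hrt : i = r + q * t := by rw [hr, ht]; exact (Nat.mod_add_div i q).symm
    have hrq : r < q := Nat.mod_lt _ (by omega)
    have htK : t < K := by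
      rw [hK, ht]; exact Nat.lt_succ_of_le (Nat.div_le_div_right hiW)
    have htr : (t : ℝ) * η ≤ 1 := by
      have h1 : (t : ℝ) ≤ M.W := by
        have : t ≤ i := Nat.div_le_self _ _
        exact_mod_cast this.trans hiW
      calc (t : ℝ) * η ≤ M.W * (1 / ((M.W : ℝ) + 1)) := by gcongr
        _ ≤ 1 := by rw [mul_one_div, div_le_one (by positivity)]; linarith
    set cc : ℤ := t * P + M.a₂ a with hcc
    set L : ℝ := M.a₁ a * M.l₁ + M.a₂ a * M.l₂ + M.V b with hL
    have ha1 : (M.a₁ a : ℝ) = M.m + r + q * t := by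
      have h1 : M.a₁ a = M.m + r + q * t := by
        have : (i : ℤ) = (r : ℤ) + q * t := by exact_mod_cast hrt
        omega
      rw [h1]; push_cast; ring
    have hLeq : L = base b r + cc * M.l₂ + t * ((q * θ - P) * M.l₂) := by
      rw [hL, hbase, hcc, ha1, hθ]
      push_cast
      field_simp
      ring
    have hsm : |(t : ℝ) * ((q * θ - P) * M.l₂)| ≤ M.l₂ := by
      rw [abs_mul, abs_mul, abs_of_pos hl2, ← hηd, abs_of_nonneg (Nat.cast_nonneg t)]
      calc (t : ℝ) * (η * M.l₂) = (t * η) * M.l₂ := by ring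
        _ ≤ 1 * M.l₂ := by gcongr
        _ = M.l₂ := one_mul _
    have hsm' := abs_le.1 hsm
    -- the index of `cc`
    have hcc0 : (c0 b r : ℤ) ≤ cc := by
      have h1 : ((M.s - base b r) / M.l₂) - 1 ≤ cc := by
        rw [sub_le_iff_le_add, div_le_iff₀ hl2]
        nlinarith [hst.1]
      have h2 : (⌊(M.s - base b r) / M.l₂⌋ : ℝ) ≤ (cc : ℝ) + 1 :=
        (Int.floor_le _).trans (by linarith)
      have h3 : ⌊(M.s - base b r) / M.l₂⌋ ≤ cc + 1 := by exact_mod_cast h2
      rw [hc0]; simp only; omega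
    set g : ℕ := (cc - c0 b r).toNat with hg
    have hg' : (g : ℤ) = cc - c0 b r := Int.toNat_of_nonneg (by omega)
    have hgT : g < T := by
      have h1 : (cc : ℝ) ≤ (M.s - base b r) / M.l₂ + M.D / M.l₂ + 1 := by
        rw [← add_div, div_add_one hl2.ne', le_div_iff₀ hl2]
        nlinarith [hst.2]
      have h2 : (M.s - base b r) / M.l₂ < (⌊(M.s - base b r) / M.l₂⌋ : ℝ) + 1 :=
        Int.lt_floor_add_one _
      have h3 : M.D / M.l₂ ≤ (⌈M.D / M.l₂⌉₊ : ℝ) := Nat.le_ceil _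
      have h4 : ((cc - c0 b r : ℤ) : ℝ) < (T : ℝ) := by
        rw [hc0, hT]; push_cast; linarith
      have h5 : ((g : ℤ) : ℝ) < ((T : ℤ) : ℝ) := by rw [hg']; exact_mod_cast h4
      exact_mod_cast h5
    -- centre
    set u : ℝ := L - M.s with hu
    set u0 : ℝ := base b r + ((c0 b r : ℝ) + (g : ℕ)) * M.l₂ - M.s with hu0
    have hccr : (c0 b r : ℝ) + (g : ℕ) = (cc : ℝ) := by
      have : (c0 b r : ℤ) + (g : ℤ) = cc := by omega
      exact_mod_cast this
    have huu : u = u0 + t * ((q * θ - P) * M.l₂) := by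
      rw [hu, hu0, hccr, hLeq]; ring
    have hx : M.x b a = M.sd (M.σ b a) * exp u := by
      rw [hu, hL]; rfl
    have hdist : |M.x b a - M.sd (M.σ b a) * exp u0| ≤ exp (M.D + M.l₂) * (K * δ) := by
      rw [hx, ← mul_sub, abs_mul, abs_sd]
      have h1 : |exp u - exp u0| ≤ exp (M.D + M.l₂) * |u - u0| := by
        refine exp_lip ?_ ?_
        · rw [hu]; linarith [hst.2]
        · have := hst.2; rw [hu] at huu; linarith
      have h2 : |u - u0| ≤ K * (M.l₂ * η) := by
        have : u - u0 = t * ((q * θ - P) * M.l₂) := by rw [huu]; ring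
        rw [this, abs_mul, abs_mul, abs_of_pos hl2, ← hηd, abs_of_nonneg (Nat.cast_nonneg t)]
        have h3 : (t : ℝ) ≤ K := by exact_mod_cast htK.le
        calc (t : ℝ) * (η * M.l₂) ≤ K * (η * M.l₂) := by gcongr
          _ = _ := by ring
      calc |M.d| * |exp u - exp u0| ≤ |M.d| * (exp (M.D + M.l₂) * (K * (M.l₂ * η))) := by
            refine mul_le_mul_of_nonneg_left (h1.trans ?_) (abs_nonneg _)
            gcongr
        _ = exp (M.D + M.l₂) * (K * δ) := by rw [hδd]; ring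
    have hdist' := abs_le.1 hdist
    have hKδ : 0 < (K : ℝ) * δ := by positivity
    set z : ℝ := (M.x b a - (M.sd (M.σ b a) * exp u0 - exp (M.D + M.l₂) * (K * δ))) / (K * δ) with hz
    have hz0 : 0 ≤ z := div_nonneg (by linarith) hKδ.le
    have hzE : z ≤ 2 * exp (M.D + M.l₂) := by
      rw [hz, div_le_iff₀ hKδ]; linarith
    have heE : ⌊z⌋₊ < E := by
      rw [hE, Nat.lt_succ_iff]
      exact Nat.floor_le_of_le (hzE.trans (Nat.le_ceil _))
    refine ⟨(M.σ b a, ⟨r, hrq⟩, ⟨g, hgT⟩, ⟨⌊z⌋₊, heE⟩), ?_, ?_⟩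
    · have h1 : (⌊z⌋₊ : ℝ) * (K * δ) ≤ z * (K * δ) := by
        gcongr; exact Nat.floor_le hz0
      have h2 : z * (K * δ) = M.x b a - (M.sd (M.σ b a) * exp u0 - exp (M.D + M.l₂) * (K * δ)) := by
        rw [hz]; exact div_mul_cancel₀ _ hKδ.ne'
      simp only [hc]
      rw [← hu0]
      linarith
    · have h1 : z * (K * δ) ≤ ((⌊z⌋₊ : ℝ) + 1) * (K * δ) := by
        gcongr; exact (Nat.lt_floor_add_one z).le
      have h2 : z * (K * δ) = M.x b a - (M.sd (M.σ b a) * exp u0 - exp (M.D + M.l₂) * (K * δ)) := by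
        rw [hz]; exact div_mul_cancel₀ _ hKδ.ne'
      have h3 : ((⌊z⌋₊ : ℝ) + 1) * (K * δ) = (⌊z⌋₊ : ℝ) * (K * δ) + K * δ := by ring
      simp only [hc]
      rw [← hu0]
      linarith

/-- case (a): the window `[1, q]` -/
theorem sat_mid {q : ℕ} (hq1 : 1 ≤ q)
    (hmin : ∀ h k : ℤ, h ≠ 0 → |h| < (q : ℤ) →
      1 / (2 * (q : ℝ)) ≤ |(h : ℝ) * (M.l₁ / M.l₂) - k|) :
    M.Hc - log ((2 * (M.W / q + 1) : ℕ) : ℝ) - log (2 * (⌊4 * exp M.D / M.l₂⌋₊ + 1 : ℕ)) ≤
      Hs M.law (|M.d| * (M.l₂ * (1 / (2 * (q : ℝ))))) -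
      Hs M.law ((q : ℝ) * (|M.d| * (M.l₂ * (1 / (2 * (q : ℝ)))))) := by
  classical
  set θ : ℝ := M.l₁ / M.l₂ with hθ
  have hl2 := M.l₂pos
  have hd := M.d0'
  have hq0 : (0 : ℝ) < q := by exact_mod_cast hq1
  have hq1' : (1 : ℝ) ≤ q := by exact_mod_cast hq1
  set η : ℝ := 1 / (2 * (q : ℝ)) with hηd
  have hη : 0 < η := by positivity
  have hη1 : η < 1 := by
    rw [hηd, div_lt_one (by positivity)]; linarith
  set δ : ℝ := |M.d| * (M.l₂ * η) with hδd
  have hδ : 0 < δ := by positivity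
  set N : ℕ := ⌊4 * exp M.D / M.l₂⌋₊ + 1 with hN
  have : NeZero N := ⟨by omega⟩
  have hqδ : (q : ℝ) * δ = |M.d| * M.l₂ / 2 := by
    rw [hδd, hηd]; field_simp
  have hqδ0 : 0 < (q : ℝ) * δ := by positivity
  set c : β → Fin N → ℝ := fun _ i => -(|M.d| * exp M.D) + (i : ℕ) * (q * δ) with hc
  have hsat := saturation (P := M.P) M.P0 M.P1 M.x hδ (show 0 < q by omega)
    (M := 2 * (M.W / q + 1)) ?_ (κ := Fin N) c ?_
  · rw [Fintype.card_fin] at hsat
    unfold MData.law MData.Hc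
    exact hsat
  · -- multiplicity
    intro b y
    set S := Finset.univ.filter fun a => M.P b a ≠ 0 ∧ M.x b a ∈ Ico y (y + δ) with hS
    set f : α → Bool × ℕ := fun a => (M.σ b a, (M.a₁ a - M.m).toNat / q) with hf
    have hmaps : Set.MapsTo f (↑S) (↑((Finset.univ : Finset Bool) ×ˢ Finset.range (M.W / q + 1)) :
        Set (Bool × ℕ)) := by
      intro a ha
      rw [Finset.mem_coe, hS, Finset.mem_filter] at ha
      have hwi := M.window b a ha.2.1
      rw [Finset.mem_coe, Finset.mem_product]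
      refine ⟨Finset.mem_univ _, ?_⟩
      rw [Finset.mem_range]
      exact Nat.lt_succ_of_le (Nat.div_le_div_right (by omega))
    have hinj : Set.InjOn f (↑S : Set α) := by
      intro a ha a' ha' hff
      rw [Finset.mem_coe, hS, Finset.mem_filter] at ha ha'
      rw [hf] at hff
      simp only [Prod.mk.injEq] at hff
      obtain ⟨hs, hdiv⟩ := hff
      have h1 := M.x_sep ha.2.1 ha'.2.1 hs
      have h2 : |M.x b a - M.x b a'| < δ := by
        rw [abs_lt]
        constructor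
        · linarith [ha.2.2.1, ha'.2.2.2]
        · linarith [ha.2.2.2, ha'.2.2.1]
      have h3 : |((M.a₁ a - M.a₁ a' : ℤ) : ℝ) * θ - ((M.a₂ a' - M.a₂ a : ℤ) : ℝ)| < η := by
        have := h1.trans_lt h2
        rw [hδd] at this
        have h4 := lt_of_mul_lt_mul_left this (abs_nonneg _)
        exact lt_of_mul_lt_mul_left h4 hl2.le
      have h5 := M.window b a ha.2.1
      have h6 := M.window b a' ha'.2.1
      by_cases hh : M.a₁ a - M.a₁ a' = 0
      · have h5 : M.a₂ a' - M.a₂ a = 0 := by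
          rw [hh] at h3
          push_cast at h3
          rw [zero_mul, zero_sub, abs_neg] at h3
          have h6 : |((M.a₂ a' - M.a₂ a : ℤ) : ℝ)| < 1 := by push_cast; linarith
          by_contra hne
          have := Int.one_le_abs hne
          have h7 : (1 : ℝ) ≤ |((M.a₂ a' - M.a₂ a : ℤ) : ℝ)| := by exact_mod_cast this
          linarith
        exact M.inj a a' (by omega) (by omega)
      · exfalso
        have h8 : |M.a₁ a - M.a₁ a'| < (q : ℤ) := by
          have e1 : ((M.a₁ a - M.m).toNat : ℤ) = M.a₁ a - M.m := Int.toNat_of_nonneg (by omega)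
          have e2 : ((M.a₁ a' - M.m).toNat : ℤ) = M.a₁ a' - M.m := Int.toNat_of_nonneg (by omega)
          set i := (M.a₁ a - M.m).toNat
          set i' := (M.a₁ a' - M.m).toNat
          have e3 : q * (i / q) + i % q = i := Nat.div_add_mod i q
          have e4 : q * (i' / q) + i' % q = i' := Nat.div_add_mod i' q
          have e5 : i % q < q := Nat.mod_lt _ (by omega)
          have e6 : i' % q < q := Nat.mod_lt _ (by omega)
          rw [hdiv] at e3
          rw [abs_lt]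
          constructor <;> omega
        have h7 := hmin (M.a₁ a - M.a₁ a') (M.a₂ a' - M.a₂ a) hh h8
        linarith
    have := Finset.card_le_card_of_injOn f hmaps hinj
    simpa [Finset.card_product] using this
  · -- cover
    intro b a ha
    have hst := M.strip b a ha
    have hxle : |M.x b a| ≤ |M.d| * exp M.D := by
      unfold MData.x
      rw [abs_mul, abs_sd, abs_of_pos (exp_pos _)]
      refine mul_le_mul_of_nonneg_left (exp_le_exp.2 ?_) (abs_nonneg _)
      linarith [hst.2]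
    have hx := abs_le.1 hxle
    set z : ℝ := (M.x b a + |M.d| * exp M.D) / (q * δ) with hz
    have hz0 : 0 ≤ z := div_nonneg (by linarith) hqδ0.le
    have hzN : z ≤ 4 * exp M.D / M.l₂ := by
      rw [hz, div_le_iff₀ hqδ0, hqδ]
      have : 4 * exp M.D / M.l₂ * (|M.d| * M.l₂ / 2) = 2 * (|M.d| * exp M.D) := by
        field_simp; ring
      rw [this]; linarith
    have hiN : ⌊z⌋₊ < N := by
      rw [hN, Nat.lt_succ_iff]
      exact Nat.floor_le_floor hzN
    have h2 : z * (q * δ) = M.x b a + |M.d| * exp M.D := by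
      rw [hz]; exact div_mul_cancel₀ _ hqδ0.ne'
    refine ⟨⟨⌊z⌋₊, hiN⟩, ?_, ?_⟩
    · have h1 : (⌊z⌋₊ : ℝ) * (q * δ) ≤ z * (q * δ) := by
        gcongr; exact Nat.floor_le hz0
      simp only [hc]
      linarith
    · have h1 : z * (q * δ) ≤ ((⌊z⌋₊ : ℝ) + 1) * (q * δ) := by
        gcongr; exact (Nat.lt_floor_add_one z).le
      have h3 : ((⌊z⌋₊ : ℝ) + 1) * (q * δ) = (⌊z⌋₊ : ℝ) * (q * δ) + q * δ := by ring
      simp only [hc]
      linarith

end MData

end

end Crest.Agent.R98.Mult
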