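import Crest.Agent.R98.MultBinom

/-!
Row 98, module MULT, part 2: exact formula (upper bound) for the probability that a random word of
length `n` has `a₁` letters `i₁`, `a₂` letters `i₂` and the subword `b` of the other letters, and
the local bound `≤ C/(n+1) * p(b)`.
-/

set_option autoImplicit false

open Finset

namespace Crest.Agent.R98.Mult

variable {ι : Type*} [DecidableEq ι]

/-- number of letters `i` in the word `w`. -/
def cnt (i : ι) {n : ℕ} (w : Fin n → ι) : ℕ := (List.ofFn w).count i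

/-- subword of the letters different from `i₁`, `i₂`. -/
def oth (i₁ i₂ : ι) {n : ℕ} (w : Fin n → ι) : List ι :=
  (List.ofFn w).filter (fun i => decide (i ≠ i₁ ∧ i ≠ i₂))

lemma cnt_cons (i x : ι) {n : ℕ} (w : Fin n → ι) :
    cnt i (Fin.cons x w : Fin (n + 1) → ι) = cnt i w + if x = i then 1 else 0 := by
  unfold cnt
  rw [List.ofFn_cons, List.count_cons]
  simp [beq_iff_eq]

lemma oth_cons (i₁ i₂ x : ι) {n : ℕ} (w : Fin n → ι) :
    oth i₁ i₂ (Fin.cons x w : Fin (n + 1) → ι)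
      = if x ≠ i₁ ∧ x ≠ i₂ then x :: oth i₁ i₂ w else oth i₁ i₂ w := by
  unfold oth
  rw [List.ofFn_cons, List.filter_cons]
  by_cases h : x ≠ i₁ ∧ x ≠ i₂
  · simp [h]
  · simp only [h, if_false, decide_false]
    simp

lemma cnt_add_length (i₁ i₂ : ι) (h : i₁ ≠ i₂) {n : ℕ} (w : Fin n → ι) :
    cnt i₁ w + cnt i₂ w + (oth i₁ i₂ w).length = n := by
  induction n with
  | zero => simp [cnt, oth]
  | succ n ih =>
    rw [← Fin.cons_self_tail w, cnt_cons, cnt_cons, oth_cons]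
    have := ih (Fin.tail w)
    by_cases h1 : w 0 = i₁
    · have h2 : w 0 ≠ i₂ := by rw [h1]; exact h
      have h3 : ¬ (w 0 ≠ i₁ ∧ w 0 ≠ i₂) := by tauto
      rw [if_pos h1, if_neg h2, if_neg h3]; omega
    · by_cases h2 : w 0 = i₂
      · have h3 : ¬ (w 0 ≠ i₁ ∧ w 0 ≠ i₂) := by tauto
        rw [if_neg h1, if_pos h2, if_neg h3]; omega
      · have h3 : (w 0 ≠ i₁ ∧ w 0 ≠ i₂) := ⟨h1, h2⟩
        rw [if_neg h1, if_neg h2, if_pos h3, List.length_cons]; omega

/-- the weight of all words with given `(a₁, a₂, b)`. -/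
noncomputable def Wt [Fintype ι] (p : ι → ℝ) (i₁ i₂ : ι) (n a₁ a₂ : ℕ) (b : List ι) : ℝ :=
  ∑ w : Fin n → ι, if cnt i₁ w = a₁ ∧ cnt i₂ w = a₂ ∧ oth i₁ i₂ w = b then ∏ j, p (w j) else 0

/-- the product of weights of a word. -/
def pl (p : ι → ℝ) (b : List ι) : ℝ := (b.map p).prod

omit [DecidableEq ι] in
lemma pl_nonneg (p : ι → ℝ) (hp : ∀ i, 0 ≤ p i) (b : List ι) : 0 ≤ pl p b := by
  unfold pl
  apply List.prod_nonneg
  intro x hx
  obtain ⟨i, _, rfl⟩ := List.mem_map.1 hx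
  exact hp i

/-- explicit multinomial form. -/
noncomputable def Tt (p : ι → ℝ) (i₁ i₂ : ι) (a₁ a₂ : ℕ) (b : List ι) : ℝ :=
  ((a₁ + a₂ + b.length).choose b.length : ℝ) * ((a₁ + a₂).choose a₁ : ℝ) *
    (p i₁ ^ a₁ * p i₂ ^ a₂ * pl p b)

lemma Tt_nonneg (p : ι → ℝ) (hp : ∀ i, 0 ≤ p i) (i₁ i₂ : ι) (a₁ a₂ : ℕ) (b : List ι) :
    0 ≤ Tt p i₁ i₂ a₁ a₂ b := by
  unfold Tt
  have := hp i₁; have := hp i₂; have := pl_nonneg p hp b
  positivity

/-- Pascal for the trinomial coefficient. -/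
lemma pascal3 (a₁ a₂ β : ℕ) (h : 0 < a₁ + a₂ + β) :
    (((a₁ + a₂ + β).choose β : ℝ) * ((a₁ + a₂).choose a₁ : ℝ)) =
      (if 0 < a₁ then (((a₁ - 1 + a₂ + β).choose β : ℝ) * ((a₁ - 1 + a₂).choose (a₁ - 1) : ℝ)) else 0)
      + (if 0 < a₂ then (((a₁ + (a₂ - 1) + β).choose β : ℝ) * ((a₁ + (a₂ - 1)).choose a₁ : ℝ))
          else 0)
      + (if 0 < β then (((a₁ + a₂ + (β - 1)).choose (β - 1) : ℝ) * ((a₁ + a₂).choose a₁ : ℝ))
          else 0) := by
  rcases Nat.eq_zero_or_pos a₁ with h1 | h1 <;> rcases Nat.eq_zero_or_pos a₂ with h2 | h2 <;>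
    rcases Nat.eq_zero_or_pos β with h3 | h3
  · omega
  · subst h1; subst h2
    simp [h3]
  · subst h1; subst h3
    simp [h2]
  · subst h1
    obtain ⟨a, rfl⟩ : ∃ a, a₂ = a + 1 := ⟨a₂ - 1, by omega⟩
    obtain ⟨β', rfl⟩ : ∃ b', β = b' + 1 := ⟨β - 1, by omega⟩
    simp only [lt_self_iff_false, if_false, Nat.succ_pos, if_true, zero_add, Nat.add_sub_cancel,
      Nat.choose_zero_right, Nat.cast_one, mul_one]
    have e : a + 1 + (β' + 1) = (a + 1 + β') + 1 := by ring
    rw [e, Nat.choose_succ_succ']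
    have e2 : a + (β' + 1) = a + 1 + β' := by ring
    rw [e2]; push_cast; ring
  · subst h2; subst h3
    simp [h1]
  · subst h2
    obtain ⟨a, rfl⟩ : ∃ a, a₁ = a + 1 := ⟨a₁ - 1, by omega⟩
    obtain ⟨β', rfl⟩ : ∃ b', β = b' + 1 := ⟨β - 1, by omega⟩
    simp only [lt_self_iff_false, if_false, Nat.succ_pos, if_true, add_zero, Nat.add_sub_cancel,
      Nat.choose_self, Nat.cast_one, mul_one]
    have e : a + 1 + (β' + 1) = (a + 1 + β') + 1 := by ring
    rw [e, Nat.choose_succ_succ']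
    have e2 : a + (β' + 1) = a + 1 + β' := by ring
    rw [e2]; push_cast; ring
  · subst h3
    obtain ⟨a, rfl⟩ : ∃ a, a₁ = a + 1 := ⟨a₁ - 1, by omega⟩
    obtain ⟨b, rfl⟩ : ∃ b, a₂ = b + 1 := ⟨a₂ - 1, by omega⟩
    simp only [lt_self_iff_false, if_false, Nat.succ_pos, if_true, add_zero, Nat.add_sub_cancel,
      Nat.choose_zero_right, Nat.cast_one, one_mul]
    have e : a + 1 + (b + 1) = (a + (b + 1)) + 1 := by ring
    rw [e, Nat.choose_succ_succ']
    have e2 : a + 1 + b = a + (b + 1) := by ring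
    rw [e2]; push_cast; ring
  · obtain ⟨a, rfl⟩ : ∃ a, a₁ = a + 1 := ⟨a₁ - 1, by omega⟩
    obtain ⟨b, rfl⟩ : ∃ b, a₂ = b + 1 := ⟨a₂ - 1, by omega⟩
    obtain ⟨β', rfl⟩ : ∃ b', β = b' + 1 := ⟨β - 1, by omega⟩
    simp only [Nat.succ_pos, if_true, Nat.add_sub_cancel]
    have e : a + 1 + (b + 1) + (β' + 1) = (a + 1 + (b + 1) + β') + 1 := by ring
    have e1 : a + (b + 1) + (β' + 1) = a + 1 + (b + 1) + β' := by ring
    have e2 : a + 1 + b + (β' + 1) = a + 1 + (b + 1) + β' := by ring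
    have e3 : a + 1 + (b + 1) = (a + (b + 1)) + 1 := by ring
    have e4 : a + 1 + b = a + (b + 1) := by ring
    rw [e, e1, e2, Nat.choose_succ_succ' (a + 1 + (b + 1) + β') β']
    have h5 : ((a + 1 + (b + 1)).choose (a + 1)) = (a + (b + 1)).choose a
        + (a + (b + 1)).choose (a + 1) := by
      rw [e3, Nat.choose_succ_succ']
    rw [h5, e4]
    push_cast; ring

variable [Fintype ι]

omit [DecidableEq ι] in
lemma sum_cons {n : ℕ} (F : (Fin (n + 1) → ι) → ℝ) :
    ∑ w : Fin (n + 1) → ι, F w = ∑ x : ι, ∑ w : Fin n → ι, F (Fin.cons x w : Fin (n + 1) → ι) := by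
  rw [← Fintype.sum_prod_type']
  exact (Fintype.sum_equiv (Fin.consEquiv (fun _ : Fin (n + 1) => ι)) _ _ (fun _ => rfl)).symm

lemma Wt_succ (p : ι → ℝ) (i₁ i₂ : ι) (h : i₁ ≠ i₂) (n a₁ a₂ : ℕ) (b : List ι) :
    Wt p i₁ i₂ (n + 1) a₁ a₂ b =
      (if 0 < a₁ then p i₁ * Wt p i₁ i₂ n (a₁ - 1) a₂ b else 0)
      + (if 0 < a₂ then p i₂ * Wt p i₁ i₂ n a₁ (a₂ - 1) b else 0)
      + ∑ x ∈ univ.filter (fun x => x ≠ i₁ ∧ x ≠ i₂),
          ∑ w : Fin n → ι, (if cnt i₁ w = a₁ ∧ cnt i₂ w = a₂ ∧ x :: oth i₁ i₂ w = b then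
            p x * ∏ j, p (w j) else 0) := by
  unfold Wt
  rw [sum_cons]
  have hsplit : ∀ G : ι → ℝ, ∑ x, G x = G i₁ + G i₂ + ∑ x ∈ univ.filter (fun x => x ≠ i₁ ∧ x ≠ i₂), G x := by
    intro G
    rw [← Finset.sum_filter_add_sum_filter_not univ (fun x => x ≠ i₁ ∧ x ≠ i₂) G, add_comm]
    congr 1
    have : univ.filter (fun x => ¬ (x ≠ i₁ ∧ x ≠ i₂)) = {i₁, i₂} := by
      ext x; simp only [Finset.mem_filter, Finset.mem_univ, true_and, Finset.mem_insert,
        Finset.mem_singleton]; tauto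
    rw [this, Finset.sum_pair h]
  rw [hsplit]
  congr 1
  · congr 1
    · -- i₁
      have h3 : ¬ (i₁ ≠ i₁ ∧ i₁ ≠ i₂) := by tauto
      simp only [cnt_cons, oth_cons, if_neg h3, if_true, if_neg h, Fin.prod_univ_succ,
        Fin.cons_zero, Fin.cons_succ, add_zero]
      rcases Nat.eq_zero_or_pos a₁ with h1 | h1
      · subst h1; simp
      · rw [if_pos h1, Finset.mul_sum]
        apply Finset.sum_congr rfl
        intro w _
        have : (cnt i₁ w + 1 = a₁) ↔ (cnt i₁ w = a₁ - 1) := by omega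
        simp only [this]
        split_ifs <;> simp
    · have h3 : ¬ (i₂ ≠ i₁ ∧ i₂ ≠ i₂) := by tauto
      simp only [cnt_cons, oth_cons, if_neg h3, if_true, if_neg (Ne.symm h), Fin.prod_univ_succ,
        Fin.cons_zero, Fin.cons_succ, add_zero]
      rcases Nat.eq_zero_or_pos a₂ with h1 | h1
      · subst h1; simp
      · rw [if_pos h1, Finset.mul_sum]
        apply Finset.sum_congr rfl
        intro w _
        have : (cnt i₂ w + 1 = a₂) ↔ (cnt i₂ w = a₂ - 1) := by omega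
        simp only [this]
        split_ifs <;> simp
  · apply Finset.sum_congr rfl
    intro x hx
    simp only [Finset.mem_filter, Finset.mem_univ, true_and] at hx
    apply Finset.sum_congr rfl
    intro w _
    simp only [cnt_cons, oth_cons, if_pos hx, if_neg hx.1, if_neg hx.2, add_zero,
      Fin.prod_univ_succ, Fin.cons_zero, Fin.cons_succ]

lemma Wt_le (p : ι → ℝ) (hp : ∀ i, 0 ≤ p i) (i₁ i₂ : ι) (h : i₁ ≠ i₂) (n : ℕ) :
    ∀ (a₁ a₂ : ℕ) (b : List ι), Wt p i₁ i₂ n a₁ a₂ b ≤ Tt p i₁ i₂ a₁ a₂ b := by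
  induction n with
  | zero =>
    intro a₁ a₂ b
    unfold Wt
    rw [Fintype.sum_unique]
    by_cases hc : cnt i₁ (default : Fin 0 → ι) = a₁ ∧ cnt i₂ (default : Fin 0 → ι) = a₂ ∧
        oth i₁ i₂ (default : Fin 0 → ι) = b
    · rw [if_pos hc]
      have h1 : a₁ = 0 := by rw [← hc.1]; simp [cnt]
      have h2 : a₂ = 0 := by rw [← hc.2.1]; simp [cnt]
      have h3 : b = [] := by rw [← hc.2.2]; simp [oth]
      subst h1; subst h2; subst h3
      simp [Tt, pl]
    · rw [if_neg hc]; exact Tt_nonneg p hp i₁ i₂ a₁ a₂ b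
  | succ n ih =>
    intro a₁ a₂ b
    rw [Wt_succ p i₁ i₂ h]
    rcases Nat.eq_zero_or_pos (a₁ + a₂ + b.length) with h0 | h0
    · have h1 : a₁ = 0 := by omega
      have h2 : a₂ = 0 := by omega
      have h3 : b = [] := List.eq_nil_of_length_eq_zero (by omega)
      subst h1; subst h2; subst h3
      simp only [lt_self_iff_false, if_false, zero_add]
      refine le_trans (le_of_eq ?_) (Tt_nonneg p hp i₁ i₂ 0 0 [])
      apply Finset.sum_eq_zero; intro x _
      apply Finset.sum_eq_zero; intro w _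
      rw [if_neg]; simp
    -- the three bounds
    have hA : (if 0 < a₁ then p i₁ * Wt p i₁ i₂ n (a₁ - 1) a₂ b else 0)
        ≤ (if 0 < a₁ then (((a₁ - 1 + a₂ + b.length).choose b.length : ℝ) *
          ((a₁ - 1 + a₂).choose (a₁ - 1) : ℝ)) else 0) * (p i₁ ^ a₁ * p i₂ ^ a₂ * pl p b) := by
      split_ifs with h1
      · have := mul_le_mul_of_nonneg_left (ih (a₁ - 1) a₂ b) (hp i₁)
        refine le_trans this (le_of_eq ?_)
        unfold Tt
        have e : p i₁ ^ a₁ = p i₁ * p i₁ ^ (a₁ - 1) := by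
          rw [← pow_succ']; congr 1; omega
        rw [e]; ring
      · simp
    have hB : (if 0 < a₂ then p i₂ * Wt p i₁ i₂ n a₁ (a₂ - 1) b else 0)
        ≤ (if 0 < a₂ then (((a₁ + (a₂ - 1) + b.length).choose b.length : ℝ) *
          ((a₁ + (a₂ - 1)).choose a₁ : ℝ)) else 0) * (p i₁ ^ a₁ * p i₂ ^ a₂ * pl p b) := by
      split_ifs with h1
      · have := mul_le_mul_of_nonneg_left (ih a₁ (a₂ - 1) b) (hp i₂)
        refine le_trans this (le_of_eq ?_)
        unfold Tt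
        have e : p i₂ ^ a₂ = p i₂ * p i₂ ^ (a₂ - 1) := by
          rw [← pow_succ']; congr 1; omega
        rw [e]; ring
      · simp
    have hC : ∑ x ∈ univ.filter (fun x => x ≠ i₁ ∧ x ≠ i₂),
          ∑ w : Fin n → ι, (if cnt i₁ w = a₁ ∧ cnt i₂ w = a₂ ∧ x :: oth i₁ i₂ w = b then
            p x * ∏ j, p (w j) else 0)
        ≤ (if 0 < b.length then (((a₁ + a₂ + (b.length - 1)).choose (b.length - 1) : ℝ) *
          ((a₁ + a₂).choose a₁ : ℝ)) else 0) * (p i₁ ^ a₁ * p i₂ ^ a₂ * pl p b) := by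
      cases b with
      | nil =>
        simp
      | cons y b' =>
        have e1 : ∀ x ∈ univ.filter (fun x => x ≠ i₁ ∧ x ≠ i₂), x ≠ y →
            ∑ w : Fin n → ι, (if cnt i₁ w = a₁ ∧ cnt i₂ w = a₂ ∧ x :: oth i₁ i₂ w = y :: b' then
            p x * ∏ j, p (w j) else 0) = 0 := by
          intro x _ hxy
          apply Finset.sum_eq_zero; intro w _
          rw [if_neg]
          rintro ⟨_, _, h4⟩
          exact hxy (List.cons.inj h4).1
        have e2 : ∑ w : Fin n → ι, (if cnt i₁ w = a₁ ∧ cnt i₂ w = a₂ ∧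
            y :: oth i₁ i₂ w = y :: b' then p y * ∏ j, p (w j) else 0)
            = p y * Wt p i₁ i₂ n a₁ a₂ b' := by
          unfold Wt
          rw [Finset.mul_sum]
          apply Finset.sum_congr rfl; intro w _
          have : (y :: oth i₁ i₂ w = y :: b') ↔ (oth i₁ i₂ w = b') := by simp
          simp only [this]
          split_ifs <;> simp
        have e3 : 0 ≤ p y * Wt p i₁ i₂ n a₁ a₂ b' := by
          apply mul_nonneg (hp y)
          unfold Wt
          apply Finset.sum_nonneg; intro w _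
          split_ifs
          · exact Finset.prod_nonneg fun j _ => hp _
          · exact le_rfl
        have e4 : ∑ x ∈ univ.filter (fun x => x ≠ i₁ ∧ x ≠ i₂),
          ∑ w : Fin n → ι, (if cnt i₁ w = a₁ ∧ cnt i₂ w = a₂ ∧ x :: oth i₁ i₂ w = y :: b' then
            p x * ∏ j, p (w j) else 0) ≤ p y * Wt p i₁ i₂ n a₁ a₂ b' := by
          by_cases hy : y ∈ univ.filter (fun x => x ≠ i₁ ∧ x ≠ i₂)
          · rw [Finset.sum_eq_single_of_mem y hy (fun x hx hxy => e1 x hx hxy), e2]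
          · rw [Finset.sum_eq_zero]
            · exact e3
            · intro x hx
              apply e1 x hx
              rintro rfl; exact hy hx
        refine le_trans e4 ?_
        have := mul_le_mul_of_nonneg_left (ih a₁ a₂ b') (hp y)
        refine le_trans this (le_of_eq ?_)
        unfold Tt pl
        simp only [List.length_cons, Nat.succ_pos, if_true, Nat.add_sub_cancel, List.map_cons,
          List.prod_cons]
        ring
    calc _ ≤ _ := add_le_add (add_le_add hA hB) hC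
      _ = Tt p i₁ i₂ a₁ a₂ b := by
        rw [← add_mul, ← add_mul, ← pascal3 a₁ a₂ b.length h0]
        rfl

omit [DecidableEq ι] [Fintype ι] in
lemma pl_div (p : ι → ℝ) (c : ℝ) (b : List ι) :
    pl (fun i => p i / c) b = pl p b / c ^ b.length := by
  unfold pl
  induction b with
  | nil => simp
  | cons x b ih =>
    simp only [List.map_cons, List.prod_cons, List.length_cons, ih, pow_succ]
    rw [div_mul_div_comm]; congr 1; ring

/-- LOCAL BOUND (M*), case of at least three letters. -/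
theorem visit_le (p : ι → ℝ) (hp : ∀ i, 0 < p i) (hp1 : ∑ i, p i = 1) (i₁ i₂ : ι) (h : i₁ ≠ i₂)
    (h3 : p i₁ + p i₂ < 1) (n a₁ a₂ : ℕ) (b : List ι) :
    Wt p i₁ i₂ n a₁ a₂ b ≤
      (1 / (2 * Real.sqrt ((1 - (p i₁ + p i₂)) * (p i₁ * p i₂)))) / ((n : ℝ) + 1) *
        pl (fun i => p i / (1 - (p i₁ + p i₂))) b := by
  have hq : 0 < 1 - (p i₁ + p i₂) := by linarith
  have hp0 : ∀ i, 0 ≤ p i := fun i => (hp i).le
  have hplq : 0 ≤ pl (fun i => p i / (1 - (p i₁ + p i₂))) b :=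
    pl_nonneg _ (fun i => div_nonneg (hp0 i) hq.le) b
  have hp₁ := hp i₁
  have hp₂ := hp i₂
  by_cases hn : a₁ + a₂ + b.length = n
  · refine le_trans (Wt_le p hp0 i₁ i₂ h n a₁ a₂ b) ?_
    set P : ℝ := p i₁ + p i₂ with hP
    have hPpos : 0 < P := by positivity
    set k : ℕ := a₁ + a₂ with hk
    have hkn : k ≤ n := by omega
    have hb : b.length = n - k := by omega
    have hlt : p i₁ / P < 1 := by rw [div_lt_one hPpos]; linarith
    have key := bin_bin_le n P (p i₁ / P) hPpos h3 (by positivity) hlt k a₁ hkn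
    have e1 : Tt p i₁ i₂ a₁ a₂ b = (bin n P k * bin k (p i₁ / P) a₁) *
        pl (fun i => p i / (1 - P)) b := by
      unfold Tt bin
      have hN : a₁ + a₂ + (n - k) = n := by omega
      rw [pl_div, hb, hN, Nat.choose_symm hkn, ← hk]
      have e2 : 1 - p i₁ / P = p i₂ / P := by
        rw [eq_div_iff hPpos.ne', sub_mul, div_mul_cancel₀ _ hPpos.ne', hP]; ring
      have e3 : k - a₁ = a₂ := by omega
      rw [e2, e3, div_pow, div_pow]
      have e4 : P ^ k = P ^ a₁ * P ^ a₂ := by rw [hk, pow_add]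
      rw [e4]
      have hPa : P ^ a₁ ≠ 0 := by positivity
      have hPb : P ^ a₂ ≠ 0 := by positivity
      have hQ : (1 - P) ^ (n - k) ≠ 0 := by positivity
      field_simp
    rw [e1]
    apply mul_le_mul_of_nonneg_right _ hplq
    refine le_trans key (le_of_eq ?_)
    have e5 : 2 * P * Real.sqrt ((1 - P) * (p i₁ / P * (1 - p i₁ / P)))
        = 2 * Real.sqrt ((1 - P) * (p i₁ * p i₂)) := by
      have e2 : 1 - p i₁ / P = p i₂ / P := by
        rw [eq_div_iff hPpos.ne', sub_mul, div_mul_cancel₀ _ hPpos.ne', hP]; ring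
      rw [e2]
      have e6 : (1 - P) * (p i₁ * p i₂) = P ^ 2 * ((1 - P) * (p i₁ / P * (p i₂ / P))) := by
        field_simp
      rw [e6, Real.sqrt_mul (sq_nonneg P), Real.sqrt_sq hPpos.le]; ring
    rw [e5]
  · have : Wt p i₁ i₂ n a₁ a₂ b = 0 := by
      unfold Wt
      apply Finset.sum_eq_zero; intro w _
      rw [if_neg]
      rintro ⟨rfl, rfl, rfl⟩
      exact hn (cnt_add_length i₁ i₂ h w)
    rw [this]
    positivity

/-- LOCAL BOUND (M*), two letters only. -/
theorem visit_le_two (p : ι → ℝ) (hp : ∀ i, 0 < p i) (i₁ i₂ : ι) (h : i₁ ≠ i₂)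
    (h3 : p i₁ + p i₂ = 1) (n a₁ a₂ : ℕ) :
    Wt p i₁ i₂ n a₁ a₂ [] ≤
      1 / Real.sqrt (((n : ℝ) + 1) * (2 * (p i₁ * p i₂))) := by
  have hp0 : ∀ i, 0 ≤ p i := fun i => (hp i).le
  by_cases hn : a₁ + a₂ = n
  · refine le_trans (Wt_le p hp0 i₁ i₂ h n a₁ a₂ []) ?_
    have hp₁ := hp i₁
    have hp₂ := hp i₂
    have e2 : p i₂ = 1 - p i₁ := by linarith
    have key := bin_le n (p i₁) hp₁ (by linarith) a₁
    have e : Tt p i₁ i₂ a₁ a₂ [] = bin n (p i₁) a₁ := by
      unfold Tt bin pl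
      have e3 : n - a₁ = a₂ := by omega
      rw [e3, ← e2, ← hn]
      simp
      ring
    rw [e, e2]; exact key
  · have : Wt p i₁ i₂ n a₁ a₂ [] = 0 := by
      unfold Wt
      apply Finset.sum_eq_zero; intro w _
      rw [if_neg]
      rintro ⟨rfl, rfl, h5⟩
      have := cnt_add_length i₁ i₂ h w
      rw [h5] at this
      simp at this
      exact hn this
    rw [this]
    positivity

end Crest.Agent.R98.Mult
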