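import Crest.Agent.R98.TOneC

/-!
R98 / TOneD (helper290): T1 for self-similar measures, at the level of a finite index set `Ω` of
words with a type map `ty` that determines the ratio.
-/

set_option autoImplicit false

open MeasureTheory Set Real

namespace Crest.Agent.R98.TOne

theorem Hs_le_conv {A B : Measure ℝ} [IsProbabilityMeasure A] [IsProbabilityMeasure B]
    (hA : BSupp A) (hB : BSupp B) {d : ℝ} (hd : 0 < d) : Hs A d ≤ Hs (A ∗ B) d := by
  unfold Hs
  refine mul_le_mul_of_nonneg_left ?_ (by positivity)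
  have hconc : ConcaveOn ℝ (pcone Unit) fun v : Unit → ℝ => negMulLog (v ()) := by
    refine ⟨convex_pcone, ?_⟩
    intro u hu v hv a b ha hb hab
    exact concaveOn_negMulLog.2 (hu ()) (hv ()) ha hb hab
  have h := integral_le_conv (κ := Unit) hconc
    (continuous_negMulLog.comp (continuous_apply _))
    (G := fun y _ => A.real (Ico y (y + d)))
    (measurable_pi_lambda _ fun _ => measurable_cell A d)
    (fun y k => measureReal_nonneg) (fun y k => cell_le_one A _ _)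
    (integrable_negMulLog_cell hA d) B
  simp only [← conv_real] at h
  exact h (integrable_negMulLog_cell (hA.conv hB) d)

theorem Hs_law_le {κ : Type*} [Fintype κ] {q : κ → ℝ} (hq : ∀ k, 0 ≤ q k) (hq1 : ∑ k, q k = 1)
    (s : κ → ℝ) {B : Measure ℝ} [IsProbabilityMeasure B] (hB : BSupp B) {d : ℝ} (hd : 0 < d) :
    Hs (addLaw q s (Measure.dirac 0)) d ≤ Hs (addLaw q s B) d := by
  have hp : IsProbabilityMeasure (addLaw q s (Measure.dirac (0 : ℝ))) :=
    isProbabilityMeasure_addLaw hq hq1 s _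
  have h := Hs_le_conv (bsupp_dirac_zero.addLaw q s) hB hd
  rwa [addLaw_conv, Measure.dirac_zero_conv] at h

section scaling

variable {μ : Measure ℝ}

theorem Hs_scale [IsFiniteMeasure μ] {a : ℝ} (ha : a ≠ 0) (b : ℝ) (r : ℝ) :
    Hs (μ.map fun x => a * x + b) r = Hs μ (r / |a|) := by
  have h := Hs_map ha b μ (r / |a|)
  have ha' : |a| ≠ 0 := abs_ne_zero.2 ha
  rwa [mul_div_cancel₀ _ ha'] at h

theorem W_scale [IsFiniteMeasure μ] {a : ℝ} (ha : a ≠ 0) (b : ℝ) (n : ℕ) (r : ℝ) :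
    W (μ.map fun x => a * x + b) n r = W μ n (r / |a|) := by
  unfold W
  rw [Hs_scale ha, Hs_scale ha, mul_div_assoc]

theorem two_scale {a : ℝ} (ha : a ≠ 0) (e : ℝ) :
    two 0 e (μ.map fun x => a * x) = (two 0 (e / a) μ).map fun x => a * x := by
  rw [two_eq, two_eq]
  rw [Measure.map_add _ _ (by fun_prop), Measure.map_smul, Measure.map_smul]
  have h1 : ∀ c : ℝ, shift c (μ.map fun x => a * x) = (shift (c / a) μ).map fun x => a * x := by
    intro c
    unfold shift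
    rw [Measure.map_map (by fun_prop) (by fun_prop), Measure.map_map (by fun_prop) (by fun_prop)]
    congr 1
    funext x
    simp only [Function.comp]
    field_simp
  rw [h1, h1, zero_div]

theorem Macro_scale [IsFiniteMeasure μ] {n : ℕ} {c : ℝ} (h : ∀ r, 0 < r → Macro μ n r c) {a : ℝ} (ha : a ≠ 0) :
    ∀ r, 0 < r → Macro (μ.map fun x => a * x) n r c := by
  intro r hr e he1 he2
  have ha' : 0 < |a| := abs_pos.2 ha
  have h1 := h (r / |a|) (by positivity) (e / |a|) (by gcongr) (by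
    rw [← mul_div_assoc]; gcongr)
  have h2 : ∀ ν : Measure ℝ, (ν.map fun x => a * x) = ν.map fun x => a * x + 0 := by
    intro ν; simp
  rw [two_scale ha, h2, h2 μ, W_scale ha, W_scale ha]
  have he : 0 < e := lt_of_lt_of_le hr he1
  have h3 : |e / a - 0| = e / |a| := by rw [sub_zero, abs_div, abs_of_pos he]
  rw [W_two, h3]
  exact h1

end scaling

section mixture

open Classical in
/-- mass of a type -/
noncomputable def fib {Ω 𝒯 : Type*} [Fintype Ω] (P : Ω → ℝ) (ty : Ω → 𝒯) (τ : 𝒯) : ℝ :=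
  ∑ ω, if ty ω = τ then P ω else 0

open Classical in
/-- conditional law given the type -/
noncomputable def cond {Ω 𝒯 : Type*} [Fintype Ω] (P : Ω → ℝ) (ty : Ω → 𝒯) (τ : 𝒯) (ω : Ω) : ℝ :=
  if fib P ty τ = 0 then P ω else if ty ω = τ then P ω / fib P ty τ else 0

variable {Ω 𝒯 : Type*} [Fintype Ω] [Fintype 𝒯] {P : Ω → ℝ} (ty : Ω → 𝒯)

omit [Fintype 𝒯] in
theorem fib_nonneg (hP : ∀ ω, 0 ≤ P ω) (τ : 𝒯) : 0 ≤ fib P ty τ :=
  Finset.sum_nonneg fun ω _ => by split_ifs <;> [exact hP ω; exact le_rfl]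

omit [Fintype 𝒯] in
theorem cond_nonneg (hP : ∀ ω, 0 ≤ P ω) (τ : 𝒯) (ω : Ω) : 0 ≤ cond P ty τ ω := by
  unfold cond
  split_ifs
  · exact hP ω
  · exact div_nonneg (hP ω) (fib_nonneg ty hP τ)
  · exact le_rfl

omit [Fintype 𝒯] in
theorem cond_sum (hP1 : ∑ ω, P ω = 1) (τ : 𝒯) : ∑ ω, cond P ty τ ω = 1 := by
  classical
  unfold cond
  by_cases h : fib P ty τ = 0
  · simp only [if_pos h]; exact hP1
  · simp only [if_neg h]
    have : ∀ ω, (if ty ω = τ then P ω / fib P ty τ else 0) =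
        (if ty ω = τ then P ω else 0) / fib P ty τ := by
      intro ω; split_ifs <;> simp
    calc _ = ∑ ω, (if ty ω = τ then P ω else 0) / fib P ty τ :=
          Finset.sum_congr rfl fun ω _ => this ω
      _ = (∑ ω, (if ty ω = τ then P ω else 0)) / fib P ty τ := (Finset.sum_div _ _ _).symm
      _ = 1 := div_self h

open Classical in
omit [Fintype 𝒯] in
theorem fib_mul_cond (hP : ∀ ω, 0 ≤ P ω) (τ : 𝒯) (ω : Ω) :
    fib P ty τ * cond P ty τ ω = if ty ω = τ then P ω else 0 := by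
  unfold cond
  by_cases h : fib P ty τ = 0
  · rw [if_pos h, h, zero_mul]
    split_ifs with h2
    · have h3 : (if ty ω = τ then P ω else 0) ≤ fib P ty τ := by
        unfold fib
        exact Finset.single_le_sum (f := fun ω => if ty ω = τ then P ω else 0)
          (fun ω _ => by split_ifs <;> [exact hP ω; exact le_rfl]) (Finset.mem_univ ω)
      rw [if_pos h2, h] at h3
      exact le_antisymm (hP ω) h3 |>.symm ▸ rfl
    · rfl
  · rw [if_neg h]
    split_ifs
    · exact mul_div_cancel₀ _ h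
    · exact mul_zero _

theorem fib_sum (hP1 : ∑ ω, P ω = 1) : ∑ τ, fib P ty τ = 1 := by
  classical
  unfold fib
  rw [Finset.sum_comm]
  refine (Finset.sum_congr rfl fun ω _ => ?_).trans hP1
  rw [Finset.sum_ite_eq Finset.univ (ty ω), if_pos (Finset.mem_univ _)]

theorem sum_fib_mul (ρ : 𝒯 → ℝ) : ∑ τ, fib P ty τ * ρ τ = ∑ ω, P ω * ρ (ty ω) := by
  classical
  unfold fib
  simp only [Finset.sum_mul]
  rw [Finset.sum_comm]
  refine Finset.sum_congr rfl fun ω _ => ?_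
  rw [Finset.sum_eq_single (ty ω)]
  · simp
  · intro τ _ hτ
    rw [if_neg (fun h => hτ h.symm), zero_mul]
  · intro h; exact absurd (Finset.mem_univ _) h

/-- disintegration over the types -/
theorem mix_types (hP : ∀ ω, 0 ≤ P ω) (ρ : 𝒯 → ℝ) (b : Ω → ℝ) (μ : Measure ℝ) :
    mix (fib P ty) (fun τ => addLaw (cond P ty τ) b (μ.map fun x => ρ τ * x)) =
      mix P fun ω => μ.map fun x => ρ (ty ω) * x + b ω := by
  classical
  unfold addLaw mix
  simp only [Finset.smul_sum, smul_smul]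
  rw [Finset.sum_comm]
  refine Finset.sum_congr rfl fun ω _ => ?_
  have h1 : ∀ τ, ENNReal.ofReal (fib P ty τ) * ENNReal.ofReal (cond P ty τ ω) =
      if ty ω = τ then ENNReal.ofReal (P ω) else 0 := by
    intro τ
    rw [← ENNReal.ofReal_mul (fib_nonneg ty hP τ), fib_mul_cond ty hP]
    split_ifs <;> simp
  simp only [h1, ite_smul, zero_smul]
  rw [Finset.sum_ite_eq Finset.univ (ty ω), if_pos (Finset.mem_univ _)]
  congr 1
  unfold shift
  rw [Measure.map_map (by fun_prop) (by fun_prop)]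
  rfl

/-- total gain available at scale `r` -/
noncomputable def Gm (P : Ω → ℝ) (R : Ω → ℝ) (μ : Measure ℝ) (n : ℕ) (r : ℝ) : ℝ :=
  W μ n r - ∑ ω, P ω * W μ n (r / |R ω|)

/-- averaged branching number given the type -/
noncomputable def sigBar (P : Ω → ℝ) (ty : Ω → 𝒯) (b : Ω → ℝ) (d : ℝ) : ℝ :=
  ∑ τ, fib P ty τ * sig (cond P ty τ) b d

/-- averaged conditional entropy given the type -/
noncomputable def HBar (P : Ω → ℝ) (ty : Ω → 𝒯) (b : Ω → ℝ) (d : ℝ) : ℝ :=
  ∑ τ, fib P ty τ * Hs (addLaw (cond P ty τ) b (Measure.dirac 0)) d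

variable {μ : Measure ℝ} [IsProbabilityMeasure μ] {ρ : 𝒯 → ℝ} {b : Ω → ℝ}

theorem W_nonneg {ν : Measure ℝ} [IsFiniteMeasure ν] (hν : BSupp ν) {n : ℕ} (hn : 0 < n) {r : ℝ}
    (hr : 0 < r) : 0 ≤ W ν n r := sub_nonneg.2 (Hs_nsmul_le hν hr hn)

theorem W_le_log {ν : Measure ℝ} [IsProbabilityMeasure ν] (hν : BSupp ν) {n : ℕ} (hn : 0 < n)
    {r : ℝ} (hr : 0 < r) : W ν n r ≤ log n := by
  have := Hs_le_nsmul hν hr hn
  unfold W
  linarith

omit [IsProbabilityMeasure μ] in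
theorem bsupp_scale (hμ : BSupp μ) (a : ℝ) : BSupp (μ.map fun x => a * x) := by
  have := hμ.map_affine a 0
  simpa using this

instance isProb_scale (a : ℝ) : IsProbabilityMeasure (μ.map fun x => a * x) :=
  Measure.isProbabilityMeasure_map (by fun_prop)

theorem sum_gain_le (hP : ∀ ω, 0 ≤ P ω) (hμ : BSupp μ)
    (hρ : ∀ τ, ρ τ ≠ 0) (hself : μ = mix P fun ω => μ.map fun x => ρ (ty ω) * x + b ω)
    {n : ℕ} (hn : 0 < n) {r : ℝ} (hr : 0 < r) :
    ∑ τ, fib P ty τ * gain (cond P ty τ) b (μ.map fun x => ρ τ * x) n r ≤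
      Gm P (fun ω => ρ (ty ω)) μ n r := by
  have h1 := W_mix_ge (fib_nonneg ty hP)
    (ν := fun τ => addLaw (cond P ty τ) b (μ.map fun x => ρ τ * x))
    (fun τ => (bsupp_scale hμ (ρ τ)).addLaw _ _) hn hr
  rw [mix_types ty hP ρ b μ, ← hself] at h1
  have h2 : ∀ τ, W (μ.map fun x => ρ τ * x) n r = W μ n (r / |ρ τ|) := by
    intro τ
    have := W_scale (μ := μ) (hρ τ) 0 n r
    simpa using this
  unfold gain Gm
  simp only [mul_sub, Finset.sum_sub_distrib, h2]
  rw [sum_fib_mul ty (fun τ => W μ n (r / |ρ τ|))]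
  linarith

theorem Gm_nonneg (hP : ∀ ω, 0 ≤ P ω) (hP1 : ∑ ω, P ω = 1) (hμ : BSupp μ)
    (hρ : ∀ τ, ρ τ ≠ 0) (hself : μ = mix P fun ω => μ.map fun x => ρ (ty ω) * x + b ω)
    {n : ℕ} (hn : 0 < n) {r : ℝ} (hr : 0 < r) : 0 ≤ Gm P (fun ω => ρ (ty ω)) μ n r :=
  (Finset.sum_nonneg fun τ _ => mul_nonneg (fib_nonneg ty hP τ)
    (gain_nonneg b (cond_nonneg ty hP τ) (cond_sum ty hP1 τ) (bsupp_scale hμ (ρ τ)) hn hr)).trans
    (sum_gain_le ty hP hμ hρ hself hn hr)

theorem Gm_le (hP : ∀ ω, 0 ≤ P ω) (hμ : BSupp μ) {R : Ω → ℝ} (hR : ∀ ω, R ω ≠ 0)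
    {n : ℕ} (hn : 0 < n) {r : ℝ} (hr : 0 < r) : Gm P R μ n r ≤ log n := by
  have h1 := W_le_log hμ hn hr
  have h2 : 0 ≤ ∑ ω, P ω * W μ n (r / |R ω|) := Finset.sum_nonneg fun ω _ =>
    mul_nonneg (hP ω) (W_nonneg hμ hn (div_pos hr (abs_pos.2 (hR ω))))
  unfold Gm
  linarith

theorem summable_Gm (hP : ∀ ω, 0 ≤ P ω) (hP1 : ∑ ω, P ω = 1) (hμ : BSupp μ)
    (hρ : ∀ τ, ρ τ ≠ 0) (hself : μ = mix P fun ω => μ.map fun x => ρ (ty ω) * x + b ω)
    {n : ℕ} (hn : 0 < n) (c : ℝ) {d : ℝ} (hd : 0 < d) :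
    Summable fun i : ℕ => (2 / c) * ((1 / 2) ^ i * Gm P (fun ω => ρ (ty ω)) μ n ((1 / 2) ^ i * d)) := by
  refine Summable.mul_left _ ?_
  refine Summable.of_nonneg_of_le (fun i => mul_nonneg (by positivity)
    (Gm_nonneg ty hP hP1 hμ hρ hself hn (by positivity)))
    (fun i => mul_le_mul_of_nonneg_left (Gm_le hP hμ (fun ω => hρ (ty ω)) hn (by positivity))
      (by positivity)) ?_
  exact summable_geometric_two.mul_right _

theorem sigBar_nonneg (hP : ∀ ω, 0 ≤ P ω) {d : ℝ} (hd : 0 < d) : 0 ≤ sigBar P ty b d :=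
  Finset.sum_nonneg fun τ _ => mul_nonneg (fib_nonneg ty hP τ)
    (sig_nonneg b (cond_nonneg ty hP τ) hd)

/-- T1 for self-similar measures -/
theorem sigBar_le (hP : ∀ ω, 0 ≤ P ω) (hP1 : ∑ ω, P ω = 1) (hμ : BSupp μ)
    (hρ : ∀ τ, ρ τ ≠ 0) (hself : μ = mix P fun ω => μ.map fun x => ρ (ty ω) * x + b ω)
    {n : ℕ} (hn : 0 < n) {c : ℝ} (hc : 0 < c) (hmac : ∀ r, 0 < r → Macro μ n r c)
    {d : ℝ} (hd : 0 < d) :
    sigBar P ty b d ≤
      ∑' i : ℕ, (2 / c) * ((1 / 2) ^ i * Gm P (fun ω => ρ (ty ω)) μ n ((1 / 2) ^ i * d)) := by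
  have hsum : ∀ τ, Summable fun i : ℕ => (2 / c) * ((1 / 2) ^ i *
      gain (cond P ty τ) b (μ.map fun x => ρ τ * x) n ((1 / 2) ^ i * d)) := by
    intro τ
    refine Summable.mul_left _ ?_
    refine Summable.of_nonneg_of_le (fun i => mul_nonneg (by positivity)
      (gain_nonneg b (cond_nonneg ty hP τ) (cond_sum ty hP1 τ) (bsupp_scale hμ (ρ τ)) hn
        (by positivity)))
      (fun i => mul_le_mul_of_nonneg_left (gain_le b (cond_nonneg ty hP τ) (cond_sum ty hP1 τ)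
        (bsupp_scale hμ (ρ τ)) hn (by positivity)) (by positivity)) ?_
    exact summable_geometric_two.mul_right _
  unfold sigBar
  calc ∑ τ, fib P ty τ * sig (cond P ty τ) b d
      ≤ ∑ τ, fib P ty τ * ∑' i : ℕ, (2 / c) * ((1 / 2) ^ i *
          gain (cond P ty τ) b (μ.map fun x => ρ τ * x) n ((1 / 2) ^ i * d)) := by
        refine Finset.sum_le_sum fun τ _ => mul_le_mul_of_nonneg_left ?_ (fib_nonneg ty hP τ)
        exact sig_le_tsum b (cond_nonneg ty hP τ) (cond_sum ty hP1 τ) (bsupp_scale hμ (ρ τ)) hn hc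
          (Macro_scale hmac (hρ τ)) hd
    _ = ∑' i : ℕ, ∑ τ, fib P ty τ * ((2 / c) * ((1 / 2) ^ i *
          gain (cond P ty τ) b (μ.map fun x => ρ τ * x) n ((1 / 2) ^ i * d))) := by
        rw [Summable.tsum_finsetSum fun τ _ => (hsum τ).mul_left _]
        exact Finset.sum_congr rfl fun τ _ => tsum_mul_left.symm
    _ ≤ _ := by
        refine Summable.tsum_le_tsum (fun i => ?_)
          (summable_sum fun τ _ => (hsum τ).mul_left _) (summable_Gm ty hP hP1 hμ hρ hself hn c hd)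
        have h1 := sum_gain_le ty hP hμ hρ hself hn (r := (1 / 2) ^ i * d) (by positivity)
        have h2 : ∑ τ, fib P ty τ * ((2 / c) * ((1 / 2) ^ i *
          gain (cond P ty τ) b (μ.map fun x => ρ τ * x) n ((1 / 2) ^ i * d))) =
            (2 / c) * ((1 / 2) ^ i * ∑ τ, fib P ty τ *
          gain (cond P ty τ) b (μ.map fun x => ρ τ * x) n ((1 / 2) ^ i * d)) := by
          simp only [Finset.mul_sum]
          refine Finset.sum_congr rfl fun τ _ => ?_
          ring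
        rw [h2]
        refine mul_le_mul_of_nonneg_left ?_ (by positivity)
        exact mul_le_mul_of_nonneg_left h1 (by positivity)

/-- entropy increments -/
theorem HBar_sub_le (hP : ∀ ω, 0 ≤ P ω) (hP1 : ∑ ω, P ω = 1) {d t : ℝ} (hd : 0 < d)
    (ht : 0 < t) (ht2 : t ≤ 2) :
    HBar P ty b d - HBar P ty b (2 * d) ≤ t + log (2 / t) * sigBar P ty b d := by
  unfold HBar sigBar
  rw [← Finset.sum_sub_distrib]
  calc ∑ τ, (fib P ty τ * Hs (addLaw (cond P ty τ) b (Measure.dirac 0)) d -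
        fib P ty τ * Hs (addLaw (cond P ty τ) b (Measure.dirac 0)) (2 * d))
      ≤ ∑ τ, (fib P ty τ * t + log (2 / t) * (fib P ty τ * sig (cond P ty τ) b d)) := by
        refine Finset.sum_le_sum fun τ _ => ?_
        have h := Hs_law_sub_le b (cond_nonneg ty hP τ) (cond_sum ty hP1 τ) hd ht ht2
        have h2 := mul_le_mul_of_nonneg_left h (fib_nonneg ty hP τ)
        linarith
    _ = _ := by
        rw [Finset.sum_add_distrib, ← Finset.sum_mul, fib_sum ty hP1, one_mul, ← Finset.mul_sum]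

theorem HBar_mono (hP : ∀ ω, 0 ≤ P ω) {d : ℝ} (hd : 0 < d) {k : ℕ} (hk : 0 < k) :
    HBar P ty b (k * d) ≤ HBar P ty b d := by
  unfold HBar
  refine Finset.sum_le_sum fun τ _ => mul_le_mul_of_nonneg_left ?_ (fib_nonneg ty hP τ)
  exact Hs_nsmul_le (bsupp_dirac_zero.addLaw _ _) hd hk

/-- the conditional entropy of the words is at most the entropy of the measure -/
theorem HBar_le_Hs (hP : ∀ ω, 0 ≤ P ω) (hP1 : ∑ ω, P ω = 1) (hμ : BSupp μ)
    (hself : μ = mix P fun ω => μ.map fun x => ρ (ty ω) * x + b ω) {d : ℝ} (hd : 0 < d) :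
    HBar P ty b d ≤ Hs μ d := by
  have hB : ∀ τ, BSupp (addLaw (cond P ty τ) b (μ.map fun x => ρ τ * x)) :=
    fun τ => (bsupp_scale hμ (ρ τ)).addLaw _ _
  have h1 := J_nonneg (fib_nonneg ty hP) (fib_sum ty hP1) hB hd.le
  unfold J at h1
  rw [mix_types ty hP ρ b μ, ← hself] at h1
  have h2 : HBar P ty b d ≤
      ∑ τ, fib P ty τ * Hs (addLaw (cond P ty τ) b (μ.map fun x => ρ τ * x)) d := by
    unfold HBar
    refine Finset.sum_le_sum fun τ _ => mul_le_mul_of_nonneg_left ?_ (fib_nonneg ty hP τ)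
    exact Hs_law_le (cond_nonneg ty hP τ) (cond_sum ty hP1 τ) b (bsupp_scale hμ (ρ τ)) hd
  linarith

end mixture

end Crest.Agent.R98.TOne
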