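import Crest.Agent.R98.NCMain
import Crest.Agent.R98.TOneD
import Crest.Agent.R98.Ent3

/-!
Row 98 (S0129). Module NCASM, part (d): T1 averaged over the scales. (helper136)
-/

set_option autoImplicit false

namespace Crest.Agent.R98.NC

open Filter Real Finset MeasureTheory intervalIntegral
open Crest.Agent.R098.Upper Crest.Agent.R98
open scoped Topology

lemma geom_tail (i0 I : ℕ) :
    ∑ i ∈ range I, (if i0 ≤ i then (1/2 : ℝ)^i else 0) ≤ 2 * (1/2)^i0 := by
  have key : ∑ i ∈ range I, (if i0 ≤ i then (1/2 : ℝ)^i else 0) =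
      if I ≤ i0 then 0 else 2 * (1/2)^i0 - 2 * (1/2)^I := by
    induction I with
    | zero => simp
    | succ I ih =>
      rw [Finset.sum_range_succ, ih]
      rcases lt_trichotomy I i0 with h | h | h
      · rw [if_pos h.le, if_neg (by omega), if_pos (by omega)]; simp
      · subst h
        rw [if_pos le_rfl, if_pos le_rfl, if_neg (by omega), pow_succ]
        ring
      · rw [if_neg (by omega), if_pos h.le, if_neg (by omega), pow_succ]
        ring
  rw [key]
  split_ifs
  · positivity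
  · have : (0:ℝ) ≤ 2 * (1/2)^I := by positivity
    linarith

lemma bsuppDZ : BSupp (Measure.dirac (0:ℝ)) := by
  refine ⟨0, ?_⟩
  rw [Measure.dirac_apply' _ measurableSet_Icc.compl]
  simp

section avg

variable {Ω 𝒯 : Type*} [Fintype Ω] [Fintype 𝒯] {P : Ω → ℝ} (ty : Ω → 𝒯)

omit [Fintype 𝒯] in
lemma isProb_law (hP : ∀ ω, 0 ≤ P ω) (hP1 : ∑ ω, P ω = 1) (b : Ω → ℝ) (τ : 𝒯) :
    IsProbabilityMeasure (addLaw (TOne.cond P ty τ) b (Measure.dirac (0:ℝ))) :=
  isProbabilityMeasure_addLaw (TOne.cond_nonneg ty hP τ) (TOne.cond_sum ty hP1 τ) b _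

lemma HBar_anti (hP : ∀ ω, 0 ≤ P ω) (hP1 : ∑ ω, P ω = 1) (b : Ω → ℝ) {d d' : ℝ} (hd : 0 < d)
    (hdd : d ≤ d') : TOne.HBar P ty b d' ≤ TOne.HBar P ty b d := by
  unfold TOne.HBar
  refine Finset.sum_le_sum fun τ _ => mul_le_mul_of_nonneg_left ?_ (TOne.fib_nonneg ty hP τ)
  have := isProb_law ty hP hP1 b τ
  exact Hs_anti ((bsuppDZ).addLaw _ _) hd hdd

lemma HBar_le_log (hP : ∀ ω, 0 ≤ P ω) (hP1 : ∑ ω, P ω = 1) (b : Ω → ℝ) {d d' : ℝ} (hd : 0 < d)
    (hdd : d ≤ d') : TOne.HBar P ty b d ≤ TOne.HBar P ty b d' + (log (d' / d) + log 2) := by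
  unfold TOne.HBar
  calc ∑ τ, TOne.fib P ty τ * Hs (addLaw (TOne.cond P ty τ) b (Measure.dirac 0)) d
      ≤ ∑ τ, TOne.fib P ty τ * (Hs (addLaw (TOne.cond P ty τ) b (Measure.dirac 0)) d' +
          (log (d' / d) + log 2)) := by
        refine Finset.sum_le_sum fun τ _ => mul_le_mul_of_nonneg_left ?_ (TOne.fib_nonneg ty hP τ)
        have := isProb_law ty hP hP1 b τ
        exact Hs_le_log ((bsuppDZ).addLaw _ _) hd hdd
    _ = _ := by
        simp only [mul_add, Finset.sum_add_distrib]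
        rw [← Finset.sum_mul, ← Finset.sum_mul, TOne.fib_sum ty hP1, one_mul, one_mul]

/-- `Gm` of TOneD as a window gain `Gf` -/
lemma Gm_eq_Gf {μ : Measure ℝ} {R : Ω → ℝ} (hR : ∀ ω, R ω ≠ 0) {n : ℕ} (hn : 0 < n) (x : ℝ) :
    TOne.Gm P R μ n (exp (-x)) =
      Gf (fun x => Hs μ (exp (-x))) P (fun ω => -log |R ω|) (log n) x := by
  have hn' : (0:ℝ) < n := by exact_mod_cast hn
  rw [Gf_eq]
  unfold TOne.Gm TOne.W
  have h1 : ∀ y : ℝ, (n:ℝ) * exp (-y) = exp (-(y - log n)) := by
    intro y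
    rw [neg_sub, sub_eq_add_neg, exp_add, exp_log hn']
  have h2 : ∀ ω, exp (-x) / |R ω| = exp (-(x - -log |R ω|)) := by
    intro ω
    have e : -(x - -log |R ω|) = -x - log |R ω| := by ring
    rw [e, exp_sub, exp_log (abs_pos.2 (hR ω))]
  simp only [h2, h1]

variable {μ : Measure ℝ} [IsProbabilityMeasure μ] {ρ : 𝒯 → ℝ} {b : Ω → ℝ}

lemma tsum_gain_le (hP : ∀ ω, 0 ≤ P ω) (hP1 : ∑ ω, P ω = 1) (hμ : BSupp μ)
    (hρ : ∀ τ, ρ τ ≠ 0) (hself : μ = mix P fun ω => μ.map fun x => ρ (ty ω) * x + b ω)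
    {n : ℕ} (hn : 0 < n) {c : ℝ} (hc : 0 < c) {d : ℝ} (hd : 0 < d) (I : ℕ) :
    ∑' i : ℕ, (2 / c) * ((1 / 2) ^ i * TOne.Gm P (fun ω => ρ (ty ω)) μ n ((1 / 2) ^ i * d)) ≤
      (2 / c) * (∑ i ∈ range I, (1 / 2) ^ i * TOne.Gm P (fun ω => ρ (ty ω)) μ n ((1 / 2) ^ i * d) +
        2 * (1 / 2) ^ I * log n) := by
  have hs := TOne.summable_Gm ty hP hP1 hμ hρ hself hn c hd
  rw [← hs.sum_add_tsum_nat_add I, mul_add, Finset.mul_sum]
  have hle : ∀ i : ℕ, (2 / c) * ((1 / 2) ^ (i + I) *
      TOne.Gm P (fun ω => ρ (ty ω)) μ n ((1 / 2) ^ (i + I) * d)) ≤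
      ((2 / c) * (1 / 2) ^ I * log n) * (1 / 2) ^ i := by
    intro i
    have h1 := TOne.Gm_le (μ := μ) hP hμ (R := fun ω => ρ (ty ω)) (fun ω => hρ (ty ω)) hn
      (r := (1 / 2) ^ (i + I) * d) (by positivity)
    have h2 : (2 / c) * ((1 / 2) ^ (i + I) *
        TOne.Gm P (fun ω => ρ (ty ω)) μ n ((1 / 2) ^ (i + I) * d)) ≤
        (2 / c) * ((1 / 2) ^ (i + I) * log n) := by
      refine mul_le_mul_of_nonneg_left ?_ (by positivity)
      exact mul_le_mul_of_nonneg_left h1 (by positivity)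
    refine h2.trans (le_of_eq ?_)
    rw [pow_add]; ring
  have h3 : ∑' i : ℕ, (2 / c) * ((1 / 2) ^ (i + I) *
      TOne.Gm P (fun ω => ρ (ty ω)) μ n ((1 / 2) ^ (i + I) * d)) ≤
      ∑' i : ℕ, ((2 / c) * (1 / 2) ^ I * log n) * (1 / 2) ^ i :=
    Summable.tsum_le_tsum hle ((summable_nat_add_iff I).2 hs)
      (summable_geometric_two.mul_left _)
  have h5 : ∑' i : ℕ, ((2 / c) * (1 / 2) ^ I * log n) * (1 / 2 : ℝ) ^ i =
      (2 / c) * (2 * (1 / 2) ^ I * log n) := by
    rw [tsum_mul_left, tsum_geometric_two]; ring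
  rw [h5] at h3
  linarith

/-- monotone `H` -/
lemma H_mono {ν : Measure ℝ} [IsProbabilityMeasure ν] (hν : BSupp ν) :
    Monotone fun x : ℝ => Hs ν (exp (-x)) := by
  intro x y hxy
  exact Hs_anti hν (exp_pos _) (exp_le_exp.2 (neg_le_neg hxy))

/-- T1 averaged over a scale range -/
theorem avg_gain (hP : ∀ ω, 0 ≤ P ω) (hP1 : ∑ ω, P ω = 1) (hμ : BSupp μ)
    (hρ : ∀ τ, ρ τ ≠ 0) (hself : μ = mix P fun ω => μ.map fun x => ρ (ty ω) * x + b ω)
    {n : ℕ} (hn : 0 < n) {c : ℝ} (hc : 0 < c) (hmac : ∀ r, 0 < r → TOne.Macro μ n r c)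
    {t : ℝ} (ht : 0 < t) (ht2 : t ≤ 2) {N L : ℝ} (hL : 0 ≤ L) (I : ℕ) :
    log 2 * (TOne.HBar P ty b (exp (-(N + L))) - TOne.HBar P ty b (exp (-N))) ≤
      t * L + log (2 / t) * ((2 / c) * ((∑ i ∈ range I, (1 / 2) ^ i *
        ∫ x in (N + i * log 2)..(N + L + i * log 2),
          Gf (fun x => Hs μ (exp (-x))) P (fun ω => -log |ρ (ty ω)|) (log n) x) +
        2 * (1 / 2) ^ I * log n * L)) + 2 * log 2 * log 2 := by
  have hlog2 : 0 < log 2 := Real.log_pos (by norm_num)
  set E : ℝ → ℝ := fun x => TOne.HBar P ty b (exp (-x)) with hE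
  set H : ℝ → ℝ := fun x => Hs μ (exp (-x)) with hH
  set l : Ω → ℝ := fun ω => -log |ρ (ty ω)| with hl
  set G : ℝ → ℝ := Gf H P l (log n) with hG
  have hEmono : Monotone E := by
    intro x y hxy
    exact HBar_anti ty hP hP1 b (exp_pos _) (exp_le_exp.2 (neg_le_neg hxy))
  have hEint : ∀ u v, IntervalIntegrable E volume u v := fun u v => hEmono.intervalIntegrable
  have hHint : ∀ u v, IntervalIntegrable H volume u v := fun u v => (H_mono hμ).intervalIntegrable
  have hGint : ∀ u v, IntervalIntegrable G volume u v :=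
    fun u v => Gf_intervalIntegrable hHint _ u v
  have hGsh : ∀ (e : ℝ) u v, IntervalIntegrable (fun x => G (x + e)) volume u v := by
    intro e u v
    have := (hGint (u + e) (v + e)).comp_add_right e
    simpa using this
  have hlog2t : 0 ≤ log (2 / t) := log_nonneg ((one_le_div ht).2 ht2)
  -- pointwise
  have hpt : ∀ x, E x - E (x - log 2) ≤ t + log (2 / t) * ((2 / c) *
      (∑ i ∈ range I, (1 / 2) ^ i * G (x + i * log 2) + 2 * (1 / 2) ^ I * log n)) := by
    intro x
    have e1 : E (x - log 2) = TOne.HBar P ty b (2 * exp (-x)) := by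
      rw [hE]
      simp only
      congr 1
      rw [neg_sub, sub_eq_add_neg, exp_add, exp_log (by norm_num)]
    rw [e1]
    have h1 := TOne.HBar_sub_le (b := b) ty hP hP1 (d := exp (-x)) (exp_pos _) ht ht2
    have h2 := TOne.sigBar_le ty hP hP1 hμ hρ hself hn hc hmac (d := exp (-x)) (exp_pos _)
    have h3 := tsum_gain_le ty hP hP1 hμ hρ hself hn hc (d := exp (-x)) (exp_pos _) I
    have h4 : ∀ i : ℕ, TOne.Gm P (fun ω => ρ (ty ω)) μ n ((1 / 2) ^ i * exp (-x)) =
        G (x + i * log 2) := by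
      intro i
      have e2 : (1 / 2 : ℝ) ^ i * exp (-x) = exp (-(x + i * log 2)) := by
        rw [neg_add, exp_add, mul_comm]
        congr 1
        rw [← Real.log_pow, exp_neg, exp_log (by positivity), one_div, inv_pow]
      rw [e2, Gm_eq_Gf (fun ω => hρ (ty ω)) hn]
    simp only [h4] at h2 h3
    have h5 := mul_le_mul_of_nonneg_left (h2.trans h3) hlog2t
    linarith
  -- integrate
  have hI1 : ∫ x in N..(N + L), (E x - E (x - log 2)) =
      (∫ x in (N + L - log 2)..(N + L), E x) - ∫ x in (N - log 2)..N, E x := by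
    have h1 : IntervalIntegrable (fun x => E (x - log 2)) volume N (N + L) := by
      have := (hEint (N - log 2) (N + L - log 2)).comp_sub_right (log 2)
      simpa using this
    rw [intervalIntegral.integral_sub (hEint _ _) h1,
      intervalIntegral.integral_comp_sub_right E (log 2)]
    have e1 := intervalIntegral.integral_add_adjacent_intervals (hEint N (N + L - log 2))
      (hEint (N + L - log 2) (N + L))
    have e2 := intervalIntegral.integral_add_adjacent_intervals (hEint (N - log 2) N)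
      (hEint N (N + L - log 2))
    linarith
  have hI2 : log 2 * E (N + L - log 2) ≤ ∫ x in (N + L - log 2)..(N + L), E x := by
    have h1 : ∫ x in (N + L - log 2)..(N + L), E (N + L - log 2) ≤
        ∫ x in (N + L - log 2)..(N + L), E x :=
      intervalIntegral.integral_mono_on (by linarith) intervalIntegrable_const (hEint _ _)
        fun x hx => hEmono hx.1
    rw [intervalIntegral.integral_const, smul_eq_mul] at h1
    have e : N + L - (N + L - log 2) = log 2 := by ring
    rwa [e] at h1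
  have hI3 : ∫ x in (N - log 2)..N, E x ≤ log 2 * E N := by
    have h1 : ∫ x in (N - log 2)..N, E x ≤ ∫ x in (N - log 2)..N, E N :=
      intervalIntegral.integral_mono_on (by linarith) (hEint _ _) intervalIntegrable_const
        fun x hx => hEmono hx.2
    rw [intervalIntegral.integral_const, smul_eq_mul] at h1
    have e : N - (N - log 2) = log 2 := by ring
    rwa [e] at h1
  have hI4 : E (N + L) ≤ E (N + L - log 2) + 2 * log 2 := by
    have h1 := HBar_le_log ty hP hP1 b (d := exp (-(N + L))) (d' := exp (-(N + L - log 2)))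
      (exp_pos _) (exp_le_exp.2 (by linarith))
    rw [← exp_sub, log_exp] at h1
    have e : -(N + L - log 2) - -(N + L) + log 2 = 2 * log 2 := by ring
    rw [e] at h1
    exact h1
  have hI5 : ∫ x in N..(N + L), (E x - E (x - log 2)) ≤
      ∫ x in N..(N + L), (t + log (2 / t) * ((2 / c) *
        (∑ i ∈ range I, (1 / 2) ^ i * G (x + i * log 2) + 2 * (1 / 2) ^ I * log n))) := by
    refine intervalIntegral.integral_mono_on (by linarith) ?_ ?_ fun x _ => hpt x
    · refine (hEint _ _).sub ?_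
      have := (hEint (N - log 2) (N + L - log 2)).comp_sub_right (log 2)
      simpa using this
    · refine intervalIntegrable_const.add (IntervalIntegrable.const_mul
        (IntervalIntegrable.const_mul (IntervalIntegrable.add ?_ intervalIntegrable_const) _) _)
      have : (fun x => ∑ i ∈ range I, (1 / 2 : ℝ) ^ i * G (x + i * log 2)) =
          ∑ i ∈ range I, fun x => (1 / 2 : ℝ) ^ i * G (x + i * log 2) := by
        funext x; simp
      rw [this]
      exact IntervalIntegrable.sum _ fun i _ => (hGsh _ _ _).const_mul _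
  have hI6 : ∫ x in N..(N + L), (t + log (2 / t) * ((2 / c) *
        (∑ i ∈ range I, (1 / 2) ^ i * G (x + i * log 2) + 2 * (1 / 2) ^ I * log n))) =
      t * L + log (2 / t) * ((2 / c) * ((∑ i ∈ range I, (1 / 2) ^ i *
        ∫ x in (N + i * log 2)..(N + L + i * log 2), G x) + 2 * (1 / 2) ^ I * log n * L)) := by
    have hint1 : ∀ i ∈ range I, IntervalIntegrable (fun x => (1 / 2 : ℝ) ^ i * G (x + i * log 2))
        volume N (N + L) := fun i _ => (hGsh _ _ _).const_mul _
    have hint2 : IntervalIntegrable (fun x => ∑ i ∈ range I, (1 / 2 : ℝ) ^ i * G (x + i * log 2))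
        volume N (N + L) := by
      have : (fun x => ∑ i ∈ range I, (1 / 2 : ℝ) ^ i * G (x + i * log 2)) =
          ∑ i ∈ range I, fun x => (1 / 2 : ℝ) ^ i * G (x + i * log 2) := by
        funext x; simp
      rw [this]
      exact IntervalIntegrable.sum _ hint1
    rw [intervalIntegral.integral_add intervalIntegrable_const
      ((((hint2.add intervalIntegrable_const).const_mul _)).const_mul _),
      intervalIntegral.integral_const_mul, intervalIntegral.integral_const_mul,
      intervalIntegral.integral_add hint2 intervalIntegrable_const,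
      intervalIntegral.integral_finsetSum hint1]
    simp only [intervalIntegral.integral_const, smul_eq_mul, intervalIntegral.integral_const_mul,
      add_sub_cancel_left]
    have h7 : ∀ i : ℕ, ∫ x in N..(N + L), G (x + i * log 2) =
        ∫ x in (N + i * log 2)..(N + L + i * log 2), G x := by
      intro i
      rw [intervalIntegral.integral_comp_add_right G (i * log 2)]
    simp only [h7]
    ring
  have hfin : log 2 * (E (N + L) - E N) ≤
      (∫ x in N..(N + L), (E x - E (x - log 2))) + 2 * log 2 * log 2 := by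
    rw [hI1]
    have := mul_le_mul_of_nonneg_left hI4 hlog2.le
    nlinarith
  have := hfin.trans (add_le_add_left (hI5.trans hI6.le) (2 * log 2 * log 2))
  linarith

end avg

end Crest.Agent.R98.NC
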