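import Crest.Agent.R98.TopSel

/-!
Row 98 (S0129). Module TOP: the rank one conclusion (helper803).
-/

set_option autoImplicit false

namespace Crest.Agent.R98.Top

open Crest.AnalysisR Crest.Agent.R98 Crest.Agent.R98.Part Crest.Agent.R098.Upper Filter Topology
  MeasureTheory

variable {ι : Type*} [Fintype ι]

/-- the window at level `m`: `m (log m)^(k+4)` -/
noncomputable def lv (ι : Type*) [Fintype ι] (m : ℕ) : ℝ :=
  (m : ℝ) * (Real.log m) ^ (Fintype.card ι + 4)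

/-- KW1, rank one: the exactness lemma at every large level -/
def KW1r (σ : ι → ℝ) (a : ι → ℕ) (θ : ℝ) (t : ι → ℝ) (W : Submodule ℝ (ι → ℝ)) : Prop :=
  ∀ C₅ : ℝ, BC2 (rr σ fun i => a i * θ) t W (fun m => m) C₅ →
    ∀ᶠ m : ℕ in atTop, ∃ (s : ℂ) (K : Submodule ℂ (ι → ℂ)),
      Apx σ (fun i => a i * θ) t W m (lv ι m) 0 0 (m * Real.log m) s K ∧
      (s = 0 ∨ Complex.exp (-(1 + s) * θ) ∈ Cand σ a m)

/-- genericity of the candidates, rank one -/
def CandAway (σ : ι → ℝ) (a : ι → ℕ) (θ : ℝ) : Prop :=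
  ∃ C : ℝ, ∀ᵐ x : ℝ, 0 < x → ∀ᶠ m : ℕ in atTop, ∀ z ∈ Cand σ a m,
    Real.exp (-(C * m)) ≤ ‖z - (Real.exp (-(x * θ)) : ℝ)‖

/-- near coincidences at the window `m (log m)^(k+4)`, for infinitely many levels -/
def NC (p σ : ι → ℝ) (S : Core p σ) : Prop :=
  ∀ ℓ t, (∀ i, 0 < ℓ i) → S.α ℓ t < chi p ℓ → ∀ ε > 0, ∃ᶠ m : ℕ in atTop,
    HS (pw p : (Fin m → ι) → ℝ) (Cl (rr σ ℓ) t m (lv ι m)) ≤ (S.α ℓ t + ε) * m

lemma null_of_interval {D Z : Set ℝ} {x₀ ρ : ℝ} (hx₀ : 0 < x₀) (hρ : 0 < ρ) (hZ : Z.Countable)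
    (h : ∀ x : ℝ, |x| < ρ → x ∉ Z → x₀ * (1 + x) ∈ D) : volume D ≠ 0 := by
  intro hD
  have h1 : volume ((fun x : ℝ => 1 + x) ⁻¹' ((fun y : ℝ => x₀ * y) ⁻¹' D)) = 0 := by
    rw [measure_preimage_add]
    rw [Real.volume_preimage_mul_left hx₀.ne', hD, mul_zero]
  have h2 : Set.Ioo (-ρ) ρ ⊆ ((fun x : ℝ => 1 + x) ⁻¹' ((fun y : ℝ => x₀ * y) ⁻¹' D)) ∪ Z := by
    intro x hx
    by_cases hxZ : x ∈ Z
    · exact Or.inr hxZ
    · exact Or.inl (h x (abs_lt.mpr hx) hxZ)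
  have h3 := measure_mono (μ := volume) h2
  have h4 := measure_union_le (μ := volume)
    ((fun x : ℝ => 1 + x) ⁻¹' ((fun y : ℝ => x₀ * y) ⁻¹' D)) Z
  rw [h1, hZ.measure_zero, add_zero] at h4
  rw [Real.volume_Ioo] at h3
  have h5 : ENNReal.ofReal (ρ - -ρ) ≤ 0 := h3.trans h4
  rw [nonpos_iff_eq_zero, ENNReal.ofReal_eq_zero] at h5
  linarith

/-- RANK ONE: no counterexample over `ℓ = a θ` with integer `a` -/
theorem rank_one [Nonempty ι] {p σ : ι → ℝ} (hp : ∀ i, 0 ≤ p i) (hp1 : ∑ i, p i = 1)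
    (S : Core p σ) (a : ι → ℕ) (ha : ∀ i, 1 ≤ a i) {θ : ℝ} (hθ : 0 < θ)
    (hcand : CandAway σ a θ)
    (hKW : ∀ θ' : ℝ, 0 < θ' → ∀ t W, KW1r σ a θ' t W)
    (hNC : NC p σ S) (t : ι → ℝ) : ¬ S.Ctr (fun i => a i * θ) t := by
  classical
  intro hctr
  obtain ⟨C₆, hC₆⟩ := hcand
  set D : Set ℝ := {x : ℝ | 0 < x ∧ ∃ t', S.Ctr (fun i => a i * (x * θ)) t'} with hDdef
  have h1D : (1 : ℝ) ∈ D := ⟨one_pos, t, by simpa using hctr⟩
  -- the base point
  obtain ⟨x₀, hx₀D, hx₀⟩ : ∃ x₀ ∈ D, volume D = 0 ∨ ∀ᶠ m : ℕ in atTop, ∀ z ∈ Cand σ a m,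
      Real.exp (-(C₆ * m)) ≤ ‖z - (Real.exp (-(x₀ * θ)) : ℝ)‖ := by
    by_cases hnull : volume D = 0
    · exact ⟨1, h1D, Or.inl hnull⟩
    · by_contra hcon
      apply hnull
      refine measure_mono_null ?_ (ae_iff.mp hC₆)
      intro x hx
      show ¬ _
      intro h
      exact hcon ⟨x, hx, Or.inr (h hx.1)⟩
  have hx₀0 : 0 < x₀ := hx₀D.1
  set θ' := x₀ * θ with hθ'
  have hθ'0 : 0 < θ' := mul_pos hx₀0 hθ
  set ℓ : ι → ℝ := fun i => a i * θ' with hℓdef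
  have hℓ : ∀ i, 0 < ℓ i := fun i => by
    have : (0:ℝ) < a i := by exact_mod_cast ha i
    positivity
  obtain ⟨t₁, ht₁, C₅, hBC⟩ := select hp hp1 S hℓ hx₀D.2
  have hkw := hKW θ' hθ'0 t₁ (S.W ℓ t₁) C₅ hBC
  set α := S.α ℓ t₁ with hα
  -- extraction
  obtain ⟨φ, hφ, hφP⟩ : ∃ φ : ℕ → ℕ, StrictMono φ ∧ ∀ j,
      (HS (pw p : (Fin (φ j) → ι) → ℝ) (Cl (rr σ ℓ) t₁ (φ j) (lv ι (φ j))) ≤
        (α + 1 / ((j : ℝ) + 1)) * φ j ∧
      ∃ (s : ℂ) (K : Submodule ℂ (ι → ℂ)),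
        Apx σ ℓ t₁ (S.W ℓ t₁) (φ j) (lv ι (φ j)) 0 0 (φ j * Real.log (φ j)) s K ∧
        (s = 0 ∨ Complex.exp (-(1 + s) * θ') ∈ Cand σ a (φ j))) := by
    apply extraction_forall_of_frequently
      (P := fun j m => (HS (pw p : (Fin m → ι) → ℝ) (Cl (rr σ ℓ) t₁ m (lv ι m)) ≤
        (α + 1 / ((j : ℝ) + 1)) * m ∧
      ∃ (s : ℂ) (K : Submodule ℂ (ι → ℂ)),
        Apx σ ℓ t₁ (S.W ℓ t₁) m (lv ι m) 0 0 (m * Real.log m) s K ∧
        (s = 0 ∨ Complex.exp (-(1 + s) * θ') ∈ Cand σ a m)))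
    intro j
    have h1 := hNC ℓ t₁ hℓ ht₁.1 (1 / ((j : ℝ) + 1)) (by positivity)
    exact h1.and_eventually hkw
  choose hH s K hA hcs using hφP
  have hφt : Tendsto φ atTop atTop := hφ.tendsto_atTop
  have hεt : Tendsto (fun j : ℕ => 1 / ((j : ℝ) + 1)) atTop (𝓝 0) :=
    tendsto_one_div_add_atTop_nhds_zero_nat
  -- `s j = 0` eventually
  have hs0 : ∀ᶠ j in atTop, s j = 0 := by
    by_contra hcon
    rw [not_eventually] at hcon
    rcases hx₀ with hnull | hgen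
    · obtain ⟨ψ, hψ, hψs⟩ := extraction_of_frequently_atTop hcon
      choose τ hτK hτ using fun j => (hA (ψ j)).close t₁ (S.self_mem ℓ t₁ hℓ)
      have hD := dat_of_Apx (p := p) (α := α) (hφt.comp hψ.tendsto_atTop)
        (hεt.comp hψ.tendsto_atTop) (fun j => hH (ψ j)) (fun j => hA (ψ j)) hτK (A := ‖t₁‖)
        (fun j i => by
          have := hτ j i
          rwa [mul_comm] at this)
      obtain ⟨ρ, hρ, Z, hZ, hst⟩ := S.st ℓ t₁ hℓ ht₁.1 ht₁.2 _ _ _ _ _ _ hD (fun j => hψs j)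
        (fun J => Eventually.of_forall fun j => by positivity)
      refine null_of_interval (D := D) (ρ := min ρ 1) hx₀0 (lt_min hρ one_pos) hZ ?_ hnull
      intro x hx hxZ
      obtain ⟨t', ht'1, ht'2⟩ := hst x (lt_of_lt_of_le hx (min_le_left _ _)) hxZ
      have hx1 : 0 < 1 + x := by
        have := (abs_lt.mp (lt_of_lt_of_le hx (min_le_right _ _))).1
        linarith
      refine ⟨by positivity, t', ?_⟩
      have e : (fun i => (a i : ℝ) * (x₀ * (1 + x) * θ)) = fun i => (1 + x) * ℓ i := by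
        funext i
        simp only [hℓdef, hθ']
        ring
      rw [e]
      exact ⟨ht'1, ht'2⟩
    · apply hcon
      have h2 : ∀ᶠ j in atTop, ‖s j‖ * θ' ≤ 1 ∧ 2 * (‖s j‖ * θ') < Real.exp (-(C₆ * φ j)) := by
        filter_upwards [hφt.eventually (ev_exp_le (2 * θ' * 2) C₆),
          hφt.eventually (ev_exp_le θ' 0)] with j hj1 hj2
        have h3 := (hA j).s_small
        constructor
        · calc ‖s j‖ * θ' ≤ Real.exp (-((φ j : ℝ) * Real.log (φ j))) * θ' :=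
                mul_le_mul_of_nonneg_right h3 hθ'0.le
            _ ≤ 1 := by
                rw [mul_comm]
                refine hj2.trans ?_
                simp
        · have h4 : 2 * (2 * (‖s j‖ * θ')) ≤ Real.exp (-(C₆ * φ j)) := by
            refine le_trans ?_ hj1
            calc 2 * (2 * (‖s j‖ * θ')) = 2 * θ' * 2 * ‖s j‖ := by ring
              _ ≤ 2 * θ' * 2 * Real.exp (-((φ j : ℝ) * Real.log (φ j))) := by
                gcongr
          have h5 := Real.exp_pos (-(C₆ * φ j))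
          have h6 : 0 ≤ 2 * (‖s j‖ * θ') := by positivity
          rcases h6.eq_or_lt with h | h
          · rw [← h]; exact h5
          · linarith
      filter_upwards [hφt.eventually hgen, h2] with j hj1 hj2
      rcases hcs j with h | h
      · exact not_not.mpr h
      · exfalso
        have h3 := hj1 _ h
        have h4 : ‖Complex.exp (-(1 + s j) * θ') - (Real.exp (-(x₀ * θ)) : ℝ)‖ ≤
            2 * (‖s j‖ * θ') := by
          have h5 := norm_rayc_sub (σ := fun _ : Unit => (1:ℝ)) (fun _ => Or.inl rfl)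
            (ℓ := fun _ => θ') (fun _ => hθ'0) (s := s j) () hj2.1
          have e1 : rayc (fun _ : Unit => (1:ℝ)) (fun _ => θ') (s j) () =
              Complex.exp (-(1 + s j) * θ') := by
            simp [rayc]
          have e2 : rayc (fun _ : Unit => (1:ℝ)) (fun _ => θ') 0 () =
              ((Real.exp (-(x₀ * θ)) : ℝ) : ℂ) := by
            rw [rayc_zero, rr, one_mul]
          rwa [e1, e2] at h5
        linarith [hj2.2]
  obtain ⟨J, hJ⟩ := eventually_atTop.mp hs0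
  have hshift : Tendsto (fun j : ℕ => j + J) atTop atTop := tendsto_add_atTop_nat J
  have hkw2 := kw2_exact S hℓ ht₁.1 (m := fun j => φ (j + J)) (X := fun j => lv ι (φ (j + J)))
    (ε := fun j => 1 / (((j + J : ℕ) : ℝ) + 1)) (K := fun j => K (j + J))
    (hφt.comp hshift) (hεt.comp hshift) (fun j => hH (j + J)) (fun j => by
      have := hA (j + J)
      rwa [hJ (j + J) (by omega)] at this)
  have hle : ∀ᶠ j in atTop, hX p (rr σ ℓ) t₁ ≤ α + 1 / (((j + J : ℕ) : ℝ) + 1) := by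
    filter_upwards [hkw2, (hφt.comp hshift).eventually_ge_atTop 1] with j hj hj1
    have h1 : Cl (rr σ ℓ) t₁ (φ (j + J)) (lv ι (φ (j + J))) ≤ Ex (rr σ ℓ) t₁ (φ (j + J)) := by
      intro u v huv
      refine ⟨huv.1, ?_⟩
      exact hj u v (near_of_Cl huv)
    have h2 : HS (pw p : (Fin (φ (j + J)) → ι) → ℝ) (Ex (rr σ ℓ) t₁ (φ (j + J))) ≤
        (α + 1 / (((j + J : ℕ) : ℝ) + 1)) * φ (j + J) :=
      (HW_anti hp h1).trans (hH (j + J))
    have hpos : (0 : ℝ) < φ (j + J) := by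
      have : 1 ≤ φ (j + J) := hj1
      exact_mod_cast this
    exact (hX_le hp hp1 _ _ hj1).trans ((div_le_iff₀ hpos).mpr h2)
  have hlim : Tendsto (fun j : ℕ => α + 1 / (((j + J : ℕ) : ℝ) + 1)) atTop (𝓝 (α + 0)) :=
    tendsto_const_nhds.add (hεt.comp hshift)
  have hfin := ge_of_tendsto hlim hle
  rw [add_zero] at hfin
  exact absurd ht₁.2 (not_lt.mpr hfin)

end Crest.Agent.R98.Top
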