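import Mathlib

/-!
Row 98 (S0129). Module NCASM, part (a): series lemma for near coincidences. (helper136)
-/

set_option autoImplicit false

namespace Crest.Agent.R98.NC

open Filter Real Finset
open scoped Topology

/-- Disjoint windows: if every window `[i, i+W)` starting in `[X, 2X]` carries mass `≥ c`, then
`(X / W) * c ≤ total mass`. -/
lemma windows_mass {b : ℕ → ℝ} (hb : ∀ k, 0 ≤ b k) (hs : Summable b) {X W : ℕ}
    {c : ℝ} (J : ℕ) (hJ : J * W ≤ X)
    (h : ∀ i, X ≤ i → i ≤ 2 * X → c ≤ ∑ k ∈ Finset.Ico i (i + W), b k) :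
    J * c ≤ ∑' k, b k := by
  have key : ∀ j : ℕ, j ≤ J → (j : ℝ) * c ≤ ∑ k ∈ Finset.Ico X (X + j * W), b k := by
    intro j
    induction j with
    | zero => intro _; simp
    | succ j ih =>
      intro hj
      have h1 := ih (by omega)
      have hle : j * W ≤ X := le_trans (Nat.mul_le_mul_right W (by omega : j ≤ J)) hJ
      have h2 := h (X + j * W) (by omega) (by omega)
      have h3 : ∑ k ∈ Finset.Ico X (X + (j+1) * W), b k =
          ∑ k ∈ Finset.Ico X (X + j * W), b k +
            ∑ k ∈ Finset.Ico (X + j * W) (X + j * W + W), b k := by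
        have e : X + (j+1) * W = X + j * W + W := by ring
        rw [e, Finset.sum_Ico_consecutive b (by omega) (by omega)]
      rw [h3]
      push_cast
      linarith
  refine (key J le_rfl).trans ?_
  exact hs.sum_le_tsum _ fun k _ => hb k

/-- **Series lemma.** For a summable nonnegative sequence and windows of length
`O(log i)`, infinitely many windows `[i, i + W i)` have mass `≤ ε / log i`. -/
theorem exists_small_window {b : ℕ → ℝ} (hb : ∀ k, 0 ≤ b k) (hs : Summable b)
    {W : ℕ → ℕ} {A : ℝ} (hW : ∀ i : ℕ, 1 ≤ i → (W i : ℝ) ≤ A * (1 + Real.log i))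
    {ε : ℝ} (hε : 0 < ε) :
    ∃ᶠ i : ℕ in atTop, ∑ k ∈ Finset.Ico i (i + W i), b k ≤ ε / Real.log i := by
  rw [Filter.frequently_atTop]
  intro i0
  by_contra hcon
  push Not at hcon
  have hA : 0 ≤ A := by
    have := hW 1 le_rfl
    simp at this
    exact le_trans (Nat.cast_nonneg _) this
  set T : ℝ := ∑' k, b k with hT
  have hT0 : 0 ≤ T := tsum_nonneg hb
  -- choose X large
  have hlim : Tendsto (fun X : ℝ => X / (1 + Real.log X) ^ 2) atTop atTop := by
    have h1 : (fun X : ℝ => (1 + Real.log X) ^ 2) =o[atTop] fun X : ℝ => X := by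
      have h2 : (fun X : ℝ => 1 + Real.log X) =o[atTop] fun X : ℝ => X ^ (1/2 : ℝ) := by
        refine Asymptotics.IsLittleO.add ?_ (isLittleO_log_rpow_atTop (by norm_num))
        refine Asymptotics.isLittleO_const_left.2 (Or.inr ?_)
        have h3 := tendsto_rpow_atTop (y := (1/2 : ℝ)) (by norm_num)
        exact tendsto_norm_atTop_atTop.comp h3
      have h3 := h2.pow (n := 2) (by norm_num)
      refine h3.congr' (Filter.Eventually.of_forall fun _ => rfl) ?_
      filter_upwards [eventually_ge_atTop (0:ℝ)] with X hX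
      rw [← Real.rpow_natCast, ← Real.rpow_mul hX]
      norm_num
    have h4 : ∀ᶠ X : ℝ in atTop, 0 < (1 + Real.log X) ^ 2 := by
      filter_upwards [eventually_gt_atTop (1:ℝ)] with X hX
      have := Real.log_pos hX
      positivity
    have h5 := h1.tendsto_div_nhds_zero
    have h6 : Tendsto (fun X : ℝ => ((1 + Real.log X) ^ 2 / X)⁻¹) atTop atTop := by
      refine Filter.Tendsto.inv_tendsto_nhdsGT_zero ?_
      refine tendsto_nhdsWithin_iff.2 ⟨h5, ?_⟩
      filter_upwards [h4, eventually_gt_atTop (0:ℝ)] with X hX hX0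
      exact div_pos hX hX0
    refine h6.congr fun X => ?_
    rw [inv_div]
  -- constant to beat
  set M : ℝ := (T + ε + 1) * (A + 1) * 16 / ε with hM
  have hev : ∀ᶠ X : ℝ in atTop, M ≤ X / (1 + Real.log X) ^ 2 := hlim.eventually_ge_atTop M
  have hevN : ∀ᶠ X : ℕ in atTop, M ≤ (X : ℝ) / (1 + Real.log X) ^ 2 :=
    tendsto_natCast_atTop_atTop.eventually hev
  obtain ⟨X, hXM, hX0, hX3⟩ := (hevN.and ((eventually_ge_atTop i0).and
    (eventually_ge_atTop 3))).exists
  have hXr : (3:ℝ) ≤ X := by exact_mod_cast hX3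
  have hlogX : 1 ≤ Real.log X := by
    have : Real.log (Real.exp 1) ≤ Real.log X := by
      refine Real.log_le_log (Real.exp_pos 1) ?_
      have := Real.exp_one_lt_d9
      linarith
    rwa [Real.log_exp] at this
  have hlog2X : Real.log ((2 * X : ℕ) : ℝ) ≤ 2 * Real.log X := by
    push_cast
    rw [Real.log_mul (by norm_num) (by positivity)]
    have : Real.log 2 ≤ Real.log X := Real.log_le_log (by norm_num) (by linarith)
    linarith
  have hlog2X0 : 0 < Real.log ((2 * X : ℕ) : ℝ) := by
    refine Real.log_pos ?_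
    push_cast; linarith
  -- window length
  set V : ℕ := ⌈(A + 1) * (1 + 2 * Real.log X)⌉₊ with hV
  have hV1 : (1:ℝ) ≤ V := by
    have h1 : (1:ℝ) ≤ (A + 1) * (1 + 2 * Real.log X) := by nlinarith
    exact h1.trans (Nat.le_ceil _)
  have hVpos : 0 < V := by
    have : (0:ℝ) < V := by linarith
    exact_mod_cast this
  have hVle : (V : ℝ) ≤ 4 * (A + 1) * (1 + Real.log X) := by
    have h1 : (V : ℝ) < (A + 1) * (1 + 2 * Real.log X) + 1 := Nat.ceil_lt_add_one (by positivity)
    nlinarith
  set c : ℝ := ε / (2 * Real.log X) with hc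
  have hc0 : 0 < c := by positivity
  have hwin : ∀ i, X ≤ i → i ≤ 2 * X → c ≤ ∑ k ∈ Finset.Ico i (i + V), b k := by
    intro i hi1 hi2
    have hiX : (X : ℝ) ≤ i := by exact_mod_cast hi1
    have hlogi : Real.log i ≤ 2 * Real.log X := by
      refine le_trans (Real.log_le_log (by linarith) ?_) hlog2X
      exact_mod_cast hi2
    have hlogi0 : 0 < Real.log i := Real.log_pos (by linarith)
    have h1 := hcon i (by omega)
    have hWi : W i ≤ V := by
      have h2 : (W i : ℝ) ≤ (A + 1) * (1 + 2 * Real.log X) := by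
        refine (hW i (by omega)).trans ?_
        have h3 : (0:ℝ) ≤ 1 + Real.log i := by linarith
        nlinarith
      have h4 : (W i : ℝ) ≤ V := h2.trans (Nat.le_ceil _)
      exact_mod_cast h4
    have h2 : ∑ k ∈ Finset.Ico i (i + W i), b k ≤ ∑ k ∈ Finset.Ico i (i + V), b k := by
      refine Finset.sum_le_sum_of_subset_of_nonneg ?_ fun k _ _ => hb k
      exact Finset.Ico_subset_Ico le_rfl (by omega)
    have h3 : c ≤ ε / Real.log i := by
      rw [hc]
      exact div_le_div_of_nonneg_left hε.le hlogi0 hlogi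
    linarith
  have hJ : (X / V) * V ≤ X := Nat.div_mul_le_self X V
  have hfin := windows_mass hb hs (X / V) hJ hwin
  -- contradiction
  have hdiv : (X : ℝ) / V - 1 ≤ ((X / V : ℕ) : ℝ) := by
    have h1 : X < (X / V + 1) * V := by
      have := Nat.div_add_mod X V
      have h2 := Nat.mod_lt X hVpos
      nlinarith
    have h1' : (X : ℝ) < (((X / V : ℕ) : ℝ) + 1) * V := by exact_mod_cast h1
    have : (X : ℝ) / V < ((X / V : ℕ) : ℝ) + 1 := by
      rw [div_lt_iff₀ (by linarith)]
      exact h1'
    linarith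
  have hXV : (X : ℝ) / (4 * (A + 1) * (1 + Real.log X)) ≤ (X : ℝ) / V :=
    div_le_div_of_nonneg_left (by positivity) (by linarith) hVle
  have hbig : (T + ε + 1) ≤ (X : ℝ) / V * c := by
    have h1 : (X : ℝ) / (4 * (A + 1) * (1 + Real.log X)) * (ε / (2 * (1 + Real.log X))) ≤
        (X : ℝ) / V * c := by
      refine mul_le_mul hXV ?_ (by positivity) (by positivity)
      exact div_le_div_of_nonneg_left hε.le (by positivity) (by linarith)
    refine le_trans ?_ h1
    have h2 : (X : ℝ) / (4 * (A + 1) * (1 + Real.log X)) * (ε / (2 * (1 + Real.log X))) =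
        (X : ℝ) / (1 + Real.log X) ^ 2 * (ε / (8 * (A + 1))) := by
      field_simp
      ring
    rw [h2]
    have h3 : M * (ε / (8 * (A + 1))) ≤ (X : ℝ) / (1 + Real.log X) ^ 2 * (ε / (8 * (A + 1))) :=
      mul_le_mul_of_nonneg_right hXM (by positivity)
    refine le_trans ?_ h3
    have h4 : M * (ε / (8 * (A + 1))) = 2 * (T + ε + 1) := by
      rw [hM]
      field_simp
      ring
    rw [h4]
    linarith
  have hcle : c ≤ ε := by
    rw [hc, div_le_iff₀ (by positivity)]
    nlinarith
  have : ((X : ℝ) / V - 1) * c ≤ T := by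
    refine le_trans ?_ hfin
    exact mul_le_mul_of_nonneg_right hdiv hc0.le
  nlinarith

end Crest.Agent.R98.NC
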