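import Crest.Agent.R98.NCWords
import Crest.Agent.R98.NCSeries

/-!
Row 98 (S0129). Module NCASM, part (c): exponential collapse and near coincidences at
`m (log m)^B` from the output of T1 (abstract form). (helper136)
-/

set_option autoImplicit false

namespace Crest.Agent.R98.NC

open Filter Real Finset MeasureTheory intervalIntegral
open Crest.Agent.R098.Upper
open scoped Topology

/-- the loss function of T1 -/
noncomputable def phi (u : ℝ) : ℝ := u * (1 + Real.log 2 - Real.log u)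

lemma mul_phi_div {s L : ℝ} (hs : 0 < s) (hL : 0 < L) :
    L * phi (s / L) = s * (1 + Real.log 2 + Real.log (L / s)) := by
  unfold phi
  rw [Real.log_div hs.ne' hL.ne', Real.log_div hL.ne' hs.ne']
  field_simp
  ring

section Main

variable {ι : Type*} [Fintype ι]

/-- the environment: `H x = Hs μ (e^{-x})` -/
structure Env (H : ℝ → ℝ) (p l : ι → ℝ) (a D C : ℝ) : Prop where
  hH : ∀ a b, IntervalIntegrable H volume a b
  hH0 : ∀ x, 0 ≤ H x
  hD : 0 ≤ D
  hup : ∀ x, H x ≤ D * max x 0 + C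
  hlow : ∀ D', D' < D → ∃ C', ∀ x, 0 ≤ x → D' * x - C' ≤ H x
  hp : ∀ i, 0 ≤ p i
  hp1 : ∑ i, p i = 1
  hl : ∀ i, 0 ≤ l i
  ha : 0 < a
  hG : ∀ x, 0 ≤ Gf H p l a x

/-- the `m`-block gain -/
noncomputable def Gm (H : ℝ → ℝ) (p l : ι → ℝ) (a : ℝ) (m : ℕ) (x : ℝ) : ℝ :=
  Gf H (fun u : Fin m → ι => pw p u) (sw l) a x

/-- output of T1 for the average entropies `E m x` of the block translations given the type -/
structure T1Out (H : ℝ → ℝ) (p l : ι → ℝ) (a : ℝ) (E : ℕ → ℝ → ℝ) (C₁ : ℝ) : Prop where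
  hC : 0 ≤ C₁
  le_H : ∀ m x, 0 ≤ x → E m x ≤ H x
  gain : ∀ (m : ℕ) (N L M s : ℝ), 0 ≤ N → 1 ≤ L → N + L ≤ M →
    C₁ * ((∫ x in N..M, Gm H p l a m x) + m * Real.exp (-(M - N - L))) ≤ s → 0 < s → s ≤ L →
    E m (N + L) - E m N ≤ L * phi (s / L) + C₁

variable {H : ℝ → ℝ} {p l : ι → ℝ} {a D C C₁ : ℝ} {E : ℕ → ℝ → ℝ}

/-- total gain of a block after scale `(χ+δ)m` is `o(m)` -/
theorem total_gain (h : Env H p l a D C) {δ ε : ℝ} (hδ : 0 < δ) (hε : 0 < ε) :
    ∀ᶠ m : ℕ in atTop, ∀ M, ∫ x in ((∑ i, p i * l i) + δ) * m..M, Gm H p l a m x ≤ ε * m := by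
  set χ : ℝ := ∑ i, p i * l i with hχ
  have hχ0 : 0 ≤ χ := Finset.sum_nonneg fun i _ => mul_nonneg (h.hp i) (h.hl i)
  have ha := h.ha
  have hD := h.hD
  set ε' : ℝ := ε / (4 * a * (χ + δ + 1)) with hε'
  have hε'0 : 0 < ε' := by positivity
  obtain ⟨C', hC'⟩ := h.hlow (D - ε') (by linarith)
  set V : ℝ := ∑ i, p i * (l i - ∑ i, p i * l i) ^ 2 with hV
  have hV0 : 0 ≤ V := Finset.sum_nonneg fun i _ => mul_nonneg (h.hp i) (sq_nonneg _)
  have e1 : ∀ᶠ m : ℕ in atTop, a / δ ≤ m := tendsto_natCast_atTop_atTop.eventually_ge_atTop _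
  have e2 : ∀ᶠ m : ℕ in atTop, 4 * a * |C + C' + D * a| / ε ≤ m :=
    tendsto_natCast_atTop_atTop.eventually_ge_atTop _
  have e3 : ∀ᶠ m : ℕ in atTop, (4 * a * D / ε) ^ 2 * V ≤ m :=
    tendsto_natCast_atTop_atTop.eventually_ge_atTop _
  filter_upwards [e1, e2, e3, eventually_gt_atTop 0] with m h1 h2 h3 hm0 M
  have hm : (0:ℝ) < m := by exact_mod_cast hm0
  unfold Gm
  have hS := sum_pw_sw_eq (p := p) (l := l) h.hp1 m
  have hb := integral_Gf_le' (q := fun u : Fin m → ι => pw p u) (l := sw l) h.hH h.hH0 hD h.hup hC'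
    (fun u => pw_nonneg h.hp u) (sum_pw h.hp1 m) (fun u => sw_nonneg h.hl u) ha
    (fun x => Gf_words_nonneg h.hp h.hG m x) (N := (χ + δ) * m) (M := M) (by linarith)
    (by
      rw [hS, ← hχ]
      rw [div_le_iff₀ hδ] at h1
      nlinarith)
  refine hb.trans ?_
  have hdev := sum_pw_abs_sw_le (p := p) (l := l) h.hp h.hp1 m
  rw [← hV] at hdev
  have t1 : a * ((D - (D - ε')) * ((χ + δ) * m)) ≤ ε / 4 * m := by
    have : a * ((D - (D - ε')) * ((χ + δ) * m)) = (ε / 4 * m) * ((χ + δ) / (χ + δ + 1)) := by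
      rw [hε']; field_simp; ring
    rw [this]
    have h5 : (χ + δ) / (χ + δ + 1) ≤ 1 := by
      rw [div_le_one (by positivity)]; linarith
    have h6 : 0 ≤ ε / 4 * m := by positivity
    nlinarith
  have t2 : a * (D * Real.sqrt (m * V)) ≤ ε / 4 * m := by
    have h5 : Real.sqrt (m * V) * (4 * a * D / ε) ≤ m := by
      have h6 : Real.sqrt (m * V) * (4 * a * D / ε) = Real.sqrt (m * ((4 * a * D / ε) ^ 2 * V)) := by
        have e : (m:ℝ) * ((4 * a * D / ε) ^ 2 * V) = (4 * a * D / ε) ^ 2 * (m * V) := by ring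
        rw [e, Real.sqrt_mul (sq_nonneg _), Real.sqrt_sq (by positivity)]
        ring
      rw [h6]
      calc Real.sqrt (m * ((4 * a * D / ε) ^ 2 * V)) ≤ Real.sqrt (m * m) :=
            Real.sqrt_le_sqrt (mul_le_mul_of_nonneg_left h3 hm.le)
        _ = m := Real.sqrt_mul_self hm.le
    have h7 : a * (D * Real.sqrt (m * V)) = ε / 4 * (Real.sqrt (m * V) * (4 * a * D / ε)) := by
      field_simp
    rw [h7]
    exact mul_le_mul_of_nonneg_left h5 (by positivity)
  have t3 : a * (C + C' + D * a) ≤ ε / 4 * m := by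
    have h5 : a * (C + C' + D * a) ≤ a * |C + C' + D * a| :=
      mul_le_mul_of_nonneg_left (le_abs_self _) ha.le
    rw [div_le_iff₀ hε] at h2
    linarith
  have t4 : a * (D * ∑ u : Fin m → ι, pw p u * |sw l u - ∑ u : Fin m → ι, pw p u * sw l u|) ≤
      ε / 4 * m := by
    refine le_trans ?_ t2
    refine mul_le_mul_of_nonneg_left ?_ ha.le
    exact mul_le_mul_of_nonneg_left hdev hD
  have hεm : 0 ≤ ε / 4 * m := by positivity
  nlinarith

/-- the loss function is small -/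
lemma exists_small_loss {ℓ : ℝ} (hℓ : 0 < ℓ) {ε : ℝ} (hε : 0 < ε) :
    ∃ η > 0, η ≤ ℓ ∧ η * (1 + Real.log 2 + Real.log (ℓ / η)) ≤ ε := by
  have h1 : Tendsto (fun η : ℝ => η * (1 + Real.log 2 + Real.log (ℓ / η))) (𝓝[>] 0) (𝓝 0) := by
    have h2 : Tendsto (fun η : ℝ => η * (1 + Real.log 2 + Real.log ℓ) - Real.log η * η ^ (1:ℝ))
        (𝓝[>] 0) (𝓝 (0 * (1 + Real.log 2 + Real.log ℓ) - 0)) := by
      refine Tendsto.sub ?_ (tendsto_log_mul_rpow_nhdsGT_zero (by norm_num))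
      refine Tendsto.mul_const _ ?_
      exact tendsto_nhdsWithin_of_tendsto_nhds tendsto_id
    rw [zero_mul, sub_zero] at h2
    refine h2.congr' ?_
    filter_upwards [self_mem_nhdsWithin] with η hη
    have hη0 : (0:ℝ) < η := hη
    rw [Real.log_div hℓ.ne' hη0.ne', Real.rpow_one]
    ring
  have h3 := h1.eventually (gt_mem_nhds hε)
  have h4 : ∀ᶠ η : ℝ in 𝓝[>] 0, η ≤ ℓ :=
    (tendsto_nhdsWithin_of_tendsto_nhds tendsto_id).eventually (ge_mem_nhds hℓ)
  obtain ⟨η, h5, h6, h7⟩ := (h3.and (h4.and self_mem_nhdsWithin)).exists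
  exact ⟨η, h7, h6, h5.le⟩

/-- **exponential collapse** -/
theorem collapse (h : Env H p l a D C) (hT : T1Out H p l a E C₁) {q ε : ℝ} (hq : 0 ≤ q)
    (hε : 0 < ε) :
    ∀ᶠ m : ℕ in atTop, E m (q * m) ≤ (D * (∑ i, p i * l i) + ε) * m := by
  set χ : ℝ := ∑ i, p i * l i with hχ
  have hχ0 : 0 ≤ χ := Finset.sum_nonneg fun i _ => mul_nonneg (h.hp i) (h.hl i)
  have hD := h.hD
  have hC₁ := hT.hC
  have hC : 0 ≤ C := by
    have := (h.hH0 0).trans (h.hup 0)
    simpa using this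
  set δ : ℝ := ε / (4 * (D + 1)) with hδ
  have hδ0 : 0 < δ := by positivity
  have hDδ : D * δ ≤ ε / 4 := by
    have : D * δ = ε / 4 * (D / (D + 1)) := by rw [hδ]; field_simp
    rw [this]
    have h5 : D / (D + 1) ≤ 1 := by
      rw [div_le_one (by positivity)]; linarith
    nlinarith
  have base : ∀ᶠ m : ℕ in atTop, ∀ q', 0 ≤ q' → q' ≤ χ + δ → E m (q' * m) ≤ (D * χ + ε / 2) * m := by
    have e1 : ∀ᶠ m : ℕ in atTop, 4 * C / ε ≤ m := tendsto_natCast_atTop_atTop.eventually_ge_atTop _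
    filter_upwards [e1, eventually_gt_atTop 0] with m h1 hm0 q' hq'0 hq'
    have hm : (0:ℝ) < m := by exact_mod_cast hm0
    have h2 : 0 ≤ q' * m := by positivity
    refine (hT.le_H m _ h2).trans ((h.hup _).trans ?_)
    rw [max_eq_left h2]
    rw [div_le_iff₀ hε] at h1
    have h3 : D * (q' * m) ≤ D * ((χ + δ) * m) :=
      mul_le_mul_of_nonneg_left (mul_le_mul_of_nonneg_right hq' hm.le) hD
    have h4 : D * δ * m ≤ ε / 4 * m := mul_le_mul_of_nonneg_right hDδ hm.le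
    nlinarith
  rcases le_or_gt q (χ + δ) with hqs | hqs
  · filter_upwards [base, eventually_gt_atTop 0] with m h1 hm0
    have hm : (0:ℝ) < m := by exact_mod_cast hm0
    have := h1 q hq hqs
    nlinarith
  set ℓ : ℝ := q - (χ + δ) with hℓ
  have hℓ0 : 0 < ℓ := by linarith
  obtain ⟨η, hη0, hηℓ, hη⟩ := exists_small_loss hℓ0 (ε := ε / 4) (by positivity)
  set ε' : ℝ := η / (2 * (C₁ + 1)) with hε'
  have hε'0 : 0 < ε' := by positivity
  have hC1ε : C₁ * ε' ≤ η / 2 := by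
    have : C₁ * ε' = η / 2 * (C₁ / (C₁ + 1)) := by rw [hε']; field_simp
    rw [this]
    have h5 : C₁ / (C₁ + 1) ≤ 1 := by
      rw [div_le_one (by positivity)]; linarith
    nlinarith
  have hexp : ∀ᶠ m : ℕ in atTop, Real.exp (-(m : ℝ)) ≤ ε' := by
    have h1 : Tendsto (fun m : ℕ => Real.exp (-(m : ℝ))) atTop (𝓝 0) :=
      Real.tendsto_exp_atBot.comp (tendsto_neg_atTop_atBot.comp tendsto_natCast_atTop_atTop)
    exact (h1.eventually (gt_mem_nhds hε'0)).mono fun _ hx => hx.le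
  have e1 : ∀ᶠ m : ℕ in atTop, 1 / ℓ ≤ m := tendsto_natCast_atTop_atTop.eventually_ge_atTop _
  have e2 : ∀ᶠ m : ℕ in atTop, 4 * C₁ / ε ≤ m := tendsto_natCast_atTop_atTop.eventually_ge_atTop _
  filter_upwards [base, total_gain h hδ0 hε'0, hexp, e1, e2, eventually_gt_atTop 0] with
    m hb hg hx h1 h2 hm0
  have hm : (0:ℝ) < m := by exact_mod_cast hm0
  have hb1 := hb (χ + δ) (by positivity) le_rfl
  have hN0 : 0 ≤ (χ + δ) * m := by positivity
  rw [div_le_iff₀ hℓ0] at h1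
  have hL1 : 1 ≤ ℓ * m := by linarith
  have hL0 : 0 < ℓ * m := by linarith
  have hs0 : 0 < η * m := by positivity
  have hg1 := hg ((χ + δ) * m + ℓ * m + m)
  have hgain := hT.gain m ((χ + δ) * m) (ℓ * m) ((χ + δ) * m + ℓ * m + m) (η * m) hN0 hL1
    (by linarith) (by
      have e : (χ + δ) * m + ℓ * m + m - (χ + δ) * m - ℓ * m = m := by ring
      rw [e]
      have h5 : (m:ℝ) * Real.exp (-(m:ℝ)) ≤ m * ε' := mul_le_mul_of_nonneg_left hx hm.le
      have h6 : C₁ * ((∫ x in ((χ + δ) * m)..((χ + δ) * m + ℓ * m + m), Gm H p l a m x) +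
          m * Real.exp (-(m:ℝ))) ≤ C₁ * (ε' * m + m * ε') :=
        mul_le_mul_of_nonneg_left (by linarith) hC₁
      have h7 : C₁ * ε' * m ≤ η / 2 * m := mul_le_mul_of_nonneg_right hC1ε hm.le
      nlinarith) hs0 (mul_le_mul_of_nonneg_right hηℓ hm.le)
  rw [mul_phi_div hs0 hL0] at hgain
  have e : ℓ * m / (η * m) = ℓ / η := by field_simp
  rw [e] at hgain
  have e3 : (χ + δ) * m + ℓ * m = q * m := by rw [hℓ]; ring
  rw [e3] at hgain
  rw [div_le_iff₀ hε] at h2
  have h8 : η * m * (1 + Real.log 2 + Real.log (ℓ / η)) ≤ ε / 4 * m := by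
    have : η * m * (1 + Real.log 2 + Real.log (ℓ / η)) =
        (η * (1 + Real.log 2 + Real.log (ℓ / η))) * m := by ring
    rw [this]
    exact mul_le_mul_of_nonneg_right hη hm.le
  nlinarith

/-- the one letter gain is integrable: bounded integrals -/
theorem integral_G1_le (h : Env H p l a D C) :
    ∃ K, ∀ M, ∫ x in (1:ℝ)..M, Gf H p l a x ≤ K := by
  refine ⟨a * D * ∑ i, p i * l i - Ff H p l a 1, fun M => ?_⟩
  rw [integral_Gf h.hH]
  have := Ff_le h.hH h.hH0 h.hD h.hup h.hp h.hp1 h.hl h.ha h.hG M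
  linarith

/-- dyadic blocks of the one letter gain -/
noncomputable def bk (H : ℝ → ℝ) (p l : ι → ℝ) (a : ℝ) (k : ℕ) : ℝ :=
  ∫ x in (2:ℝ)^k..(2:ℝ)^(k+1), Gf H p l a x

lemma bk_nonneg (h : Env H p l a D C) (k : ℕ) : 0 ≤ bk H p l a k := by
  refine intervalIntegral.integral_nonneg ?_ fun x _ => h.hG x
  exact pow_le_pow_right₀ (by norm_num) (by omega)

lemma sum_bk (h : Env H p l a D C) (i W : ℕ) :
    ∑ k ∈ Finset.Ico i (i + W), bk H p l a k = ∫ x in (2:ℝ)^i..(2:ℝ)^(i+W), Gf H p l a x := by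
  induction W with
  | zero => simp
  | succ W ih =>
    have e : i + (W + 1) = i + W + 1 := by ring
    rw [e, Finset.sum_Ico_succ_top (by omega), ih]
    unfold bk
    exact intervalIntegral.integral_add_adjacent_intervals (Gf_intervalIntegrable h.hH _ _ _)
      (Gf_intervalIntegrable h.hH _ _ _)

lemma summable_bk (h : Env H p l a D C) : Summable (bk H p l a) := by
  obtain ⟨K, hK⟩ := integral_G1_le h
  refine summable_of_sum_range_le (c := K) (fun k => bk_nonneg h k) fun n => ?_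
  have h1 := sum_bk h 0 n
  simp only [zero_add, pow_zero] at h1
  rw [Finset.range_eq_Ico, h1]
  exact hK _

set_option maxHeartbeats 1000000 in
/-- **near coincidences at scale `m (log m)^B`** for infinitely many `m` -/
theorem near_coincidences (h : Env H p l a D C) (hT : T1Out H p l a E C₁) (B : ℕ) {ε : ℝ}
    (hε : 0 < ε) :
    ∃ᶠ m : ℕ in atTop, E m (m * Real.log m ^ (B+1)) ≤ (D * (∑ i, p i * l i) + ε) * m := by
  set χ : ℝ := ∑ i, p i * l i with hχ
  have hχ0 : 0 ≤ χ := Finset.sum_nonneg fun i _ => mul_nonneg (h.hp i) (h.hl i)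
  have hD := h.hD
  have hC₁ := hT.hC
  have hne : Nonempty ι := by
    rcases isEmpty_or_nonempty ι with hι | hι
    · exfalso; have := h.hp1; simp at this
    · exact hι
  -- maximal length
  obtain ⟨lmax, hlmax⟩ : ∃ lmax, ∀ i, l i ≤ lmax :=
    ⟨univ.sup' univ_nonempty l, fun i => Finset.le_sup' l (mem_univ i)⟩
  have hlm0 : 0 ≤ lmax := by
    obtain ⟨i⟩ := hne
    exact (h.hl i).trans (hlmax i)
  obtain ⟨c0, hc0⟩ : ∃ c0 : ℕ, 2 * lmax + 2 ≤ (2:ℝ)^c0 := by
    obtain ⟨n, hn⟩ := pow_unbounded_of_one_lt (2 * lmax + 2) (one_lt_two)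
    exact ⟨n, hn.le⟩
  have hc01 : 1 ≤ c0 := by
    rcases Nat.eq_zero_or_pos c0 with h0 | h0
    · subst h0; simp at hc0; linarith
    · exact h0
  set ε₁ : ℝ := ε / (8 * (C₁ + 1) * (B + 3)) with hε₁
  have hε₁0 : 0 < ε₁ := by positivity
  -- window length as a function of the starting index
  set W : ℕ → ℕ := fun i => ⌈((B+1 : ℕ) : ℝ) * Real.log i / Real.log 2⌉₊ + 3 with hW
  have hlog2 : 0 < Real.log 2 := Real.log_pos (by norm_num)
  have hWle : ∀ i : ℕ, 1 ≤ i → (W i : ℝ) ≤ (((B+1 : ℕ) : ℝ) / Real.log 2 + 4) * (1 + Real.log i) := by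
    intro i hi
    have hli : 0 ≤ Real.log i := Real.log_nonneg (by exact_mod_cast hi)
    have h1 : (⌈((B+1 : ℕ) : ℝ) * Real.log i / Real.log 2⌉₊ : ℝ) <
        ((B+1 : ℕ) : ℝ) * Real.log i / Real.log 2 + 1 := Nat.ceil_lt_add_one (by positivity)
    have h2 : (W i : ℝ) = (⌈((B+1 : ℕ) : ℝ) * Real.log i / Real.log 2⌉₊ : ℝ) + 3 := by
      rw [hW]; push_cast; ring
    rw [h2]
    have h3 : ((B+1 : ℕ) : ℝ) * Real.log i / Real.log 2 = ((B+1 : ℕ) : ℝ) / Real.log 2 * Real.log i := by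
      ring
    rw [h3] at h1 ⊢
    have h4 : 0 ≤ ((B+1 : ℕ) : ℝ) / Real.log 2 := by positivity
    nlinarith
  have hfreq := exists_small_window (fun k => bk_nonneg h k) (summable_bk h) hWle hε₁0
  -- eventual conditions in terms of the index i (window start), m = 2^(i+1-c0)
  have hmul : Tendsto (fun i : ℕ => 2 ^ (i + 1 - c0)) atTop (atTop : Filter ℕ) := by
    have h1 : Tendsto (fun i : ℕ => i + 1 - c0) atTop atTop :=
      tendsto_atTop_atTop.2 fun b => ⟨b + c0, fun i hi => by omega⟩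
    exact (tendsto_pow_atTop_atTop_of_one_lt (by norm_num : 1 < 2)).comp h1
  have hcol := hmul.eventually (collapse h hT (q := (2:ℝ)^c0) (ε := ε / 4) (by positivity)
    (by positivity))
  have E1 : ∀ᶠ i : ℕ in atTop, 4 * C₁ / ε ≤ ((2 ^ (i + 1 - c0) : ℕ) : ℝ) :=
    (tendsto_natCast_atTop_atTop.comp hmul).eventually_ge_atTop _
  -- log m large
  have hlogm : Tendsto (fun i : ℕ => Real.log ((2 ^ (i + 1 - c0) : ℕ) : ℝ)) atTop atTop :=
    Real.tendsto_log_atTop.comp (tendsto_natCast_atTop_atTop.comp hmul)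
  have E2 : ∀ᶠ i : ℕ in atTop, (2:ℝ)^c0 + 1 ≤ Real.log ((2 ^ (i + 1 - c0) : ℕ) : ℝ) :=
    hlogm.eventually_ge_atTop _
  have hlogi : Tendsto (fun i : ℕ => Real.log (i : ℝ)) atTop atTop :=
    Real.tendsto_log_atTop.comp tendsto_natCast_atTop_atTop
  set K0 : ℝ := 1 + Real.log 2 + |Real.log (2 * (C₁ + 1) * ε₁)| with hK0
  have E3 : ∀ᶠ i : ℕ in atTop, K0 + 2 * (C₁ + 1) * ε₁ + 1 ≤ Real.log (i : ℝ) :=
    hlogi.eventually_ge_atTop _
  have E4 : ∀ᶠ i : ℕ in atTop, 1 / ε₁ ≤ (i : ℝ) := tendsto_natCast_atTop_atTop.eventually_ge_atTop _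
  refine hmul.frequently (p := fun m : ℕ => E m (m * Real.log m ^ (B+1)) ≤ (D * χ + ε) * m) ?_
  refine (hfreq.and_eventually (hcol.and (E1.and (E2.and (E3.and (E4.and
    (eventually_ge_atTop (2 * c0 + 4)))))))).mono ?_
  rintro i ⟨hwin, hcoll, h1, h2, h3, h4, hi⟩
  set m : ℕ := 2 ^ (i + 1 - c0) with hm
  set lm : ℝ := Real.log (m : ℝ) with hlm
  have hmpos : (0:ℝ) < m := by rw [hm]; positivity
  have hm1 : (1:ℝ) ≤ m := by
    rw [hm]; push_cast; exact one_le_pow₀ (by norm_num)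
  have hmpow : (m : ℝ) * (2:ℝ)^c0 = 2 ^ (i+1) := by
    rw [hm]; push_cast
    rw [← pow_add]
    congr 1; omega
  have hi0 : (0:ℝ) < i := by
    have : 0 < i := by omega
    exact_mod_cast this
  have hlogi0 : 1 ≤ Real.log i := by
    have h5 : 0 ≤ K0 := by positivity
    have h6 : 0 ≤ 2 * (C₁ + 1) * ε₁ := by positivity
    linarith
  have hlm0' : (2:ℝ)^c0 + 1 ≤ lm := h2
  have h2c0 : (1:ℝ) ≤ (2:ℝ)^c0 := one_le_pow₀ (by norm_num)
  have hlm1 : 1 ≤ lm := by linarith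
  have hlmi : lm ≤ i := by
    have e : lm = ((i + 1 - c0 : ℕ) : ℝ) * Real.log 2 := by
      rw [hlm, hm]; push_cast; rw [Real.log_pow]
    rw [e]
    have h5 : ((i + 1 - c0 : ℕ) : ℝ) ≤ i := by exact_mod_cast (by omega : i + 1 - c0 ≤ i)
    have h6 : Real.log 2 ≤ 1 := by
      have := Real.log_two_lt_d9; linarith
    have h7 : (0:ℝ) ≤ ((i + 1 - c0 : ℕ) : ℝ) := Nat.cast_nonneg _
    nlinarith
  have hpow1 : lm ≤ lm ^ (B+1) := le_self_pow₀ hlm1 (by omega)
  -- scales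
  set N : ℝ := (2:ℝ)^c0 * m with hN
  set x : ℝ := m * lm ^ (B+1) with hx
  set L : ℝ := x - N with hL
  have hNL : N + L = x := by rw [hL]; ring
  have hLm : (m:ℝ) ≤ L := by
    rw [hL, hx, hN]
    nlinarith
  have hL1 : 1 ≤ L := hm1.trans hLm
  have hL0 : 0 < L := by linarith
  have hN0 : 0 ≤ N := by positivity
  have hx0 : 0 < x := by positivity
  -- the gain
  have hNi : N = 2 ^ (i+1) := by rw [hN, mul_comm]; exact hmpow
  have hup : 2 * x ≤ (2:ℝ) ^ (i + W i) := by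
    have h5 : lm ^ (B+1) ≤ (i:ℝ) ^ (B+1) := pow_le_pow_left₀ (by linarith) hlmi _
    have h6 : (i:ℝ) ^ (B+1) ≤ (2:ℝ) ^ (⌈((B+1 : ℕ) : ℝ) * Real.log i / Real.log 2⌉₊) := by
      have h7 : (i:ℝ)^(B+1) = (2:ℝ) ^ (((B+1 : ℕ) : ℝ) * Real.log i / Real.log 2) := by
        rw [← Real.rpow_natCast, Real.rpow_def_of_pos hi0, Real.rpow_def_of_pos (by norm_num)]
        congr 1
        field_simp
      rw [h7, ← Real.rpow_natCast (2:ℝ)]
      exact Real.rpow_le_rpow_of_exponent_le (by norm_num) (Nat.le_ceil _)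
    have h8 : (m:ℝ) ≤ 2 ^ (i+1) := by
      have : (m:ℝ) * 1 ≤ m * (2:ℝ)^c0 := mul_le_mul_of_nonneg_left h2c0 hmpos.le
      linarith
    calc 2 * x = 2 * (m * lm^(B+1)) := by rw [hx]
      _ ≤ 2 * (2^(i+1) * (2:ℝ) ^ (⌈((B+1 : ℕ) : ℝ) * Real.log i / Real.log 2⌉₊)) := by
          have h9 : 0 ≤ lm ^ (B+1) := by positivity
          have : m * lm^(B+1) ≤ 2^(i+1) * (2:ℝ) ^ (⌈((B+1 : ℕ) : ℝ) * Real.log i / Real.log 2⌉₊) :=
            mul_le_mul h8 (h5.trans h6) h9 (by positivity)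
          linarith
      _ = (2:ℝ) ^ (i + 1 + ⌈((B+1 : ℕ) : ℝ) * Real.log i / Real.log 2⌉₊ + 1) := by
          rw [pow_succ, pow_add]; ring
      _ ≤ (2:ℝ) ^ (i + W i) := by
          refine pow_le_pow_right₀ (by norm_num) ?_
          simp only [hW]; omega
  have hgainI : ∫ y in N..(2 * x), Gm H p l a m y ≤ m * (ε₁ / Real.log i) := by
    have h5 := integral_Gf_words_le (m := m) h.hH h.hp h.hp1 h.hl hlmax h.hG
      (N' := (2:ℝ)^i) (N := N) (M := 2 * x) (by linarith) (by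
        rw [hNi, pow_succ]
        have h6 : (m:ℝ) * (2 * lmax) ≤ 2 * 2 ^ i := by
          have : (m:ℝ) * (2 * lmax) ≤ m * (2:ℝ)^c0 :=
            mul_le_mul_of_nonneg_left (by linarith) hmpos.le
          rw [hmpow, pow_succ] at this
          linarith
        nlinarith)
    refine h5.trans ?_
    refine mul_le_mul_of_nonneg_left ?_ hmpos.le
    have h6 := sum_bk h i (W i)
    have h7 : ∫ y in (2:ℝ)^i..(2 * x), Gf H p l a y ≤ ∫ y in (2:ℝ)^i..(2:ℝ)^(i + W i), Gf H p l a y := by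
      refine intervalIntegral.integral_mono_interval le_rfl ?_ hup
        (Filter.Eventually.of_forall fun y => h.hG y) (Gf_intervalIntegrable h.hH _ _ _)
      have : (2:ℝ)^i ≤ 2^(i+1) := pow_le_pow_right₀ (by norm_num) (by omega)
      linarith
    linarith
  -- the parameter s
  set s : ℝ := 2 * (C₁ + 1) * (m * (ε₁ / Real.log i)) with hs
  have hs0 : 0 < s := by positivity
  have hsL : s ≤ L := by
    refine le_trans ?_ hLm
    rw [hs]
    have h5 : 2 * (C₁ + 1) * (ε₁ / Real.log i) ≤ 1 := by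
      rw [← mul_div_assoc, div_le_one (by linarith)]
      have : 0 ≤ K0 := by positivity
      linarith
    nlinarith
  have hexpx : Real.exp (-(2 * x - N - L)) ≤ ε₁ / Real.log i := by
    have e : 2 * x - N - L = x := by rw [hL]; ring
    rw [e]
    -- exp(-x) ≤ 1/x ≤ 1/i^2 ...
    have h5 : (i:ℝ) * i ≤ x := by
      -- x ≥ m ≥ i^2? use x ≥ m * lm and crude bounds
      have h6 : (i:ℝ) + 1 ≤ 2 ^ i := by
        have := Nat.lt_two_pow_self (n := i)
        exact_mod_cast this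
      have h7 : x ≥ m * lm := by
        rw [hx]; exact mul_le_mul_of_nonneg_left hpow1 hmpos.le
      have h8 : (m:ℝ) * lm ≥ m * (2:ℝ)^c0 := mul_le_mul_of_nonneg_left (by linarith) hmpos.le
      have h9 : (m:ℝ) * (2:ℝ)^c0 = 2 ^ (i+1) := hmpow
      have h10 : (i:ℝ)^2 ≤ 2 ^ (i+1) := by
        have : i ^ 2 ≤ 2 ^ (i+1) := by
          clear * -
          induction i with
          | zero => simp
          | succ n ih =>
            rcases Nat.lt_or_ge n 3 with hn | hn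
            · interval_cases n <;> norm_num
            · have : (n+1)^2 ≤ 2 * n^2 := by nlinarith
              calc (n+1)^2 ≤ 2 * n^2 := this
                _ ≤ 2 * 2^(n+1) := by omega
                _ = 2^(n+1+1) := by ring
        exact_mod_cast this
      nlinarith
    have h6 : Real.exp (-x) ≤ 1 / x := by
      rw [Real.exp_neg, ← one_div]
      exact one_div_le_one_div_of_le hx0 ((Real.add_one_le_exp x).trans' (by linarith))
    refine h6.trans ?_
    have h7 : Real.log i ≤ i := (Real.log_le_sub_one_of_pos hi0).trans (by linarith)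
    rw [div_le_div_iff₀ hx0 (by linarith)]
    have h8 : 1 ≤ ε₁ * i := by
      rw [div_le_iff₀ hε₁0] at h4
      linarith
    have h9 : (i:ℝ) ≤ ε₁ * (i * i) := by nlinarith
    have h10 : ε₁ * (i * i) ≤ ε₁ * x := mul_le_mul_of_nonneg_left h5 hε₁0.le
    linarith
  have hgain := hT.gain m N L (2 * x) s hN0 hL1 (by linarith) (by
      rw [hs]
      have h5 : (m:ℝ) * Real.exp (-(2 * x - N - L)) ≤ m * (ε₁ / Real.log i) :=
        mul_le_mul_of_nonneg_left hexpx hmpos.le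
      have h6 : 0 ≤ (m:ℝ) * (ε₁ / Real.log i) := by positivity
      have h7 : C₁ * ((∫ x in N..(2 * x), Gm H p l a m x) + m * Real.exp (-(2 * x - N - L))) ≤
          C₁ * (m * (ε₁ / Real.log i) + m * (ε₁ / Real.log i)) :=
        mul_le_mul_of_nonneg_left (by linarith) hC₁
      nlinarith) hs0 hsL
  rw [mul_phi_div hs0 hL0, hNL] at hgain
  -- bound of the loss
  have hlogLs : Real.log (L / s) ≤ (B + 2) * Real.log i + |Real.log (2 * (C₁ + 1) * ε₁)| := by
    have h5 : L / s ≤ (i:ℝ)^(B+2) * (2 * (C₁ + 1) * ε₁)⁻¹ := by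
      have h6 : L ≤ m * (i:ℝ)^(B+1) := by
        have h7 : lm ^ (B+1) ≤ (i:ℝ) ^ (B+1) := pow_le_pow_left₀ (by linarith) hlmi _
        have h8 : L ≤ x := by linarith
        exact h8.trans (mul_le_mul_of_nonneg_left h7 hmpos.le)
      have h9 : L / s ≤ m * (i:ℝ)^(B+1) / s := div_le_div_of_nonneg_right h6 hs0.le
      refine h9.trans ?_
      have h10 : m * (i:ℝ)^(B+1) / s = (i:ℝ)^(B+1) * Real.log i * (2 * (C₁ + 1) * ε₁)⁻¹ := by
        rw [hs]; field_simp
      rw [h10]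
      refine mul_le_mul_of_nonneg_right ?_ (by positivity)
      rw [pow_succ (i:ℝ) (B+1)]
      refine mul_le_mul_of_nonneg_left ?_ (by positivity)
      exact (Real.log_le_sub_one_of_pos hi0).trans (by linarith)
    have h6 : 0 < L / s := by positivity
    refine (Real.log_le_log h6 h5).trans ?_
    rw [Real.log_mul (by positivity) (by positivity), Real.log_pow, Real.log_inv]
    have h7 := neg_abs_le (Real.log (2 * (C₁ + 1) * ε₁))
    push_cast
    linarith
  have hloss : s * (1 + Real.log 2 + Real.log (L / s)) ≤ ε / 4 * m := by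
    have h5 : 1 + Real.log 2 + Real.log (L / s) ≤ (B + 3) * Real.log i := by
      have h6 : 0 ≤ 2 * (C₁ + 1) * ε₁ := by positivity
      have h7 : K0 ≤ Real.log i := by linarith
      rw [hK0] at h7
      linarith
    have h6 : s * (1 + Real.log 2 + Real.log (L / s)) ≤ s * ((B + 3) * Real.log i) :=
      mul_le_mul_of_nonneg_left h5 hs0.le
    refine h6.trans (le_of_eq ?_)
    rw [hs, hε₁]
    have hli : Real.log (i:ℝ) ≠ 0 := by linarith
    field_simp
    ring
  have hE : E m x ≤ E m N + ε / 4 * m + C₁ := by linarith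
  have hC1m : C₁ ≤ ε / 4 * m := by
    rw [div_le_iff₀ hε] at h1
    linarith
  have hcoll' : E m N ≤ (D * χ + ε / 4) * m := hcoll
  have hfin : E m x ≤ (D * χ + ε) * m := by nlinarith
  exact hfin

end Main

end Crest.Agent.R98.NC
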