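import Crest.Agent.R98.EndJet

/-!
Row 98, module STAB (helper21): the space `VJ` of jet functionals which are a.s. functions of
`Π_ω` is stable under the transposed shift `shT`.
-/

set_option autoImplicit false

namespace Crest.Agent.R98

open Finset MeasureTheory Filter Crest.AnalysisR
open scoped Topology

section Alg

variable {E : Type*} [NormedAddCommGroup E] [NormedSpace ℝ E]

/-- operators mapping `V` to `V` -/
def stabOps (V : Submodule ℝ E) : Subalgebra ℝ (E →L[ℝ] E) where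
  carrier := {T | ∀ a ∈ V, T a ∈ V}
  mul_mem' := by
    intro S T hS hT a ha
    exact hS _ (hT _ ha)
  add_mem' := by
    intro S T hS hT a ha
    exact V.add_mem (hS _ ha) (hT _ ha)
  algebraMap_mem' := by
    intro r a ha
    have h : (algebraMap ℝ (E →L[ℝ] E) r) a = r • a := by
      rw [Algebra.algebraMap_eq_smul_one]; rfl
    rw [h]
    exact V.smul_mem r ha

lemma mem_stabOps (V : Submodule ℝ E) (T : E →L[ℝ] E) :
    T ∈ stabOps V ↔ ∀ a ∈ V, T a ∈ V := Iff.rfl

/-- a subalgebra which contains `∑_{k ≤ J} c^k/k! N^k`, with `N^(J+1) = 0` and `c ≠ 0`, contains `N` -/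
lemma mem_of_exp_mem {A : Type*} [Ring A] [Algebra ℝ A] (S : Subalgebra ℝ A) {N : A} {J : ℕ}
    (hN : N ^ (J + 1) = 0) {c : ℝ} (hc : c ≠ 0)
    (hU : ∑ k ∈ range (J + 1), (c ^ k / (k.factorial : ℝ)) • N ^ k ∈ S) : N ∈ S := by
  classical
  rcases Nat.eq_zero_or_pos J with hJ | hJ
  · subst hJ
    have : N = 0 := by simpa using hN
    rw [this]; exact S.zero_mem
  set g : Polynomial ℝ :=
    ∑ k ∈ range J, Polynomial.C (c ^ (k + 1) / ((k + 1).factorial : ℝ)) * Polynomial.X ^ k with hg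
  have hg0 : g.coeff 0 = c := by
    rw [hg, Polynomial.finsetSum_coeff]
    rw [Finset.sum_eq_single 0]
    · simp
    · intro k _ hk
      rw [Polynomial.coeff_C_mul, Polynomial.coeff_X_pow, if_neg (Ne.symm hk), mul_zero]
    · intro h; exact absurd (mem_range.2 hJ) h
  have hD : Polynomial.aeval N (Polynomial.X * g) ∈ S := by
    have h1 : Polynomial.aeval N (Polynomial.X * g) =
        (∑ k ∈ range (J + 1), (c ^ k / (k.factorial : ℝ)) • N ^ k) - 1 := by
      rw [Finset.sum_range_succ']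
      simp only [pow_zero, Nat.factorial_zero, Nat.cast_one, div_one, one_smul, add_sub_cancel_right]
      rw [map_mul, Polynomial.aeval_X, hg, map_sum, Finset.mul_sum]
      refine Finset.sum_congr rfl fun k _ => ?_
      rw [map_mul, Polynomial.aeval_C, map_pow, Polynomial.aeval_X, Algebra.algebraMap_eq_smul_one,
        smul_mul_assoc, one_mul, mul_smul_comm, ← pow_succ']
    rw [h1]
    exact S.sub_mem hU S.one_mem
  have key : ∀ j, j ≤ J → ∀ k, J + 1 ≤ k + j → N ^ k ∈ S := by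
    intro j
    induction j with
    | zero =>
      intro _ k hk
      have : N ^ k = 0 := by
        obtain ⟨d, rfl⟩ := Nat.exists_eq_add_of_le (show J + 1 ≤ k by omega)
        rw [pow_add, hN, zero_mul]
      rw [this]; exact S.zero_mem
    | succ j ih =>
      intro hj k hk
      by_cases hk' : J + 1 ≤ k + j
      · exact ih (by omega) k hk'
      have hkm : k + j = J := by omega
      -- `(X g)^k = c^k X^k + X^(k+1) h`
      have hpoly : (Polynomial.X * g) ^ k =
          Polynomial.C (c ^ k) * Polynomial.X ^ k +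
            Polynomial.X ^ (k + 1) * (g ^ k).divX := by
        have h2 := Polynomial.divX_mul_X_add (g ^ k)
        have h3 : (g ^ k).coeff 0 = c ^ k := by
          rw [Polynomial.coeff_zero_eq_eval_zero, Polynomial.eval_pow,
            ← Polynomial.coeff_zero_eq_eval_zero, hg0]
        rw [h3] at h2
        calc (Polynomial.X * g) ^ k = Polynomial.X ^ k * g ^ k := by rw [mul_pow]
          _ = Polynomial.X ^ k * ((g ^ k).divX * Polynomial.X + Polynomial.C (c ^ k)) := by
              rw [h2]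
          _ = _ := by ring
      have hpow : ∀ h : Polynomial ℝ, N ^ (k + 1) * Polynomial.aeval N h ∈ S := by
        intro h
        induction h using Polynomial.induction_on' with
        | add p q hp hq =>
          rw [map_add, mul_add]
          exact S.add_mem hp hq
        | monomial n r =>
          rw [Polynomial.aeval_monomial, Algebra.algebraMap_eq_smul_one, smul_mul_assoc, one_mul,
            mul_smul_comm, ← pow_add]
          exact S.smul_mem (ih (by omega) _ (by omega)) r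
      have h4 := S.pow_mem hD k
      rw [← map_pow, hpoly, map_add, map_mul, map_mul, map_pow (Polynomial.aeval N) Polynomial.X k,
        map_pow (Polynomial.aeval N) Polynomial.X (k + 1), Polynomial.aeval_X,
        Polynomial.aeval_C, Algebra.algebraMap_eq_smul_one, smul_mul_assoc, one_mul] at h4
      have h5 := S.sub_mem h4 (hpow (g ^ k).divX)
      rw [add_sub_cancel_right] at h5
      have h6 := S.smul_mem h5 (c ^ k)⁻¹
      rwa [smul_smul, inv_mul_cancel₀ (pow_ne_zero _ hc), one_smul] at h6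
  simpa using key J le_rfl 1 (by omega)

end Alg

section Adj

variable {ι : Type*} [Fintype ι]

lemma inner_shT (J : ℕ) (a v : EJ ι J) : inner ℝ (shT J a) v = inner ℝ a (shJ J v) := by
  simp only [PiLp.inner_apply, Fintype.sum_prod_type_right]
  refine Finset.sum_congr rfl fun i _ => ?_
  rw [Fin.sum_univ_castSucc, Fin.sum_univ_succ]
  have h0 : (shJ J v) ((0 : Fin (J + 1)), i) = 0 := by
    rw [shJ_apply]; simp
  have h1 : ∀ l : Fin J, (shJ J v) (l.succ, i) = v (l.castSucc, i) := by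
    intro l
    rw [shJ_apply, dif_neg (by simp)]
    congr 2
  have h2 : ∀ l : Fin J, (shT J a) (l.castSucc, i) = a (l.succ, i) := by
    intro l
    rw [shT_apply, dif_pos (by simp)]
    congr 2
  have h3 : (shT J a) (Fin.last J, i) = 0 := by
    rw [shT_apply, dif_neg (by simp)]
  simp only [h0, h1, h2, h3, inner_zero_left, inner_zero_right, add_zero, zero_add]

lemma inner_shT_pow (J k : ℕ) (a v : EJ ι J) :
    inner ℝ (((shT J) ^ k) a) v = inner ℝ a (((shJ J) ^ k) v) := by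
  induction k generalizing a v with
  | zero => simp
  | succ k ih =>
    rw [pow_succ, mul_apply_eq_comp, ih, inner_shT, pow_succ',
      mul_apply_eq_comp]

lemma shJ_pow_top (J : ℕ) : (shJ J : EJ ι J →L[ℝ] EJ ι J) ^ (J + 1) = 0 := by
  refine ContinuousLinearMap.ext fun v => ?_
  ext x
  rw [shJ_pow_apply, dif_neg (by omega)]
  rfl

lemma shT_pow_top (J : ℕ) : (shT J : EJ ι J →L[ℝ] EJ ι J) ^ (J + 1) = 0 := by
  refine ContinuousLinearMap.ext fun a => ?_
  refine ext_inner_right ℝ fun v => ?_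
  rw [inner_shT_pow, shJ_pow_top]
  simp

lemma GJ_eq_sum (σ ℓ : ι → ℝ) (J : ℕ) (i : ι) (v : EJ ι J) :
    GJ σ ℓ J i v = ∑ k ∈ range (J + 1),
      (σ i * Real.exp (-ℓ i) * (-ℓ i) ^ k / (k.factorial : ℝ)) • ((shJ J) ^ k) v := by
  ext x
  have hsub : range ((x.1 : ℕ) + 1) ⊆ range (J + 1) :=
    range_subset_range.2 (by omega)
  have e : (∑ k ∈ range (J + 1),
      (σ i * Real.exp (-ℓ i) * (-ℓ i) ^ k / (k.factorial : ℝ)) • ((shJ J) ^ k) v) x =
      ∑ k ∈ range (J + 1),
      (σ i * Real.exp (-ℓ i) * (-ℓ i) ^ k / (k.factorial : ℝ)) * ((shJ J) ^ k) v x := by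
    rw [WithLp.ofLp_sum, Finset.sum_apply]
    rfl
  rw [GJ_apply, e]
  refine Finset.sum_subset hsub fun k _ hk => ?_
  rw [shJ_pow_apply, dif_neg, mul_zero]
  simp only [mem_range] at hk
  omega

end Adj

section Main

variable {ι : Type*} [Fintype ι] [MeasurableSpace ι] [DiscreteMeasurableSpace ι]

/-- conditioning on the first letter -/
lemma Fac.scons {r t p : ι → ℝ} {q : ℝ} (hr : ∀ i, |r i| ≤ q) (hq : q < 1)
    (hp : ∀ i, 0 < p i) (hp1 : ∑ i, p i = 1)
    {X : (ℕ → ι) → ℝ} (h : Fac p (Pi r t) X) (i : ι) :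
    Fac p (Pi r t) fun w => X (R98.scons i w) := by
  obtain ⟨f, hf, e⟩ := h
  refine ⟨fun y => f (t i + r i * y), hf.comp (by fun_prop), ?_⟩
  -- a.e. for `PP` gives a.e. for the image under `scons i`
  have hpv : (∀ i, 0 ≤ p i) ∧ ∑ i, p i = 1 := ⟨fun i => (hp i).le, hp1⟩
  have h1 : ∀ᵐ w ∂((PP p).map (R98.scons i)), X w = f (Pi r t w) := by
    have h2 : ∀ᵐ w ∂(∑ a, ENNReal.ofReal (p a) • (PP p).map (R98.scons a)),
        X w = f (Pi r t w) := by
      rw [← PP_cons hpv]; exact e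
    have h3 : ENNReal.ofReal (p i) • (PP p).map (R98.scons i) ≤
        ∑ a, ENNReal.ofReal (p a) • (PP p).map (R98.scons a) := by
      intro A
      simp only [Measure.coe_finsetSum, Finset.sum_apply]
      exact Finset.single_le_sum (f := fun a : ι =>
        (ENNReal.ofReal (p a) • (PP p).map (R98.scons a)) A) (fun _ _ => zero_le) (mem_univ i)
    have h4 : ∀ᵐ w ∂(ENNReal.ofReal (p i) • (PP p).map (R98.scons i)), X w = f (Pi r t w) :=
      h2.filter_mono (ae_mono h3)
    rwa [Measure.ae_ennreal_smul_measure_iff (by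
      simpa using hp i)] at h4
  have h5 := ae_of_ae_map (measurable_scons i).aemeasurable h1
  filter_upwards [h5] with w hw
  rw [hw, Pi_scons hr hq, add_comm]

/-- STAB -/
theorem shT_mem_VJ {σ ℓ p : ι → ℝ} (hσ : ∀ i, |σ i| = 1) (hℓ : ∀ i, 0 < ℓ i)
    (hp : ∀ i, 0 < p i) (hp1 : ∑ i, p i = 1) (t : ι → ℝ) (J : ℕ) {a : EJ ι J}
    (ha : a ∈ VJ σ ℓ p t J) : shT J a ∈ VJ σ ℓ p t J := by
  classical
  have hne : (univ : Finset ι).Nonempty := by
    by_contra h
    rw [not_nonempty_iff_eq_empty] at h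
    rw [h] at hp1
    simp at hp1
  obtain ⟨i0, -, hi0⟩ := exists_min_image univ ℓ hne
  have hσ' : ∀ i, |σ i| ≤ 1 := fun i => (hσ i).le
  have h0 : 0 < ℓ i0 := hℓ i0
  have hℓ0 : ∀ i, ℓ i0 ≤ ℓ i := fun i => hi0 i (mem_univ i)
  have hray : ∀ i, |rayR σ ℓ 0 i| ≤ Real.exp (-ℓ i0) := by
    intro i
    unfold rayR
    rw [abs_mul, hσ, one_mul, abs_of_pos (Real.exp_pos _)]
    apply Real.exp_le_exp.2
    have := hℓ0 i
    linarith
  have hq : Real.exp (-ℓ i0) < 1 := by
    rw [Real.exp_lt_one_iff]; linarith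
  set V := VJ σ ℓ p t J with hV
  suffices h : (shT J : EJ ι J →L[ℝ] EJ ι J) ∈ stabOps V from h a ha
  refine mem_of_exp_mem (stabOps V) (shT_pow_top J) (c := -ℓ i0) (by linarith) ?_
  intro b hb
  rw [hV, mem_VJ] at hb ⊢
  have h1 := Fac.scons hray hq hp hp1 hb i0
  -- `⟨b, ji (scons i w)⟩ = ⟨b, bJ i⟩ + σ e^{-ℓ} ⟨U b, ji w⟩`
  have hcoef : σ i0 * Real.exp (-ℓ i0) ≠ 0 := by
    refine mul_ne_zero ?_ (Real.exp_pos _).ne'
    intro h
    have := hσ i0
    rw [h] at this
    simp at this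
  have h2 : ∀ w : ℕ → ι, inner ℝ ((∑ k ∈ range (J + 1),
      ((-ℓ i0) ^ k / (k.factorial : ℝ)) • (shT J : EJ ι J →L[ℝ] EJ ι J) ^ k) b) (ji σ ℓ J w) =
      (σ i0 * Real.exp (-ℓ i0))⁻¹ * inner ℝ b (ji σ ℓ J (R98.scons i0 w)) +
        -((σ i0 * Real.exp (-ℓ i0))⁻¹ * inner ℝ b (bJ J i0)) := by
    intro w
    rw [ji_scons hσ' hℓ0 h0, inner_add_right, GJ_eq_sum, inner_sum, _root_.sum_apply,
      sum_inner, mul_add, add_comm ((σ i0 * Real.exp (-ℓ i0))⁻¹ * inner ℝ b (bJ J i0)),
      add_neg_cancel_right, Finset.mul_sum]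
    refine Finset.sum_congr rfl fun k _ => ?_
    rw [_root_.smul_apply, real_inner_smul_left, real_inner_smul_right, inner_shT_pow]
    have e : (σ i0 * Real.exp (-ℓ i0))⁻¹ * (σ i0 * Real.exp (-ℓ i0) * (-ℓ i0) ^ k /
        (k.factorial : ℝ) * inner ℝ b (((shJ J) ^ k) (ji σ ℓ J w))) =
        ((σ i0 * Real.exp (-ℓ i0))⁻¹ * (σ i0 * Real.exp (-ℓ i0))) * ((-ℓ i0) ^ k /
        (k.factorial : ℝ) * inner ℝ b (((shJ J) ^ k) (ji σ ℓ J w))) := by ring
    rw [e, inv_mul_cancel₀ hcoef, one_mul]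
  refine Fac.congr (Fac.add (Fac.const_mul h1 (σ i0 * Real.exp (-ℓ i0))⁻¹)
    (Fac.const p _ (-((σ i0 * Real.exp (-ℓ i0))⁻¹ * inner ℝ b (bJ J i0)))))
    (Eventually.of_forall fun w => ?_)
  exact (h2 w).symm

theorem shT_pow_mem_VJ {σ ℓ p : ι → ℝ} (hσ : ∀ i, |σ i| = 1) (hℓ : ∀ i, 0 < ℓ i)
    (hp : ∀ i, 0 < p i) (hp1 : ∑ i, p i = 1) (t : ι → ℝ) (J k : ℕ) {a : EJ ι J}
    (ha : a ∈ VJ σ ℓ p t J) : ((shT J) ^ k) a ∈ VJ σ ℓ p t J := by
  induction k with
  | zero => simpa using ha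
  | succ k ih =>
    rw [pow_succ', mul_apply_eq_comp]
    exact shT_mem_VJ hσ hℓ hp hp1 t J ih

end Main

end Crest.Agent.R98
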