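import Crest.Agent.R98.UniE
import Crest.Agent.R98.FDF3
import Crest.Agent.R98.F4
import Crest.Agent.R98.F5
import Crest.Agent.R98.GenFlow2
import Crest.Agent.R98.CoreMk
import Crest.Agent.R98.NCFinal

/-!
Row 98, module UNI (helper549): the frozen statement `UniP`.
-/

set_option autoImplicit false

namespace Crest.Agent.R98

open Finset MeasureTheory Filter Crest.AnalysisR Crest.Agent.R98.Part Crest.Agent.R098.Upper
open scoped Topology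

section Pack

variable {ι : Type*} [Fintype ι] [Nonempty ι] [MeasurableSpace ι] [DiscreteMeasurableSpace ι]

omit [Nonempty ι] [MeasurableSpace ι] [DiscreteMeasurableSpace ι] in
lemma rayR_zero_eq (σ ℓ : ι → ℝ) : rayR σ ℓ 0 = fun i => σ i * Real.exp (-(ℓ i)) := by
  funext i
  simp [rayR]

/-- (F4) -/
theorem softL {σ ℓ p : ι → ℝ} (hσ : ∀ i, |σ i| = 1) (hℓ : ∀ i, 0 < ℓ i)
    (hp : (∀ i, 0 ≤ p i) ∧ ∑ i, p i = 1) (t : ι → ℝ) :
    SoftL σ ℓ p t (F.alpha p (Pi (rayR σ ℓ 0) t)) (∑ i, p i * ℓ i) := by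
  intro κ hκ
  obtain ⟨ε, hε, h⟩ := FD.F4 hp hσ hℓ t hκ
  refine ⟨ε, hε, ?_⟩
  filter_upwards [h] with n hn w hw S hS
  have h1 : ‖w - t‖ < ε := (pi_norm_lt_iff hε).2 fun i => by
    rw [Pi.sub_apply, Real.norm_eq_abs]; exact hw i
  rw [rayR_zero_eq] at *
  refine hn w h1 S fun u v huv => ?_
  have := hS u v huv
  rw [← Finset.sum_sub_distrib] at this
  simp only [← sub_mul] at this
  exact this

/-- (F5) + (F2) -/
theorem softF {σ ℓ p : ι → ℝ} (hσ : ∀ i, |σ i| = 1) (hℓ : ∀ i, 0 < ℓ i)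
    (hp : (∀ i, 0 ≤ p i) ∧ ∑ i, p i = 1) (t : ι → ℝ) (E : Type*) [NormedAddCommGroup E]
    [NormedSpace ℝ E] [FiniteDimensional ℝ E] :
    SoftF σ ℓ p t (F.alpha p (Pi (rayR σ ℓ 0) t)) (∑ i, p i * ℓ i) E := by
  intro L L' b b' Φ n φ₀ hL hN hb hn hΦ hφ hS φ
  obtain ⟨k, hk⟩ := hN
  have hr : ∀ i, |rayR σ ℓ 0 i| ≤ Real.exp (-(Finset.univ.inf' Finset.univ_nonempty ℓ)) := by
    intro i
    rw [rayR_zero_eq]
    show |σ i * Real.exp (-(ℓ i))| ≤ _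
    rw [abs_mul, hσ, one_mul, Real.abs_exp]
    exact Real.exp_le_exp.2 (neg_le_neg (Finset.inf'_le _ (Finset.mem_univ i)))
  have hq : Real.exp (-(Finset.univ.inf' Finset.univ_nonempty ℓ)) < 1 := by
    rw [Real.exp_lt_one_iff, neg_lt_zero, Finset.lt_inf'_iff]
    exact fun i _ => hℓ i
  refine F.F5 (ρ := rayR σ ℓ 0) (τ := t) hp hσ hℓ (L := L') ⟨k, hk⟩ hΦ hL hb hn ?_ ?_ hφ hS φ
  · intro a
    have h1 : |rayR σ ℓ 0 a| ≠ 0 := by
      rw [rayR_zero_eq]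
      show |σ a * Real.exp (-(ℓ a))| ≠ 0
      rw [abs_mul, hσ, one_mul, Real.abs_exp]
      exact (Real.exp_pos _).ne'
    exact abs_ne_zero.1 h1
  · intro a w
    rw [Pi_scons hr hq]
    ring

/-- (F3) for the projected jet process -/
theorem softR {σ ℓ p : ι → ℝ} (hσ : ∀ i, |σ i| = 1) (hℓ : ∀ i, 0 < ℓ i)
    (hp : (∀ i, 0 ≤ p i) ∧ ∑ i, p i = 1) (t : ι → ℝ) (J : ℕ)
    (hst : ∀ a ∈ VJ σ ℓ p t J, shT J a ∈ VJ σ ℓ p t J)
    (hcol : ∀ q > 0, ∀ η > 0, ∀ᶠ n : ℕ in atTop, ∃ S : Setoid (Fin n → ι),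
      Part.HS (pw p) S ≤ (F.alpha p (Pi (rayR σ ℓ 0) t) + η) * n ∧
      ∀ u v, S u v → wtype u = wtype v ∧
        |∑ i, (cw (rayR σ ℓ 0) u i - cw (rayR σ ℓ 0) v i) * t i| ≤ Real.exp (-q * n)) :
    SoftR σ ℓ p t (F.alpha p (Pi (rayR σ ℓ 0) t)) J := by
  classical
  intro q hq κ hκ
  obtain ⟨i0, _, hi0⟩ := Finset.exists_min_image Finset.univ ℓ Finset.univ_nonempty
  have hℓ' : ∀ i, ℓ i0 ≤ ℓ i := fun i => hi0 i (Finset.mem_univ i)
  have hσ' : ∀ i, |σ i| ≤ 1 := fun i => (hσ i).le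
  set V := VJ σ ℓ p t J with hV
  set P := V.starProjection with hP
  have hPN := proj_shJ hst
  have hcomp : ∀ a, P.comp (GJ σ ℓ J a) = (gen σ ℓ (MJ P (shJ J)) a).comp P := fun a =>
    comp_gen σ ℓ (proj_comp_MJ hPN) a
  have hproc : IsProc (gen σ ℓ (MJ P (shJ J))) (fun a => P (bJ J a))
      (fun w => P (ji σ ℓ J w)) := (isProc_ji hσ' hℓ' (hℓ i0) J).comp hcomp
  have hnil : IsNilpotent (MJ P (shJ J) - (1 : EJ ι J →L[ℝ] EJ ι J)) := by
    refine ⟨J + 1, ?_⟩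
    have e1 : MJ P (shJ J) - (1 : EJ ι J →L[ℝ] EJ ι J) = P.comp (shJ J) := by
      refine ContinuousLinearMap.ext fun v => ?_
      show v + P (shJ J v) - v = P (shJ J v)
      simp
    rw [e1]
    refine ContinuousLinearMap.ext fun v => ?_
    rw [PN_pow hPN J v, shJ_nilpotent]
    simp
  obtain ⟨C, δ, hC, hδ, hGB⟩ := GF.exists_GB hnil (d := 1 / 2) (by norm_num) le_rfl
  have hGB' : FD.GB (MJ P (shJ J)) C (1 / 2) := hGB _ (by simpa using hδ.le)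
  have hfac : ∀ φ : EJ ι J →L[ℝ] ℝ, Fac p (Pi (rayR σ ℓ 0) t)
      (fun w => φ (P (ji σ ℓ J w))) := by
    intro φ
    set a := (InnerProductSpace.toDual ℝ (EJ ι J)).symm φ with ha
    have h1 : ∀ v, inner ℝ a v = φ v := by
      intro v
      rw [ha, InnerProductSpace.toDual_symm_apply]
    have h2 : P a ∈ V := Submodule.starProjection_apply_mem _ _
    rw [hV, mem_VJ] at h2
    refine h2.congr (Eventually.of_forall fun w => ?_)
    show inner ℝ (P a) (ji σ ℓ J w) = φ (P (ji σ ℓ J w))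
    rw [← h1, hP, Submodule.inner_starProjection_left_eq_right]
  have h := FD.F3 hσ hℓ hp t hGB' hproc hfac hcol hq hκ
  filter_upwards [h] with n hn
  obtain ⟨S, hS1, hS2⟩ := hn
  refine ⟨S, hS1, fun u v huv => ⟨(hS2 u v huv).1, ?_⟩⟩
  have h3 := (hS2 u v huv).2
  have h4 : ∀ u : Fin n → ι, pfin (gen σ ℓ (MJ P (shJ J))) (fun a => P (bJ J a)) u =
      P (jf σ ℓ J u) := by
    intro u
    rw [pfin_comp (T := P) hcomp, jf_eq_pfin]
  rw [h4, h4, ← map_sub] at h3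
  refine h3.trans (le_of_eq ?_)
  congr 1
  ring

end Pack

section UniP

variable {ι : Type*} [Fintype ι] [Nonempty ι] [MeasurableSpace ι] [DiscreteMeasurableSpace ι]

/-- exponential collapse in class form, from `NC.collapse_rr` -/
theorem hcol_of_lt {σ ℓ p t : ι → ℝ} (hσ : Top.IsS σ) (hℓ : ∀ i, 0 < ℓ i) (hp : ∀ i, 0 < p i)
    (hp1 : ∑ i, p i = 1) (hα : F.alpha p (Pi (Top.rr σ ℓ) t) < Top.chi p ℓ) :
    ∀ q > 0, ∀ η > 0, ∀ᶠ n : ℕ in atTop, ∃ S : Setoid (Fin n → ι),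
      Part.HS (pw p) S ≤ (F.alpha p (Pi (rayR σ ℓ 0) t) + η) * n ∧
      ∀ u v, S u v → wtype u = wtype v ∧
        |∑ i, (cw (rayR σ ℓ 0) u i - cw (rayR σ ℓ 0) v i) * t i| ≤ Real.exp (-q * n) := by
  intro q hq η hη
  have hrr : Top.rr σ ℓ = rayR σ ℓ 0 := by
    funext i; simp [Top.rr, rayR]
  have h := NC.collapse_rr hp hp1 hσ hℓ hα (q := q) (ε := η) hq.le hη
  filter_upwards [h] with n hn
  refine ⟨_, by rw [← hrr]; exact hn, ?_⟩
  intro u v huv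
  have h1 : wtype u = wtype v := huv.1
  have h2 : (Part.cell (fun u : Fin n → ι => Top.cdot (Top.rr σ ℓ) t u) (Real.exp (-(q * n))) 0) u v :=
    huv.2
  refine ⟨h1, ?_⟩
  have h3 : ⌊(Top.cdot (Top.rr σ ℓ) t u - 0) / Real.exp (-(q * n))⌋ =
      ⌊(Top.cdot (Top.rr σ ℓ) t v - 0) / Real.exp (-(q * n))⌋ := h2
  have h4 := Int.abs_sub_lt_one_of_floor_eq_floor h3
  rw [sub_zero, sub_zero, ← sub_div, abs_div, Real.abs_exp, div_lt_one (Real.exp_pos _)] at h4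
  have e : ∑ i, (cw (rayR σ ℓ 0) u i - cw (rayR σ ℓ 0) v i) * t i =
      Top.cdot (Top.rr σ ℓ) t u - Top.cdot (Top.rr σ ℓ) t v := by
    unfold Top.cdot
    rw [hrr, ← Finset.sum_sub_distrib]
    exact Finset.sum_congr rfl fun i _ => sub_mul _ _ _
  rw [e]
  refine h4.le.trans (le_of_eq ?_)
  congr 1
  ring

/-- **UNI** -/
theorem uniP_of_stab {σ ℓ p t : ι → ℝ} (hσ : Top.IsS σ) (hℓ : ∀ i, 0 < ℓ i) (hp : ∀ i, 0 < p i)
    (hp1 : ∑ i, p i = 1) (hα : F.alpha p (Pi (Top.rr σ ℓ) t) < Top.chi p ℓ)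
    (hst : ∀ J, ∀ a ∈ VJ σ ℓ p t J, shT J a ∈ VJ σ ℓ p t J) : UniP p σ ℓ t := by
  classical
  intro J m s τ η d A hm hs hτ hη0 hH hA hd hd0 hηd hX
  have hpp : (∀ i, 0 ≤ p i) ∧ ∑ i, p i = 1 := ⟨fun i => (hp i).le, hp1⟩
  have hσ1 : ∀ i, |σ i| = 1 := fun i => by
    rcases hσ i with h | h <;> simp [h]
  have hσ' : ∀ i, |σ i| ≤ 1 := fun i => (hσ1 i).le
  obtain ⟨i0, _, hi0⟩ := Finset.exists_min_image Finset.univ ℓ Finset.univ_nonempty
  have hℓ' : ∀ i, ℓ i0 ≤ ℓ i := fun i => hi0 i (Finset.mem_univ i)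
  by_contra hcon
  rw [Filter.not_eventually] at hcon
  obtain ⟨φ, hφ, hφ2⟩ := extraction_of_frequently_atTop hcon
  have hφt := hφ.tendsto_atTop
  have hχ : 0 ≤ ∑ i, p i * ℓ i :=
    Finset.sum_nonneg fun i _ => mul_nonneg (hp i).le (hℓ i).le
  have hds : ∀ j, ‖s j‖ ≤ d j ^ 2 := by
    intro j
    have h1 : √‖s j‖ ≤ d j := by rw [hd j]; exact le_max_right _ _
    calc ‖s j‖ = (√‖s j‖) ^ 2 := (Real.sq_sqrt (norm_nonneg _)).symm
      _ ≤ d j ^ 2 := pow_le_pow_left₀ (Real.sqrt_nonneg _) h1 2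
  refine uni_core hσ' hℓ' (hℓ i0) hpp hχ J (hst J)
    (softR hσ1 hℓ hpp t J (hst J) (hcol_of_lt hσ hℓ hp hp1 hα))
    (softL hσ1 hℓ hpp t) (softF hσ1 hℓ hpp t (ℂ × EJ ι J))
    (m := fun j => m (φ j)) (hm.comp hφt) (s := fun j => s (φ j)) (hs.comp hφt)
    (τ := fun j => τ (φ j)) (fun i => ((tendsto_pi_nhds.1 hτ) i).comp hφt)
    (η := fun j => η (φ j)) (A := fun j => A (φ j))
    (fun κ hκ => hφt.eventually (hH κ hκ)) (fun j u v huv => (hA (φ j) u v huv).1) ?_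
    (d := fun j => d (φ j)) (fun j => hd0 _) ?_ (fun j => hds _) (fun j => hηd _)
    (hX.comp hφt) (fun j => not_lt.1 (hφ2 j))
  · intro j u v huv
    have h := (hA (φ j) u v huv).2
    unfold val
    rw [← Finset.sum_sub_distrib]
    simp only [← sub_mul]
    exact h
  · intro j
    show _ ≤ d (φ j)
    rw [hd (φ j)]
    exact le_max_left _ _

end UniP

end Crest.Agent.R98
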