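import Crest.Agent.R98.RMainUni
import Crest.Agent.R98.Uni
import Crest.Agent.R98.Stab

/-!
Row 98 (S0129), case R assembled: `rmain` (all ratios of logarithms rational).
-/

set_option autoImplicit false

namespace Crest.Agent.R98

universe u

/-- Case R of the main theorem. -/
theorem rmain : RMain.{u} :=
  Top.rmain_of_uni fun _ _ _ _ _ _ _ hp hp1 hσ _ t hℓ hα =>
    uniP_of_stab hσ hℓ hp hp1 hα fun J _ ha =>
      shT_mem_VJ (fun i => by rcases hσ i with h | h <;> simp [h]) hℓ hp hp1 t J ha

end Crest.Agent.R98
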