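import Crest.Agent.R98.Top0
import Crest.Agent.R98.BC

/-!
Row 98 (S0129). Module TOP: the candidates of level `m` (roots of the nonzero minors) are at most
`e^{Cm}`, hence Lebesgue almost every point of the ray stays `e^{-Cm}`-away from them. (helper430)
-/

set_option autoImplicit false

namespace Crest.Agent.R98.Top

open Crest.AnalysisR Crest.Agent.R98 Crest.Agent.R98.Part Crest.Agent.R098.Upper Filter Topology
  MeasureTheory Polynomial

variable {ι : Type*} [Fintype ι]

omit [Fintype ι] in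
lemma natDegree_ratP_le (σ : ι → ℝ) (a : ι → ℕ) (i : ι) : (ratP σ a i).natDegree ≤ a i := by
  unfold ratP
  split_ifs
  · rw [neg_one_mul, natDegree_neg]
    exact natDegree_X_pow_le _
  · rw [one_mul]
    exact natDegree_X_pow_le _

omit [Fintype ι] in
lemma natDegree_cw_ratP_le (σ : ι → ℝ) {a : ι → ℕ} {A : ℕ} (hA : ∀ i, a i ≤ A) {m : ℕ}
    (u : Fin m → ι) (i : ι) : (cw (ratP σ a) u i).natDegree ≤ A * m := by
  classical
  induction m with
  | zero => simp
  | succ m ih =>
    obtain ⟨b, u, rfl⟩ := exists_cons u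
    rw [cw_cons]
    refine (natDegree_add_le _ _).trans (max_le ?_ ?_)
    · split_ifs <;> simp
    · refine (natDegree_mul_le).trans ?_
      have h1 := (natDegree_ratP_le σ a b).trans (hA b)
      have h2 := ih u
      rw [Nat.mul_succ]
      omega

omit [Fintype ι] in
lemma natDegree_difP_le (σ : ι → ℝ) {a : ι → ℕ} {A : ℕ} (hA : ∀ i, a i ≤ A) {m : ℕ}
    (u v : Fin m → ι) (i : ι) : (difP σ a u v i).natDegree ≤ A * m := by
  unfold difP
  refine (natDegree_sub_le _ _).trans (max_le ?_ ?_)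
  · exact natDegree_cw_ratP_le σ hA u i
  · exact natDegree_cw_ratP_le σ hA v i

open Classical in
/-- the candidates as a finite set -/
noncomputable def CandF (σ : ι → ℝ) (a : ι → ℕ) (m : ℕ) : Finset ℂ :=
  (Finset.range (Fintype.card ι + 1)).biUnion fun e =>
    (Finset.univ : Finset ((Fin e → (Fin m → ι) × (Fin m → ι)) × (Fin e → ι))).biUnion fun x =>
      ((Exact.minor (fun i => difP σ a (x.1 i).1 (x.1 i).2) x.2).map
        (Int.castRingHom ℂ)).roots.toFinset

lemma cand_subset (σ : ι → ℝ) (a : ι → ℕ) (m : ℕ) : Cand σ a m ⊆ (CandF σ a m : Set ℂ) := by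
  classical
  rintro z ⟨e, R, J, he, hR, hne, hz⟩
  choose U V hUV using hR
  have hRe : R = fun i => difP σ a (U i) (V i) := funext hUV
  rw [Finset.mem_coe, CandF, Finset.mem_biUnion]
  refine ⟨e, Finset.mem_range.2 (Nat.lt_succ_of_le he), ?_⟩
  rw [Finset.mem_biUnion]
  refine ⟨(fun i => (U i, V i), J), Finset.mem_univ _, ?_⟩
  rw [Multiset.mem_toFinset, mem_roots]
  · rw [IsRoot.def, eval_map]
    rw [hRe] at hz
    rw [aeval_def] at hz
    exact hz
  · rw [← hRe]
    exact (Polynomial.map_ne_zero_iff (RingHom.injective_int (Int.castRingHom ℂ))).2 hne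

lemma card_candF_le (σ : ι → ℝ) {a : ι → ℕ} {A : ℕ} (hA : ∀ i, a i ≤ A) (m : ℕ) :
    (CandF σ a m).card ≤ (Fintype.card ι + 1) *
      (((Fintype.card ι ^ m * Fintype.card ι ^ m) * Fintype.card ι + 1) ^ Fintype.card ι *
        (Fintype.card ι * (A * m))) := by
  classical
  unfold CandF
  set k := Fintype.card ι with hk
  calc _ ≤ ∑ e ∈ Finset.range (k + 1),
        ((Finset.univ : Finset ((Fin e → (Fin m → ι) × (Fin m → ι)) × (Fin e → ι))).biUnion fun x =>
          ((Exact.minor (fun i => difP σ a (x.1 i).1 (x.1 i).2) x.2).map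
            (Int.castRingHom ℂ)).roots.toFinset).card := Finset.card_biUnion_le
    _ ≤ ∑ e ∈ Finset.range (k + 1), ((k ^ m * k ^ m) * k + 1) ^ k * (k * (A * m)) := by
        refine Finset.sum_le_sum fun e he => ?_
        have he' : e ≤ k := Nat.lt_succ_iff.1 (Finset.mem_range.1 he)
        refine Finset.card_biUnion_le.trans ?_
        have h1 : ∀ x : ((Fin e → (Fin m → ι) × (Fin m → ι)) × (Fin e → ι)),
            ((Exact.minor (fun i => difP σ a (x.1 i).1 (x.1 i).2) x.2).map
            (Int.castRingHom ℂ)).roots.toFinset.card ≤ k * (A * m) := by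
          intro x
          refine (Multiset.toFinset_card_le _).trans ?_
          refine (card_roots' _).trans ?_
          refine (natDegree_map_le).trans ?_
          refine (Exact.minor_natDegree (n := A * m) _ _ fun i j => natDegree_difP_le σ hA _ _ _).trans ?_
          exact Nat.mul_le_mul_right _ he'
        refine (Finset.sum_le_sum fun x _ => h1 x).trans ?_
        rw [Finset.sum_const, Finset.card_univ, smul_eq_mul]
        refine Nat.mul_le_mul_right _ ?_
        rw [Fintype.card_prod, Fintype.card_fun, Fintype.card_fun, Fintype.card_prod,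
          Fintype.card_fun, Fintype.card_fin, Fintype.card_fin, ← hk, ← mul_pow]
        calc (k ^ m * k ^ m * k) ^ e ≤ ((k ^ m * k ^ m) * k + 1) ^ e :=
              Nat.pow_le_pow_left (Nat.le_succ _) e
          _ ≤ ((k ^ m * k ^ m) * k + 1) ^ k := Nat.pow_le_pow_right (Nat.succ_pos _) he'
    _ = _ := by rw [Finset.sum_const, Finset.card_range, smul_eq_mul]

/-- there are at most `e^{Cm}` candidates -/
lemma card_candF_le_exp [Nonempty ι] (σ : ι → ℝ) (a : ι → ℕ) :
    ∃ C : ℝ, ∀ᶠ m : ℕ in atTop, ((CandF σ a m).card : ℝ) ≤ Real.exp (C * m) := by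
  obtain ⟨A, hA⟩ : ∃ A, ∀ i, a i ≤ A := ⟨Finset.univ.sup a, fun i => Finset.le_sup (Finset.mem_univ i)⟩
  set k := Fintype.card ι with hk
  have hk1 : 1 ≤ k := Fintype.card_pos
  have hkR : (1:ℝ) ≤ k := by exact_mod_cast hk1
  have hlogk : 0 ≤ Real.log k := Real.log_nonneg hkR
  -- constant
  set D : ℝ := (k + 1) * ((2 * k) ^ k * (k * A)) with hD
  have hD0 : 0 ≤ D := by positivity
  refine ⟨2 * k * Real.log k + 1, ?_⟩
  -- eventually `D * m ≤ e^m`
  have h1 : ∀ᶠ m : ℕ in atTop, D * m ≤ Real.exp m := by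
    have h2 : Tendsto (fun x : ℝ => Real.exp x / x) atTop atTop := by
      simpa using Real.tendsto_exp_div_pow_atTop 1
    have h3 := (h2.comp tendsto_natCast_atTop_atTop).eventually_ge_atTop D
    filter_upwards [h3, eventually_gt_atTop 0] with m hm hm0
    have hmR : (0:ℝ) < m := by exact_mod_cast hm0
    simp only [Function.comp_apply] at hm
    rw [le_div_iff₀ hmR] at hm
    exact hm
  filter_upwards [h1] with m hm
  have h4 := card_candF_le σ hA m
  rw [← hk] at h4
  have h5 : ((CandF σ a m).card : ℝ) ≤ (k + 1) * (((k ^ m * k ^ m) * k + 1) ^ k * (k * (A * m))) := by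
    exact_mod_cast h4
  refine h5.trans ?_
  have h6 : ((k : ℝ) ^ m * k ^ m) * k + 1 ≤ (2 * k) * Real.exp (2 * Real.log k * m) := by
    have e1 : Real.exp (2 * Real.log k * m) = (k : ℝ) ^ m * k ^ m := by
      have : 2 * Real.log k * m = Real.log k * m + Real.log k * m := by ring
      rw [this, Real.exp_add, mul_comm (Real.log k), Real.exp_nat_mul, Real.exp_log (by linarith)]
    rw [e1]
    have h7 : (1:ℝ) ≤ (k : ℝ) ^ m * k ^ m := by
      have := one_le_pow₀ hkR (n := m)
      nlinarith
    nlinarith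
  have h8 : (((k : ℝ) ^ m * k ^ m) * k + 1) ^ k ≤ (2 * k) ^ k * Real.exp (2 * k * Real.log k * m) := by
    calc (((k : ℝ) ^ m * k ^ m) * k + 1) ^ k
        ≤ ((2 * k) * Real.exp (2 * Real.log k * m)) ^ k :=
          pow_le_pow_left₀ (by positivity) h6 k
      _ = (2 * k) ^ k * Real.exp (2 * k * Real.log k * m) := by
          rw [mul_pow, ← Real.exp_nat_mul]
          congr 2
          ring
  calc ((k : ℝ) + 1) * (((k ^ m * k ^ m) * k + 1) ^ k * (k * (A * m)))
      ≤ (k + 1) * (((2 * k) ^ k * Real.exp (2 * k * Real.log k * m)) * (k * (A * m))) := by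
        gcongr
    _ = (D * m) * Real.exp (2 * k * Real.log k * m) := by rw [hD]; ring
    _ ≤ Real.exp m * Real.exp (2 * k * Real.log k * m) := by gcongr
    _ = Real.exp ((2 * k * Real.log k + 1) * m) := by
        rw [← Real.exp_add]; congr 1; ring

/-- Lebesgue almost every point of the ray stays away from the candidates -/
theorem ae_cand_away [Nonempty ι] (σ : ι → ℝ) (a : ι → ℕ) {θ : ℝ} (hθ : 0 < θ) :
    ∃ C : ℝ, ∀ᵐ x : ℝ, 0 < x → ∀ᶠ m : ℕ in atTop, ∀ z ∈ Cand σ a m,
      Real.exp (-(C * m)) ≤ ‖z - (Real.exp (-(x * θ)) : ℝ)‖ := by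
  classical
  obtain ⟨C, hC⟩ := card_candF_le_exp σ a
  have h0 : 0 < Real.exp (-θ) := Real.exp_pos _
  have h1 : Real.exp (-θ) < 1 := Real.exp_lt_one_iff.2 (by linarith)
  have hcard : ∀ᶠ m : ℕ in atTop,
      ((((CandF σ a m).image fun z => ‖z‖).card : ℕ) : ℝ) ≤ Real.exp (C * m) := by
    filter_upwards [hC] with m hm
    refine le_trans ?_ hm
    exact_mod_cast Finset.card_image_le
  refine ⟨C + 2, ?_⟩
  filter_upwards [ae_rpow_away h0 h1 (fun m => (CandF σ a m).image fun z => ‖z‖) hcard] with x hx _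
  filter_upwards [hx] with m hm z hz
  have hz' : ‖z‖ ∈ (CandF σ a m).image fun z => ‖z‖ :=
    Finset.mem_image_of_mem _ (cand_subset σ a m hz)
  have h2 := hm _ hz'
  have e1 : Real.exp (-θ) ^ x = Real.exp (-(x * θ)) := by
    rw [← Real.exp_mul]; congr 1; ring
  rw [e1] at h2
  refine h2.trans ?_
  have h3 := abs_norm_sub_norm_le z ((Real.exp (-(x * θ)) : ℝ) : ℂ)
  rw [Complex.norm_real, Real.norm_eq_abs, abs_of_pos (Real.exp_pos _)] at h3
  rw [abs_sub_comm]
  exact h3

end Crest.Agent.R98.Top
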