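import Crest.Agent.R98.CoreLS
import Crest.Agent.R98.TopCand
import Crest.Agent.R98.KW1r
import Crest.Agent.R98.F1

/-!
Row 98 (S0129). Case R from its two inputs: (UNI) and the near coincidences (helper803).
-/

set_option autoImplicit false

namespace Crest.Agent.R98.Top

open Crest.AnalysisR Crest.Agent.R98 Crest.Agent.R98.Part Crest.Agent.R098.Upper Filter Topology
  MeasureTheory

universe u

/-- near coincidences (T1) -/
def NCP {ι : Type*} [Fintype ι] [MeasurableSpace ι] (p σ : ι → ℝ) : Prop :=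
  ∀ ℓ t : ι → ℝ, (∀ i, 0 < ℓ i) → al p σ ℓ t < chi p ℓ → ∀ ε > 0, ∃ᶠ m : ℕ in atTop,
    HS (pw p : (Fin m → ι) → ℝ) (Cl (rr σ ℓ) t m (lv ι m)) ≤ (al p σ ℓ t + ε) * m

lemma rr_sign {ι : Type*} {r ℓ : ι → ℝ} (hr : ∀ i, r i ≠ 0 ∧ |r i| < 1)
    (hℓ : ∀ i, -Real.log |r i| = ℓ i) : rr (fun i => Real.sign (r i)) ℓ = r := by
  funext i
  unfold rr
  rw [← hℓ i, neg_neg, Real.exp_log (abs_pos.mpr (hr i).1)]
  show Real.sign (r i) * |r i| = r i
  rcases lt_or_gt_of_ne (hr i).1 with h | h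
  · rw [Real.sign_of_neg h, abs_of_neg h]; ring
  · rw [Real.sign_of_pos h, abs_of_pos h]; ring

lemma isS_sign' {ι : Type*} {r : ι → ℝ} (hr : ∀ i, r i ≠ 0 ∧ |r i| < 1) :
    IsS fun i => Real.sign (r i) := by
  intro i
  rcases lt_or_gt_of_ne (hr i).1 with h | h
  · exact Or.inr (Real.sign_of_neg h)
  · exact Or.inl (Real.sign_of_pos h)

/-- case R from its inputs -/
theorem rmain_of
    (hU : ∀ (ι : Type u) [Fintype ι] [Nonempty ι] [MeasurableSpace ι] [DiscreteMeasurableSpace ι]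
      (p σ : ι → ℝ), (∀ i, 0 < p i) → ∑ i, p i = 1 → IsS σ →
      ∀ ℓ t : ι → ℝ, (∀ i, 0 < ℓ i) → F.alpha p (Pi (rr σ ℓ) t) < chi p ℓ → UniP p σ ℓ t)
    (hNC : ∀ (ι : Type u) [Fintype ι] [Nonempty ι] [MeasurableSpace ι]
      [DiscreteMeasurableSpace ι] (p σ : ι → ℝ), (∀ i, 0 < p i) → ∑ i, p i = 1 → IsS σ →
      NCP p σ) :
    RMain.{u} := by
  intro ι _ _ r t p μ hr hp hp1 hμ hirr
  let _ : MeasurableSpace ι := ⊤
  have : DiscreteMeasurableSpace ι := ⟨fun _ => trivial⟩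
  obtain ⟨β, a, hβ, ha, hl⟩ := exists_int_ratio hr hirr
  by_contra hgoal
  obtain ⟨D, C, -, -, -, -, -, -, -, -, h1, h2⟩ := ctr_of_not_goal hr hp hp1 hμ hgoal
  set σ : ι → ℝ := fun i => Real.sign (r i) with hσdef
  have hσ : IsS σ := isS_sign' hr
  have hrr : rr σ (fun i => a i * β) = r := rr_sign hr hl
  have hp0 : ∀ i, 0 ≤ p i := fun i => (hp i).le
  have hPV : (∀ i, 0 ≤ p i) ∧ ∑ i, p i = 1 := ⟨hp0, hp1⟩
  have hl' : (fun i => -Real.log |r i|) = fun i => (a i : ℝ) * β := funext hl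
  rw [hl'] at h1
  have hU' := hU ι p σ hp hp1 hσ
  refine rank_one hp0 hp1 (mkCore hPV hσ (ltP_of_uni hPV hσ hU') (stP_of_uni hPV hσ hU')) a
    (fun i => ha i) hβ (ae_cand_away σ a hβ)
    (fun θ' hθ' t' W C₅ hBC => kw1r hσ a (fun i => ha i) hθ' t' W C₅ hBC)
    (hNC ι p σ hp hp1 hσ) t ⟨?_, ?_⟩
  · show F.alpha p (Pi (rr σ fun i => a i * β) t) < chi p fun i => a i * β
    rw [hrr]
    exact h1
  · show F.alpha p (Pi (rr σ fun i => a i * β) t) < hX p (rr σ fun i => a i * β) t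
    rw [hrr]
    exact h2

end Crest.Agent.R98.Top
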