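import Crest.Agent.R98.RMainOf
import Crest.Agent.R98.NCFinal

/-!
Row 98 (S0129). Case R from (UNI) alone (helper803).
-/

set_option autoImplicit false

namespace Crest.Agent.R98.Top

open Crest.AnalysisR Crest.Agent.R98 Crest.Agent.R98.Part Crest.Agent.R098.Upper Filter Topology
  MeasureTheory

universe u

/-- near coincidences in the shape of `rmain_of` -/
theorem ncP {ι : Type*} [Fintype ι] [Nonempty ι] [MeasurableSpace ι] [DiscreteMeasurableSpace ι]
    {p σ : ι → ℝ} (hp : ∀ i, 0 < p i) (hp1 : ∑ i, p i = 1) (hσ : IsS σ) : NCP p σ := by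
  intro ℓ t hℓ hα ε hε
  exact NC.near_rr hp hp1 hσ hℓ hα (Fintype.card ι + 3) hε

/-- case R from (UNI) -/
theorem rmain_of_uni
    (hU : ∀ (ι : Type u) [Fintype ι] [Nonempty ι] [MeasurableSpace ι] [DiscreteMeasurableSpace ι]
      (p σ : ι → ℝ), (∀ i, 0 < p i) → ∑ i, p i = 1 → IsS σ →
      ∀ ℓ t : ι → ℝ, (∀ i, 0 < ℓ i) → F.alpha p (Pi (rr σ ℓ) t) < chi p ℓ → UniP p σ ℓ t) :
    RMain.{u} :=
  rmain_of hU fun _ => fun _ _ hp hp1 hσ => ncP hp hp1 hσ

end Crest.Agent.R98.Top
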