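import Crest.Agent.R98.AL
import Crest.Agent.R98.Word5
import Crest.Agent.R98.Word4

/-!
# Row 98: the ST corollary, assembly of test functions + (AL) (helper587)

From flat test functions along `s_j → 0` (frequently `s_j ≠ 0`) one gets, for all real `s` near `0`
outside a countable set, translations `τ` for which `Pi (ray s) τ` is a function of the base coding
map and which create no new coincidences of words.
-/

set_option autoImplicit false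

open Filter Topology Set Metric Finset

namespace Crest.Agent.R98

variable {ι : Type*} [Fintype ι]

section Analytic

omit [Fintype ι] in
theorem analyticAt_rayC (σ ℓ : ι → ℝ) (i : ι) (s : ℂ) : AnalyticAt ℂ (fun s => rayC σ ℓ s i) s := by
  unfold rayC
  fun_prop

omit [Fintype ι] in
theorem analyticAt_cw_rayC (σ ℓ : ι → ℝ) {n : ℕ} (u : Fin n → ι) (i : ι) (s : ℂ) :
    AnalyticAt ℂ (fun s => cw (rayC σ ℓ s) u i) s := by
  classical
  induction n with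
  | zero => simpa using analyticAt_const
  | succ n ih =>
    obtain ⟨a, u, rfl⟩ := exists_cons u
    simp only [cw_cons]
    exact analyticAt_const.fun_add ((analyticAt_rayC σ ℓ a s).fun_mul (ih u))

omit [Fintype ι] in
theorem cw_rayC_ofReal (σ ℓ : ι → ℝ) {n : ℕ} (u : Fin n → ι) (i : ι) (s : ℝ) :
    cw (rayC σ ℓ (s : ℂ)) u i = ((cw (rayR σ ℓ s) u i : ℝ) : ℂ) := by
  have h := map_cw Complex.ofRealHom (rayR σ ℓ s) u i
  have h2 : (fun i => Complex.ofRealHom (rayR σ ℓ s i)) = rayC σ ℓ (s : ℂ) := by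
    funext i
    rw [rayC_ofReal]
    rfl
  rw [h2] at h
  exact h.symm

end Analytic

section Words

/-- pairs of words of equal length which do not coincide at `(r, t)` -/
def NCpair (r t : ι → ℝ) : Type _ :=
  {x : Σ n : ℕ, (Fin n → ι) × (Fin n → ι) //
    ∑ i, cw r x.2.1 i * t i ≠ ∑ i, cw r x.2.2 i * t i}

instance [Countable ι] (r t : ι → ℝ) : Countable (NCpair r t) := by
  unfold NCpair
  infer_instance

/-- **ST corollary, abstract form** -/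
theorem stc_abstract (σ ℓ t : ι → ℝ) {G : Type*} {r0 : ℝ} (hr0 : 0 < r0)
    (v : G → ℂ → ι → ℂ)
    (hv : ∀ g i, AnalyticOnNhd ℂ (fun s => v g s i) (ball 0 r0))
    (hvr : ∀ g i (s : ℝ), |s| < r0 → (v g s i).im = 0)
    (sj : ℕ → ℂ) (hs0 : Tendsto sj atTop (𝓝 0)) (hsne : ∃ᶠ j in atTop, sj j ≠ 0)
    (tj : ℕ → ι → ℂ) (ht : Tendsto tj atTop (𝓝 fun i => (t i : ℂ)))
    (hflat : ∀ g (J : ℕ), ∃ C : ℝ, ∀ᶠ j in atTop, ‖∑ i, v g (sj j) i * tj j i‖ ≤ C * ‖sj j‖ ^ J) :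
    ∃ Z : Set ℝ, Z.Countable ∧ ∀ s : ℝ, |s| < r0 → s ∉ Z →
      ∃ τ : ι → ℝ, (∀ g, ∑ i, v g s i * (τ i : ℂ) = 0) ∧
        ∀ (n : ℕ) (u w : Fin n → ι),
          ∑ i, cw (rayR σ ℓ 0) u i * t i ≠ ∑ i, cw (rayR σ ℓ 0) w i * t i →
          ∑ i, cw (rayR σ ℓ s) u i * τ i ≠ ∑ i, cw (rayR σ ℓ s) w i * τ i := by
  classical
  have hmain := AL.analytic_linear hr0 v
    (P := fun (x : NCpair (rayR σ ℓ 0) t) s i => cw (rayC σ ℓ s) x.1.2.1 i - cw (rayC σ ℓ s) x.1.2.2 i)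
    hv hvr
    (fun x i s _ => (analyticAt_cw_rayC σ ℓ _ i s).fun_sub (analyticAt_cw_rayC σ ℓ _ i s))
    (fun x i s _ => by
      simp only [cw_rayC_ofReal, Complex.sub_im, Complex.ofReal_im, sub_self])
    sj hs0 hsne tj t ht hflat
    (fun x => by
      have h0 : (0 : ℂ) = ((0 : ℝ) : ℂ) := by simp
      simp only [h0, cw_rayC_ofReal]
      intro hcon
      apply x.2
      have h1 : ((∑ i, (cw (rayR σ ℓ 0) x.1.2.1 i - cw (rayR σ ℓ 0) x.1.2.2 i) * t i : ℝ) : ℂ) = 0 := by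
        push_cast
        exact hcon
      have h2 : ∑ i, (cw (rayR σ ℓ 0) x.1.2.1 i - cw (rayR σ ℓ 0) x.1.2.2 i) * t i = 0 := by
        exact_mod_cast h1
      simp only [sub_mul, Finset.sum_sub_distrib] at h2
      linarith)
  obtain ⟨Z, hZ, h⟩ := hmain
  refine ⟨Z, hZ, fun s hs hsZ => ?_⟩
  obtain ⟨τ, hτ1, hτ2⟩ := h s hs hsZ
  refine ⟨τ, hτ1, fun n u w hne heq => ?_⟩
  apply hτ2 (⟨⟨n, (u, w)⟩, hne⟩ : NCpair (rayR σ ℓ 0) t)
  simp only [cw_rayC_ofReal]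
  have h1 : ∑ i, (cw (rayR σ ℓ s) u i - cw (rayR σ ℓ s) w i) * τ i = 0 := by
    simp only [sub_mul, Finset.sum_sub_distrib]
    linarith
  have h2 : ((∑ i, (cw (rayR σ ℓ s) u i - cw (rayR σ ℓ s) w i) * τ i : ℝ) : ℂ) = 0 := by
    rw [h1]; simp
  push_cast at h2
  exact h2

/-- no new coincidences: the partitions of words are finer -/
theorem zS_le_of_noNew {r t r' t' : ι → ℝ}
    (h : ∀ (n : ℕ) (u w : Fin n → ι), ∑ i, cw r u i * t i ≠ ∑ i, cw r w i * t i →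
      ∑ i, cw r' u i * t' i ≠ ∑ i, cw r' w i * t' i) (n : ℕ) :
    zS r' t' n ≤ zS r t n := by
  intro u w huw
  rw [zS_iff] at huw ⊢
  refine ⟨huw.1, ?_⟩
  by_contra hne
  exact h n u w hne huw.2

/-- no new coincidences: the entropy rate does not decrease -/
theorem hT_le_of_noNew {r t r' t' p : ι → ℝ} (hp : (∀ i, 0 ≤ p i) ∧ ∑ i, p i = 1)
    (h : ∀ (n : ℕ) (u w : Fin n → ι), ∑ i, cw r u i * t i ≠ ∑ i, cw r w i * t i →
      ∑ i, cw r' u i * t' i ≠ ∑ i, cw r' w i * t' i) :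
    hT r t p ≤ hT r' t' p := by
  unfold hT
  refine le_ciInf fun m => ?_
  have hb : BddBelow (Set.range fun m : ℕ => HW p (zS r t (m + 1)) / ((m : ℝ) + 1)) := by
    refine ⟨0, ?_⟩
    rintro _ ⟨m, rfl⟩
    exact div_nonneg (HW_nonneg hp _) (by positivity)
  refine (ciInf_le hb m).trans ?_
  exact div_le_div_of_nonneg_right (HW_anti hp.1 (zS_le_of_noNew h (m + 1))) (by positivity)

theorem rwEntropyRate_le_of_noNew {r t r' t' p : ι → ℝ} (hp : (∀ i, 0 ≤ p i) ∧ ∑ i, p i = 1)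
    (h : ∀ (n : ℕ) (u w : Fin n → ι), ∑ i, cw r u i * t i ≠ ∑ i, cw r w i * t i →
      ∑ i, cw r' u i * t' i ≠ ∑ i, cw r' w i * t' i) :
    Crest.AnalysisR.rwEntropyRate r t p ≤ Crest.AnalysisR.rwEntropyRate r' t' p := by
  rw [← hT_eq hp, ← hT_eq hp]
  exact hT_le_of_noNew hp h

/-- flatness of the test functions from the output of (UNI) for all `J`, via (T2) -/
theorem flat_of_uni {V : Type*} {sj : ℕ → ℂ} (hs0 : Tendsto sj atTop (𝓝 0)) (val : V → ℕ → ℂ)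
    (Dd : ℕ → ℕ → ℝ) (hD0 : ∀ J j, 0 ≤ Dd J j)
    (hUNI : ∀ J : ℕ, ∀ᶠ j in atTop, Dd J j ≤ ‖sj j‖ ^ J)
    (hT2 : ∀ g : V, ∀ J : ℕ, ∃ C : ℝ, ∀ᶠ j in atTop, ‖val g j‖ ≤ C * (Dd J j + ‖sj j‖ ^ (J + 1))) :
    ∀ g (J : ℕ), ∃ C : ℝ, ∀ᶠ j in atTop, ‖val g j‖ ≤ C * ‖sj j‖ ^ J := by
  intro g J
  obtain ⟨C, hC⟩ := hT2 g J
  refine ⟨|C| * 2, ?_⟩
  have h1 : ∀ᶠ j in atTop, ‖sj j‖ < 1 := by
    have := hs0.norm
    rw [norm_zero] at this
    exact this.eventually_lt_const one_pos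
  filter_upwards [hC, hUNI J, h1] with j h2 h3 h4
  have h6 : ‖sj j‖ ^ (J + 1) ≤ ‖sj j‖ ^ J := pow_le_pow_of_le_one (norm_nonneg _) h4.le (Nat.le_succ J)
  have h5 : 0 ≤ Dd J j + ‖sj j‖ ^ (J + 1) := by
    have := hD0 J j
    positivity
  calc ‖val g j‖ ≤ C * (Dd J j + ‖sj j‖ ^ (J + 1)) := h2
    _ ≤ |C| * (Dd J j + ‖sj j‖ ^ (J + 1)) := mul_le_mul_of_nonneg_right (le_abs_self C) h5
    _ ≤ |C| * (‖sj j‖ ^ J + ‖sj j‖ ^ J) := mul_le_mul_of_nonneg_left (by linarith) (abs_nonneg C)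
    _ = |C| * 2 * ‖sj j‖ ^ J := by ring

end Words

end Crest.Agent.R98
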