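import Mathlib

/-!
# Row 98: ring of conjugation-symmetric analytic germs at `0` (helper587)

`SA f` : `f : ℂ → ℂ` is analytic at `0` and `f (conj s) = conj (f s)` near `0`.
The ring `GO` of germs of such functions is a discrete valuation ring.
-/

set_option autoImplicit false

open Filter Topology
open scoped ComplexConjugate

namespace Crest.Agent.R98.Smith

/-- analytic at `0` and conjugation-symmetric near `0` -/
def SA (f : ℂ → ℂ) : Prop :=
  AnalyticAt ℂ f 0 ∧ ∀ᶠ s in 𝓝 (0 : ℂ), f (conj s) = conj (f s)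

theorem tendsto_conj_zero : Tendsto (fun s : ℂ => conj s) (𝓝 0) (𝓝 0) := by
  have : Continuous (fun s : ℂ => conj s) := Complex.continuous_conj
  simpa using this.tendsto 0

namespace SA

variable {f g : ℂ → ℂ}

theorem analyticAt (h : SA f) : AnalyticAt ℂ f 0 := h.1

theorem congr (h : SA f) (hfg : f =ᶠ[𝓝 0] g) : SA g := by
  refine ⟨h.1.congr hfg, ?_⟩
  have h1 : ∀ᶠ s in 𝓝 (0 : ℂ), f (conj s) = g (conj s) := tendsto_conj_zero.eventually hfg
  filter_upwards [h.2, hfg, h1] with s h2 h3 h4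
  rw [← h4, h2, h3]

theorem const (c : ℝ) : SA (fun _ => (c : ℂ)) :=
  ⟨analyticAt_const, Eventually.of_forall fun s => by simp⟩

theorem id : SA (fun s => s) := ⟨analyticAt_id, Eventually.of_forall fun _ => rfl⟩

theorem add (hf : SA f) (hg : SA g) : SA (fun s => f s + g s) := by
  refine ⟨hf.1.fun_add hg.1, ?_⟩
  filter_upwards [hf.2, hg.2] with s h1 h2
  rw [h1, h2, map_add]

theorem neg (hf : SA f) : SA (fun s => -f s) := by
  refine ⟨hf.1.fun_neg, ?_⟩
  filter_upwards [hf.2] with s h1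
  rw [h1, map_neg]

theorem sub (hf : SA f) (hg : SA g) : SA (fun s => f s - g s) := by
  simpa [sub_eq_add_neg] using hf.add hg.neg

theorem mul (hf : SA f) (hg : SA g) : SA (fun s => f s * g s) := by
  refine ⟨hf.1.fun_mul hg.1, ?_⟩
  filter_upwards [hf.2, hg.2] with s h1 h2
  rw [h1, h2, map_mul]

theorem pow (hf : SA f) (n : ℕ) : SA (fun s => f s ^ n) := by
  refine ⟨hf.1.fun_pow n, ?_⟩
  filter_upwards [hf.2] with s h1
  rw [h1, map_pow]

theorem zero : SA (fun _ => 0) := by simpa using const 0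

theorem one : SA (fun _ => 1) := by simpa using const 1

theorem sum {ι : Type*} (s : Finset ι) {F : ι → ℂ → ℂ} (h : ∀ i ∈ s, SA (F i)) :
    SA (fun z => ∑ i ∈ s, F i z) := by
  classical
  induction s using Finset.induction_on with
  | empty => simpa using zero
  | insert a s ha ih =>
    have h1 := (h a (Finset.mem_insert_self a s)).add (ih fun i hi => h i (Finset.mem_insert_of_mem hi))
    refine h1.congr (Eventually.of_forall fun z => ?_)
    simp only
    rw [Finset.sum_insert ha]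

theorem prod {ι : Type*} (s : Finset ι) {F : ι → ℂ → ℂ} (h : ∀ i ∈ s, SA (F i)) :
    SA (fun z => ∏ i ∈ s, F i z) := by
  classical
  induction s using Finset.induction_on with
  | empty => simpa using one
  | insert a s ha ih =>
    have h1 := (h a (Finset.mem_insert_self a s)).mul (ih fun i hi => h i (Finset.mem_insert_of_mem hi))
    refine h1.congr (Eventually.of_forall fun z => ?_)
    simp only
    rw [Finset.prod_insert ha]

theorem inv (hf : SA f) (h0 : f 0 ≠ 0) : SA (fun s => (f s)⁻¹) := by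
  refine ⟨hf.1.fun_inv h0, ?_⟩
  filter_upwards [hf.2] with s h1
  rw [h1, map_inv₀]

/-- dichotomy and factorisation -/
theorem exists_pow_mul (hf : SA f) (h0 : ¬ ∀ᶠ s in 𝓝 (0 : ℂ), f s = 0) :
    ∃ (n : ℕ) (g : ℂ → ℂ), SA g ∧ g 0 ≠ 0 ∧ ∀ᶠ s in 𝓝 (0 : ℂ), f s = s ^ n * g s := by
  obtain ⟨n, g, hg, hg0, hfg⟩ := (hf.1.exists_eventuallyEq_pow_smul_nonzero_iff).mpr h0
  refine ⟨n, g, ⟨hg, ?_⟩, hg0, by simpa using hfg⟩
  have hfg' : ∀ᶠ s in 𝓝 (0 : ℂ), f s = s ^ n * g s := by simpa using hfg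
  have hfg2 : ∀ᶠ s in 𝓝 (0 : ℂ), f (conj s) = (conj s) ^ n * g (conj s) :=
    tendsto_conj_zero.eventually hfg'
  -- equality holds for s ≠ 0, and at 0 by continuity of both sides
  have hne : ∀ᶠ s in 𝓝 (0 : ℂ), s ≠ 0 → g (conj s) = conj (g s) := by
    filter_upwards [hf.2, hfg', hfg2] with s h1 h2 h3 hs
    have hcs : (conj s) ^ n ≠ 0 := pow_ne_zero _ (by simpa using hs)
    apply mul_left_cancel₀ hcs
    rw [← h3, h1, h2, map_mul, map_pow]
  have hpunct : ∀ᶠ s in 𝓝[≠] (0 : ℂ), g (conj s) = conj (g s) := by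
    rw [eventually_nhdsWithin_iff]
    filter_upwards [hne] with s h hs
    exact h hs
  have hz : g (conj (0 : ℂ)) = conj (g 0) := by
    have c1 : Tendsto (fun s : ℂ => g (conj s)) (𝓝[≠] 0) (𝓝 (g 0)) :=
      (hg.continuousAt.tendsto.comp tendsto_conj_zero).mono_left nhdsWithin_le_nhds
    have c2 : Tendsto (fun s : ℂ => conj (g s)) (𝓝[≠] 0) (𝓝 (conj (g 0))) :=
      ((Complex.continuous_conj.tendsto _).comp hg.continuousAt.tendsto).mono_left nhdsWithin_le_nhds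
    have := tendsto_nhds_unique (c1.congr' hpunct) c2
    simpa using this
  filter_upwards [hne] with s h
  by_cases hs : s = 0
  · rw [hs]; exact hz
  · exact h hs

end SA

/-- the ring of symmetric analytic germs -/
noncomputable def GO : Subring (Germ (𝓝 (0 : ℂ)) ℂ) where
  carrier := {x | ∃ f : ℂ → ℂ, SA f ∧ (f : Germ (𝓝 (0 : ℂ)) ℂ) = x}
  mul_mem' := by
    rintro _ _ ⟨f, hf, rfl⟩ ⟨g, hg, rfl⟩
    exact ⟨fun s => f s * g s, hf.mul hg, rfl⟩
  one_mem' := ⟨fun _ => 1, SA.one, rfl⟩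
  add_mem' := by
    rintro _ _ ⟨f, hf, rfl⟩ ⟨g, hg, rfl⟩
    exact ⟨fun s => f s + g s, hf.add hg, rfl⟩
  zero_mem' := ⟨fun _ => 0, SA.zero, rfl⟩
  neg_mem' := by
    rintro _ ⟨f, hf, rfl⟩
    exact ⟨fun s => -f s, hf.neg, rfl⟩

/-- germ of a symmetric analytic function -/
noncomputable def mk (f : ℂ → ℂ) (hf : SA f) : GO := ⟨(f : Germ (𝓝 (0 : ℂ)) ℂ), f, hf, rfl⟩

/-- a representative -/
noncomputable def rep (x : GO) : ℂ → ℂ := x.2.choose

theorem rep_SA (x : GO) : SA (rep x) := x.2.choose_spec.1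

theorem coe_rep (x : GO) : ((rep x : ℂ → ℂ) : Germ (𝓝 (0 : ℂ)) ℂ) = (x : Germ (𝓝 (0 : ℂ)) ℂ) :=
  x.2.choose_spec.2

theorem mk_rep (x : GO) : mk (rep x) (rep_SA x) = x := Subtype.ext (coe_rep x)

theorem mk_eq_mk {f g : ℂ → ℂ} {hf : SA f} {hg : SA g} :
    mk f hf = mk g hg ↔ f =ᶠ[𝓝 0] g :=
  Subtype.ext_iff.trans Germ.coe_eq

theorem rep_mk {f : ℂ → ℂ} (hf : SA f) : rep (mk f hf) =ᶠ[𝓝 0] f := by
  rw [← Germ.coe_eq, coe_rep]
  rfl

theorem rep_add (x y : GO) : rep (x + y) =ᶠ[𝓝 0] fun s => rep x s + rep y s := by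
  rw [← Germ.coe_eq, coe_rep]
  show (x : Germ (𝓝 (0 : ℂ)) ℂ) + (y : Germ (𝓝 (0 : ℂ)) ℂ) = _
  rw [← coe_rep x, ← coe_rep y]
  rfl

theorem rep_mul (x y : GO) : rep (x * y) =ᶠ[𝓝 0] fun s => rep x s * rep y s := by
  rw [← Germ.coe_eq, coe_rep]
  show (x : Germ (𝓝 (0 : ℂ)) ℂ) * (y : Germ (𝓝 (0 : ℂ)) ℂ) = _
  rw [← coe_rep x, ← coe_rep y]
  rfl

theorem rep_zero : rep 0 =ᶠ[𝓝 0] fun _ => 0 := by
  rw [← Germ.coe_eq, coe_rep]
  rfl

theorem rep_one : rep 1 =ᶠ[𝓝 0] fun _ => 1 := by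
  rw [← Germ.coe_eq, coe_rep]
  rfl

theorem rep_sum {ι : Type*} (t : Finset ι) (x : ι → GO) :
    rep (∑ i ∈ t, x i) =ᶠ[𝓝 0] fun s => ∑ i ∈ t, rep (x i) s := by
  classical
  induction t using Finset.induction_on with
  | empty => simpa using rep_zero
  | insert a t ha ih =>
    rw [Finset.sum_insert ha]
    refine (rep_add _ _).trans ?_
    filter_upwards [ih] with s hs
    rw [Finset.sum_insert ha, hs]

theorem rep_eq_iff {x y : GO} : x = y ↔ rep x =ᶠ[𝓝 0] rep y := by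
  rw [← Germ.coe_eq, coe_rep, coe_rep, Subtype.ext_iff]

theorem eq_zero_iff {x : GO} : x = 0 ↔ ∀ᶠ s in 𝓝 (0 : ℂ), rep x s = 0 := by
  rw [rep_eq_iff]
  constructor
  · intro h
    exact h.trans rep_zero
  · intro h
    exact (show rep x =ᶠ[𝓝 0] fun _ => 0 from h).trans rep_zero.symm

/-- value at `0` -/
noncomputable def val : GO →+* ℂ where
  toFun x := rep x 0
  map_one' := rep_one.self_of_nhds
  map_mul' x y := (rep_mul x y).self_of_nhds
  map_zero' := rep_zero.self_of_nhds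
  map_add' x y := (rep_add x y).self_of_nhds

theorem val_apply (x : GO) : val x = rep x 0 := rfl

theorem isUnit_of_val_ne {x : GO} (h : rep x 0 ≠ 0) : IsUnit x := by
  refine IsUnit.of_mul_eq_one (mk (fun s => (rep x s)⁻¹) ((rep_SA x).inv h)) ?_
  rw [rep_eq_iff]
  refine (rep_mul _ _).trans ?_
  refine EventuallyEq.trans ?_ rep_one.symm
  have h1 : ∀ᶠ s in 𝓝 (0 : ℂ), rep x s ≠ 0 := (rep_SA x).1.continuousAt.eventually_ne h
  filter_upwards [h1, rep_mk ((rep_SA x).inv h)] with s h2 h3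
  rw [h3, mul_inv_cancel₀ h2]

theorem isUnit_iff {x : GO} : IsUnit x ↔ rep x 0 ≠ 0 := by
  constructor
  · intro h
    exact (h.map val).ne_zero
  · exact isUnit_of_val_ne

/-- the uniformizer -/
noncomputable def X : GO := mk (fun s => s) SA.id

theorem rep_X : rep X =ᶠ[𝓝 0] fun s => s := rep_mk SA.id

theorem rep_pow (x : GO) (n : ℕ) : rep (x ^ n) =ᶠ[𝓝 0] fun s => rep x s ^ n := by
  induction n with
  | zero => simpa using rep_one
  | succ n ih =>
    rw [pow_succ]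
    refine (rep_mul _ _).trans ?_
    filter_upwards [ih] with s hs
    rw [hs, pow_succ]

theorem rep_X_pow (n : ℕ) : rep (X ^ n) =ᶠ[𝓝 0] fun s => s ^ n := by
  refine (rep_pow _ _).trans ?_
  filter_upwards [rep_X] with s hs
  rw [hs]

theorem X_ne_zero : X ≠ 0 := by
  intro h
  have h1 := (rep_X.symm.trans ((eq_zero_iff.mp h : rep X =ᶠ[𝓝 0] fun _ => 0)))
  have h2 : ∀ᶠ s in 𝓝[≠] (0 : ℂ), s = 0 := nhdsWithin_le_nhds h1
  have h3 : ∀ᶠ s in 𝓝[≠] (0 : ℂ), s ≠ 0 := self_mem_nhdsWithin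
  obtain ⟨s, h4, h5⟩ := (h2.and h3).exists
  exact h5 h4

/-- every nonzero germ is `X ^ n * unit` -/
theorem exists_eq_X_pow_mul {x : GO} (hx : x ≠ 0) : ∃ (n : ℕ) (u : GO), IsUnit u ∧ x = X ^ n * u := by
  obtain ⟨n, g, hg, hg0, hfg⟩ := (rep_SA x).exists_pow_mul (fun h => hx (eq_zero_iff.mpr h))
  refine ⟨n, mk g hg, isUnit_of_val_ne ?_, ?_⟩
  · rw [(rep_mk hg).self_of_nhds]
    exact hg0
  · rw [rep_eq_iff]
    refine EventuallyEq.trans ?_ (rep_mul _ _).symm
    filter_upwards [hfg, rep_X_pow n, rep_mk hg] with s h1 h2 h3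
    rw [h1, h2, h3]

instance : Nontrivial GO := ⟨0, 1, fun h => by
  have h1 : rep 0 0 = rep 1 0 := by rw [h]
  rw [rep_zero.self_of_nhds, rep_one.self_of_nhds] at h1
  exact zero_ne_one h1⟩

instance : NoZeroDivisors GO where
  eq_zero_or_eq_zero_of_mul_eq_zero := by
    intro x y hxy
    by_contra hcon
    push Not at hcon
    obtain ⟨n, u, hu, rfl⟩ := exists_eq_X_pow_mul hcon.1
    obtain ⟨m, v, hv, rfl⟩ := exists_eq_X_pow_mul hcon.2
    have h1 : X ^ (n + m) * (u * v) = 0 := by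
      rw [← hxy]; ring
    have h2 : X ^ (n + m) = 0 := by
      obtain ⟨w, hw⟩ := hu.mul hv
      rw [← hw] at h1
      exact (Units.mul_left_eq_zero w).mp h1
    have h3 : ∀ᶠ s in 𝓝 (0 : ℂ), s ^ (n + m) = 0 :=
      (rep_X_pow (n + m)).symm.trans (eq_zero_iff.mp h2 : rep (X ^ (n + m)) =ᶠ[𝓝 0] fun _ => 0)
    have h4 : ∀ᶠ s in 𝓝[≠] (0 : ℂ), s ^ (n + m) = 0 := nhdsWithin_le_nhds h3
    have h5 : ∀ᶠ s in 𝓝[≠] (0 : ℂ), s ≠ 0 := self_mem_nhdsWithin
    obtain ⟨s, h6, h7⟩ := (h4.and h5).exists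
    exact pow_ne_zero _ h7 h6

instance : IsDomain GO := NoZeroDivisors.to_isDomain GO

theorem not_isUnit_X : ¬ IsUnit X := by
  rw [isUnit_iff, rep_X.self_of_nhds]
  simp

theorem irreducible_X : Irreducible X := by
  refine ⟨not_isUnit_X, ?_⟩
  intro a b hab
  have ha : a ≠ 0 := by
    rintro rfl
    exact X_ne_zero (by rw [hab, zero_mul])
  have hb : b ≠ 0 := by
    rintro rfl
    exact X_ne_zero (by rw [hab, mul_zero])
  obtain ⟨n, u, hu, rfl⟩ := exists_eq_X_pow_mul ha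
  obtain ⟨m, v, hv, rfl⟩ := exists_eq_X_pow_mul hb
  rcases Nat.eq_zero_or_pos n with rfl | hn
  · left
    simpa using hu
  rcases Nat.eq_zero_or_pos m with rfl | hm
  · right
    simpa using hv
  exfalso
  have h1 : X * (1 - X * (X ^ (n - 1) * u * (X ^ (m - 1) * v))) = 0 := by
    have h2 : X ^ n = X * X ^ (n - 1) := by rw [← pow_succ', Nat.sub_add_cancel hn]
    have h3 : X ^ m = X * X ^ (m - 1) := by rw [← pow_succ', Nat.sub_add_cancel hm]
    have h4 : X * (1 - X * (X ^ (n - 1) * u * (X ^ (m - 1) * v))) =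
        X - (X * X ^ (n - 1)) * u * ((X * X ^ (m - 1)) * v) := by ring
    rw [h4, ← h2, ← h3, ← hab, sub_self]
  rcases mul_eq_zero.mp h1 with h | h
  · exact X_ne_zero h
  · apply not_isUnit_X
    exact IsUnit.of_mul_eq_one _ (sub_eq_zero.mp h).symm

theorem hasUnitMulPow :
    IsDiscreteValuationRing.HasUnitMulPowIrreducibleFactorization GO := by
  refine ⟨X, irreducible_X, ?_⟩
  intro x hx
  obtain ⟨n, u, ⟨w, rfl⟩, rfl⟩ := exists_eq_X_pow_mul hx
  exact ⟨n, w, rfl⟩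

instance : IsDiscreteValuationRing GO :=
  IsDiscreteValuationRing.ofHasUnitMulPowIrreducibleFactorization hasUnitMulPow

end Crest.Agent.R98.Smith
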