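import Crest.Agent.R98.SmithA

/-!
# Row 98: Smith normal form for families of symmetric analytic germs (helper587)
-/

set_option autoImplicit false

open Filter Topology
open scoped ComplexConjugate Matrix

namespace Crest.Agent.R98.Smith

/-- vector valued symmetric analytic germ -/
def SV {I : Type*} (F : ℂ → I → ℂ) : Prop := ∀ i, SA (fun s => F s i)

variable {I : Type*}

/-- germ vector -/
noncomputable def mkV (F : ℂ → I → ℂ) (hF : SV F) : I → GO := fun i => mk (fun s => F s i) (hF i)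

/-- Smith normal form data of a family of germs -/
structure SmithData [Fintype I] [DecidableEq I] (FF : Set (ℂ → I → ℂ)) where
  /-- rank -/
  ρ : ℕ
  /-- exponents -/
  e : Fin ρ → ℕ
  /-- positions -/
  f : Fin ρ ↪ I
  /-- the analytic frame, `B i s` is the `i`-th column at `s` -/
  B : I → ℂ → I → ℂ
  hB : ∀ i, SV (B i)
  hdet : (Matrix.of fun i j => B j 0 i).det ≠ 0
  expand : ∀ F ∈ FF, ∃ h : Fin ρ → ℂ → ℂ, (∀ k, SA (h k)) ∧
    ∀ᶠ s in 𝓝 (0 : ℂ), F s = ∑ k, (s ^ e k * h k s) • B (f k) s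
  gen : ∀ k, ∃ (n : ℕ) (G : Fin n → (ℂ → I → ℂ)) (a : Fin n → ℂ → ℂ),
    (∀ j, G j ∈ FF) ∧ (∀ j, SA (a j)) ∧
    ∀ᶠ s in 𝓝 (0 : ℂ), s ^ e k • B (f k) s = ∑ j, a j s • G j s

theorem exists_smithData [Fintype I] [DecidableEq I] (FF : Set (ℂ → I → ℂ))
    (hFF : ∀ F ∈ FF, SV F) : Nonempty (SmithData FF) := by
  classical
  set N : Submodule GO (I → GO) :=
    Submodule.span GO (Set.range (fun F : FF => mkV F.1 (hFF F.1 F.2))) with hN
  obtain ⟨ρ, snf⟩ := N.smithNormalForm (Pi.basisFun GO I)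
  have ha : ∀ k, snf.a k ≠ 0 := by
    intro k hk
    have h1 := snf.snf k
    rw [hk, zero_smul] at h1
    exact snf.bN.ne_zero k (Subtype.ext (by simpa using h1))
  choose e u hu hau using fun k => exists_eq_X_pow_mul (ha k)
  -- units on the frame
  set w : I → GOˣ := fun i =>
    if h : ∃ k, snf.f k = i then (hu h.choose).unit else 1 with hw
  have hwf : ∀ k, (w (snf.f k) : GO) = u k := by
    intro k
    have h : ∃ k', snf.f k' = snf.f k := ⟨k, rfl⟩
    have hc : h.choose = k := snf.f.injective h.choose_spec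
    simp only [hw]
    rw [dif_pos h]
    rw [IsUnit.unit_spec, hc]
  set bM : Module.Basis I GO (I → GO) := snf.bM.unitsSMul w with hbM
  have hbN : ∀ k, (snf.bN k : I → GO) = X ^ e k • bM (snf.f k) := by
    intro k
    rw [snf.snf k, hbM, Module.Basis.unitsSMul_apply, Units.smul_def, hwf, hau, mul_smul]
  have hdetU : IsUnit (Matrix.of fun i j => bM j i : Matrix I I GO).det := by
    have h1 := Module.Basis.isUnit_det (Pi.basisFun GO I) bM
    rw [Module.Basis.det_apply] at h1
    have h2 : (Pi.basisFun GO I).toMatrix ⇑bM = (Matrix.of fun i j => bM j i : Matrix I I GO) := by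
      ext i j
      simp [Module.Basis.toMatrix_apply]
    rwa [h2] at h1
  refine ⟨{
    ρ := ρ
    e := e
    f := snf.f
    B := fun i s j => rep (bM i j) s
    hB := fun i j => rep_SA _
    hdet := ?_
    expand := ?_
    gen := ?_ }⟩
  · have h1 := (hdetU.map val).ne_zero
    rw [RingHom.map_det] at h1
    have h2 : val.mapMatrix (Matrix.of fun i j => bM j i : Matrix I I GO) =
        (Matrix.of fun i j => rep (bM j i) 0) := by
      ext i j
      rfl
    rwa [h2] at h1
  · intro F hF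
    have hmem : mkV F (hFF F hF) ∈ N := Submodule.subset_span ⟨⟨F, hF⟩, rfl⟩
    set c := snf.bN.repr ⟨mkV F (hFF F hF), hmem⟩ with hc
    have hsum : mkV F (hFF F hF) = ∑ k, c k • (snf.bN k : I → GO) := by
      have h1 := snf.bN.sum_repr ⟨mkV F (hFF F hF), hmem⟩
      have h2 : ((∑ k, c k • snf.bN k : N) : I → GO) = mkV F (hFF F hF) := congrArg (Subtype.val) h1
      rw [← h2, Submodule.coe_sum]
      rfl
    refine ⟨fun k => rep (c k), fun k => rep_SA _, ?_⟩
    have hcoord : ∀ i : I, ∀ᶠ s in 𝓝 (0 : ℂ), F s i =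
        ∑ k, (s ^ e k * rep (c k) s) * rep (bM (snf.f k) i) s := by
      intro i
      have h1 : mk (fun s => F s i) (hFF F hF i) = ∑ k, c k * (X ^ e k * bM (snf.f k) i) := by
        have h2 := congrFun hsum i
        simp only [Finset.sum_apply, Pi.smul_apply, smul_eq_mul, hbN] at h2
        exact h2
      have h3 := (rep_mk (hFF F hF i)).symm.trans ((rep_eq_iff.mp h1).trans (rep_sum Finset.univ _))
      have h4 : ∀ᶠ s in 𝓝 (0 : ℂ), ∀ k : Fin ρ,
          rep (c k * (X ^ e k * bM (snf.f k) i)) s = (s ^ e k * rep (c k) s) * rep (bM (snf.f k) i) s := by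
        rw [eventually_all]
        intro k
        filter_upwards [rep_mul (c k) (X ^ e k * bM (snf.f k) i), rep_mul (X ^ e k) (bM (snf.f k) i),
          rep_X_pow (e k)] with s h5 h6 h7
        rw [h5, h6, h7]
        ring
      filter_upwards [h3, h4] with s h5 h6
      rw [h5]
      exact Finset.sum_congr rfl fun k _ => h6 k
    have hall := eventually_all.mpr hcoord
    filter_upwards [hall] with s hs
    funext i
    rw [hs i]
    simp [Finset.sum_apply]
  · intro k
    have hmem : (snf.bN k : I → GO) ∈ Submodule.span GO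
        (Set.range (fun F : FF => mkV F.1 (hFF F.1 F.2))) := (snf.bN k).2
    obtain ⟨n, a, g, hg⟩ := Submodule.mem_span_set'.mp hmem
    choose G' hG' using fun j => (g j).2
    refine ⟨n, fun j => (G' j).1, fun j => rep (a j), fun j => (G' j).2, fun j => rep_SA _, ?_⟩
    have hcoord : ∀ i : I, ∀ᶠ s in 𝓝 (0 : ℂ), s ^ e k * rep (bM (snf.f k) i) s =
        ∑ j, rep (a j) s * (G' j).1 s i := by
      intro i
      have h1 : X ^ e k * bM (snf.f k) i = ∑ j, a j * mk (fun s => (G' j).1 s i) (hFF _ (G' j).2 i) := by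
        have h2 := congrFun hg i
        rw [hbN] at h2
        simp only [Finset.sum_apply, Pi.smul_apply, smul_eq_mul] at h2
        rw [← h2]
        refine Finset.sum_congr rfl fun j _ => ?_
        have h3 := congrFun (hG' j) i
        rw [← h3]
        rfl
      have h3 := (rep_mul (X ^ e k) (bM (snf.f k) i)).symm.trans
        ((rep_eq_iff.mp h1).trans (rep_sum Finset.univ _))
      have h4 : ∀ᶠ s in 𝓝 (0 : ℂ), ∀ j : Fin n,
          rep (a j * mk (fun s => (G' j).1 s i) (hFF _ (G' j).2 i)) s = rep (a j) s * (G' j).1 s i := by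
        rw [eventually_all]
        intro j
        filter_upwards [rep_mul (a j) (mk (fun s => (G' j).1 s i) (hFF _ (G' j).2 i)),
          rep_mk (hFF _ (G' j).2 i)] with s h5 h6
        rw [h5, h6]
      filter_upwards [h3, h4, rep_X_pow (e k)] with s h5 h6 h7
      rw [h7] at h5
      rw [h5]
      exact Finset.sum_congr rfl fun j _ => h6 j
    have hall := eventually_all.mpr hcoord
    filter_upwards [hall] with s hs
    funext i
    have := hs i
    simpa [Finset.sum_apply] using this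

namespace SmithData

variable [Fintype I] [DecidableEq I] {FF : Set (ℂ → I → ℂ)} (D : SmithData FF)

/-- the frame matrix -/
noncomputable def Bm (s : ℂ) : Matrix I I ℂ := Matrix.of fun i j => D.B j s i

/-- coordinates of a vector function in the frame -/
noncomputable def coord (P : ℂ → I → ℂ) (i : I) (s : ℂ) : ℂ := ((D.Bm s)⁻¹ *ᵥ P s) i

theorem SA_det : SA (fun s => (D.Bm s).det) := by
  have h : ∀ s, (D.Bm s).det = ∑ σ : Equiv.Perm I, ((Equiv.Perm.sign σ : ℤ) : ℂ) * ∏ i, D.B i s (σ i) := by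
    intro s
    rw [Matrix.det_apply']
    rfl
  refine (SA.sum Finset.univ (F := fun (σ : Equiv.Perm I) s =>
    ((Equiv.Perm.sign σ : ℤ) : ℂ) * ∏ i, D.B i s (σ i)) ?_).congr
    (Eventually.of_forall fun s => (h s).symm)
  intro σ _
  refine SA.mul ?_ (SA.prod Finset.univ fun i _ => D.hB i (σ i))
  have := SA.const (((Equiv.Perm.sign σ : ℤ) : ℝ))
  simpa using this

theorem det_ne : ∀ᶠ s in 𝓝 (0 : ℂ), (D.Bm s).det ≠ 0 :=
  D.SA_det.1.continuousAt.eventually_ne D.hdet

theorem SA_inv (i j : I) : SA (fun s => (D.Bm s)⁻¹ i j) := by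
  have h : ∀ s, (D.Bm s)⁻¹ i j = ((D.Bm s).det)⁻¹ * (D.Bm s).adjugate i j := by
    intro s
    rw [Matrix.inv_def, Matrix.smul_apply, smul_eq_mul, Ring.inverse_eq_inv']
  refine ((D.SA_det.inv D.hdet).mul (g := fun s => (D.Bm s).adjugate i j) ?_).congr
    (Eventually.of_forall fun s => (h s).symm)
  -- the adjugate entry is a polynomial in the entries
  have h2 : ∀ s, (D.Bm s).adjugate i j =
      ∑ σ : Equiv.Perm I, ((Equiv.Perm.sign σ : ℤ) : ℂ) *
        ∏ k, (if σ k = j then (if k = i then 1 else 0) else D.B k s (σ k)) := by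
    intro s
    rw [Matrix.adjugate_apply, Matrix.det_apply']
    refine Finset.sum_congr rfl fun σ _ => ?_
    congr 1
    refine Finset.prod_congr rfl fun k _ => ?_
    rw [Matrix.updateRow_apply, Pi.single_apply]
    rfl
  refine (SA.sum Finset.univ (F := fun (σ : Equiv.Perm I) s => ((Equiv.Perm.sign σ : ℤ) : ℂ) *
        ∏ k, (if σ k = j then (if k = i then 1 else 0) else D.B k s (σ k))) ?_).congr
    (Eventually.of_forall fun s => (h2 s).symm)
  intro σ _
  refine SA.mul ?_ (SA.prod Finset.univ fun k _ => ?_)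
  · have := SA.const (((Equiv.Perm.sign σ : ℤ) : ℝ))
    simpa using this
  · by_cases h3 : σ k = j
    · simp only [h3, if_true]
      by_cases h4 : k = i
      · simp only [h4, if_true]
        exact SA.one
      · simp only [h4, if_false]
        exact SA.zero
    · simp only [h3, if_false]
      exact D.hB k (σ k)

theorem analyticAt_coord {P : ℂ → I → ℂ} (hP : ∀ i, AnalyticAt ℂ (fun s => P s i) 0) (i : I) :
    AnalyticAt ℂ (D.coord P i) 0 := by
  have h : D.coord P i = fun s => ∑ j, (D.Bm s)⁻¹ i j * P s j := by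
    funext s
    rfl
  rw [h]
  exact Finset.analyticAt_fun_sum _ fun j _ => (D.SA_inv i j).1.fun_mul (hP j)

theorem SA_coord {P : ℂ → I → ℂ} (hP : SV P) (i : I) : SA (D.coord P i) :=
  SA.sum Finset.univ (F := fun j s => (D.Bm s)⁻¹ i j * P s j) fun j _ => (D.SA_inv i j).mul (hP j)

/-- reconstruction: `P s = ∑ i, g_i(s) B_i(s)` whenever `det B(s) ≠ 0` -/
theorem coord_sum {s : ℂ} (hs : (D.Bm s).det ≠ 0) (P : ℂ → I → ℂ) :
    ∑ i, D.coord P i s • D.B i s = P s := by
  have h1 : (D.Bm s) *ᵥ ((D.Bm s)⁻¹ *ᵥ P s) = P s := by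
    rw [Matrix.mulVec_mulVec, Matrix.mul_nonsing_inv _ (isUnit_iff_ne_zero.mpr hs), Matrix.one_mulVec]
  rw [← h1]
  funext j
  simp only [Finset.sum_apply, Pi.smul_apply, smul_eq_mul, Matrix.mulVec, dotProduct]
  refine Finset.sum_congr rfl fun i _ => ?_
  rw [mul_comm]
  rfl

/-- uniqueness of coordinates -/
theorem coord_unique {s : ℂ} (hs : (D.Bm s).det ≠ 0) {P : ℂ → I → ℂ} {x : I → ℂ}
    (hx : P s = ∑ i, x i • D.B i s) (i : I) : D.coord P i s = x i := by
  have h1 : P s = (D.Bm s) *ᵥ x := by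
    rw [hx]
    funext j
    simp only [Finset.sum_apply, Pi.smul_apply, smul_eq_mul, Matrix.mulVec, dotProduct]
    refine Finset.sum_congr rfl fun i _ => ?_
    rw [mul_comm]
    rfl
  unfold coord
  rw [h1, Matrix.mulVec_mulVec, Matrix.nonsing_inv_mul _ (isUnit_iff_ne_zero.mpr hs), Matrix.one_mulVec]

/-- pairing identity `P(s)·t = ∑ g_i(s) ⟨B_i(s), t⟩` -/
theorem dot_eq {s : ℂ} (hs : (D.Bm s).det ≠ 0) (P : ℂ → I → ℂ) (t : I → ℂ) :
    ∑ j, P s j * t j = ∑ i, D.coord P i s * ∑ j, D.B i s j * t j := by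
  conv_lhs => rw [← D.coord_sum hs P]
  simp only [Finset.sum_apply, Pi.smul_apply, smul_eq_mul, Finset.sum_mul, Finset.mul_sum]
  rw [Finset.sum_comm]
  refine Finset.sum_congr rfl fun i _ => Finset.sum_congr rfl fun j _ => ?_
  ring

/-- coordinates of members of the family: divisible by `s ^ e k` at the position `f k` -/
theorem coord_of_mem {F : ℂ → I → ℂ} (hF : F ∈ FF) :
    (∀ k, ∃ h : ℂ → ℂ, SA h ∧ ∀ᶠ s in 𝓝 (0 : ℂ), D.coord F (D.f k) s = s ^ D.e k * h s) ∧
    (∀ i, i ∉ Set.range D.f → ∀ᶠ s in 𝓝 (0 : ℂ), D.coord F i s = 0) := by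
  obtain ⟨h, hh, hF'⟩ := D.expand F hF
  have key : ∀ᶠ s in 𝓝 (0 : ℂ), ∀ i, D.coord F i s = ∑ k, if D.f k = i then s ^ D.e k * h k s else 0 := by
    filter_upwards [hF', D.det_ne] with s h1 h2
    intro i
    refine D.coord_unique h2 (x := fun i => ∑ k, if D.f k = i then s ^ D.e k * h k s else 0) ?_ i
    rw [h1]
    simp only [Finset.sum_smul]
    rw [Finset.sum_comm]
    refine Finset.sum_congr rfl fun k _ => ?_
    simp [ite_smul]
  constructor
  · intro k
    refine ⟨h k, hh k, ?_⟩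
    filter_upwards [key] with s hs
    rw [hs (D.f k)]
    rw [Finset.sum_eq_single k]
    · simp
    · intro b _ hb
      rw [if_neg]
      intro h3
      exact hb (D.f.injective h3)
    · simp
  · intro i hi
    filter_upwards [key] with s hs
    rw [hs i]
    refine Finset.sum_eq_zero fun k _ => ?_
    rw [if_neg]
    intro h3
    exact hi ⟨k, h3⟩

/-- the analytic section `τ(s) = B(s)^{-T} B(0)^T t`: complex version -/
theorem exists_section (t : I → ℝ) (ht : ∀ k, ∑ j, D.B (D.f k) 0 j * (t j : ℂ) = 0) :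
    ∃ τ : ℂ → I → ℂ, SV τ ∧ τ 0 = (fun i => (t i : ℂ)) ∧
      ∀ᶠ s in 𝓝 (0 : ℂ), ∀ k, ∑ j, D.B (D.f k) s j * τ s j = 0 := by
  -- `τ s = ((Bm s)ᵀ)⁻¹ (Bm 0)ᵀ t`
  set y : I → ℂ := fun i => ∑ j, D.B i 0 j * (t j : ℂ) with hy
  have hy_real : ∀ i, ∃ r : ℝ, y i = r := by
    intro i
    have h1 : ∀ j, ∃ r : ℝ, D.B i 0 j = r := by
      intro j
      have h2 := (D.hB i j).2.self_of_nhds
      simp only [map_zero] at h2
      exact ⟨(D.B i 0 j).re, ((Complex.conj_eq_iff_re).mp h2.symm).symm⟩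
    choose r hr using h1
    refine ⟨∑ j, r j * t j, ?_⟩
    simp only [hy]
    push_cast
    exact Finset.sum_congr rfl fun j _ => by rw [hr j]
  refine ⟨fun s j => ∑ i, (D.Bm s)⁻¹ i j * y i, ?_, ?_, ?_⟩
  · intro j
    refine SA.sum Finset.univ (F := fun i s => (D.Bm s)⁻¹ i j * y i) fun i _ => ?_
    obtain ⟨r, hr⟩ := hy_real i
    have := (D.SA_inv i j).mul (SA.const r)
    rw [hr]
    exact this
  · funext j
    have h0 : IsUnit (D.Bm 0).det := isUnit_iff_ne_zero.mpr D.hdet
    have h1 : (D.Bm 0) * (D.Bm 0)⁻¹ = 1 := Matrix.mul_nonsing_inv _ h0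
    have h2 : ∀ a, ∑ i, D.B i 0 a * (D.Bm 0)⁻¹ i j = (1 : Matrix I I ℂ) a j := by
      intro a
      rw [← h1, Matrix.mul_apply]
      rfl
    simp only [hy, Finset.mul_sum]
    rw [Finset.sum_comm]
    have h3 : ∀ a, ∑ i, (D.Bm 0)⁻¹ i j * (D.B i 0 a * (t a : ℂ)) = (1 : Matrix I I ℂ) a j * (t a : ℂ) := by
      intro a
      rw [← h2 a, Finset.sum_mul]
      exact Finset.sum_congr rfl fun i _ => by ring
    simp only [h3, Matrix.one_apply]
    simp
  · filter_upwards [D.det_ne] with s hs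
    intro k
    have h0 : IsUnit (D.Bm s).det := isUnit_iff_ne_zero.mpr hs
    have h1 : (D.Bm s)⁻¹ * (D.Bm s) = 1 := Matrix.nonsing_inv_mul _ h0
    have h2 : ∀ i, ∑ j, (D.Bm s)⁻¹ i j * D.B (D.f k) s j = (1 : Matrix I I ℂ) i (D.f k) := by
      intro i
      rw [← h1, Matrix.mul_apply]
      rfl
    simp only [Finset.mul_sum]
    rw [Finset.sum_comm]
    have h3 : ∀ i, ∑ j, D.B (D.f k) s j * ((D.Bm s)⁻¹ i j * y i) = (1 : Matrix I I ℂ) i (D.f k) * y i := by
      intro i
      rw [← h2 i, Finset.sum_mul]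
      exact Finset.sum_congr rfl fun j _ => by ring
    simp only [h3, Matrix.one_apply]
    simp only [ite_mul, one_mul, zero_mul, Finset.sum_ite_eq', Finset.mem_univ, if_true]
    exact ht k

/-- `τ` kills the whole family -/
theorem section_kills {τ : ℂ → I → ℂ}
    (hτ : ∀ᶠ s in 𝓝 (0 : ℂ), ∀ k, ∑ j, D.B (D.f k) s j * τ s j = 0) {F : ℂ → I → ℂ} (hF : F ∈ FF) :
    ∀ᶠ s in 𝓝 (0 : ℂ), ∑ j, F s j * τ s j = 0 := by
  obtain ⟨h, _, hF'⟩ := D.expand F hF
  filter_upwards [hτ, hF'] with s h1 h2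
  rw [h2]
  simp only [Finset.sum_apply, Pi.smul_apply, smul_eq_mul, Finset.sum_mul]
  rw [Finset.sum_comm]
  refine Finset.sum_eq_zero fun k _ => ?_
  have : ∑ j, s ^ D.e k * h k s * D.B (D.f k) s j * τ s j =
      (s ^ D.e k * h k s) * ∑ j, D.B (D.f k) s j * τ s j := by
    rw [Finset.mul_sum]
    exact Finset.sum_congr rfl fun j _ => by ring
  rw [this, h1 k, mul_zero]

end SmithData

end Crest.Agent.R98.Smith
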