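import Crest.Agent.R98.TOneA
import Crest.Agent.R98.Ent2

/-!
R98 / TOneB (helper290): branching number `sig` of a finite law at scale `d`, window couplings,
entropy increment versus `sig`, and `sig` versus the window gains (T1, part (3) of note 9947).
-/

set_option autoImplicit false

open MeasureTheory Set Real

namespace Crest.Agent.R98.TOne

/-- two point entropy inequality with a free parameter -/
theorem psi_two_le {a b t : ℝ} (ha : 0 ≤ a) (hb : 0 ≤ b) (ht : 0 < t) (ht2 : t ≤ 2) :
    negMulLog a + negMulLog b - negMulLog (a + b) ≤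
      t * (a + b) + log (2 / t) * (2 * a * b / (a + b)) := by
  have hlog : 0 ≤ log (2 / t) := log_nonneg ((one_le_div ht).2 ht2)
  wlog hab : a ≤ b generalizing a b with H
  · have h := H hb ha (le_of_not_ge hab)
    have e1 : b + a = a + b := add_comm _ _
    have e2 : 2 * b * a = 2 * a * b := by ring
    rw [e1, e2] at h
    linarith
  rcases ha.eq_or_lt with h0 | h0
  · rw [← h0]
    simp only [negMulLog_zero, zero_add, mul_zero, zero_mul, zero_div, add_zero, sub_self]
    positivity
  have hb0 : 0 < b := lt_of_lt_of_le h0 hab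
  have hS : 0 < a + b := by linarith
  have e1 : negMulLog a + negMulLog b - negMulLog (a + b) =
      a * log ((a + b) / a) + b * log ((a + b) / b) := by
    rw [log_div hS.ne' h0.ne', log_div hS.ne' hb0.ne', negMulLog, negMulLog, negMulLog]
    ring
  rw [e1]
  have h1 : b * log ((a + b) / b) ≤ a := by
    have := log_le_sub_one_of_pos (show 0 < (a + b) / b by positivity)
    have h2 := mul_le_mul_of_nonneg_left this hb0.le
    have h3 : b * ((a + b) / b - 1) = a := by field_simp; ring
    linarith
  have h2 : a * log ((a + b) / a) ≤ a * log (2 / t) + t * (a + b) / 2 - a := by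
    have h3 : (a + b) / a = (2 / t) * (t * (a + b) / (2 * a)) := by field_simp
    rw [h3, log_mul (by positivity) (by positivity)]
    have h4 := log_le_sub_one_of_pos (show 0 < t * (a + b) / (2 * a) by positivity)
    have h5 := mul_le_mul_of_nonneg_left h4 h0.le
    have h6 : a * (t * (a + b) / (2 * a) - 1) = t * (a + b) / 2 - a := by field_simp
    rw [h6] at h5
    linarith
  have h3 : a ≤ 2 * a * b / (a + b) := by
    rw [le_div_iff₀ hS]
    nlinarith
  have h4 := mul_le_mul_of_nonneg_left h3 hlog
  have h5 : 0 ≤ t * (a + b) := by positivity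
  nlinarith

section windows

variable {κ : Type*} [Fintype κ] (q s : κ → ℝ)

/-- positions of the left end of a window of length `d` containing the point `x` -/
def E (x d : ℝ) : Set ℝ := Ioc (x - d) x

theorem measurableSet_E (x d : ℝ) : MeasurableSet (E x d) := measurableSet_Ioc

theorem volume_E (x : ℝ) {d : ℝ} (hd : 0 ≤ d) : volume.real (E x d) = d := by
  unfold E
  rw [Measure.real, Real.volume_Ioc, ENNReal.toReal_ofReal (by linarith)]
  ring

/-- mass of the window `[y, y + d)` -/
noncomputable def F (d y : ℝ) : ℝ := ∑ k, (E (s k) d).indicator (fun _ => q k) y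

theorem law_real {q : κ → ℝ} (hq : ∀ k, 0 ≤ q k) (s : κ → ℝ) (d y : ℝ) :
    (addLaw q s (Measure.dirac 0)).real (Ico y (y + d)) = F q s d y := by
  unfold addLaw
  rw [mix_real hq]
  unfold F
  refine Finset.sum_congr rfl fun k _ => ?_
  rw [shift_real, measureReal_def, Measure.dirac_apply' _ measurableSet_Ico]
  by_cases h : y ∈ E (s k) d
  · have h' : (0 : ℝ) ∈ Ico (y - s k) (y - s k + d) := by
      unfold E at h
      exact ⟨by linarith [h.2], by linarith [h.1]⟩
    rw [indicator_of_mem h, indicator_of_mem h']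
    simp
  · have h' : (0 : ℝ) ∉ Ico (y - s k) (y - s k + d) := by
      intro h2
      exact h ⟨by linarith [h2.2], by linarith [h2.1]⟩
    rw [indicator_of_notMem h, indicator_of_notMem h']
    simp

variable {q}

theorem F_nonneg (hq : ∀ k, 0 ≤ q k) (d y : ℝ) : 0 ≤ F q s d y :=
  Finset.sum_nonneg fun k _ => indicator_nonneg (fun _ _ => hq k) _

theorem le_F (hq : ∀ k, 0 ≤ q k) {d y : ℝ} {k : κ} (h : y ∈ E (s k) d) : q k ≤ F q s d y := by
  have h1 : (E (s k) d).indicator (fun _ => q k) y ≤ F q s d y := by
    unfold F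
    exact Finset.single_le_sum (f := fun k => (E (s k) d).indicator (fun _ => q k) y)
      (fun k _ => indicator_nonneg (fun _ _ => hq k) _) (Finset.mem_univ k)
  rwa [indicator_of_mem h] at h1

theorem F_mono (hq : ∀ k, 0 ≤ q k) {d d' y y' : ℝ} (h1 : y ≤ y') (h2 : y' + d' ≤ y + d) :
    F q s d' y' ≤ F q s d y := by
  unfold F
  refine Finset.sum_le_sum fun k _ => ?_
  by_cases h : y' ∈ E (s k) d'
  · have h' : y ∈ E (s k) d := by
      unfold E at h ⊢
      exact ⟨by linarith [h.1], by linarith [h.2]⟩
    rw [indicator_of_mem h, indicator_of_mem h']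
  · rw [indicator_of_notMem h]
    exact indicator_nonneg (fun _ _ => hq k) _

theorem F_le_sum (hq : ∀ k, 0 ≤ q k) (d y : ℝ) : F q s d y ≤ ∑ k, q k :=
  Finset.sum_le_sum fun k _ => indicator_le_self' (fun _ _ => hq k) _

variable (q) in
theorem measurable_F (d : ℝ) : Measurable (F q s d) := by
  unfold F
  exact Finset.measurable_fun_sum _ fun k _ => measurable_const.indicator (measurableSet_E _ _)

/-- the window coupling density -/
noncomputable def G (q s : κ → ℝ) (D : ℝ) (k l : κ) (y : ℝ) : ℝ :=
  (E (s k) D ∩ E (s l) D).indicator (fun y => q k * q l / F q s D y) y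

theorem G_nonneg (hq : ∀ k, 0 ≤ q k) (D : ℝ) (k l : κ) (y : ℝ) : 0 ≤ G q s D k l y :=
  indicator_nonneg (fun y _ => div_nonneg (mul_nonneg (hq k) (hq l)) (F_nonneg s hq D y)) _

theorem G_comm (D : ℝ) (k l : κ) (y : ℝ) : G q s D k l y = G q s D l k y := by
  unfold G
  rw [inter_comm, mul_comm]

theorem G_le (hq : ∀ k, 0 ≤ q k) (D : ℝ) (k l : κ) (y : ℝ) :
    G q s D k l y ≤ (E (s k) D ∩ E (s l) D).indicator (fun _ => q l) y := by
  unfold G
  by_cases h : y ∈ E (s k) D ∩ E (s l) D
  · rw [indicator_of_mem h, indicator_of_mem h]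
    have h1 := le_F s hq h.1
    rcases (hq k).eq_or_lt with h0 | h0
    · rw [← h0, zero_mul, zero_div]; exact hq l
    · rw [div_le_iff₀ (lt_of_lt_of_le h0 h1)]
      nlinarith [hq l]
  · rw [indicator_of_notMem h, indicator_of_notMem h]

theorem measurable_G (D : ℝ) (k l : κ) : Measurable (G q s D k l) := by
  unfold G
  exact ((measurable_const.div (measurable_F q s D))).indicator
    ((measurableSet_E _ _).inter (measurableSet_E _ _))

theorem integrable_indE (x D c : ℝ) : Integrable ((E x D).indicator (fun _ : ℝ => c)) := by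
  rw [integrable_indicator_iff (measurableSet_E _ _)]
  unfold E
  exact integrableOn_const (by simp) (by simp)

theorem integrable_indE₂ (x x' D D' c : ℝ) :
    Integrable ((E x D ∩ E x' D').indicator (fun _ : ℝ => c)) := by
  rw [integrable_indicator_iff ((measurableSet_E _ _).inter (measurableSet_E _ _))]
  refine integrableOn_const ?_ (by simp)
  exact ne_top_of_le_ne_top (b := volume (E x D)) (by unfold E; simp)
    (measure_mono inter_subset_left)

theorem integrable_G (hq : ∀ k, 0 ≤ q k) (D : ℝ) (k l : κ) : Integrable (G q s D k l) := by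
  refine Integrable.mono' (integrable_indE₂ (s k) (s l) D D (q l))
    (measurable_G s D k l).aestronglyMeasurable (Filter.Eventually.of_forall fun y => ?_)
  rw [Real.norm_of_nonneg (G_nonneg s hq D k l y)]
  exact G_le s hq D k l y

theorem sum_G (hq : ∀ k, 0 ≤ q k) (D : ℝ) (k : κ) (y : ℝ) :
    ∑ l, G q s D k l y = (E (s k) D).indicator (fun _ => q k) y := by
  by_cases h : y ∈ E (s k) D
  · rw [indicator_of_mem h]
    have h1 : ∀ l, G q s D k l y = q k / F q s D y * (E (s l) D).indicator (fun _ => q l) y := by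
      intro l
      unfold G
      by_cases hl : y ∈ E (s l) D
      · rw [indicator_of_mem (show y ∈ E (s k) D ∩ E (s l) D from ⟨h, hl⟩), indicator_of_mem hl]
        ring
      · rw [indicator_of_notMem (fun h2 => hl h2.2), indicator_of_notMem hl]
        ring
    simp only [h1]
    rw [← Finset.mul_sum]
    change q k / F q s D y * F q s D y = q k
    have h2 := le_F s hq h
    rcases (hq k).eq_or_lt with h0 | h0
    · rw [← h0]; simp
    · exact div_mul_cancel₀ _ (lt_of_lt_of_le h0 h2).ne'
  · rw [indicator_of_notMem h]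
    refine Finset.sum_eq_zero fun l _ => ?_
    unfold G
    rw [indicator_of_notMem (fun h2 => h h2.1)]

/-- the window coupling -/
noncomputable def Mc (q s : κ → ℝ) (D : ℝ) (k l : κ) : ℝ := (1 / D) * ∫ y, G q s D k l y

theorem Mc_nonneg (hq : ∀ k, 0 ≤ q k) {D : ℝ} (hD : 0 ≤ D) (k l : κ) : 0 ≤ Mc q s D k l :=
  mul_nonneg (by positivity) (integral_nonneg fun y => G_nonneg s hq D k l y)

theorem Mc_comm (D : ℝ) (k l : κ) : Mc q s D k l = Mc q s D l k := by
  unfold Mc
  simp only [G_comm s D k l]

theorem Mc_row (hq : ∀ k, 0 ≤ q k) {D : ℝ} (hD : 0 < D) (k : κ) :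
    ∑ l, Mc q s D k l = q k := by
  unfold Mc
  rw [← Finset.mul_sum, ← integral_finsetSum _ fun l _ => integrable_G s hq D k l]
  simp only [sum_G s hq]
  rw [integral_indicator_const _ (measurableSet_E _ _), volume_E _ hD.le, smul_eq_mul]
  field_simp

theorem Mc_col (hq : ∀ k, 0 ≤ q k) {D : ℝ} (hD : 0 < D) (l : κ) :
    ∑ k, Mc q s D k l = q l := by
  rw [← Mc_row s hq hD l]
  exact Finset.sum_congr rfl fun k _ => Mc_comm s D k l

/-! ### the branching number -/

theorem F_two (q s : κ → ℝ) {d : ℝ} (hd : 0 ≤ d) (y : ℝ) :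
    F q s (2 * d) y = F q s d y + F q s d (y + d) := by
  unfold F
  rw [← Finset.sum_add_distrib]
  refine Finset.sum_congr rfl fun k _ => ?_
  by_cases h1 : y ∈ E (s k) d
  · have h2 : y + d ∉ E (s k) d := by
      unfold E at h1 ⊢
      intro h
      linarith [h.2, h1.1]
    have h3 : y ∈ E (s k) (2 * d) := by
      unfold E at h1 ⊢
      exact ⟨by linarith [h1.1], h1.2⟩
    rw [indicator_of_mem h1, indicator_of_notMem h2, indicator_of_mem h3, add_zero]
  · rw [indicator_of_notMem h1, zero_add]
    by_cases h2 : y + d ∈ E (s k) d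
    · have h3 : y ∈ E (s k) (2 * d) := by
        unfold E at h2 ⊢
        exact ⟨by linarith [h2.1], by linarith [h2.2]⟩
      rw [indicator_of_mem h2, indicator_of_mem h3]
    · have h3 : y ∉ E (s k) (2 * d) := by
        intro h
        unfold E at h h1 h2
        rcases lt_or_ge (s k - d) y with h4 | h4
        · exact h1 ⟨h4, h.2⟩
        · exact h2 ⟨by linarith [h.1], by linarith⟩
      rw [indicator_of_notMem h2, indicator_of_notMem h3]

/-- the branching number at scale `d` (probability that two points of a random window of length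
`2 d`, independent given the window, are separated by its midpoint) -/
noncomputable def sig (q s : κ → ℝ) (d : ℝ) : ℝ :=
  (1 / (2 * d)) * ∫ y, 2 * F q s d y * F q s d (y + d) / F q s (2 * d) y

/-- density of separated pairs -/
noncomputable def Gs (q s : κ → ℝ) (d : ℝ) (k l : κ) (y : ℝ) : ℝ :=
  (E (s k) d ∩ E (s l - d) d).indicator (fun y => q k * q l / F q s (2 * d) y) y

theorem mem_E_shift {x d y : ℝ} : y + d ∈ E x d ↔ y ∈ E (x - d) d := by
  unfold E
  constructor
  · rintro ⟨h1, h2⟩; exact ⟨by linarith, by linarith⟩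
  · rintro ⟨h1, h2⟩; exact ⟨by linarith, by linarith⟩

theorem sum_Gs (q s : κ → ℝ) (d y : ℝ) :
    F q s d y * F q s d (y + d) / F q s (2 * d) y = ∑ k, ∑ l, Gs q s d k l y := by
  have h1 : ∀ k l, Gs q s d k l y = (E (s k) d).indicator (fun _ => q k) y *
      (E (s l) d).indicator (fun _ => q l) (y + d) / F q s (2 * d) y := by
    intro k l
    unfold Gs
    by_cases hk : y ∈ E (s k) d
    · by_cases hl : y ∈ E (s l - d) d
      · rw [indicator_of_mem (show y ∈ E (s k) d ∩ E (s l - d) d from ⟨hk, hl⟩),
          indicator_of_mem hk, indicator_of_mem (mem_E_shift.2 hl)]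
      · rw [indicator_of_notMem (fun h => hl h.2),
          indicator_of_notMem (fun h => hl (mem_E_shift.1 h))]
        simp
    · rw [indicator_of_notMem (fun h => hk h.1), indicator_of_notMem hk]
      simp
  simp only [h1, ← Finset.sum_div, ← Finset.mul_sum, ← Finset.sum_mul]
  rfl

theorem Gs_nonneg (hq : ∀ k, 0 ≤ q k) (d : ℝ) (k l : κ) (y : ℝ) : 0 ≤ Gs q s d k l y :=
  indicator_nonneg (fun y _ => div_nonneg (mul_nonneg (hq k) (hq l)) (F_nonneg s hq _ y)) _

theorem Gs_le_G (hq : ∀ k, 0 ≤ q k) {d : ℝ} (hd : 0 < d) (k l : κ) (y : ℝ) :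
    Gs q s d k l y ≤ G q s (2 * d) k l y := by
  unfold Gs
  by_cases h : y ∈ E (s k) d ∩ E (s l - d) d
  · have h' : y ∈ E (s k) (2 * d) ∩ E (s l) (2 * d) := by
      unfold E at h ⊢
      exact ⟨⟨by linarith [h.1.1], h.1.2⟩, ⟨by linarith [h.2.1], by linarith [h.2.2]⟩⟩
    unfold G
    rw [indicator_of_mem h, indicator_of_mem h']
  · rw [indicator_of_notMem h]
    exact G_nonneg s hq _ k l y

theorem measurable_Gs (d : ℝ) (k l : κ) : Measurable (Gs q s d k l) := by
  unfold Gs
  exact ((measurable_const.div (measurable_F q s _))).indicator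
    ((measurableSet_E _ _).inter (measurableSet_E _ _))

theorem integrable_Gs (hq : ∀ k, 0 ≤ q k) {d : ℝ} (hd : 0 < d) (k l : κ) :
    Integrable (Gs q s d k l) := by
  refine Integrable.mono' (integrable_G s hq (2 * d) k l)
    (measurable_Gs s d k l).aestronglyMeasurable (Filter.Eventually.of_forall fun y => ?_)
  rw [Real.norm_of_nonneg (Gs_nonneg s hq d k l y)]
  exact Gs_le_G s hq hd k l y

theorem integrable_sig (hq : ∀ k, 0 ≤ q k) {d : ℝ} (hd : 0 < d) :
    Integrable fun y => F q s d y * F q s d (y + d) / F q s (2 * d) y := by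
  simp only [sum_Gs]
  exact integrable_finsetSum _ fun k _ => integrable_finsetSum _ fun l _ =>
    integrable_Gs s hq hd k l

theorem sig_eq (hq : ∀ k, 0 ≤ q k) {d : ℝ} (hd : 0 < d) :
    sig q s d = (1 / d) * ∑ k, ∑ l, ∫ y, Gs q s d k l y := by
  unfold sig
  have h1 : ∀ y, 2 * F q s d y * F q s d (y + d) / F q s (2 * d) y =
      2 * ∑ k, ∑ l, Gs q s d k l y := by
    intro y
    rw [← sum_Gs]; ring
  simp only [h1]
  rw [integral_const_mul, integral_finsetSum _ fun k _ => integrable_finsetSum _ fun l _ =>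
    integrable_Gs s hq hd k l]
  simp only [integral_finsetSum _ fun l _ => integrable_Gs s hq hd _ l]
  field_simp

theorem sig_nonneg (hq : ∀ k, 0 ≤ q k) {d : ℝ} (hd : 0 < d) : 0 ≤ sig q s d := by
  rw [sig_eq s hq hd]
  exact mul_nonneg (by positivity) (Finset.sum_nonneg fun k _ => Finset.sum_nonneg fun l _ =>
    integral_nonneg fun y => Gs_nonneg s hq d k l y)

/-- bound of a separated pair by the window coupling at twice the scale -/
theorem pair_le_coarse (hq : ∀ k, 0 ≤ q k) {d : ℝ} (hd : 0 < d) (k l : κ) :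
    (1 / d) * ∫ y, Gs q s d k l y ≤ 2 * Mc q s (2 * d) k l := by
  have h1 := integral_mono (integrable_Gs s hq hd k l) (integrable_G s hq (2 * d) k l)
    (fun y => Gs_le_G s hq hd k l y)
  unfold Mc
  calc (1 / d) * ∫ y, Gs q s d k l y ≤ (1 / d) * ∫ y, G q s (2 * d) k l y :=
        mul_le_mul_of_nonneg_left h1 (by positivity)
    _ = 2 * (1 / (2 * d) * ∫ y, G q s (2 * d) k l y) := by field_simp

/-- pairs which are not in the right order or too far are never separated in this order -/
theorem Gs_eq_zero {d : ℝ} {k l : κ} (h : s l - s k ≤ 0 ∨ 2 * d ≤ s l - s k) (y : ℝ) :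
    Gs q s d k l y = 0 := by
  unfold Gs
  refine indicator_of_notMem ?_ _
  rintro ⟨h1, h2⟩
  unfold E at h1 h2
  rcases h with h | h
  · linarith [h1.1, h2.2]
  · linarith [h1.2, h2.1]

theorem integrable_ind_Ioc (a b c : ℝ) : Integrable ((Ioc a b).indicator (fun _ : ℝ => c)) := by
  rw [integrable_indicator_iff measurableSet_Ioc]
  exact integrableOn_const (by simp) (by simp)

/-- bound of a separated pair at distance `[r, 2r)` by the window coupling of length `4r` -/
theorem pair_le_fine (hq : ∀ k, 0 ≤ q k) {d r : ℝ} (hr : 0 < r) (hrd : 4 * r ≤ d) {k l : κ}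
    (h1 : r ≤ s l - s k) (h2 : s l - s k < 2 * r) :
    ∫ y, Gs q s d k l y ≤ 4 * r * Mc q s (4 * r) k l := by
  have hd : 0 < d := by linarith
  -- pointwise bound of the density
  have hpt : ∀ y, Gs q s d k l y ≤
      (Ioc (s k - d) (s l - d)).indicator (fun _ => 2 * Mc q s (4 * r) k l) y := by
    intro y
    by_cases hy : y ∈ E (s k) d ∩ E (s l - d) d
    · have hy' : y ∈ Ioc (s k - d) (s l - d) := by
        unfold E at hy
        exact ⟨hy.1.1, hy.2.2⟩
      rw [indicator_of_mem hy']
      unfold Gs
      rw [indicator_of_mem hy]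
      set v := q k * q l / F q s (2 * d) y with hv
      have hset : ∀ y' ∈ Ioc (s l - 4 * r) (s k), v ≤ G q s (4 * r) k l y' := by
        intro y' hy'
        have hm : y' ∈ E (s k) (4 * r) ∩ E (s l) (4 * r) := by
          unfold E
          exact ⟨⟨by linarith [hy'.1], hy'.2⟩, ⟨by linarith [hy'.1], by linarith [hy'.2]⟩⟩
        unfold G
        rw [indicator_of_mem hm, hv]
        rcases (hq k).eq_or_lt with h0 | h0
        · rw [← h0]; simp
        · have h3 := le_F s hq hm.1
          have h4 : F q s (4 * r) y' ≤ F q s (2 * d) y := by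
            unfold E at hy
            exact F_mono s hq (by linarith [hy'.1, hy.2.2]) (by linarith [hy'.2, hy.1.1])
          exact div_le_div_of_nonneg_left (mul_nonneg (hq k) (hq l)) (lt_of_lt_of_le h0 h3) h4
      have h5 : (Ioc (s l - 4 * r) (s k)).indicator (fun _ => v) ≤ G q s (4 * r) k l := by
        intro y'
        by_cases hy' : y' ∈ Ioc (s l - 4 * r) (s k)
        · rw [indicator_of_mem hy']; exact hset y' hy'
        · rw [indicator_of_notMem hy']; exact G_nonneg s hq _ k l y'
      have h6 := integral_mono (integrable_ind_Ioc _ _ _) (integrable_G s hq (4 * r) k l) h5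
      rw [integral_indicator_const _ measurableSet_Ioc, smul_eq_mul, Measure.real,
        Real.volume_Ioc, ENNReal.toReal_ofReal (by linarith)] at h6
      have hv0 : 0 ≤ v := div_nonneg (mul_nonneg (hq k) (hq l)) (F_nonneg s hq _ y)
      have h7 : 2 * r * v ≤ ∫ y', G q s (4 * r) k l y' := by
        refine le_trans ?_ h6
        exact mul_le_mul_of_nonneg_right (by linarith) hv0
      unfold Mc
      have h8 : 2 * (1 / (4 * r) * ∫ y', G q s (4 * r) k l y') =
          (∫ y', G q s (4 * r) k l y') / (2 * r) := by field_simp; ring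
      rw [h8, le_div_iff₀ (by positivity)]
      linarith
    · unfold Gs
      rw [indicator_of_notMem hy]
      exact indicator_nonneg (fun _ _ => by
        have := Mc_nonneg s hq (by positivity : (0:ℝ) ≤ 4 * r) k l
        linarith) _
  have h3 := integral_mono (integrable_Gs s hq hd k l) (integrable_ind_Ioc _ _ _) hpt
  rw [integral_indicator_const _ measurableSet_Ioc, smul_eq_mul, Measure.real,
    Real.volume_Ioc, ENNReal.toReal_ofReal (by linarith)] at h3
  refine h3.trans ?_
  have h4 := Mc_nonneg s hq (by positivity : (0:ℝ) ≤ 4 * r) k l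
  nlinarith

/-- entropy increment versus branching number -/
theorem Hs_law_sub_le (hq : ∀ k, 0 ≤ q k) (hq1 : ∑ k, q k = 1) {d t : ℝ} (hd : 0 < d)
    (ht : 0 < t) (ht2 : t ≤ 2) :
    Hs (addLaw q s (Measure.dirac 0)) d - Hs (addLaw q s (Measure.dirac 0)) (2 * d) ≤
      t + log (2 / t) * sig q s d := by
  have hprob : IsProbabilityMeasure (addLaw q s (Measure.dirac 0)) :=
    isProbabilityMeasure_addLaw hq hq1 s _
  have hB : BSupp (addLaw q s (Measure.dirac (0 : ℝ))) := bsupp_dirac_zero.addLaw q s
  have h1 := Hs_sub_nsmul hB hd (n := 2) (by norm_num)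
  push_cast at h1
  rw [h1]
  have hF : Integrable (F q s (2 * d)) := by
    unfold F
    exact integrable_finsetSum _ fun k _ => integrable_indE _ _ _
  have hpt : ∀ y, psi (fun k : Fin 2 => (addLaw q s (Measure.dirac 0)).real
      (Ico (y + (k : ℕ) * d) (y + (k : ℕ) * d + d))) ≤
      t * F q s (2 * d) y + log (2 / t) * (2 * (F q s d y * F q s d (y + d) /
        F q s (2 * d) y)) := by
    intro y
    simp only [law_real hq s]
    unfold psi
    rw [Fin.sum_univ_two, Fin.sum_univ_two]
    simp only [Fin.val_zero, Fin.val_one, Nat.cast_zero, Nat.cast_one, zero_mul, add_zero, one_mul]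
    have h2 := psi_two_le (F_nonneg s hq d y) (F_nonneg s hq d (y + d)) ht ht2
    rw [F_two q s hd.le]
    refine h2.trans (le_of_eq ?_)
    ring
  have h2 := integral_mono (integrable_psi_cell hB hd 2) (((hF.const_mul t)).add
    (((integrable_sig s hq hd).const_mul 2).const_mul (log (2 / t)))) hpt
  have h3 : ∫ y, F q s (2 * d) y = 2 * d := by
    have := integral_cell (μ := addLaw q s (Measure.dirac 0)) (d := 2 * d) (by positivity)
    simp only [law_real hq s, probReal_univ, mul_one] at this
    exact this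
  have h4 : ∫ y, (t * F q s (2 * d) y + log (2 / t) * (2 * (F q s d y * F q s d (y + d) /
        F q s (2 * d) y))) = t * (2 * d) + log (2 / t) * (2 * ∫ y, (F q s d y * F q s d (y + d) /
        F q s (2 * d) y)) := by
    rw [integral_add (hF.const_mul t)
      (((integrable_sig s hq hd).const_mul 2).const_mul (log (2 / t))), integral_const_mul,
      integral_const_mul, integral_const_mul, h3]
  have h5 : (∫ y, psi (fun k : Fin 2 => (addLaw q s (Measure.dirac 0)).real
      (Ico (y + (k : ℕ) * d) (y + (k : ℕ) * d + d)))) ≤ t * (2 * d) + log (2 / t) * (2 * ∫ y,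
      (F q s d y * F q s d (y + d) / F q s (2 * d) y)) := h2.trans (le_of_eq h4)
  have h6 : sig q s d = (1 / (2 * d)) * (2 * ∫ y,
      (F q s d y * F q s d (y + d) / F q s (2 * d) y)) := by
    have h7 : ∫ y, 2 * F q s d y * F q s d (y + d) / F q s (2 * d) y =
        2 * ∫ y, (F q s d y * F q s d (y + d) / F q s (2 * d) y) := by
      rw [← integral_const_mul]
      refine integral_congr_ae (Filter.Eventually.of_forall fun y => ?_)
      change 2 * F q s d y * F q s d (y + d) / F q s (2 * d) y =
        2 * (F q s d y * F q s d (y + d) / F q s (2 * d) y)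
      ring
    unfold sig
    rw [h7]
  rw [h6]
  calc (1 / (2 * d)) * ∫ y, psi (fun k : Fin 2 => (addLaw q s (Measure.dirac 0)).real
      (Ico (y + (k : ℕ) * d) (y + (k : ℕ) * d + d)))
      ≤ (1 / (2 * d)) * (t * (2 * d) + log (2 / t) * (2 * ∫ y,
      (F q s d y * F q s d (y + d) / F q s (2 * d) y))) :=
        mul_le_mul_of_nonneg_left h5 (by positivity)
    _ = _ := by field_simp

end windows

end Crest.Agent.R98.TOne
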