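import Mathlib
import Crest.Agent.R98.Ent2

/-!
R98 / TTwo (helper69): the core of T2.  Detection inequality, concavity in the weight of the rare
event, the gain of a rare two-point law averaged over multipliers.
-/

set_option autoImplicit false

open MeasureTheory Set Real

namespace Crest.Agent.R98

section pointwise

/-- pointwise information of the weights `(1 - q, q)` -/
noncomputable def jb (q a b : ℝ) : ℝ :=
  negMulLog ((1 - q) * a + q * b) - (1 - q) * negMulLog a - q * negMulLog b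

theorem term_le {f₀ a u U : ℝ} (hf₀ : 0 < f₀) (ha : 0 ≤ a) (haf : a ≤ f₀) (hu : 0 ≤ u)
    (huU : u ≤ U) :
    (a + u) * log (a + u) ≤ (a + u) * log f₀ + u + u * log (1 + U / f₀) := by
  have hU : 0 ≤ U := hu.trans huU
  rcases (add_nonneg ha hu).eq_or_lt with h0 | hpos
  · rw [← h0]
    have h1 : 0 ≤ log (1 + U / f₀) := log_nonneg (by have := div_nonneg hU hf₀.le; linarith)
    simp only [zero_mul, zero_add]
    positivity
  have hx : (a + u) * log (a + u) - (a + u) * log f₀ = (a + u) * log ((a + u) / f₀) := by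
    rw [log_div hpos.ne' hf₀.ne']; ring
  have key : (a + u) * log ((a + u) / f₀) ≤ u + u * log (1 + U / f₀) := by
    rcases le_total (a + u) f₀ with hle | hge
    · have h1 : log ((a + u) / f₀) ≤ 0 :=
        log_nonpos (by positivity) ((div_le_one hf₀).mpr hle)
      have h2 : (a + u) * log ((a + u) / f₀) ≤ 0 :=
        mul_nonpos_of_nonneg_of_nonpos hpos.le h1
      have h3 : 0 ≤ log (1 + U / f₀) := log_nonneg (by have := div_nonneg hU hf₀.le; linarith)
      have h4 : 0 ≤ u * log (1 + U / f₀) := mul_nonneg hu h3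
      linarith
    · have hq : (a + u) / f₀ ≤ 1 + u / f₀ := by
        rw [show (1 : ℝ) + u / f₀ = (f₀ + u) / f₀ by field_simp]
        exact div_le_div_of_nonneg_right (by linarith) hf₀.le
      have hq1 : (1 : ℝ) ≤ (a + u) / f₀ := (one_le_div hf₀).mpr hge
      have h1 : log ((a + u) / f₀) ≤ log (1 + u / f₀) := log_le_log (by linarith) hq
      have h1' : 0 ≤ log ((a + u) / f₀) := log_nonneg hq1
      have h2 : (a + u) * log ((a + u) / f₀) ≤ (f₀ + u) * log (1 + u / f₀) :=
        mul_le_mul (by linarith) h1 h1' (by linarith)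
      have h3 : log (1 + u / f₀) ≤ u / f₀ := by
        have := log_le_sub_one_of_pos (show (0 : ℝ) < 1 + u / f₀ by positivity)
        linarith
      have h4 : f₀ * log (1 + u / f₀) ≤ u := by
        have := mul_le_mul_of_nonneg_left h3 hf₀.le
        rwa [mul_div_cancel₀ _ hf₀.ne'] at this
      have h5 : log (1 + u / f₀) ≤ log (1 + U / f₀) := by
        apply log_le_log (by positivity)
        have := div_le_div_of_nonneg_right huU hf₀.le
        linarith
      have h6 := mul_le_mul_of_nonneg_left h5 hu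
      nlinarith
  linarith

variable {κ : Type*} [Fintype κ]

/-- **Detection inequality**, pointwise. -/
theorem detect_pt {p : κ → ℝ} (hp : ∀ j, 0 ≤ p j) (hp1 : ∀ j, p j ≤ 1) {f₀ : ℝ} (hf₀ : 0 ≤ f₀)
    {f : κ → ℝ} (hf : ∀ j, 0 ≤ f j) :
    jfun p f ≤ ∑ j, jb (p j) f₀ (f j) + (∑ j, p j * f j + f₀) := by
  set U := ∑ j, p j * f j with hU
  have hu0 : ∀ j, 0 ≤ p j * f j := fun j => mul_nonneg (hp j) (hf j)
  have hU0 : 0 ≤ U := Finset.sum_nonneg fun j _ => hu0 j
  have huU : ∀ j, p j * f j ≤ U := fun j =>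
    Finset.single_le_sum (f := fun j => p j * f j) (fun j _ => hu0 j) (Finset.mem_univ j)
  unfold jfun jb
  rw [← hU]
  simp only [Finset.sum_sub_distrib]
  suffices h : negMulLog U ≤ ∑ j, (negMulLog ((1 - p j) * f₀ + p j * f j)
      - (1 - p j) * negMulLog f₀) + (U + f₀) by
    rw [Finset.sum_sub_distrib] at h
    linarith
  rcases hf₀.eq_or_lt with h0 | hpos
  · rw [← h0]
    simp only [mul_zero, zero_add, negMulLog_zero, sub_zero, add_zero]
    have h1 : ∀ j, p j * f j * -log U ≤ negMulLog (p j * f j) := by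
      intro j
      rcases (hu0 j).eq_or_lt with h0' | h0'
      · rw [← h0']; simp
      · have h2 : log (p j * f j) ≤ log U := log_le_log h0' (huU j)
        rw [negMulLog]
        nlinarith
    have h2 := Finset.sum_le_sum fun j (_ : j ∈ Finset.univ) => h1 j
    rw [← Finset.sum_mul, ← hU] at h2
    rw [negMulLog]
    linarith
  · have h1 : ∀ j, -((p j * f j) * log f₀) - p j * f j - p j * f j * log (1 + U / f₀) ≤
        negMulLog ((1 - p j) * f₀ + p j * f j) - (1 - p j) * negMulLog f₀ := by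
      intro j
      have h := term_le (f₀ := f₀) (a := (1 - p j) * f₀) (u := p j * f j) (U := U) hpos
        (mul_nonneg (by linarith [hp1 j]) hpos.le)
        (by nlinarith [hp j]) (hu0 j) (huU j)
      rw [negMulLog, negMulLog]
      nlinarith
    have h2 := Finset.sum_le_sum fun j (_ : j ∈ Finset.univ) => h1 j
    have hL : ∑ j, (-((p j * f j) * log f₀) - p j * f j - p j * f j * log (1 + U / f₀)) =
        -(U * log f₀) - U - U * log (1 + U / f₀) := by
      simp only [Finset.sum_sub_distrib, Finset.sum_neg_distrib, ← Finset.sum_mul, ← hU]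
    have h2' := hL ▸ h2
    have h3 : U * log (1 + U / f₀) + U * log f₀ ≤ U * log U + f₀ := by
      rcases hU0.eq_or_lt with h0' | h0'
      · rw [← h0']; simp [hpos.le]
      · have e1 : log (1 + U / f₀) + log f₀ = log (f₀ + U) := by
          rw [← log_mul (by positivity) hpos.ne']
          congr 1
          field_simp
        have e2 : log (f₀ + U) = log U + log (1 + f₀ / U) := by
          rw [← log_mul h0'.ne' (by positivity)]
          congr 1
          field_simp
          ring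
        have e3 : log (1 + f₀ / U) ≤ f₀ / U := by
          have := log_le_sub_one_of_pos (show (0 : ℝ) < 1 + f₀ / U by positivity)
          linarith
        have e4 : U * log (1 + f₀ / U) ≤ f₀ := by
          have := mul_le_mul_of_nonneg_left e3 hU0
          rwa [mul_div_cancel₀ _ h0'.ne'] at this
        have e5 : U * log (1 + U / f₀) + U * log f₀ = U * log (f₀ + U) := by
          rw [← mul_add, e1]
        rw [e5, e2]
        linarith
    rw [negMulLog]
    linarith

theorem jb_concave {δ q a b : ℝ} (hδ : 0 ≤ δ) (hδq : δ ≤ q) (hq : 0 < q) (hq1 : q ≤ 1)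
    (ha : 0 ≤ a) (hb : 0 ≤ b) : δ / q * jb q a b ≤ jb δ a b := by
  have hm : (1 - q) * a + q * b ∈ Ici (0 : ℝ) := by
    have h1 := mul_nonneg (show 0 ≤ 1 - q by linarith) ha
    have h2 := mul_nonneg hq.le hb
    exact add_nonneg h1 h2
  have hle : 0 ≤ 1 - δ / q := by have := (div_le_one hq).mpr hδq; linarith
  have hc := concaveOn_negMulLog.2 (show a ∈ Ici (0 : ℝ) from ha) hm hle
    (show 0 ≤ δ / q by positivity) (by ring)
  simp only [smul_eq_mul] at hc
  have e1 : (1 - δ / q) * a + δ / q * ((1 - q) * a + q * b) = (1 - δ) * a + δ * b := by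
    field_simp
    ring
  rw [e1] at hc
  unfold jb
  have e2 : δ / q * q = δ := div_mul_cancel₀ _ hq.ne'
  have e3 : δ / q * (q * negMulLog b) = δ * negMulLog b := by rw [← mul_assoc, e2]
  have e4 : δ / q * ((1 - q) * negMulLog a) = δ / q * negMulLog a - δ * negMulLog a := by
    rw [show δ / q * ((1 - q) * negMulLog a) = δ / q * negMulLog a - (δ / q * q) * negMulLog a by
      ring, e2]
  rw [mul_sub, mul_sub, e3, e4]
  linarith

end pointwise

section gain

/-- the weights `(q, 1 - q)` on `Bool` -/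
def tw (q : ℝ) : Bool → ℝ := fun b => cond b q (1 - q)

theorem tw_nonneg {q : ℝ} (h0 : 0 ≤ q) (h1 : q ≤ 1) (b : Bool) : 0 ≤ tw q b := by
  cases b <;> simp [tw, h0, h1]

theorem tw_sum (q : ℝ) : ∑ b, tw q b = 1 := by simp [tw]

instance isFiniteMeasure_cond (b : Bool) (ν₁ ν₀ : Measure ℝ) [IsFiniteMeasure ν₁]
    [IsFiniteMeasure ν₀] : IsFiniteMeasure (cond b ν₁ ν₀) := by
  cases b <;> simpa

instance isProbabilityMeasure_cond (b : Bool) (ν₁ ν₀ : Measure ℝ) [IsProbabilityMeasure ν₁]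
    [IsProbabilityMeasure ν₀] : IsProbabilityMeasure (cond b ν₁ ν₀) := by
  cases b <;> simpa

theorem bsupp_cond {ν₁ ν₀ : Measure ℝ} (h₁ : BSupp ν₁) (h₀ : BSupp ν₀) (b : Bool) :
    BSupp (cond b ν₁ ν₀) := by
  cases b <;> simpa

theorem jfun_tw (q : ℝ) (ν₁ ν₀ : Measure ℝ) (s : Set ℝ) :
    jfun (tw q) (fun b => (cond b ν₁ ν₀).real s) = jb q (ν₀.real s) (ν₁.real s) := by
  simp only [jfun, jb, tw, Fintype.sum_bool, cond_true, cond_false]
  rw [add_comm (q * _)]
  ring

variable {κ : Type*} [Fintype κ]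

/-- **Detection inequality**: the information of an index is at most the sum of the informations of
the single detections, plus `2`. -/
theorem J_detect {p : κ → ℝ} (hp : ∀ j, 0 ≤ p j) (hp1 : ∑ j, p j = 1) {ν₀ : Measure ℝ}
    {ν : κ → Measure ℝ} [IsProbabilityMeasure ν₀] [∀ j, IsProbabilityMeasure (ν j)]
    (hν₀ : BSupp ν₀) (hν : ∀ j, BSupp (ν j)) {d : ℝ} (hd : 0 < d) :
    J p ν d ≤ ∑ j, J (tw (p j)) (fun b => cond b (ν j) ν₀) d + 2 := by
  have hple : ∀ j, p j ≤ 1 := fun j => by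
    rw [← hp1]
    exact Finset.single_le_sum (f := p) (fun j _ => hp j) (Finset.mem_univ j)
  have e1 : ∀ j, J (tw (p j)) (fun b => cond b (ν j) ν₀) d =
      (1 / d) * ∫ y, jb (p j) (ν₀.real (Ico y (y + d))) ((ν j).real (Ico y (y + d))) := by
    intro j
    rw [J_eq (tw_nonneg (hp j) (hple j)) (fun b => bsupp_cond (hν j) hν₀ b)]
    simp only [jfun_tw]
  have i1 : ∀ j, Integrable fun y =>
      jb (p j) (ν₀.real (Ico y (y + d))) ((ν j).real (Ico y (y + d))) := by
    intro j
    have := integrable_jfun (tw_nonneg (hp j) (hple j)) (fun b => bsupp_cond (hν j) hν₀ b) d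
    simpa only [jfun_tw] using this
  rw [J_eq hp hν]
  simp only [e1]
  rw [← Finset.mul_sum, ← integral_finsetSum _ fun j _ => i1 j]
  have i2 : Integrable fun y => ∑ j, p j * (ν j).real (Ico y (y + d)) + ν₀.real (Ico y (y + d)) :=
    (integrable_finsetSum _ fun j _ => (integrable_cell (hν j) d).const_mul _).add
      (integrable_cell hν₀ d)
  have h2 : ∫ y, (∑ j, p j * (ν j).real (Ico y (y + d)) + ν₀.real (Ico y (y + d))) = 2 * d := by
    rw [integral_add (integrable_finsetSum _ fun j _ => (integrable_cell (hν j) d).const_mul _)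
      (integrable_cell hν₀ d), integral_finsetSum _ fun j _ => (integrable_cell (hν j) d).const_mul _]
    simp only [integral_const_mul, integral_cell hd.le, probReal_univ, mul_one]
    rw [← Finset.sum_mul, hp1]
    ring
  have h3 := integral_mono (integrable_jfun hp hν d)
    ((integrable_finsetSum _ fun j _ => i1 j).add i2)
    (fun y => detect_pt hp hple (f₀ := ν₀.real (Ico y (y + d))) measureReal_nonneg
      (f := fun j => (ν j).real (Ico y (y + d))) (fun j => measureReal_nonneg))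
  have h4 : ∫ y, ((fun y => ∑ j, jb (p j) (ν₀.real (Ico y (y + d))) ((ν j).real (Ico y (y + d)))) +
      fun y => ∑ j, p j * (ν j).real (Ico y (y + d)) + ν₀.real (Ico y (y + d))) y =
      (∫ y, ∑ j, jb (p j) (ν₀.real (Ico y (y + d))) ((ν j).real (Ico y (y + d)))) + 2 * d := by
    rw [← h2]
    exact integral_add (integrable_finsetSum _ fun j _ => i1 j) i2
  rw [h4] at h3
  calc (1 / d) * ∫ y, jfun p (fun j => (ν j).real (Ico y (y + d)))
      ≤ (1 / d) * ((∫ y, ∑ j, jb (p j) (ν₀.real (Ico y (y + d)))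
          ((ν j).real (Ico y (y + d)))) + 2 * d) := mul_le_mul_of_nonneg_left h3 (by positivity)
    _ = _ := by field_simp

/-- concavity in the weight of the rare event -/
theorem J_tw_concave {δ q : ℝ} (hδ : 0 ≤ δ) (hδq : δ ≤ q) (hq : 0 < q) (hq1 : q ≤ 1)
    {ν₁ ν₀ : Measure ℝ} [IsFiniteMeasure ν₁] [IsFiniteMeasure ν₀] (hν₁ : BSupp ν₁)
    (hν₀ : BSupp ν₀) {d : ℝ} (hd : 0 < d) :
    δ / q * J (tw q) (fun b => cond b ν₁ ν₀) d ≤ J (tw δ) (fun b => cond b ν₁ ν₀) d := by
  have hs : ∀ b : Bool, BSupp (cond b ν₁ ν₀) := fun b => bsupp_cond hν₁ hν₀ b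
  have i1 := integrable_jfun (tw_nonneg hq.le hq1) hs d
  have i2 := integrable_jfun (tw_nonneg hδ (hδq.trans hq1)) hs d
  rw [J_eq (tw_nonneg hq.le hq1) hs, J_eq (tw_nonneg hδ (hδq.trans hq1)) hs]
  simp only [jfun_tw] at i1 i2 ⊢
  have h := integral_mono (i1.const_mul (δ / q)) i2 (fun y =>
    jb_concave hδ hδq hq hq1 (a := ν₀.real (Ico y (y + d))) (b := ν₁.real (Ico y (y + d)))
      measureReal_nonneg measureReal_nonneg)
  rw [integral_const_mul] at h
  have := mul_le_mul_of_nonneg_left h (show 0 ≤ 1 / d by positivity)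
  linarith

/-- the gain from adding to `B` the two-point law with mass `δ` at `e` and `1 - δ` at `0` -/
noncomputable def gain2 (B : Measure ℝ) (d δ e : ℝ) : ℝ :=
  Hs (addLaw (tw δ) (fun b => cond b e 0) B) d - Hs B d

theorem shift_cond (B : Measure ℝ) (e : ℝ) (b : Bool) :
    shift (cond b e 0) B = cond b (shift e B) B := by
  cases b
  · simp [shift_zero]
  · rfl

theorem gain2_eq (B : Measure ℝ) (d δ e : ℝ) :
    gain2 B d δ e = J (tw δ) (fun b => cond b (shift e B) B) d := by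
  unfold gain2
  rw [Hs_addLaw_sub (tw_sum δ)]
  simp only [shift_cond]

theorem gain2_nonneg {B : Measure ℝ} [IsFiniteMeasure B] (hB : BSupp B) {d δ : ℝ} (hd : 0 ≤ d)
    (h0 : 0 ≤ δ) (h1 : δ ≤ 1) (e : ℝ) : 0 ≤ gain2 B d δ e := by
  rw [gain2_eq]
  exact J_nonneg (tw_nonneg h0 h1) (tw_sum δ) (fun b => bsupp_cond (hB.shift e) hB b) hd

theorem gain2_concave {B : Measure ℝ} [IsFiniteMeasure B] (hB : BSupp B) {d δ q : ℝ} (hd : 0 < d)
    (hδ : 0 ≤ δ) (hδq : δ ≤ q) (hq : 0 < q) (hq1 : q ≤ 1) (e : ℝ) :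
    δ / q * gain2 B d q e ≤ gain2 B d δ e := by
  rw [gain2_eq, gain2_eq]
  exact J_tw_concave hδ hδq hq hq1 (hB.shift e) hB hd

/-- finer scales give a larger gain -/
theorem gain2_nsmul {B : Measure ℝ} [IsFiniteMeasure B] (hB : BSupp B) {d δ : ℝ} (hd : 0 < d)
    (h0 : 0 ≤ δ) (h1 : δ ≤ 1) (e : ℝ) {n : ℕ} (hn : 0 < n) :
    gain2 B (n * d) δ e ≤ gain2 B d δ e := by
  rw [gain2_eq, gain2_eq]
  exact J_nsmul_le (tw_nonneg h0 h1) (fun b => bsupp_cond (hB.shift e) hB b) hd hn

theorem addLaw_dirac (q x : κ → ℝ) : addLaw q x (Measure.dirac 0) = mix q fun k => Measure.dirac (x k) := by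
  unfold addLaw
  congr 1
  funext k
  unfold shift
  rw [Measure.map_dirac' (by fun_prop)]
  simp

theorem gain_ge_window' {q : κ → ℝ} (hq : ∀ k, 0 ≤ q k) (hq1 : ∑ k, q k = 1) (x : κ → ℝ)
    {B : Measure ℝ} [IsProbabilityMeasure B] (hB : BSupp B) {d : ℝ} (hd : 0 < d) {n : ℕ}
    (hn : 0 < n) :
    (Hs (mix q fun k => Measure.dirac (x k)) d - Hs (mix q fun k => Measure.dirac (x k)) (n * d)) -
      (Hs B d - Hs B (n * d)) ≤ Hs (addLaw q x B) d - Hs B d := by
  rw [← addLaw_dirac]
  have := isProbabilityMeasure_addLaw hq hq1 x (Measure.dirac (0 : ℝ))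
  have h1 := conv_window_ge (A := addLaw q x (Measure.dirac 0)) (B := B)
    (BSupp.addLaw bsupp_dirac_zero _ _) hB hd hn
  rw [addLaw_conv, Measure.dirac_zero_conv] at h1
  have h2 := Hs_le_addLaw hq hq1 x hB (d := n * d) (by positivity)
  linarith

/-- **T2 core**, for weights which vanish or are at least `δ`. -/
theorem t2core_aux {p : κ → ℝ} (hp1 : ∑ j, p j = 1) {δ : ℝ} (hδ : 0 < δ)
    (hpδ : ∀ j, p j = 0 ∨ δ ≤ p j) (x : κ → ℝ) {B : Measure ℝ} [IsProbabilityMeasure B]
    (hB : BSupp B) {d : ℝ} (hd : 0 < d) :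
    δ * (Hs (addLaw p x B) d - Hs B d - 2) ≤ ∑ j, p j * gain2 B d δ (x j) := by
  have hp : ∀ j, 0 ≤ p j := fun j => by
    rcases hpδ j with h | h
    · exact h.ge
    · exact hδ.le.trans h
  have hple : ∀ j, p j ≤ 1 := fun j => by
    rw [← hp1]
    exact Finset.single_le_sum (f := p) (fun j _ => hp j) (Finset.mem_univ j)
  have h1 := J_detect hp hp1 (ν₀ := B) (ν := fun j => shift (x j) B) hB (fun j => hB.shift _) hd
  rw [Hs_addLaw_sub hp1]
  have h2 : ∀ j, δ * J (tw (p j)) (fun b => cond b (shift (x j) B) B) d ≤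
      p j * gain2 B d δ (x j) := by
    intro j
    rw [← gain2_eq]
    rcases hpδ j with h | h
    · rw [h]
      have : gain2 B d 0 (x j) = 0 := by
        rw [gain2_eq]
        simp [J, tw, mix]
      rw [this]; simp
    · have hpj : 0 < p j := hδ.trans_le h
      have h3 := gain2_concave hB hd hδ.le h hpj (hple j) (x j)
      have h4 := mul_le_mul_of_nonneg_left h3 hpj.le
      rwa [← mul_assoc, mul_div_cancel₀ _ hpj.ne'] at h4
  have h3 := Finset.sum_le_sum fun j (_ : j ∈ Finset.univ) => h2 j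
  rw [← Finset.mul_sum] at h3
  have h4 := mul_le_mul_of_nonneg_left h1 hδ.le
  linarith

/-- upper bound for the gain of a rare event -/
theorem gain2_le {B : Measure ℝ} [IsProbabilityMeasure B] (hB : BSupp B) {d q : ℝ} (hd : 0 < d)
    (h0 : 0 ≤ q) (h1 : q ≤ 1) (e : ℝ) :
    gain2 B d q e ≤ negMulLog q + negMulLog (1 - q) := by
  rw [gain2_eq]
  refine (J_le (tw_nonneg h0 h1) (fun b => bsupp_cond (hB.shift e) hB b) hd).trans ?_
  simp [tw]

theorem negMulLog_one_sub_le {q : ℝ} (h1 : q ≤ 1) : negMulLog (1 - q) ≤ q := by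
  rcases h1.eq_or_lt with h | h
  · rw [h]; simp
  · have hpos : 0 < 1 - q := by linarith
    have h2 := one_sub_inv_le_log_of_pos hpos
    rw [negMulLog]
    have h3 := mul_le_mul_of_nonneg_left h2 hpos.le
    rw [mul_sub, mul_inv_cancel₀ hpos.ne'] at h3
    linarith

theorem negMulLog_add_le {q δ : ℝ} (h0 : 0 ≤ q) (hqδ : q ≤ δ) (h1 : δ ≤ 1) :
    negMulLog q + q ≤ negMulLog δ + δ := by
  rcases h0.eq_or_lt with h | h
  · rw [← h]
    have := negMulLog_nonneg (h0.trans hqδ) h1
    simp only [negMulLog_zero, add_zero]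
    linarith
  · have hδ : 0 < δ := h.trans_le hqδ
    -- `log (δ / q) ≤ δ / q - 1`
    have h2 := log_le_sub_one_of_pos (div_pos hδ h)
    rw [log_div hδ.ne' h.ne'] at h2
    have h3 := mul_le_mul_of_nonneg_left h2 h.le
    rw [mul_sub, mul_sub, mul_div_cancel₀ _ h.ne'] at h3
    have h4 : log δ ≤ 0 := log_nonpos hδ.le h1
    simp only [negMulLog]
    nlinarith

theorem gain2_le_of_le {B : Measure ℝ} [IsProbabilityMeasure B] (hB : BSupp B) {d q δ : ℝ}
    (hd : 0 < d) (h0 : 0 ≤ q) (hqδ : q ≤ δ) (h1 : δ ≤ 1) (e : ℝ) :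
    gain2 B d q e ≤ negMulLog δ + δ := by
  have h := gain2_le hB hd h0 (hqδ.trans h1) e
  have h2 := negMulLog_one_sub_le (hqδ.trans h1)
  have h3 := negMulLog_add_le h0 hqδ h1
  linarith

/-- **T2 core**: the gain of one rare event (probability `δ`), averaged over the multipliers. -/
theorem t2core_law {p : κ → ℝ} (hp : ∀ j, 0 ≤ p j) (hp1 : ∑ j, p j = 1) {δ : ℝ} (hδ : 0 < δ)
    (hδ1 : δ ≤ 1) (x : κ → ℝ) {B : Measure ℝ} [IsProbabilityMeasure B]
    (hB : BSupp B) {d : ℝ} (hd : 0 < d) :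
    δ * (Hs (addLaw p x B) d - Hs B d - 2 - Fintype.card κ * (negMulLog δ + δ)) ≤
      ∑ j, p j * gain2 B d δ (x j) := by
  have hple : ∀ j, p j ≤ 1 := fun j => by
    rw [← hp1]
    exact Finset.single_le_sum (f := p) (fun j _ => hp j) (Finset.mem_univ j)
  have h1 := J_detect hp hp1 (ν₀ := B) (ν := fun j => shift (x j) B) hB (fun j => hB.shift _) hd
  rw [Hs_addLaw_sub hp1]
  have hc : 0 ≤ negMulLog δ + δ := add_nonneg (negMulLog_nonneg hδ.le hδ1) hδ.le
  have h2 : ∀ j, δ * (J (tw (p j)) (fun b => cond b (shift (x j) B) B) d - (negMulLog δ + δ)) ≤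
      p j * gain2 B d δ (x j) := by
    intro j
    rw [← gain2_eq]
    have hg := gain2_nonneg hB hd.le hδ.le hδ1 (x j)
    rcases le_total (p j) δ with h | h
    · have h3 := gain2_le_of_le hB hd (hp j) h hδ1 (x j)
      have h4 : δ * (gain2 B d (p j) (x j) - (negMulLog δ + δ)) ≤ 0 :=
        mul_nonpos_of_nonneg_of_nonpos hδ.le (by linarith)
      exact h4.trans (mul_nonneg (hp j) hg)
    · have hpj : 0 < p j := hδ.trans_le h
      have h3 := gain2_concave hB hd hδ.le h hpj (hple j) (x j)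
      have h4 := mul_le_mul_of_nonneg_left h3 hpj.le
      rw [← mul_assoc, mul_div_cancel₀ _ hpj.ne'] at h4
      nlinarith
  have h3 := Finset.sum_le_sum fun j (_ : j ∈ Finset.univ) => h2 j
  rw [← Finset.mul_sum, Finset.sum_sub_distrib, Finset.sum_const, Finset.card_univ,
    nsmul_eq_mul] at h3
  refine le_trans ?_ h3
  exact mul_le_mul_of_nonneg_left (by linarith) hδ.le

/-- **T2 core**, window form. -/
theorem t2core_window {p : κ → ℝ} (hp : ∀ j, 0 ≤ p j) (hp1 : ∑ j, p j = 1) {δ : ℝ} (hδ : 0 < δ)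
    (hδ1 : δ ≤ 1) (x : κ → ℝ) {B : Measure ℝ} [IsProbabilityMeasure B]
    (hB : BSupp B) {d : ℝ} (hd : 0 < d) {n : ℕ} (hn : 0 < n) :
    δ * ((Hs (mix p fun k => Measure.dirac (x k)) d -
        Hs (mix p fun k => Measure.dirac (x k)) (n * d)) - (Hs B d - Hs B (n * d)) - 2 -
        Fintype.card κ * (negMulLog δ + δ)) ≤
      ∑ j, p j * gain2 B d δ (x j) := by
  refine le_trans ?_ (t2core_law hp hp1 hδ hδ1 x hB hd)
  have := gain_ge_window' hp hp1 x hB hd hn
  exact mul_le_mul_of_nonneg_left (by linarith) hδ.le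

theorem mix_group {Ω Θ : Type*} [Fintype Ω] [Fintype Θ] [DecidableEq Θ] {w : Ω → ℝ}
    (hw : ∀ o, 0 ≤ w o) (ty : Ω → Θ) (ν : Θ → Measure ℝ) :
    mix w (fun o => ν (ty o)) = mix (fun θ => ∑ o with ty o = θ, w o) ν := by
  unfold mix
  rw [← Finset.sum_fiberwise (s := Finset.univ) (g := ty)]
  refine Finset.sum_congr rfl fun θ _ => ?_
  rw [ENNReal.ofReal_sum_of_nonneg fun o _ => hw o, Finset.sum_smul]
  refine Finset.sum_congr rfl fun o ho => ?_
  simp only [(Finset.mem_filter.mp ho).2]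

theorem sum_group {Ω Θ : Type*} [Fintype Ω] [Fintype Θ] [DecidableEq Θ] (w : Ω → ℝ)
    (ty : Ω → Θ) (F : Θ → ℝ) :
    ∑ o, w o * F (ty o) = ∑ θ, (∑ o with ty o = θ, w o) * F θ := by
  rw [← Finset.sum_fiberwise (s := Finset.univ) (g := ty)]
  refine Finset.sum_congr rfl fun θ _ => ?_
  rw [Finset.sum_mul]
  refine Finset.sum_congr rfl fun o ho => ?_
  rw [(Finset.mem_filter.mp ho).2]

/-- **T2 core**, grouped window form: `Ω` = words, `Θ` = types (distinct multipliers). -/
theorem t2core {Ω Θ : Type*} [Fintype Ω] [Fintype Θ] {w : Ω → ℝ} (hw : ∀ o, 0 ≤ w o)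
    (hw1 : ∑ o, w o = 1) (ty : Ω → Θ) (x : Θ → ℝ) {δ : ℝ} (hδ : 0 < δ) (hδ1 : δ ≤ 1)
    (hM : Fintype.card Θ * (negMulLog δ + δ) ≤ 1) {B : Measure ℝ} [IsProbabilityMeasure B]
    (hB : BSupp B) {d : ℝ} (hd : 0 < d) {n : ℕ} (hn : 0 < n) :
    δ * ((Hs (mix w fun o => Measure.dirac (x (ty o))) d -
        Hs (mix w fun o => Measure.dirac (x (ty o))) (n * d)) - (Hs B d - Hs B (n * d)) - 3) ≤
      ∑ o, w o * gain2 B d δ (x (ty o)) := by
  classical
  rw [mix_group hw ty fun θ => Measure.dirac (x θ), sum_group w ty fun θ => gain2 B d δ (x θ)]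
  refine le_trans ?_ (t2core_window (p := fun θ => ∑ o with ty o = θ, w o)
    (fun θ => Finset.sum_nonneg fun o _ => hw o) ?_ hδ hδ1 x hB hd hn)
  · exact mul_le_mul_of_nonneg_left (by linarith) hδ.le
  · rw [← hw1, ← Finset.sum_fiberwise (s := Finset.univ) (g := ty)]

end gain

section mixtures

variable {Ω : Type*} [Fintype Ω]

/-- the gain of a mixture of shifted two-point laws is at least the average of the gains -/
theorem gain_mix_ge {w : Ω → ℝ} (hw : ∀ o, 0 ≤ w o) (hw1 : ∑ o, w o = 1) {q : Ω → ℝ}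
    (a b : Ω → ℝ) {B : Measure ℝ}
    [IsProbabilityMeasure B] (hB : BSupp B) {d : ℝ} (hd : 0 < d) :
    ∑ o, w o * gain2 B d (q o) (b o - a o) ≤
      Hs (mix w fun o => addLaw (tw (q o)) (fun c => cond c (b o) (a o)) B) d - Hs B d := by
  have h := J_nonneg hw hw1 (ν := fun o => addLaw (tw (q o)) (fun c => cond c (b o) (a o)) B)
    (fun o => hB.addLaw _ _) hd.le
  unfold J at h
  have e : ∀ o, Hs (addLaw (tw (q o)) (fun c => cond c (b o) (a o)) B) d =
      gain2 B d (q o) (b o - a o) + Hs B d := by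
    intro o
    unfold gain2
    have e1 : addLaw (tw (q o)) (fun c => cond c (b o) (a o)) B =
        shift (a o) (addLaw (tw (q o)) (fun c => cond c (b o - a o) 0) B) := by
      unfold addLaw
      rw [shift_mix]
      congr 1
      funext c
      rw [shift_shift]
      congr 1
      cases c <;> simp
    rw [e1, Hs_shift]
    ring
  simp only [e, mul_add, Finset.sum_add_distrib, ← Finset.sum_mul, hw1, one_mul] at h
  linarith

end mixtures

end Crest.Agent.R98
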