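import Crest.Agent.R98.Top0

/-!
Row 98 (S0129). Module TOP, basic estimates (helper803).
-/

set_option autoImplicit false

namespace Crest.Agent.R98.Top

open Crest.AnalysisR Crest.Agent.R98 Crest.Agent.R98.Part Crest.Agent.R098.Upper Filter Topology
  MeasureTheory

section Lip

variable {ι 𝕜 : Type*} [NormedField 𝕜]

/-- Lipschitz dependence of `c_u` on the ratio vector, uniformly in the word -/
lemma norm_cw_sub_le {r r' : ι → 𝕜} {q d : ℝ} (hr : ∀ i, ‖r i‖ ≤ q) (hr' : ∀ i, ‖r' i‖ ≤ q)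
    (hq : q < 1) (hd : ∀ i, ‖r i - r' i‖ ≤ d) {n : ℕ} (u : Fin n → ι) (i : ι) :
    ‖cw r u i - cw r' u i‖ ≤ d / (1 - q) ^ 2 := by
  classical
  have h1 : 0 < 1 - q := by linarith
  induction n with
  | zero =>
    have hd0 : 0 ≤ d := (norm_nonneg _).trans (hd i)
    simp only [cw_zero, Pi.zero_apply, sub_zero, norm_zero]
    positivity
  | succ n ih =>
    obtain ⟨a, u, rfl⟩ := exists_cons u
    have hq0 : 0 ≤ q := (norm_nonneg _).trans (hr a)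
    have hd0 : 0 ≤ d := (norm_nonneg _).trans (hd a)
    rw [cw_cons, cw_cons]
    have e : (if a = i then (1:𝕜) else 0) + r a * cw r u i - ((if a = i then (1:𝕜) else 0) +
        r' a * cw r' u i) = r a * (cw r u i - cw r' u i) + (r a - r' a) * cw r' u i := by ring
    rw [e]
    calc ‖r a * (cw r u i - cw r' u i) + (r a - r' a) * cw r' u i‖
        ≤ q * (d / (1 - q) ^ 2) + d * (1 / (1 - q)) := by
          refine (norm_add_le _ _).trans (add_le_add ?_ ?_)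
          · rw [norm_mul]
            exact mul_le_mul (hr a) (ih u) (norm_nonneg _) hq0
          · rw [norm_mul]
            exact mul_le_mul (hd a) (norm_cw_le hr' hq u i) (norm_nonneg _) hd0
      _ = d / (1 - q) ^ 2 := by field_simp; ring

end Lip

variable {ι : Type*} [Fintype ι]

omit [Fintype ι] in
lemma abs_sign {σ : ι → ℝ} (hσ : IsS σ) (i : ι) : |σ i| = 1 := by
  rcases hσ i with h | h <;> simp [h]

omit [Fintype ι] in
lemma rayc_zero (σ ℓ : ι → ℝ) (i : ι) : rayc σ ℓ 0 i = ((rr σ ℓ i : ℝ) : ℂ) := by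
  unfold rayc rr
  push_cast
  simp

lemma norm_rayc {σ : ι → ℝ} (hσ : IsS σ) (ℓ : ι → ℝ) (s : ℂ) (i : ι) :
    ‖rayc σ ℓ s i‖ = Real.exp (-(1 + s.re) * ℓ i) := by
  unfold rayc
  rw [norm_mul, Complex.norm_real, Real.norm_eq_abs, abs_sign hσ, one_mul, Complex.norm_exp]
  congr 1
  simp

lemma exists_q (ℓ : ι → ℝ) (hℓ : ∀ i, 0 < ℓ i) :
    ∃ q : ℝ, 0 ≤ q ∧ q < 1 ∧ ∀ i, Real.exp (-(ℓ i / 2)) ≤ q := by
  classical
  by_cases hne : Nonempty ι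
  · obtain ⟨i0, hi0⟩ := Finite.exists_min ℓ
    refine ⟨Real.exp (-(ℓ i0 / 2)), (Real.exp_pos _).le, ?_, fun i => ?_⟩
    · rw [Real.exp_lt_one_iff]
      have := hℓ i0
      linarith
    · apply Real.exp_le_exp.mpr
      have := hi0 i
      linarith
  · rw [not_nonempty_iff] at hne
    exact ⟨0, le_rfl, one_pos, fun i => hne.elim i⟩

lemma norm_rayc_le {σ : ι → ℝ} (hσ : IsS σ) {ℓ : ι → ℝ} (hℓ : ∀ i, 0 < ℓ i) {q : ℝ}
    (hq : ∀ i, Real.exp (-(ℓ i / 2)) ≤ q) {s : ℂ} (hs : ‖s‖ ≤ 1 / 2) (i : ι) :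
    ‖rayc σ ℓ s i‖ ≤ q := by
  rw [norm_rayc hσ]
  refine le_trans (Real.exp_le_exp.mpr ?_) (hq i)
  have h1 : -(1 / 2) ≤ s.re := by
    have := (abs_le.mp (Complex.abs_re_le_norm s)).1
    linarith
  have := hℓ i
  nlinarith

lemma norm_rr_le {σ : ι → ℝ} (hσ : IsS σ) {ℓ : ι → ℝ} (hℓ : ∀ i, 0 < ℓ i) {q : ℝ}
    (hq : ∀ i, Real.exp (-(ℓ i / 2)) ≤ q) (i : ι) : ‖rr σ ℓ i‖ ≤ q := by
  have h := norm_rayc_le hσ hℓ hq (s := 0) (by simp) i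
  rw [rayc_zero, Complex.norm_real] at h
  exact h

/-- complex exponential ratio: `‖e^{-(1+s)x} - e^{-x}‖ ≤ 2 ‖s‖ x` for `x ≥ 0`, `‖s‖ x ≤ 1` -/
lemma norm_rayc_sub {σ : ι → ℝ} (hσ : IsS σ) {ℓ : ι → ℝ} (hℓ : ∀ i, 0 < ℓ i) {s : ℂ} (i : ι)
    (hs : ‖s‖ * ℓ i ≤ 1) : ‖rayc σ ℓ s i - rayc σ ℓ 0 i‖ ≤ 2 * (‖s‖ * ℓ i) := by
  unfold rayc
  have e : (σ i : ℂ) * Complex.exp (-(1 + s) * ℓ i) - (σ i : ℂ) * Complex.exp (-(1 + 0) * ℓ i) =
      (σ i : ℂ) * (Complex.exp (-(ℓ i : ℂ)) * (Complex.exp (-(s * ℓ i)) - 1)) := by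
    have : Complex.exp (-(1 + s) * ℓ i) = Complex.exp (-(ℓ i : ℂ)) * Complex.exp (-(s * ℓ i)) := by
      rw [← Complex.exp_add]; congr 1; ring
    rw [this]
    have h2 : (-(1 + 0) * (ℓ i : ℂ)) = -(ℓ i : ℂ) := by ring
    rw [h2]
    ring
  rw [e, norm_mul, norm_mul, Complex.norm_real, Real.norm_eq_abs, abs_sign hσ, one_mul]
  have h1 : ‖Complex.exp (-(ℓ i : ℂ))‖ ≤ 1 := by
    rw [Complex.norm_exp]
    apply Real.exp_le_one_iff.mpr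
    simp [(hℓ i).le]
  have h2 : ‖-(s * (ℓ i : ℂ))‖ = ‖s‖ * ℓ i := by
    rw [norm_neg, norm_mul, Complex.norm_real, Real.norm_of_nonneg (hℓ i).le]
  have h3 := Complex.norm_exp_sub_one_le (x := -(s * (ℓ i : ℂ))) (by rw [h2]; exact hs)
  rw [h2] at h3
  calc ‖Complex.exp (-(ℓ i : ℂ))‖ * ‖Complex.exp (-(s * ℓ i)) - 1‖
      ≤ 1 * (2 * (‖s‖ * ℓ i)) := mul_le_mul h1 h3 (norm_nonneg _) zero_le_one
    _ = _ := by ring

/-- `c_u` over `ℂ` at `s = 0` is the real `c_u` -/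
lemma cw_rayc_zero (σ ℓ : ι → ℝ) {n : ℕ} (u : Fin n → ι) (i : ι) :
    cw (rayc σ ℓ 0) u i = ((cw (rr σ ℓ) u i : ℝ) : ℂ) := by
  have h := map_cw Complex.ofRealHom (rr σ ℓ) u i
  have e : rayc σ ℓ 0 = fun i => Complex.ofRealHom (rr σ ℓ i) := by
    funext i
    rw [rayc_zero]
    rfl
  rw [e]
  exact h.symm

/-- the sum of the coefficients `c_u(s) - c_v(s)` against `t'` -/
noncomputable def dsum (ρ : ι → ℂ) {n : ℕ} (u v : Fin n → ι) (t' : ι → ℂ) : ℂ :=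
  ∑ i, (cw ρ u i - cw ρ v i) * t' i

lemma dsum_add (ρ : ι → ℂ) {n : ℕ} (u v : Fin n → ι) (t₁ t₂ : ι → ℂ) :
    dsum ρ u v (t₁ + t₂) = dsum ρ u v t₁ + dsum ρ u v t₂ := by
  unfold dsum
  rw [← Finset.sum_add_distrib]
  exact Finset.sum_congr rfl fun i _ => by simp [mul_add]

lemma dsum_sub (ρ : ι → ℂ) {n : ℕ} (u v : Fin n → ι) (t₁ t₂ : ι → ℂ) :
    dsum ρ u v (t₁ - t₂) = dsum ρ u v t₁ - dsum ρ u v t₂ := by
  unfold dsum
  rw [← Finset.sum_sub_distrib]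
  exact Finset.sum_congr rfl fun i _ => by simp [mul_sub]

lemma dsum_zero_real (σ ℓ t : ι → ℝ) {n : ℕ} (u v : Fin n → ι) :
    dsum (rayc σ ℓ 0) u v (fun i => (t i : ℂ)) =
      ((cdot (rr σ ℓ) t u - cdot (rr σ ℓ) t v : ℝ) : ℂ) := by
  unfold dsum cdot
  rw [← Finset.sum_sub_distrib]
  push_cast
  refine Finset.sum_congr rfl fun i _ => ?_
  rw [cw_rayc_zero, cw_rayc_zero]
  ring

lemma norm_dsum_le {ρ : ι → ℂ} {q : ℝ} (hρ : ∀ i, ‖ρ i‖ ≤ q) (hq : q < 1) {n : ℕ}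
    (u v : Fin n → ι) (t' : ι → ℂ) :
    ‖dsum ρ u v t'‖ ≤ Fintype.card ι * (2 / (1 - q)) * ‖t'‖ := by
  unfold dsum
  calc ‖∑ i, (cw ρ u i - cw ρ v i) * t' i‖ ≤ ∑ i, ‖(cw ρ u i - cw ρ v i) * t' i‖ :=
        norm_sum_le _ _
    _ ≤ ∑ _i : ι, 2 / (1 - q) * ‖t'‖ := by
        refine Finset.sum_le_sum fun i _ => ?_
        rw [norm_mul]
        have h1 : ‖cw ρ u i - cw ρ v i‖ ≤ 2 / (1 - q) := by
          refine (norm_sub_le _ _).trans ?_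
          have h2 := norm_cw_le hρ hq u i
          have h3 := norm_cw_le hρ hq v i
          calc _ ≤ 1 / (1 - q) + 1 / (1 - q) := add_le_add h2 h3
            _ = _ := by ring
        exact mul_le_mul h1 (norm_le_pi_norm t' i) (norm_nonneg _) ((norm_nonneg _).trans h1)
    _ = _ := by simp [mul_assoc]

lemma norm_dsum_sub_le {ρ ρ' : ι → ℂ} {q d : ℝ} (hρ : ∀ i, ‖ρ i‖ ≤ q) (hρ' : ∀ i, ‖ρ' i‖ ≤ q)
    (hq : q < 1) (hd : ∀ i, ‖ρ i - ρ' i‖ ≤ d) {n : ℕ} (u v : Fin n → ι) (t' : ι → ℂ) :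
    ‖dsum ρ u v t' - dsum ρ' u v t'‖ ≤ Fintype.card ι * (2 * d / (1 - q) ^ 2) * ‖t'‖ := by
  unfold dsum
  rw [← Finset.sum_sub_distrib]
  calc ‖∑ i, ((cw ρ u i - cw ρ v i) * t' i - (cw ρ' u i - cw ρ' v i) * t' i)‖
      ≤ ∑ i, ‖(cw ρ u i - cw ρ v i) * t' i - (cw ρ' u i - cw ρ' v i) * t' i‖ :=
        norm_sum_le _ _
    _ ≤ ∑ _i : ι, 2 * d / (1 - q) ^ 2 * ‖t'‖ := by
        refine Finset.sum_le_sum fun i _ => ?_
        have e : (cw ρ u i - cw ρ v i) * t' i - (cw ρ' u i - cw ρ' v i) * t' i =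
          ((cw ρ u i - cw ρ' u i) - (cw ρ v i - cw ρ' v i)) * t' i := by ring
        rw [e, norm_mul]
        have h1 : ‖(cw ρ u i - cw ρ' u i) - (cw ρ v i - cw ρ' v i)‖ ≤ 2 * d / (1 - q) ^ 2 := by
          refine (norm_sub_le _ _).trans ?_
          have h2 := norm_cw_sub_le hρ hρ' hq hd u i
          have h3 := norm_cw_sub_le hρ hρ' hq hd v i
          calc _ ≤ d / (1 - q) ^ 2 + d / (1 - q) ^ 2 := add_le_add h2 h3
            _ = _ := by ring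
        exact mul_le_mul h1 (norm_le_pi_norm t' i) (norm_nonneg _) ((norm_nonneg _).trans h1)
    _ = _ := by simp [mul_assoc]

end Crest.Agent.R98.Top
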