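import Crest.Agent.R98.TopBasic

/-!
Row 98 (S0129). Module TOP: consumer of LT in the exact (rank one) case (helper803).
-/

set_option autoImplicit false

namespace Crest.Agent.R98.Top

open Crest.AnalysisR Crest.Agent.R98 Crest.Agent.R98.Part Crest.Agent.R098.Upper Filter Topology
  MeasureTheory

variable {ι : Type*} [Fintype ι]

omit [Fintype ι] in
lemma InC.add {W : Submodule ℝ (ι → ℝ)} {a b : ι → ℂ} (ha : InC W a) (hb : InC W b) :
    InC W (a + b) := by
  refine ⟨?_, ?_⟩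
  · exact W.add_mem ha.1 hb.1
  · exact W.add_mem ha.2 hb.2

omit [Fintype ι] in
lemma InC.smul {W : Submodule ℝ (ι → ℝ)} {a : ι → ℂ} (ha : InC W a) (c : ℂ) :
    InC W (c • a) := by
  refine ⟨?_, ?_⟩
  · have := W.sub_mem (W.smul_mem c.re ha.1) (W.smul_mem c.im ha.2)
    convert this using 1
    funext i
    simp [Complex.mul_re]
  · have := W.add_mem (W.smul_mem c.re ha.2) (W.smul_mem c.im ha.1)
    convert this using 1
    funext i
    simp [Complex.mul_im]

omit [Fintype ι] in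
lemma InC.zero (W : Submodule ℝ (ι → ℝ)) : InC W (0 : ι → ℂ) :=
  ⟨W.zero_mem, W.zero_mem⟩

omit [Fintype ι] in
lemma InC.sub {W : Submodule ℝ (ι → ℝ)} {a b : ι → ℂ} (ha : InC W a) (hb : InC W b) :
    InC W (a - b) := by
  have := ha.add (hb.smul (-1))
  simpa [sub_eq_add_neg] using this

/-- if `K ⊆ W_C` approximates every point of `W` with relative error `ε ≤ 1/4` then `W ⊆ K` -/
lemma mem_of_close {W : Submodule ℝ (ι → ℝ)} {K : Submodule ℂ (ι → ℂ)} {ε : ℝ} (hε : ε ≤ 1 / 4)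
    (hK : ∀ y ∈ K, InC W y)
    (hc : ∀ t' ∈ W, ∃ t'' ∈ K, ∀ i, ‖t'' i - t' i‖ ≤ ε * ‖t'‖) {w : ι → ℂ} (hw : InC W w) :
    w ∈ K := by
  -- one step
  have step : ∀ w : ι → ℂ, InC W w → ∃ y ∈ K, ‖w - y‖ ≤ 1 / 2 * ‖w‖ := by
    intro w hw
    obtain ⟨y1, hy1, h1⟩ := hc _ hw.1
    obtain ⟨y2, hy2, h2⟩ := hc _ hw.2
    refine ⟨y1 + Complex.I • y2, K.add_mem hy1 (K.smul_mem _ hy2), ?_⟩
    have hre : ‖(fun i => (w i).re)‖ ≤ ‖w‖ := by
      rw [pi_norm_le_iff_of_nonneg (norm_nonneg _)]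
      intro i
      exact (Complex.abs_re_le_norm _).trans (norm_le_pi_norm w i)
    have him : ‖(fun i => (w i).im)‖ ≤ ‖w‖ := by
      rw [pi_norm_le_iff_of_nonneg (norm_nonneg _)]
      intro i
      exact (Complex.abs_im_le_norm _).trans (norm_le_pi_norm w i)
    rw [pi_norm_le_iff_of_nonneg (by positivity)]
    intro i
    have e : (w - (y1 + Complex.I • y2)) i = -((y1 i - ((w i).re : ℝ)) +
        Complex.I * (y2 i - ((w i).im : ℝ))) := by
      simp only [Pi.sub_apply, Pi.add_apply, Pi.smul_apply, smul_eq_mul]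
      conv_lhs => rw [← Complex.re_add_im (w i)]
      ring
    rw [e, norm_neg]
    have h3 : ‖(y1 i - ((w i).re : ℝ)) + Complex.I * (y2 i - ((w i).im : ℝ))‖ ≤
        ‖y1 i - ((w i).re : ℝ)‖ + ‖y2 i - ((w i).im : ℝ)‖ := by
      refine (norm_add_le _ _).trans ?_
      rw [norm_mul, Complex.norm_I, one_mul]
    have h4 := h1 i
    have h5 := h2 i
    have h6 : ε * ‖(fun i => (w i).re)‖ ≤ 1 / 4 * ‖w‖ := by
      have := norm_nonneg (fun i => (w i).re)
      nlinarith [norm_nonneg w]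
    have h7 : ε * ‖(fun i => (w i).im)‖ ≤ 1 / 4 * ‖w‖ := by
      have := norm_nonneg (fun i => (w i).im)
      nlinarith [norm_nonneg w]
    linarith
  have iter : ∀ n : ℕ, ∀ w : ι → ℂ, InC W w → ∃ y ∈ K, ‖w - y‖ ≤ (1 / 2) ^ n * ‖w‖ := by
    intro n
    induction n with
    | zero => intro w _; exact ⟨0, K.zero_mem, by simp⟩
    | succ n ih =>
      intro w hw
      obtain ⟨y, hy, h1⟩ := step w hw
      obtain ⟨y', hy', h2⟩ := ih (w - y) (hw.sub (hK y hy))
      refine ⟨y + y', K.add_mem hy hy', ?_⟩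
      have e : w - (y + y') = w - y - y' := by abel
      rw [e]
      refine h2.trans ?_
      rw [pow_succ]
      have h3 : (0:ℝ) ≤ (1 / 2) ^ n := by positivity
      calc (1 / 2 : ℝ) ^ n * ‖w - y‖ ≤ (1 / 2 : ℝ) ^ n * (1 / 2 * ‖w‖) :=
            mul_le_mul_of_nonneg_left h1 h3
        _ = _ := by ring
  have hcl : IsClosed (K : Set (ι → ℂ)) := Submodule.closed_of_finiteDimensional K
  have : w ∈ closure (K : Set (ι → ℂ)) := by
    rw [Metric.mem_closure_iff]
    intro δ hδ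
    obtain ⟨n, hn⟩ := exists_pow_lt_of_lt_one (show 0 < δ / (‖w‖ + 1) by positivity)
      (by norm_num : (1 / 2 : ℝ) < 1)
    obtain ⟨y, hy, h1⟩ := iter n w hw
    refine ⟨y, hy, ?_⟩
    rw [dist_eq_norm]
    refine lt_of_le_of_lt h1 ?_
    have h2 : (1 / 2 : ℝ) ^ n * (‖w‖ + 1) < δ := by
      rwa [lt_div_iff₀ (by positivity)] at hn
    have h3 : (0:ℝ) ≤ (1 / 2) ^ n := by positivity
    nlinarith
  rwa [hcl.closure_eq] at this

/-- classes of `Cl` are near pairs -/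
lemma near_of_Cl {r t : ι → ℝ} {m : ℕ} {X : ℝ} {u v : Fin m → ι} (h : Cl r t m X u v) :
    Near r t X u v := by
  obtain ⟨h1, h2⟩ := h
  refine ⟨h1, ?_⟩
  have h3 : ⌊(cdot r t u - 0) / Real.exp (-X)⌋ = ⌊(cdot r t v - 0) / Real.exp (-X)⌋ := h2
  have h4 := Int.abs_sub_lt_one_of_floor_eq_floor h3
  rw [sub_zero, sub_zero, ← sub_div, abs_div, abs_of_pos (Real.exp_pos _),
    div_lt_one (Real.exp_pos _)] at h4
  exact h4.le

lemma ev_exp_le (A C : ℝ) : ∀ᶠ m : ℕ in atTop,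
    A * Real.exp (-((m : ℝ) * Real.log m)) ≤ Real.exp (-(C * m)) := by
  have h1 : Tendsto (fun m : ℕ => Real.log (m : ℝ)) atTop atTop :=
    Real.tendsto_log_atTop.comp tendsto_natCast_atTop_atTop
  filter_upwards [h1.eventually_ge_atTop (C + |A|), eventually_ge_atTop 1] with m hm hm1
  have hm1' : (1:ℝ) ≤ m := by exact_mod_cast hm1
  have h2 : |A| ≤ Real.exp (|A| * m) := by
    have h3 := Real.add_one_le_exp (|A| * m)
    have := abs_nonneg A
    nlinarith
  calc A * Real.exp (-((m : ℝ) * Real.log m)) ≤ |A| * Real.exp (-((m : ℝ) * Real.log m)) :=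
        mul_le_mul_of_nonneg_right (le_abs_self A) (Real.exp_pos _).le
    _ ≤ Real.exp (|A| * m) * Real.exp (-((m : ℝ) * Real.log m)) :=
        mul_le_mul_of_nonneg_right h2 (Real.exp_pos _).le
    _ = Real.exp (|A| * m - (m : ℝ) * Real.log m) := by rw [← Real.exp_add]; congr 1
    _ ≤ Real.exp (-(C * m)) := by
        apply Real.exp_le_exp.mpr
        nlinarith

/-- exact approximants give `Dat` with `η = 0` -/
lemma dat_of_Apx {p σ : ι → ℝ} {ℓ t : ι → ℝ} {W : Submodule ℝ (ι → ℝ)} {α : ℝ}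
    {m : ℕ → ℕ} {X ε : ℕ → ℝ} {s : ℕ → ℂ} {K : ℕ → Submodule ℂ (ι → ℂ)}
    (hm : Tendsto m atTop atTop) (hε : Tendsto ε atTop (𝓝 0))
    (hH : ∀ j, HS (pw p : (Fin (m j) → ι) → ℝ) (Cl (rr σ ℓ) t (m j) (X j)) ≤ (α + ε j) * m j)
    (hA : ∀ j, Apx σ ℓ t W (m j) (X j) 0 0 (m j * Real.log (m j)) (s j) (K j))
    {τ : ℕ → ι → ℂ} (hτK : ∀ j, τ j ∈ K j) {A : ℝ}
    (hτ : ∀ j i, ‖τ j i - t i‖ ≤ A * Real.exp (-((m j : ℝ) * Real.log (m j)))) :
    Dat p σ ℓ t α m s τ (fun _ => 0) ε (fun j => Cl (rr σ ℓ) t (m j) (X j)) where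
  hm := hm
  hε := hε
  hη := fun _ => le_rfl
  hty := fun j => inf_le_left
  hcl := fun j u v huv => by
    have h := (hA j).kill (τ j) (hτK j) u v (near_of_Cl huv)
    simpa using h
  hH := hH
  hs := fun C => by
    filter_upwards [hm.eventually (ev_exp_le 1 C)] with j hj
    refine (hA j).s_small.trans ?_
    simpa using hj
  hτ := fun C => by
    filter_upwards [hm.eventually (ev_exp_le A C)] with j hj i
    exact (hτ j i).trans hj
  hηs := fun C => Eventually.of_forall fun j => (Real.exp_pos _).le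

/-- KW2, exact case: if the approximants have `s j = 0`, near pairs are eventually exact
coincidences -/
theorem kw2_exact {p σ : ι → ℝ} (S : Core p σ) {ℓ t : ι → ℝ} (hℓ : ∀ i, 0 < ℓ i)
    (hα : S.α ℓ t < chi p ℓ) {m : ℕ → ℕ} {X ε : ℕ → ℝ} {K : ℕ → Submodule ℂ (ι → ℂ)}
    (hm : Tendsto m atTop atTop) (hε : Tendsto ε atTop (𝓝 0))
    (hH : ∀ j, HS (pw p : (Fin (m j) → ι) → ℝ) (Cl (rr σ ℓ) t (m j) (X j)) ≤
      (S.α ℓ t + ε j) * m j)
    (hA : ∀ j, Apx σ ℓ t (S.W ℓ t) (m j) (X j) 0 0 (m j * Real.log (m j)) 0 (K j)) :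
    ∀ᶠ j in atTop, ∀ u v : Fin (m j) → ι, Near (rr σ ℓ) t (X j) u v →
      cdot (rr σ ℓ) t u = cdot (rr σ ℓ) t v := by
  classical
  have htW := S.self_mem ℓ t hℓ
  -- approximations of `t`
  choose t'' ht''K ht'' using fun j => (hA j).close t htW
  have hlt0 : ∀ (φ : ℕ → ℕ), StrictMono φ → ∀ (τ : ℕ → ι → ℂ), (∀ j, τ j ∈ K (φ j)) →
      ∀ A : ℝ, (∀ j i, ‖τ j i - t i‖ ≤
        A * Real.exp (-((m (φ j) : ℝ) * Real.log (m (φ j))))) →
      ∀ᶠ j in atTop, InC (S.W ℓ t) (τ j) := by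
    intro φ hφ τ hτK A hτ
    have hD := dat_of_Apx (p := p) (α := S.α ℓ t) (hm.comp hφ.tendsto_atTop)
      (hε.comp hφ.tendsto_atTop) (fun j => hH (φ j)) (fun j => hA (φ j)) hτK hτ
    filter_upwards [S.lt ℓ t hℓ hα _ _ _ _ _ _ hD] with j hj
    obtain ⟨w, hw, h1⟩ := hj
    have : τ j = w := by
      funext i
      have h2 := h1 i
      simp only [norm_zero, max_self, Real.sqrt_zero] at h2
      exact sub_eq_zero.mp (norm_le_zero_iff.mp h2)
    rw [this]
    exact hw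
  -- Step A
  have hStepA : ∀ᶠ j in atTop, ∀ y ∈ K j, InC (S.W ℓ t) y := by
    by_contra hcon
    rw [not_eventually] at hcon
    obtain ⟨φ, hφ, hbad⟩ := extraction_of_frequently_atTop hcon
    push Not at hbad
    choose y hyK hyW using hbad
    have hy0 : ∀ j, 0 < ‖y j‖ := by
      intro j
      rw [norm_pos_iff]
      intro h
      apply hyW j
      rw [h]
      exact InC.zero _
    set g : ℕ → ℝ := fun j => Real.exp (-((m (φ j) : ℝ) * Real.log (m (φ j)))) with hg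
    set y' : ℕ → ι → ℂ := fun j => ((g j / ‖y j‖ : ℝ) : ℂ) • y j with hy'
    have h1 := hlt0 φ hφ (fun j => t'' (φ j)) (fun j => ht''K (φ j)) ‖t‖ (fun j i => by
      have := ht'' (φ j) i
      rwa [mul_comm] at this)
    have h2 := hlt0 φ hφ (fun j => t'' (φ j) + y' j)
      (fun j => (K (φ j)).add_mem (ht''K (φ j)) ((K (φ j)).smul_mem _ (hyK j))) (‖t‖ + 1)
      (fun j i => by
        have h3 := ht'' (φ j) i
        have h4 : ‖y' j i‖ ≤ g j := by
          simp only [hy', Pi.smul_apply, smul_eq_mul, norm_mul, Complex.norm_real]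
          have h5 := norm_le_pi_norm (y j) i
          have h6 : 0 ≤ g j / ‖y j‖ := div_nonneg (Real.exp_pos _).le (hy0 j).le
          rw [Real.norm_of_nonneg h6]
          calc g j / ‖y j‖ * ‖y j i‖ ≤ g j / ‖y j‖ * ‖y j‖ := mul_le_mul_of_nonneg_left h5 h6
            _ = g j := div_mul_cancel₀ _ (hy0 j).ne'
        have e : (t'' (φ j) + y' j) i - t i = (t'' (φ j) i - t i) + y' j i := by
          simp only [Pi.add_apply]; ring
        rw [e]
        refine (norm_add_le _ _).trans ?_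
        calc ‖t'' (φ j) i - t i‖ + ‖y' j i‖ ≤ g j * ‖t‖ + g j := add_le_add h3 h4
          _ = _ := by ring)
    obtain ⟨j, hj1, hj2⟩ := (h1.and h2).exists
    apply hyW j
    have h3 : InC (S.W ℓ t) (y' j) := by
      have := hj2.sub hj1
      simpa using this
    have h4 := h3.smul (((g j / ‖y j‖ : ℝ) : ℂ)⁻¹)
    have h5 : ((g j / ‖y j‖ : ℝ) : ℂ) ≠ 0 := by
      have : g j / ‖y j‖ ≠ 0 := (div_pos (Real.exp_pos _) (hy0 j)).ne'
      exact_mod_cast this
    rwa [hy', smul_smul, inv_mul_cancel₀ h5, one_smul] at h4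
  filter_upwards [hStepA, hm.eventually (ev_exp_le 1 2), hm.eventually_ge_atTop 1] with j hj he hm1
    u v huv
  have hsmall : Real.exp (-((m j : ℝ) * Real.log (m j))) ≤ 1 / 4 := by
    have h2 : (1:ℝ) ≤ m j := by exact_mod_cast hm1
    rw [one_mul] at he
    refine he.trans ?_
    have h3 : Real.exp (-(2 * (m j : ℝ))) ≤ Real.exp (-2) := Real.exp_le_exp.mpr (by linarith)
    refine h3.trans ?_
    rw [Real.exp_neg, one_div]
    apply inv_anti₀ (by norm_num)
    have h4 : (2 : ℝ) ≤ Real.exp 1 := by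
      have := Real.add_one_le_exp (1 : ℝ)
      linarith
    calc (4 : ℝ) = 2 ^ 2 := by norm_num
      _ ≤ Real.exp 1 ^ 2 := by gcongr
      _ = Real.exp 2 := by rw [← Real.exp_nat_mul]; norm_num
  have htK : (fun i => (t i : ℂ)) ∈ K j := by
    refine mem_of_close hsmall hj (hA j).close ⟨?_, ?_⟩
    · simpa using htW
    · have : (fun i => ((t i : ℂ)).im) = (0 : ι → ℝ) := by
        funext i
        simp
      rw [this]
      exact (S.W ℓ t).zero_mem
  have h5 := (hA j).kill _ htK u v huv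
  simp only [mul_zero, zero_mul] at h5
  have h6 := dsum_zero_real σ ℓ t u v
  unfold dsum at h6
  rw [h6, norm_le_zero_iff] at h5
  have h7 : cdot (rr σ ℓ) t u - cdot (rr σ ℓ) t v = 0 := by exact_mod_cast h5
  linarith

end Crest.Agent.R98.Top
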