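import Crest.Agent.R98.TopKW2
import Crest.Agent.R98.Word4
import Crest.Agent.R98.BC

/-!
Row 98 (S0129). Module TOP: choice of a generic counterexample with minimal `W` (helper803).
-/

set_option autoImplicit false

namespace Crest.Agent.R98.Top

open Crest.AnalysisR Crest.Agent.R98 Crest.Agent.R98.Part Crest.Agent.R098.Upper Filter Topology
  MeasureTheory

variable {ι : Type*} [Fintype ι]

/-- `t ↦ (c_u - c_v) · t` as a linear map -/
noncomputable def cdiff (r : ι → ℝ) {m : ℕ} (u v : Fin m → ι) : (ι → ℝ) →ₗ[ℝ] ℝ :=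
  ∑ i, (cw r u i - cw r v i) • LinearMap.proj i

lemma cdiff_apply (r : ι → ℝ) {m : ℕ} (u v : Fin m → ι) (t : ι → ℝ) :
    cdiff r u v t = cdot r t u - cdot r t v := by
  unfold cdiff cdot
  rw [← Finset.sum_sub_distrib]
  simp only [LinearMap.coe_sum, Finset.sum_apply, LinearMap.smul_apply, LinearMap.coe_proj,
    Function.eval, smul_eq_mul]
  exact Finset.sum_congr rfl fun i _ => by ring

lemma cdiff_append (r : ι → ℝ) {m n : ℕ} (u v : Fin m → ι) (w : Fin n → ι)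
    (h : wtype u = wtype v) (t : ι → ℝ) :
    cdiff r (Fin.append u w) (Fin.append v w) t = cdiff r u v t := by
  rw [cdiff_apply, cdiff_apply]
  exact dotp_append_sub r t u v w h

lemma hX_bdd {p : ι → ℝ} (hp : ∀ i, 0 ≤ p i) (hp1 : ∑ i, p i = 1) (r t : ι → ℝ) :
    BddBelow (Set.range fun n : ℕ => HS (pw p : (Fin (n + 1) → ι) → ℝ) (Ex r t (n + 1)) /
      ((n : ℝ) + 1)) := by
  refine ⟨0, ?_⟩
  rintro _ ⟨n, rfl⟩
  have h1 : 0 ≤ HS (pw p : (Fin (n + 1) → ι) → ℝ) (Ex r t (n + 1)) :=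
    HW_nonneg ⟨hp, hp1⟩ _
  positivity

lemma hX_le {p : ι → ℝ} (hp : ∀ i, 0 ≤ p i) (hp1 : ∑ i, p i = 1) (r t : ι → ℝ) {m : ℕ}
    (hm : 1 ≤ m) : hX p r t ≤ HS (pw p : (Fin m → ι) → ℝ) (Ex r t m) / m := by
  obtain ⟨n, rfl⟩ : ∃ n, m = n + 1 := ⟨m - 1, by omega⟩
  refine (ciInf_le (hX_bdd hp hp1 r t) n).trans (le_of_eq ?_)
  push_cast
  rfl

lemma hX_mono {p : ι → ℝ} (hp : ∀ i, 0 ≤ p i) (hp1 : ∑ i, p i = 1) {r t t' : ι → ℝ}
    (h : ∀ n, Ex r t' n ≤ Ex r t n) : hX p r t ≤ hX p r t' := by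
  refine ciInf_mono (hX_bdd hp hp1 r t) fun n => ?_
  have h1 : HS (pw p : (Fin (n + 1) → ι) → ℝ) (Ex r t (n + 1)) ≤
      HS (pw p : (Fin (n + 1) → ι) → ℝ) (Ex r t' (n + 1)) := HW_anti hp (h _)
  gcongr

/-- choice of a counterexample over the given `ℓ` with minimal `W` and the BC2 lower bounds -/
theorem select [Nonempty ι] {p σ : ι → ℝ} (hp : ∀ i, 0 ≤ p i) (hp1 : ∑ i, p i = 1)
    (S : Core p σ) {ℓ : ι → ℝ} (hℓ : ∀ i, 0 < ℓ i) (h : ∃ t, S.Ctr ℓ t) :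
    ∃ t, S.Ctr ℓ t ∧ ∃ C₅ : ℝ, BC2 (rr σ ℓ) t (S.W ℓ t) (fun m => m) C₅ := by
  classical
  -- minimal dimension
  obtain ⟨t₀, ht₀, hmin⟩ : ∃ t₀, S.Ctr ℓ t₀ ∧ ∀ t, S.Ctr ℓ t →
      Module.finrank ℝ (S.W ℓ t₀) ≤ Module.finrank ℝ (S.W ℓ t) := by
    let P : ℕ → Prop := fun d => ∃ t, S.Ctr ℓ t ∧ Module.finrank ℝ (S.W ℓ t) = d
    have hP : ∃ d, P d := by
      obtain ⟨t, ht⟩ := h
      exact ⟨_, t, ht, rfl⟩
    obtain ⟨t, ht, hd⟩ := Nat.find_spec hP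
    refine ⟨t, ht, fun t' ht' => ?_⟩
    rw [hd]
    exact Nat.find_min' hP ⟨t', ht', rfl⟩
  set W₀ := S.W ℓ t₀ with hW₀
  set k := Fintype.card ι with hk
  -- the list of functionals
  obtain ⟨L, hLapp⟩ : ∃ L : ∀ m : ℕ, (Fin m → ι) → (Fin m → ι) → (W₀ →L[ℝ] ℝ),
      ∀ m (u v : Fin m → ι) (t' : W₀), L m u v t' = cdiff (rr σ ℓ) u v (t' : ι → ℝ) :=
    ⟨fun m u v => LinearMap.toContinuousLinearMap ((cdiff (rr σ ℓ) u v).comp W₀.subtype),
      fun m u v t' => rfl⟩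
  let LL : ℕ → Finset (W₀ →L[ℝ] ℝ) := fun m =>
    (Finset.univ : Finset ((Fin m → ι) × (Fin m → ι))).image fun x => L m x.1 x.2
  have hcard : ∀ m, ((LL m).card : ℝ) ≤ Real.exp (2 * Real.log k * m) := by
    intro m
    have h1 : (LL m).card ≤ k ^ m * k ^ m := by
      refine Finset.card_image_le.trans ?_
      rw [Finset.card_univ, Fintype.card_prod, Fintype.card_fun, Fintype.card_fin]
    have hk0 : (0 : ℝ) < k := by
      rw [hk]; exact_mod_cast Fintype.card_pos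
    have h2 : Real.exp (2 * Real.log k * m) = (k : ℝ) ^ m * (k : ℝ) ^ m := by
      have : 2 * Real.log k * m = m * Real.log k + m * Real.log k := by ring
      rw [this, Real.exp_add, Real.exp_nat_mul, Real.exp_log hk0]
    rw [h2]
    exact_mod_cast h1
  obtain ⟨t₁, ht₁⟩ : ∃ t₁ : W₀, ∀ᶠ m : ℕ in atTop, ∀ f ∈ LL m,
      Real.exp (-((2 * Real.log k + 1) * m)) * ‖f‖ ≤ |f t₁| := by
    have hae := ae_linear_lower (E := W₀) (Measure.addHaar : Measure W₀) LL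
      (C := 2 * Real.log k) (Eventually.of_forall hcard)
    exact hae.exists
  have hW1 : (t₁ : ι → ℝ) ∈ W₀ := t₁.2
  -- lower bound at every large level
  have hlow : ∀ᶠ m : ℕ in atTop, ∀ u v : Fin m → ι, ∀ t' ∈ W₀,
      |cdot (rr σ ℓ) t' u - cdot (rr σ ℓ) t' v| ≤ Real.exp ((2 * Real.log k + 1) * m) *
        |cdot (rr σ ℓ) t₁ u - cdot (rr σ ℓ) t₁ v| * ‖t'‖ := by
    filter_upwards [ht₁] with m hm u v t' ht'
    have h1 := hm (L m u v) (Finset.mem_image_of_mem _ (Finset.mem_univ (u, v)))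
    have h2 : ‖L m u v ⟨t', ht'⟩‖ ≤ ‖L m u v‖ * ‖(⟨t', ht'⟩ : W₀)‖ := (L m u v).le_opNorm _
    rw [Real.norm_eq_abs, Submodule.coe_norm] at h2
    rw [hLapp, cdiff_apply] at h1 h2
    have h3 : ‖L m u v‖ ≤ Real.exp ((2 * Real.log k + 1) * m) *
        |cdot (rr σ ℓ) t₁ u - cdot (rr σ ℓ) t₁ v| := by
      have h4 : Real.exp ((2 * Real.log k + 1) * m) * Real.exp (-((2 * Real.log k + 1) * m)) = 1 := by
        rw [← Real.exp_add]; simp
      calc ‖L m u v‖ = Real.exp ((2 * Real.log k + 1) * m) *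
            (Real.exp (-((2 * Real.log k + 1) * m)) * ‖L m u v‖) := by
            rw [← mul_assoc, h4, one_mul]
        _ ≤ _ := mul_le_mul_of_nonneg_left h1 (Real.exp_pos _).le
    exact h2.trans (mul_le_mul_of_nonneg_right h3 (norm_nonneg _))
  -- the exact coincidences at `t₁` are coincidences at `t₀`
  have hEx : ∀ n, Ex (rr σ ℓ) t₁ n ≤ Ex (rr σ ℓ) t₀ n := by
    intro n u v huv
    obtain ⟨hty, hv⟩ := huv
    refine ⟨hty, ?_⟩
    obtain ⟨M, hM⟩ := eventually_atTop.mp hlow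
    have hty' : wtype u = wtype v := hty
    have hv' : cdot (rr σ ℓ) (t₁ : ι → ℝ) u = cdot (rr σ ℓ) t₁ v := hv
    let w : Fin M → ι := fun _ => Classical.arbitrary ι
    have h1 := hM (n + M) (by omega) (Fin.append u w) (Fin.append v w) t₀ (S.self_mem ℓ t₀ hℓ)
    rw [← cdiff_apply, ← cdiff_apply, cdiff_append _ _ _ _ hty', cdiff_append _ _ _ _ hty',
      cdiff_apply, cdiff_apply, hv', sub_self, abs_zero, mul_zero, zero_mul] at h1
    have h2 := abs_nonpos_iff.mp h1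
    show cdot (rr σ ℓ) t₀ u = cdot (rr σ ℓ) t₀ v
    linarith
  have hα := S.α_le ℓ t₀ t₁ hℓ hW1
  have hctr : S.Ctr ℓ t₁ := ⟨lt_of_le_of_lt hα ht₀.1,
    lt_of_le_of_lt hα (lt_of_lt_of_le ht₀.2 (hX_mono hp hp1 hEx))⟩
  have hWeq : S.W ℓ t₁ = W₀ :=
    Submodule.eq_of_le_of_finrank_le (S.W_le ℓ t₀ t₁ hℓ hW1) (hmin _ hctr)
  refine ⟨t₁, hctr, 2 * Real.log k + 1, ?_⟩
  rw [hWeq]
  exact hlow

end Crest.Agent.R98.Top
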