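import Crest.Agent.R98.EndDefs

/-!
Row 98, module UNI (helper549), part A: exponentials of intertwined generators, source process.
-/

set_option autoImplicit false

namespace Crest.Agent.R98

open Finset MeasureTheory Filter Crest.AnalysisR
open scoped Topology

section ExpComm

variable {E F : Type*} [NormedAddCommGroup E] [NormedSpace ℝ E] [CompleteSpace E]
  [NormedAddCommGroup F] [NormedSpace ℝ F] [CompleteSpace F]

/-- intertwined generators have intertwined exponentials -/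
lemma comp_exp {T : E →L[ℝ] F} {A : E →L[ℝ] E} {B : F →L[ℝ] F} (h : T.comp A = B.comp T) :
    T.comp (NormedSpace.exp A) = (NormedSpace.exp B).comp T := by
  have hn : ∀ n : ℕ, T.comp (A ^ n) = (B ^ n).comp T := by
    intro n
    induction n with
    | zero => ext x; simp
    | succ n ih =>
      rw [pow_succ, pow_succ']
      calc T.comp (A ^ n * A) = (T.comp (A ^ n)).comp A := rfl
        _ = ((B ^ n).comp T).comp A := by rw [ih]
        _ = (B ^ n).comp (T.comp A) := rfl
        _ = (B ^ n).comp (B.comp T) := by rw [h]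
        _ = (B ^ n * B).comp T := rfl
        _ = (B * B ^ n).comp T := by rw [← pow_succ, ← pow_succ']
  have h1 := NormedSpace.exp_series_hasSum_exp' (𝕂 := ℝ) A
  have h2 := NormedSpace.exp_series_hasSum_exp' (𝕂 := ℝ) B
  have h3 : HasSum (fun n : ℕ => T.comp (((n.factorial : ℝ)⁻¹) • A ^ n))
      (T.comp (NormedSpace.exp A)) :=
    h1.mapL ((ContinuousLinearMap.compL ℝ E E F) T)
  have h4 : HasSum (fun n : ℕ => (((n.factorial : ℝ)⁻¹) • B ^ n).comp T)
      ((NormedSpace.exp B).comp T) :=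
    h2.mapL ((ContinuousLinearMap.compL ℝ E F F).flip T)
  refine h3.unique ?_
  convert h4 using 2 with n
  rw [ContinuousLinearMap.comp_smul, ContinuousLinearMap.smul_comp, hn]

lemma comp_gen {ι : Type*} (σ ℓ : ι → ℝ) {T : E →L[ℝ] F} {A : E →L[ℝ] E} {B : F →L[ℝ] F}
    (h : T.comp A = B.comp T) (a : ι) :
    T.comp (gen σ ℓ A a) = (gen σ ℓ B a).comp T := by
  unfold gen
  rw [ContinuousLinearMap.comp_smul, ContinuousLinearMap.smul_comp, comp_exp]
  rw [ContinuousLinearMap.comp_smul, ContinuousLinearMap.smul_comp, h]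

omit [CompleteSpace E] [CompleteSpace F] in
/-- finite-word values of intertwined processes -/
lemma pfin_comp {ι : Type*} {T : E →L[ℝ] F} {G : ι → E →L[ℝ] E} {G' : ι → F →L[ℝ] F}
    (h : ∀ a, T.comp (G a) = (G' a).comp T) (b : ι → E) {n : ℕ} (u : Fin n → ι) :
    pfin G' (fun a => T (b a)) u = T (pfin G b u) := by
  induction n with
  | zero => simp
  | succ n ih =>
    obtain ⟨a, u, rfl⟩ := exists_cons u
    rw [pfin_cons, pfin_cons, ih, map_add]
    congr 1
    exact (DFunLike.congr_fun (h a) (pfin G b u)).symm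

omit [CompleteSpace E] [CompleteSpace F] in
lemma IsProc.comp {ι : Type*} [MeasurableSpace ι] {T : E →L[ℝ] F} {G : ι → E →L[ℝ] E}
    {G' : ι → F →L[ℝ] F} (h : ∀ a, T.comp (G a) = (G' a).comp T) {b : ι → E}
    {Φ : (ℕ → ι) → E} (hΦ : IsProc G b Φ) :
    IsProc G' (fun a => T (b a)) (fun w => T (Φ w)) := by
  refine ⟨fun a w => ?_, ?_, fun φ => hΦ.meas (φ.comp T)⟩
  · rw [hΦ.eq, map_add]
    congr 1
    exact DFunLike.congr_fun (h a) (Φ w)
  · obtain ⟨C, hC⟩ := hΦ.bdd
    exact ⟨‖T‖ * C, fun w => (T.le_opNorm _).trans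
      (mul_le_mul_of_nonneg_left (hC w) (norm_nonneg _))⟩

end ExpComm

section Src

variable {E : Type*} [NormedAddCommGroup E] [NormedSpace ℝ E] [CompleteSpace E]

/-- generator of the source process on `ℂ × E` -/
noncomputable def Lsrc (s : ℂ) (M : E →L[ℝ] E) : (ℂ × E) →L[ℝ] (ℂ × E) :=
  ((1 + s) • ContinuousLinearMap.fst ℝ ℂ E).prod (M.comp (ContinuousLinearMap.snd ℝ ℂ E))

lemma exp_smul_id (c : ℂ) :
    NormedSpace.exp (c • ContinuousLinearMap.id ℝ ℂ) =
      Complex.exp c • ContinuousLinearMap.id ℝ ℂ := by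
  have h1 := NormedSpace.exp_series_hasSum_exp' (𝕂 := ℝ) (c • ContinuousLinearMap.id ℝ ℂ)
  have h2 := NormedSpace.exp_series_hasSum_exp' (𝕂 := ℝ) c
  have h3 : HasSum (fun n : ℕ => (((n.factorial : ℝ)⁻¹) • c ^ n) • ContinuousLinearMap.id ℝ ℂ)
      (NormedSpace.exp c • ContinuousLinearMap.id ℝ ℂ) := by
    have := h2.mapL ((ContinuousLinearMap.lsmul ℝ ℂ (E := ℂ →L[ℝ] ℂ)).flip
      (ContinuousLinearMap.id ℝ ℂ))
    exact this
  have this : ∀ n : ℕ, (c • ContinuousLinearMap.id ℝ ℂ) ^ n = c ^ n • ContinuousLinearMap.id ℝ ℂ := by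
    intro n
    induction n with
    | zero => ext x; simp
    | succ n ih =>
      rw [pow_succ, ih]
      refine ContinuousLinearMap.ext fun x => ?_
      simp [pow_succ, mul_assoc, mul_comm, mul_left_comm]
  have e : (fun n : ℕ => ((n.factorial : ℝ)⁻¹) • (c • ContinuousLinearMap.id ℝ ℂ) ^ n) =
      fun n : ℕ => (((n.factorial : ℝ)⁻¹) • c ^ n) • ContinuousLinearMap.id ℝ ℂ := by
    funext n
    rw [this, smul_assoc]
  rw [e] at h1
  rw [Complex.exp_eq_exp_ℂ]
  exact h1.unique h3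

lemma gen_Lsrc {ι : Type*} (σ ℓ : ι → ℝ) (s : ℂ) (M : E →L[ℝ] E) (a : ι) (x : ℂ) (v : E) :
    gen σ ℓ (Lsrc s M) a (x, v) =
      ((σ a : ℂ) * Complex.exp (-(1 + s) * ℓ a) * x, gen σ ℓ M a v) := by
  have h1 := comp_gen σ ℓ (T := ContinuousLinearMap.fst ℝ ℂ E) (A := Lsrc s M)
    (B := (1 + s) • ContinuousLinearMap.id ℝ ℂ) (by ext x <;> simp [Lsrc]) a
  have h2 := comp_gen σ ℓ (T := ContinuousLinearMap.snd ℝ ℂ E) (A := Lsrc s M) (B := M)
    (by ext x <;> simp [Lsrc]) a
  refine Prod.ext ?_ ?_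
  · have := DFunLike.congr_fun h1 (x, v)
    simp only [ContinuousLinearMap.comp_apply, ContinuousLinearMap.coe_fst'] at this
    rw [this]
    unfold gen
    have e : (-(ℓ a)) • ((1 + s) • ContinuousLinearMap.id ℝ ℂ) =
        ((-(1 + s) * ℓ a)) • ContinuousLinearMap.id ℝ ℂ := by
      refine ContinuousLinearMap.ext fun x => ?_
      simp
      ring
    rw [e, exp_smul_id]
    simp [mul_assoc]
  · exact DFunLike.congr_fun h2 (x, v)

end Src

end Crest.Agent.R98
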