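import Crest.Agent.R98.EndJet
import Crest.Agent.R98.Word4

/-!
Row 98, module UNI (helper549), part B: the process `(ψ_j, π jet)`.
-/

set_option autoImplicit false

namespace Crest.Agent.R98

open Finset MeasureTheory Filter Crest.AnalysisR Crest.Agent.R98.Part
open scoped Topology

section Ops

variable {E : Type*} [NormedAddCommGroup E] [NormedSpace ℝ E]

/-- compressed jet generator `1 + π N` -/
noncomputable def MJ (P N : E →L[ℝ] E) : E →L[ℝ] E := ContinuousLinearMap.id ℝ E + P.comp N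

/-- generator on `ℂ × E` -/
noncomputable def LJ (P N : E →L[ℝ] E) (s : ℂ) (β : E →L[ℝ] ℂ) : (ℂ × E) →L[ℝ] (ℂ × E) :=
  ((1 + s) • ContinuousLinearMap.fst ℝ ℂ E + β.comp (ContinuousLinearMap.snd ℝ ℂ E)).prod
    ((MJ P N).comp (ContinuousLinearMap.snd ℝ ℂ E))

/-- `(x, v) ↦ ((x - φ v) / D, π v)` -/
noncomputable def TJ (P : E →L[ℝ] E) (D : ℝ) (φ : E →L[ℝ] ℂ) : (ℂ × E) →L[ℝ] (ℂ × E) :=
  (D⁻¹ • (ContinuousLinearMap.fst ℝ ℂ E - φ.comp (ContinuousLinearMap.snd ℝ ℂ E))).prod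
    (P.comp (ContinuousLinearMap.snd ℝ ℂ E))

/-- `v ↦ (ξ v, π v)` -/
noncomputable def TI (P : E →L[ℝ] E) (ξ : E →L[ℝ] ℂ) : E →L[ℝ] (ℂ × E) := ξ.prod P

lemma MJ_apply (P N : E →L[ℝ] E) (v : E) : MJ P N v = v + P (N v) := rfl

lemma LJ_apply (P N : E →L[ℝ] E) (s : ℂ) (β : E →L[ℝ] ℂ) (x : ℂ) (v : E) :
    LJ P N s β (x, v) = ((1 + s) * x + β v, v + P (N v)) := rfl

lemma TJ_apply (P : E →L[ℝ] E) (D : ℝ) (φ : E →L[ℝ] ℂ) (x : ℂ) (v : E) :
    TJ P D φ (x, v) = (D⁻¹ • (x - φ v), P v) := rfl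

lemma TI_apply (P : E →L[ℝ] E) (ξ : E →L[ℝ] ℂ) (v : E) : TI P ξ v = (ξ v, P v) := rfl

lemma proj_comp_MJ {P N : E →L[ℝ] E} (hPN : ∀ v, P (N (P v)) = P (N v)) :
    P.comp (ContinuousLinearMap.id ℝ E + N) = (MJ P N).comp P := by
  refine ContinuousLinearMap.ext fun v => ?_
  simp [MJ, hPN]

lemma TJ_comp {P N : E →L[ℝ] E} (hPN : ∀ v, P (N (P v)) = P (N v)) {D : ℝ}
    {φ β : E →L[ℝ] ℂ} {s : ℂ} (hφ : ∀ v, φ (P v) = φ v)
    (hβ : ∀ v, β v = D⁻¹ • (s * φ v - φ (N v))) :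
    (TJ P D φ).comp (Lsrc s (ContinuousLinearMap.id ℝ E + N)) =
      (LJ P N s β).comp (TJ P D φ) := by
  refine ContinuousLinearMap.ext fun y => ?_
  obtain ⟨x, v⟩ := y
  have e1 : (TJ P D φ).comp (Lsrc s (ContinuousLinearMap.id ℝ E + N)) (x, v) =
      (D⁻¹ • ((1 + s) * x - φ (v + N v)), P (v + N v)) := rfl
  have e2 : (LJ P N s β).comp (TJ P D φ) (x, v) =
      ((1 + s) * (D⁻¹ • (x - φ v)) + β (P v), P v + P (N (P v))) := rfl
  rw [e1, e2]
  refine Prod.ext ?_ ?_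
  · show D⁻¹ • ((1 + s) * x - φ (v + N v)) = (1 + s) * (D⁻¹ • (x - φ v)) + β (P v)
    have h1 : φ (N (P v)) = φ (N v) := by
      rw [← hφ (N (P v)), hPN, hφ]
    rw [hβ, hφ, h1, map_add]
    simp only [Complex.real_smul]
    ring
  · show P (v + N v) = P v + P (N (P v))
    rw [hPN, map_add]

lemma beta_proj {P N : E →L[ℝ] E} (hPN : ∀ v, P (N (P v)) = P (N v)) {D : ℝ}
    {φ β : E →L[ℝ] ℂ} {s : ℂ} (hφ : ∀ v, φ (P v) = φ v)
    (hβ : ∀ v, β v = D⁻¹ • (s * φ v - φ (N v))) (v : E) : β (P v) = β v := by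
  have h1 : φ (N (P v)) = φ (N v) := by
    rw [← hφ (N (P v)), hPN, hφ]
  rw [hβ, hβ, hφ, h1]

lemma TI_comp {P N : E →L[ℝ] E} (hPN : ∀ v, P (N (P v)) = P (N v))
    {ξ β : E →L[ℝ] ℂ} (hβ : ∀ v, β (P v) = ξ (N v)) :
    (TI P ξ).comp (ContinuousLinearMap.id ℝ E + N) = (LJ P N 0 β).comp (TI P ξ) := by
  refine ContinuousLinearMap.ext fun v => ?_
  have e1 : (TI P ξ).comp (ContinuousLinearMap.id ℝ E + N) v = (ξ (v + N v), P (v + N v)) := rfl
  have e2 : (LJ P N 0 β).comp (TI P ξ) v = ((1 + 0) * ξ v + β (P v), P v + P (N (P v))) := rfl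
  rw [e1, e2]
  refine Prod.ext ?_ ?_
  · show ξ (v + N v) = (1 + 0) * ξ v + β (P v)
    rw [hβ, map_add]; ring
  · show P (v + N v) = P v + P (N (P v))
    rw [hPN, map_add]

lemma PN_pow {P N : E →L[ℝ] E} (hPN : ∀ v, P (N (P v)) = P (N v)) (k : ℕ) (v : E) :
    ((P.comp N) ^ (k + 1)) v = P ((N ^ (k + 1)) v) := by
  induction k generalizing v with
  | zero => simp
  | succ k ih =>
    rw [pow_succ, ContinuousLinearMap.mul_apply, ih]
    have h : ∀ (k : ℕ) (v : E), P ((N ^ k) (P v)) = P ((N ^ k) v) ∨ k = 0 := by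
      intro k
      induction k with
      | zero => intro v; exact Or.inr rfl
      | succ k ihk =>
        intro v
        left
        rw [pow_succ', ContinuousLinearMap.mul_apply, ContinuousLinearMap.mul_apply]
        rcases ihk v with h | h
        · rw [← hPN, h, hPN]
        · subst h; simpa using hPN v
    rcases h (k + 1) (N v) with h' | h'
    · rw [show (P.comp N) v = P (N v) from rfl, h', pow_succ N (k + 1),
        ContinuousLinearMap.mul_apply]
    · omega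

lemma LJ_nilpotent {P N : E →L[ℝ] E} (hPN : ∀ v, P (N (P v)) = P (N v)) {J : ℕ}
    (hN : N ^ (J + 1) = 0) (β : E →L[ℝ] ℂ) :
    (LJ P N 0 β - ContinuousLinearMap.id ℝ (ℂ × E)) ^ (J + 2) = 0 := by
  have h1 : ∀ (k : ℕ) (x : ℂ) (v : E),
      ((LJ P N 0 β - ContinuousLinearMap.id ℝ (ℂ × E)) ^ (k + 1)) (x, v) =
        (β (((P.comp N) ^ k) v), ((P.comp N) ^ (k + 1)) v) := by
    intro k
    induction k with
    | zero =>
      intro x v
      have : (LJ P N 0 β - ContinuousLinearMap.id ℝ (ℂ × E)) (x, v) =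
          ((1 + 0) * x + β v - x, v + P (N v) - v) := rfl
      rw [zero_add, pow_one, this]
      simp
    | succ k ih =>
      intro x v
      have : (LJ P N 0 β - ContinuousLinearMap.id ℝ (ℂ × E)) (x, v) =
          ((1 + 0) * x + β v - x, v + P (N v) - v) := rfl
      rw [pow_succ, ContinuousLinearMap.mul_apply, this, ih]
      have e : v + P (N v) - v = (P.comp N) v := by simp
      rw [e, pow_succ _ k, pow_succ _ (k + 1)]
      rfl
  refine ContinuousLinearMap.ext fun y => ?_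
  obtain ⟨x, v⟩ := y
  rw [h1 (J + 1) x v, PN_pow hPN J, PN_pow hPN (J + 1), pow_succ N (J + 1), hN]
  simp

end Ops

section ShJ

variable {ι : Type*} [Fintype ι]

lemma shJ_nilpotent (J : ℕ) : (shJ J : EJ ι J →L[ℝ] EJ ι J) ^ (J + 1) = 0 := by
  refine ContinuousLinearMap.ext fun v => ?_
  ext x
  rw [shJ_pow_apply, dif_neg (by omega)]
  rfl

lemma inner_shTb (J : ℕ) (a v : EJ ι J) : inner ℝ (shT J a) v = inner ℝ a (shJ J v) := by
  rw [PiLp.inner_apply, PiLp.inner_apply, Fintype.sum_prod_type_right, Fintype.sum_prod_type_right]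
  refine Finset.sum_congr rfl fun i _ => ?_
  rw [Fin.sum_univ_castSucc, Fin.sum_univ_succ]
  have h0 : shT J a (Fin.last J, i) = 0 := by
    rw [shT_apply, dif_neg (by simp)]
  have h1 : shJ J v ((0 : Fin (J + 1)), i) = 0 := by
    rw [shJ_apply]; simp
  rw [h0, h1]
  simp only [inner_zero_left, inner_zero_right, add_zero, zero_add]
  refine Finset.sum_congr rfl fun l _ => ?_
  have h2 : shT J a (l.castSucc, i) = a (l.succ, i) := by
    rw [shT_apply, dif_pos (by simp)]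
    congr 2
  have h3 : shJ J v (l.succ, i) = v (l.castSucc, i) := by
    rw [shJ_apply, dif_neg (by simp)]
    congr 2
  rw [h2, h3]

/-- stability of a subspace under the transposed shift, in terms of the projection -/
lemma proj_shJ {J : ℕ} {V : Submodule ℝ (EJ ι J)} (hst : ∀ a ∈ V, shT J a ∈ V) (v : EJ ι J) :
    V.starProjection (shJ J (V.starProjection v)) = V.starProjection (shJ J v) := by
  have h : V.starProjection (shJ J (v - V.starProjection v)) = 0 := by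
    rw [Submodule.starProjection_apply_eq_zero_iff]
    rw [Submodule.mem_orthogonal]
    intro a ha
    rw [← inner_shTb]
    have h1 := Submodule.starProjection_inner_eq_zero (K := V) v (shT J a) (hst a ha)
    rw [real_inner_comm]
    exact h1
  rw [map_sub, map_sub, sub_eq_zero] at h
  exact h.symm

end ShJ

section Src2

variable {ι : Type*} [Fintype ι]

/-- the source process: value functional and jet -/
lemma pfin_Lsrc (σ ℓ : ι → ℝ) (J : ℕ) (s : ℂ) (τ : ι → ℂ) {n : ℕ} (u : Fin n → ι) :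
    pfin (gen σ ℓ (Lsrc s (ContinuousLinearMap.id ℝ (EJ ι J) + shJ J)))
      (fun a => (τ a, bJ J a)) u = (∑ i, cw (rayC σ ℓ s) u i * τ i, jf σ ℓ J u) := by
  classical
  induction n with
  | zero =>
    refine Prod.ext ?_ ?_
    · simp
    · ext x; simp [jf_apply]
  | succ n ih =>
    obtain ⟨a, u, rfl⟩ := exists_cons u
    rw [pfin_cons, ih, gen_Lsrc, jf_cons]
    refine Prod.ext ?_ rfl
    show τ a + (σ a : ℂ) * Complex.exp (-(1 + s) * ℓ a) * ∑ i, cw (rayC σ ℓ s) u i * τ i =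
      ∑ i, cw (rayC σ ℓ s) (Fin.cons a u : Fin (n + 1) → ι) i * τ i
    simp only [cw_cons, add_mul, Finset.sum_add_distrib, ite_mul, one_mul, zero_mul,
      Finset.sum_ite_eq, Finset.mem_univ, if_true, mul_assoc, ← Finset.mul_sum]
    simp [rayC, mul_assoc]

end Src2

end Crest.Agent.R98
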