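import Crest.Agent.R98.UniB

/-!
Row 98, module UNI (helper549), part C: estimates on classes.
-/

set_option autoImplicit false

namespace Crest.Agent.R98

open Finset MeasureTheory Filter Crest.AnalysisR Crest.Agent.R98.Part
open scoped Topology

section Lim

variable {E : Type*} [NormedAddCommGroup E] [NormedSpace ℝ E]

lemma norm_LJ_sub_le (P N : E →L[ℝ] E) (s s' : ℂ) (β β' : E →L[ℝ] ℂ) :
    ‖LJ P N s β - LJ P N s' β'‖ ≤ ‖s - s'‖ + ‖β - β'‖ := by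
  refine ContinuousLinearMap.opNorm_le_bound _ (by positivity) fun y => ?_
  obtain ⟨x, v⟩ := y
  have e : (LJ P N s β - LJ P N s' β') (x, v) = ((s - s') * x + (β - β') v, 0) := by
    have e1 : (LJ P N s β - LJ P N s' β') (x, v) = LJ P N s β (x, v) - LJ P N s' β' (x, v) := rfl
    rw [e1, LJ_apply, LJ_apply]
    refine Prod.ext ?_ ?_
    · show (1 + s) * x + β v - ((1 + s') * x + β' v) = (s - s') * x + (β v - β' v)
      ring
    · show v + P (N v) - (v + P (N v)) = 0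
      simp
  rw [e, Prod.norm_def]
  have h1 : ‖x‖ ≤ ‖(x, v)‖ := norm_fst_le (x, v)
  have h2 : ‖v‖ ≤ ‖(x, v)‖ := norm_snd_le (x, v)
  have h3 : ‖(s - s') * x + (β - β') v‖ ≤ ‖s - s'‖ * ‖x‖ + ‖β - β'‖ * ‖v‖ := by
    refine (norm_add_le _ _).trans (add_le_add (norm_mul_le _ _) ?_)
    exact ContinuousLinearMap.le_opNorm _ _
  have h4 : ‖s - s'‖ * ‖x‖ + ‖β - β'‖ * ‖v‖ ≤ (‖s - s'‖ + ‖β - β'‖) * ‖(x, v)‖ := by
    rw [add_mul]
    gcongr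
  refine max_le (h3.trans h4) ?_
  show ‖(0 : E)‖ ≤ _
  rw [norm_zero]
  positivity

lemma tendsto_LJ {P N : E →L[ℝ] E} {s : ℕ → ℂ} {β : ℕ → E →L[ℝ] ℂ} {s' : ℂ} {β' : E →L[ℝ] ℂ}
    (hs : Tendsto s atTop (𝓝 s')) (hβ : Tendsto β atTop (𝓝 β')) :
    Tendsto (fun j => LJ P N (s j) (β j)) atTop (𝓝 (LJ P N s' β')) := by
  rw [tendsto_iff_norm_sub_tendsto_zero] at *
  refine squeeze_zero (fun _ => norm_nonneg _) (fun j => norm_LJ_sub_le P N _ _ _ _) ?_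
  simpa using hs.add hβ

end Lim

section Res

variable {ι : Type*} [Fintype ι]

/-- `0`-jet part of a jet -/
noncomputable def res0 (J : ℕ) (x : EJ ι J) : EJ ι 0 :=
  WithLp.toLp 2 fun y : Fin 1 × ι => x ((0 : Fin (J + 1)), y.2)

/-- a functional of the `0`-jet as a functional of the `J`-jet -/
noncomputable def lift0 (J : ℕ) (a : EJ ι 0) : EJ ι J :=
  WithLp.toLp 2 fun y : Fin (J + 1) × ι => if (y.1 : ℕ) = 0 then a ((0 : Fin 1), y.2) else 0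

lemma inner_lift0 (J : ℕ) (a : EJ ι 0) (x : EJ ι J) :
    inner ℝ (lift0 J a) x = inner ℝ a (res0 J x) := by
  rw [PiLp.inner_apply, PiLp.inner_apply, Fintype.sum_prod_type_right, Fintype.sum_prod_type_right]
  refine Finset.sum_congr rfl fun i _ => ?_
  rw [Fin.sum_univ_succ, Fin.sum_univ_one]
  have h0 : lift0 J a ((0 : Fin (J + 1)), i) = a ((0 : Fin 1), i) := by simp [lift0]
  have h1 : ∀ l : Fin J, lift0 J a (l.succ, i) = 0 := by intro l; simp [lift0]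
  have h2 : res0 J x ((0 : Fin 1), i) = x ((0 : Fin (J + 1)), i) := rfl
  simp only [h1, inner_zero_left, Finset.sum_const_zero, add_zero]
  rw [h0, h2]

lemma res0_lift0 (J : ℕ) (a : EJ ι 0) : res0 J (lift0 J a) = a := by
  ext y
  obtain ⟨l, i⟩ := y
  have : l = 0 := Subsingleton.elim (α := Fin 1) l 0
  subst this
  show (if ((0 : Fin (J + 1)) : ℕ) = 0 then a ((0 : Fin 1), i) else 0) = a ((0 : Fin 1), i)
  simp

lemma norm_lift0 (J : ℕ) (a : EJ ι 0) : ‖lift0 J a‖ = ‖a‖ := by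
  have h : ‖lift0 J a‖ ^ 2 = ‖a‖ ^ 2 := by
    rw [← real_inner_self_eq_norm_sq, ← real_inner_self_eq_norm_sq, inner_lift0, res0_lift0]
  exact (pow_left_inj₀ (norm_nonneg _) (norm_nonneg _) two_ne_zero).1 h

lemma res0_sub (J : ℕ) (x y : EJ ι J) : res0 J (x - y) = res0 J x - res0 J y := rfl

lemma res0_jf (σ ℓ : ι → ℝ) (J : ℕ) {n : ℕ} (u : Fin n → ι) :
    res0 J (jf σ ℓ J u) = jf σ ℓ 0 u := by
  ext y
  obtain ⟨l, i⟩ := y
  have : l = 0 := Subsingleton.elim (α := Fin 1) l 0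
  subst this
  rfl

lemma res0_ji (σ ℓ : ι → ℝ) (J : ℕ) (w : ℕ → ι) : res0 J (ji σ ℓ J w) = ji σ ℓ 0 w := by
  ext y
  obtain ⟨l, i⟩ := y
  have : l = 0 := Subsingleton.elim (α := Fin 1) l 0
  subst this
  rfl

variable [MeasurableSpace ι]

lemma lift0_mem {σ ℓ p t : ι → ℝ} {J : ℕ} {a : EJ ι 0} (h : a ∈ VJ σ ℓ p t 0) :
    lift0 J a ∈ VJ σ ℓ p t J := by
  rw [mem_VJ] at *
  refine h.congr (Eventually.of_forall fun w => ?_)
  show inner ℝ a (ji σ ℓ 0 w) = inner ℝ (lift0 J a) (ji σ ℓ J w)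
  rw [inner_lift0, res0_ji]

lemma norm_proj_res0_le (σ ℓ p t : ι → ℝ) (J : ℕ) (x : EJ ι J) :
    ‖(VJ σ ℓ p t 0).starProjection (res0 J x)‖ ≤ ‖(VJ σ ℓ p t J).starProjection x‖ := by
  set a := (VJ σ ℓ p t 0).starProjection (res0 J x) with ha
  have hmem : a ∈ VJ σ ℓ p t 0 := Submodule.starProjection_apply_mem _ _
  have h1 : ‖a‖ ^ 2 = inner ℝ a (res0 J x) := by
    have h := Submodule.starProjection_inner_eq_zero (K := VJ σ ℓ p t 0) (res0 J x) a hmem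
    rw [inner_sub_left, sub_eq_zero, ← ha] at h
    rw [real_inner_comm, h, real_inner_self_eq_norm_sq]
  have h2 : inner ℝ a (res0 J x) =
      inner ℝ (lift0 J a) ((VJ σ ℓ p t J).starProjection x) := by
    rw [← inner_lift0]
    have h := Submodule.starProjection_inner_eq_zero (K := VJ σ ℓ p t J) x (lift0 J a)
      (lift0_mem hmem)
    rw [inner_sub_left, sub_eq_zero] at h
    rw [real_inner_comm, h, real_inner_comm]
  have h3 : ‖a‖ ^ 2 ≤ ‖a‖ * ‖(VJ σ ℓ p t J).starProjection x‖ := by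
    rw [h1, h2]
    refine (real_inner_le_norm _ _).trans ?_
    rw [norm_lift0]
  rcases (norm_nonneg a).eq_or_lt with h0 | h0
  · rw [← h0]; exact norm_nonneg _
  · rw [sq] at h3
    exact le_of_mul_le_mul_left h3 h0

end Res

section Base

variable {ι : Type*} [Fintype ι]

open Classical in
lemma EJ0_eq (x : EJ ι 0) : x = ∑ i, x ((0 : Fin 1), i) • bJ 0 i := by
  ext y
  obtain ⟨l, i⟩ := y
  have : l = 0 := Subsingleton.elim (α := Fin 1) l 0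
  subst this
  rw [WithLp.ofLp_sum, Finset.sum_apply, Finset.sum_eq_single i]
  · unfold bJ; simp
  · intro b _ hb
    unfold bJ
    simp [hb.symm]
  · simp

/-- the real base vector of a functional of the `0`-jet -/
noncomputable def wv (ψ : EJ ι 0 →L[ℝ] ℂ) (i : ι) : ℝ := (ψ (bJ 0 i)).re

lemma re_eq_wv (ψ : EJ ι 0 →L[ℝ] ℂ) (x : EJ ι 0) :
    (ψ x).re = ∑ i, x ((0 : Fin 1), i) * wv ψ i := by
  conv_lhs => rw [EJ0_eq x]
  rw [map_sum, Complex.re_sum]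
  refine Finset.sum_congr rfl fun i _ => ?_
  rw [map_smul]
  simp [wv]

lemma sum_cw_wv (σ ℓ : ι → ℝ) (ψ : EJ ι 0 →L[ℝ] ℂ) {n : ℕ} (u : Fin n → ι) :
    ∑ i, cw (rayR σ ℓ 0) u i * wv ψ i = (ψ (jf σ ℓ 0 u)).re := by
  rw [re_eq_wv]
  refine Finset.sum_congr rfl fun i _ => ?_
  rw [jf_apply]
  show _ = jetw σ ℓ 0 u i * _
  rw [jetw_zero_eq]

lemma AJ_bJ (J : ℕ) (s : ℂ) (t' : ι → ℂ) (a : ι) : AJ J s t' (bJ J a) = t' a := by
  classical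
  rw [AJ_apply, Finset.sum_eq_single ((0 : Fin (J + 1)), a)]
  · unfold bJ; simp
  · intro b _ hb
    unfold bJ
    simp [hb]
  · simp

end Base

section Cls

variable {ι : Type*} [Fintype ι] [Nonempty ι] [MeasurableSpace ι]

/-- value functional -/
noncomputable def val (σ ℓ : ι → ℝ) (s : ℂ) (τ : ι → ℂ) {n : ℕ} (u : Fin n → ι) : ℂ :=
  ∑ i, cw (rayC σ ℓ s) u i * τ i

/-- the constant bounding the `0`-jets -/
noncomputable def K0 (ι : Type*) [Fintype ι] (ℓ0 : ℝ) : ℝ :=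
  √(∑ x : Fin (0 + 1) × ι, (2 ^ (x.1 : ℕ) * jK ℓ0) ^ 2)

omit [Nonempty ι] in
/-- base values on classes of the first kind -/
lemma base_A {σ ℓ p t : ι → ℝ} (hσ : ∀ i, |σ i| ≤ 1) {ℓ0 : ℝ} (hℓ : ∀ i, ℓ0 ≤ ℓ i)
    (h0 : 0 < ℓ0) {s : ℂ} (hs : ‖s‖ ≤ 1 / 4) (τ : ι → ℂ) {n : ℕ} (u v : Fin n → ι) {e : ℝ}
    (h : ‖val σ ℓ s τ u - val σ ℓ s τ v‖ ≤ e) :
    |∑ i, cw (rayR σ ℓ 0) u i * wv ((AJ 0 s τ).comp (VJ σ ℓ p t 0).starProjection) i -
      ∑ i, cw (rayR σ ℓ 0) v i * wv ((AJ 0 s τ).comp (VJ σ ℓ p t 0).starProjection) i| ≤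
      e + 8 * jK ℓ0 * (∑ i, ‖τ i‖) * ‖s‖ + 2 * K0 ι ℓ0 * DJ σ ℓ p t 0 s τ := by
  set ψ := (AJ 0 s τ).comp (VJ σ ℓ p t 0).starProjection with hψ
  rw [sum_cw_wv, sum_cw_wv, ← Complex.sub_re, ← map_sub]
  set x := jf σ ℓ 0 u - jf σ ℓ 0 v with hx
  refine (Complex.abs_re_le_norm _).trans ?_
  have h1 : ψ x = AJ 0 s τ x - (AJ 0 s τ - ψ) x := by
    show ψ x = AJ 0 s τ x - (AJ 0 s τ x - ψ x)
    ring
  have h2 : ‖(AJ 0 s τ - ψ) x‖ ≤ DJ σ ℓ p t 0 s τ * (2 * K0 ι ℓ0) := by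
    refine (ContinuousLinearMap.le_opNorm _ _).trans ?_
    refine mul_le_mul_of_nonneg_left ?_ (norm_nonneg _)
    refine (norm_sub_le _ _).trans ?_
    have a1 := norm_jf_le hσ hℓ h0 0 u
    have a2 := norm_jf_le hσ hℓ h0 0 v
    unfold K0
    linarith
  have h3 : ‖AJ 0 s τ x‖ ≤ e + 8 * jK ℓ0 * (∑ i, ‖τ i‖) * ‖s‖ := by
    have a1 := norm_val_sub_AJ_le hσ hℓ h0 hs 0 τ u
    have a2 := norm_val_sub_AJ_le hσ hℓ h0 hs 0 τ v
    have e1 : AJ 0 s τ x = (val σ ℓ s τ u - val σ ℓ s τ v) -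
        (val σ ℓ s τ u - AJ 0 s τ (jf σ ℓ 0 u)) + (val σ ℓ s τ v - AJ 0 s τ (jf σ ℓ 0 v)) := by
      rw [hx, map_sub]; ring
    rw [e1]
    refine (norm_add_le _ _).trans ?_
    have b1 := norm_sub_le (val σ ℓ s τ u - val σ ℓ s τ v)
      (val σ ℓ s τ u - AJ 0 s τ (jf σ ℓ 0 u))
    unfold val at *
    have hp1 : (2 * ‖s‖) ^ (0 + 1) = 2 * ‖s‖ := by simp
    rw [hp1] at a1 a2
    nlinarith
  rw [h1]
  refine (norm_sub_le _ _).trans ?_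
  linarith

omit [Nonempty ι] in
/-- base values on classes of the second kind -/
lemma base_R {σ ℓ p t : ι → ℝ} {s : ℂ} (hs : ‖s‖ ≤ 1) (τ : ι → ℂ) {J n : ℕ} (u v : Fin n → ι)
    {e : ℝ} (h : ‖(VJ σ ℓ p t J).starProjection (jf σ ℓ J u - jf σ ℓ J v)‖ ≤ e) :
    |∑ i, cw (rayR σ ℓ 0) u i * wv ((AJ 0 s τ).comp (VJ σ ℓ p t 0).starProjection) i -
      ∑ i, cw (rayR σ ℓ 0) v i * wv ((AJ 0 s τ).comp (VJ σ ℓ p t 0).starProjection) i| ≤
      (∑ i, ‖τ i‖) * e := by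
  rw [sum_cw_wv, sum_cw_wv, ← Complex.sub_re, ← map_sub]
  refine (Complex.abs_re_le_norm _).trans ?_
  show ‖AJ 0 s τ ((VJ σ ℓ p t 0).starProjection (jf σ ℓ 0 u - jf σ ℓ 0 v))‖ ≤ _
  refine (ContinuousLinearMap.le_opNorm _ _).trans ?_
  have h1 := norm_AJ_le 0 hs τ
  have h2 : ‖(VJ σ ℓ p t 0).starProjection (jf σ ℓ 0 u - jf σ ℓ 0 v)‖ ≤ e := by
    rw [← res0_jf σ ℓ J u, ← res0_jf σ ℓ J v, ← res0_sub]
    exact (norm_proj_res0_le σ ℓ p t J _).trans h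
  have h3 : (0 : ℝ) ≤ ∑ i, ‖τ i‖ := Finset.sum_nonneg fun _ _ => norm_nonneg _
  calc _ ≤ (((0 : ℕ) : ℝ) + 1) * (∑ i, ‖τ i‖) * e :=
        mul_le_mul h1 h2 (norm_nonneg _) (by positivity)
    _ = _ := by push_cast; ring

omit [Nonempty ι] in
/-- the value at level `n` of the process `(ψ_j, π jet)` on common classes -/
lemma close_TJ {σ ℓ p t : ι → ℝ} {s : ℂ} (hs : ‖s‖ ≤ 1) (τ : ι → ℂ) {J n : ℕ}
    (u v : Fin n → ι) {e e' D : ℝ} (hD : 0 < D)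
    (h : ‖val σ ℓ s τ u - val σ ℓ s τ v‖ ≤ e)
    (h' : ‖(VJ σ ℓ p t J).starProjection (jf σ ℓ J u - jf σ ℓ J v)‖ ≤ e') :
    ‖TJ (VJ σ ℓ p t J).starProjection D ((AJ J s τ).comp (VJ σ ℓ p t J).starProjection)
        (val σ ℓ s τ u, jf σ ℓ J u) -
      TJ (VJ σ ℓ p t J).starProjection D ((AJ J s τ).comp (VJ σ ℓ p t J).starProjection)
        (val σ ℓ s τ v, jf σ ℓ J v)‖ ≤
      D⁻¹ * (e + (J + 1) * (∑ i, ‖τ i‖) * e') + e' := by
  have he' : 0 ≤ e' := (norm_nonneg _).trans h'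
  have he : 0 ≤ e := (norm_nonneg _).trans h
  have h3 : (0 : ℝ) ≤ ∑ i, ‖τ i‖ := Finset.sum_nonneg fun _ _ => norm_nonneg _
  have hD' : 0 < D⁻¹ := inv_pos.2 hD
  rw [← map_sub, Prod.mk_sub_mk, TJ_apply, Prod.norm_def]
  refine max_le ?_ ?_
  · show ‖D⁻¹ • _‖ ≤ _
    rw [norm_smul, Real.norm_of_nonneg hD'.le]
    have h1 : ‖val σ ℓ s τ u - val σ ℓ s τ v -
        ((AJ J s τ).comp (VJ σ ℓ p t J).starProjection) (jf σ ℓ J u - jf σ ℓ J v)‖ ≤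
        e + (J + 1) * (∑ i, ‖τ i‖) * e' := by
      refine (norm_sub_le _ _).trans (add_le_add h ?_)
      show ‖AJ J s τ ((VJ σ ℓ p t J).starProjection (jf σ ℓ J u - jf σ ℓ J v))‖ ≤ _
      refine (ContinuousLinearMap.le_opNorm _ _).trans ?_
      exact mul_le_mul (norm_AJ_le J hs τ) h' (norm_nonneg _) (by positivity)
    have := mul_le_mul_of_nonneg_left h1 hD'.le
    linarith
  · show ‖(VJ σ ℓ p t J).starProjection (jf σ ℓ J u - jf σ ℓ J v)‖ ≤ _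
    have : 0 ≤ D⁻¹ * (e + (J + 1) * (∑ i, ‖τ i‖) * e') := by positivity
    linarith

end Cls

end Crest.Agent.R98
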