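import Crest.Agent.R98.UniC

/-!
Row 98, module UNI (helper549), part D: the limit lemma.
-/

set_option autoImplicit false

namespace Crest.Agent.R98

open Finset MeasureTheory Filter Crest.AnalysisR Crest.Agent.R98.Part
open scoped Topology

section Soft

variable {ι : Type*} [Fintype ι] [MeasurableSpace ι]

/-- (F3) class form of the collapse of the measurable jets -/
def SoftR (σ ℓ p t : ι → ℝ) (α : ℝ) (J : ℕ) : Prop :=
  ∀ q > 0, ∀ κ > 0, ∀ᶠ n : ℕ in atTop, ∃ S : Setoid (Fin n → ι), HW p S ≤ (α + κ) * n ∧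
    ∀ u v, S u v → wtype u = wtype v ∧
      ‖(VJ σ ℓ p t J).starProjection (jf σ ℓ J u - jf σ ℓ J v)‖ ≤ Real.exp (-(q * n))

/-- (F4) class form of the lower bound -/
def SoftL (σ ℓ p t : ι → ℝ) (α χ : ℝ) : Prop :=
  ∀ κ > 0, ∃ ε > 0, ∀ᶠ n : ℕ in atTop, ∀ w : ι → ℝ, (∀ i, |w i - t i| < ε) →
    ∀ S : Setoid (Fin n → ι),
      (∀ u v, S u v → |∑ i, cw (rayR σ ℓ 0) u i * w i - ∑ i, cw (rayR σ ℓ 0) v i * w i| ≤
        Real.exp (-(χ * n))) → (α - κ) * n ≤ HW p S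

/-- (F5)+(F2) -/
def SoftF (σ ℓ p t : ι → ℝ) (α χ : ℝ) (E : Type*) [NormedAddCommGroup E] [NormedSpace ℝ E] :
    Prop :=
  ∀ (L : ℕ → E →L[ℝ] E) (L' : E →L[ℝ] E) (b : ℕ → ι → E) (b' : ι → E) (Φ : (ℕ → ι) → E)
    (n : ℕ → ℕ) (φ₀ : E →L[ℝ] ℝ), Tendsto L atTop (𝓝 L') →
    (∃ k : ℕ, (L' - ContinuousLinearMap.id ℝ E) ^ k = 0) →
    (∀ a, Tendsto (fun j => b j a) atTop (𝓝 (b' a))) → Tendsto n atTop atTop →
    IsProc (gen σ ℓ L') b' Φ → (∀ w, φ₀ (Φ w) = Pi (rayR σ ℓ 0) t w) →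
    (∀ κ > 0, ∀ᶠ j in atTop, ∃ S : Setoid (Fin (n j) → ι), HW p S ≤ (α + κ) * n j ∧
      ∀ u v, S u v → ‖pfin (gen σ ℓ (L j)) (b j) u - pfin (gen σ ℓ (L j)) (b j) v‖ ≤
        Real.exp (-(χ * n j))) →
    ∀ φ : E →L[ℝ] ℝ, Fac p (Pi (rayR σ ℓ 0) t) fun w => φ (Φ w)

end Soft

section NN

lemma nn_facts {d : ℕ → ℝ} {m : ℕ → ℕ} (hd : ∀ j, 0 < d j) (hm : Tendsto m atTop atTop)
    (hX : Tendsto (fun j => -Real.log (d j) / m j) atTop atTop) {C0 : ℝ} (hC0 : 0 < C0) :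
    Tendsto (fun j => m j * ⌊-Real.log (d j) / (C0 * m j)⌋₊) atTop atTop ∧
    (∀ᶠ j in atTop, d j ≤
      Real.exp (-(C0 * ((m j * ⌊-Real.log (d j) / (C0 * m j)⌋₊ : ℕ) : ℝ)))) ∧
    (∀ᶠ j in atTop,
      Real.exp (-(2 * C0 * ((m j * ⌊-Real.log (d j) / (C0 * m j)⌋₊ : ℕ) : ℝ))) ≤ d j) := by
  have key : ∀ᶠ j in atTop, C0 * ((m j * ⌊-Real.log (d j) / (C0 * m j)⌋₊ : ℕ) : ℝ) ≤
      -Real.log (d j) ∧ -Real.log (d j) ≤
      2 * C0 * ((m j * ⌊-Real.log (d j) / (C0 * m j)⌋₊ : ℕ) : ℝ) := by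
    filter_upwards [hm.eventually_ge_atTop 1, hX.eventually_ge_atTop (2 * C0)] with j h1 h2
    have hm0 : (0 : ℝ) < m j := by exact_mod_cast h1
    have hCm : 0 < C0 * m j := by positivity
    set X := -Real.log (d j) with hXd
    have h3 : 2 ≤ X / (C0 * m j) := by
      rw [le_div_iff₀ hCm]
      rw [le_div_iff₀ hm0] at h2
      linarith
    have h4 : ((⌊X / (C0 * m j)⌋₊ : ℕ) : ℝ) ≤ X / (C0 * m j) := Nat.floor_le (by linarith)
    have h5 : X / (C0 * m j) < (⌊X / (C0 * m j)⌋₊ : ℝ) + 1 := Nat.lt_floor_add_one _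
    have h6 : X / (C0 * m j) ≤ 2 * (⌊X / (C0 * m j)⌋₊ : ℝ) := by linarith
    rw [le_div_iff₀ hCm] at h4
    rw [div_le_iff₀ hCm] at h6
    push_cast
    constructor <;> nlinarith
  have hXt : Tendsto (fun j => -Real.log (d j)) atTop atTop := by
    have h1 : Tendsto (fun j => (-Real.log (d j) / m j) * m j) atTop atTop :=
      hX.atTop_mul_atTop₀ (tendsto_natCast_atTop_atTop.comp hm)
    refine h1.congr' ?_
    filter_upwards [hm.eventually_ge_atTop 1] with j h1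
    have hm0 : (0 : ℝ) < m j := by exact_mod_cast h1
    field_simp
  refine ⟨?_, ?_, ?_⟩
  · rw [← tendsto_natCast_atTop_iff (R := ℝ)]
    refine tendsto_atTop_mono' _ ?_ (hXt.atTop_div_const (by positivity : (0 : ℝ) < 2 * C0))
    filter_upwards [key] with j hj
    rw [div_le_iff₀ (by positivity)]
    linarith [hj.2]
  · filter_upwards [key] with j hj
    calc d j = Real.exp (Real.log (d j)) := (Real.exp_log (hd j)).symm
      _ ≤ _ := Real.exp_le_exp.2 (by linarith [hj.1])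
  · filter_upwards [key] with j hj
    calc _ ≤ Real.exp (Real.log (d j)) := Real.exp_le_exp.2 (by linarith [hj.2])
      _ = d j := Real.exp_log (hd j)

/-- `K ≤ exp n` eventually -/
lemma ev_le_exp {n : ℕ → ℕ} (hn : Tendsto n atTop atTop) (K : ℝ) :
    ∀ᶠ j in atTop, K ≤ Real.exp (n j) := by
  have h : Tendsto (fun j => Real.exp (n j)) atTop atTop :=
    Real.tendsto_exp_atTop.comp (tendsto_natCast_atTop_atTop.comp hn)
  exact h.eventually_ge_atTop K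

end NN

section At

variable {ι : Type*} [Fintype ι]

/-- the vector `t` as a functional of the `0`-jet -/
noncomputable def at0 (t : ι → ℝ) : EJ ι 0 := WithLp.toLp 2 fun y : Fin 1 × ι => t y.2

lemma inner_at0 (t : ι → ℝ) (x : EJ ι 0) :
    inner ℝ (at0 t) x = ∑ i, x ((0 : Fin 1), i) * t i := by
  rw [PiLp.inner_apply, Fintype.sum_prod_type_right]
  refine Finset.sum_congr rfl fun i _ => ?_
  rw [Fin.sum_univ_one]
  show inner ℝ (t i) (x ((0 : Fin 1), i)) = _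
  simp

variable [MeasurableSpace ι]

lemma inner_at0_ji {σ ℓ : ι → ℝ} (hσ : ∀ i, |σ i| ≤ 1) {ℓ0 : ℝ} (hℓ : ∀ i, ℓ0 ≤ ℓ i)
    (h0 : 0 < ℓ0) (t : ι → ℝ) (w : ℕ → ι) :
    inner ℝ (at0 t) (ji σ ℓ 0 w) = Pi (rayR σ ℓ 0) t w := by
  rw [inner_at0]
  unfold Pi
  refine Finset.sum_congr rfl fun i _ => ?_
  rw [ji_apply, ← jetinf_zero_eq hσ hℓ h0]
  rfl

lemma at0_mem {σ ℓ : ι → ℝ} (hσ : ∀ i, |σ i| ≤ 1) {ℓ0 : ℝ} (hℓ : ∀ i, ℓ0 ≤ ℓ i)
    (h0 : 0 < ℓ0) (p t : ι → ℝ) : at0 t ∈ VJ σ ℓ p t 0 := by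
  rw [mem_VJ]
  refine (Fac.self p _).congr (Eventually.of_forall fun w => ?_)
  exact (inner_at0_ji hσ hℓ h0 t w).symm

lemma tendsto_wv {σ ℓ : ι → ℝ} (hσ : ∀ i, |σ i| ≤ 1) {ℓ0 : ℝ} (hℓ : ∀ i, ℓ0 ≤ ℓ i)
    (h0 : 0 < ℓ0) (p t : ι → ℝ) {s : ℕ → ℂ} {τ : ℕ → ι → ℂ}
    (hτ : ∀ i, Tendsto (fun j => τ j i) atTop (𝓝 (t i : ℂ))) (i : ι) :
    Tendsto (fun j => wv ((AJ 0 (s j) (τ j)).comp (VJ σ ℓ p t 0).starProjection) i) atTop
      (𝓝 (t i)) := by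
  classical
  set x := (VJ σ ℓ p t 0).starProjection (bJ 0 i) with hx
  have h1 : ∀ j, wv ((AJ 0 (s j) (τ j)).comp (VJ σ ℓ p t 0).starProjection) i =
      ∑ k, (τ j k).re * x ((0 : Fin 1), k) := by
    intro j
    unfold wv
    show (AJ 0 (s j) (τ j) x).re = _
    rw [AJ_apply, Fintype.sum_prod_type_right, Complex.re_sum]
    refine Finset.sum_congr rfl fun k _ => ?_
    rw [Fin.sum_univ_one]
    show ((s j) ^ 0 * τ j k * (x ((0 : Fin 1), k) : ℂ)).re = _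
    simp
  simp only [h1]
  have h2 : Tendsto (fun j => ∑ k, (τ j k).re * x ((0 : Fin 1), k)) atTop
      (𝓝 (∑ k, (t k) * x ((0 : Fin 1), k))) := by
    refine tendsto_finsetSum _ fun k _ => ?_
    have := (Complex.continuous_re.tendsto _).comp (hτ k)
    exact this.mul_const _
  have h3 : ∑ k, (t k) * x ((0 : Fin 1), k) = t i := by
    have e1 : inner ℝ (at0 t) x = ∑ k, x ((0 : Fin 1), k) * t k := inner_at0 t x
    have e2 : inner ℝ (at0 t) x = inner ℝ (at0 t) (bJ 0 i) := by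
      have h := Submodule.starProjection_inner_eq_zero (K := VJ σ ℓ p t 0) (bJ 0 i) (at0 t)
        (at0_mem hσ hℓ h0 p t)
      rw [inner_sub_left, sub_eq_zero] at h
      rw [real_inner_comm, ← hx] at *
      rw [← h]
    have e3 : inner ℝ (at0 t) (bJ 0 i) = t i := by
      rw [inner_at0, Finset.sum_eq_single i]
      · unfold bJ; simp
      · intro b _ hb
        unfold bJ
        simp [hb]
      · simp
    rw [← e3, ← e2, e1]
    exact Finset.sum_congr rfl fun k _ => mul_comm _ _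
  rw [h3] at h2
  exact h2

end At

end Crest.Agent.R98
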