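import Crest.Agent.R98.UniD

/-!
Row 98, module UNI (helper549), part E: the core contradiction.
-/

set_option autoImplicit false

namespace Crest.Agent.R98

open Finset MeasureTheory Filter Crest.AnalysisR Crest.Agent.R98.Part
open scoped Topology

section Core

variable {ι : Type*} [Fintype ι] [Nonempty ι] [MeasurableSpace ι] [DiscreteMeasurableSpace ι]

/-- a unit functional vanishing on the complement is killed by measurability -/
lemma xi_zero {σ ℓ p t : ι → ℝ} {J : ℕ} {ξ : EJ ι J →L[ℝ] ℂ}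
    (hπ : ∀ v, ξ ((VJ σ ℓ p t J).starProjection v) = 0)
    (hF : ∀ φ : ℂ →L[ℝ] ℝ, Fac p (Pi (rayR σ ℓ 0) t) fun w => φ (ξ (ji σ ℓ J w))) : ξ = 0 := by
  have key : ∀ φ : ℂ →L[ℝ] ℝ, φ.comp ξ = 0 := by
    intro φ
    set a := (InnerProductSpace.toDual ℝ (EJ ι J)).symm (φ.comp ξ) with ha
    have h1 : ∀ v, inner ℝ a v = φ (ξ v) := by
      intro v
      rw [ha, InnerProductSpace.toDual_symm_apply]
      rfl
    have h2 : a ∈ VJ σ ℓ p t J := by
      rw [mem_VJ]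
      refine (hF φ).congr (Eventually.of_forall fun w => ?_)
      exact (h1 _).symm
    have h3 : inner ℝ a a = (0 : ℝ) := by
      rw [h1 a, ← Submodule.starProjection_eq_self_iff.2 h2, hπ, map_zero]
    have h4 : a = 0 := inner_self_eq_zero.1 h3
    refine ContinuousLinearMap.ext fun v => ?_
    rw [ContinuousLinearMap.comp_apply, ← h1 v, h4]
    simp
  refine ContinuousLinearMap.ext fun v => ?_
  have h1 := DFunLike.congr_fun (key Complex.reCLM) v
  have h2 := DFunLike.congr_fun (key Complex.imCLM) v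
  exact Complex.ext h1 h2

end Core

section Step

variable {ι : Type*} [Fintype ι] [Nonempty ι] [MeasurableSpace ι] [DiscreteMeasurableSpace ι]

/-- submodularity and the join bound at one level -/
lemma join_step {σ ℓ p : ι → ℝ} (hp : (∀ i, 0 ≤ p i) ∧ ∑ i, p i = 1) {n : ℕ}
    {A R : Setoid (Fin n → ι)} {w : ι → ℝ} {e a b c χ : ℝ} (he : 0 ≤ e)
    (hA : ∀ u v, A u v → |∑ i, cw (rayR σ ℓ 0) u i * w i - ∑ i, cw (rayR σ ℓ 0) v i * w i| ≤ e)
    (hR : ∀ u v, R u v → |∑ i, cw (rayR σ ℓ 0) u i * w i - ∑ i, cw (rayR σ ℓ 0) v i * w i| ≤ e)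
    (hcard : (Fintype.card (Fin n → ι) : ℝ) * e ≤ Real.exp (-(χ * n)))
    (hlow : ∀ S : Setoid (Fin n → ι),
      (∀ u v, S u v → |∑ i, cw (rayR σ ℓ 0) u i * w i - ∑ i, cw (rayR σ ℓ 0) v i * w i| ≤
        Real.exp (-(χ * n))) → c ≤ HW p S)
    (hHA : HW p A ≤ a) (hHR : HW p R ≤ b) : HW p (A ⊓ R) ≤ a + b - c := by
  have h1 : c ≤ HW p (A ⊔ R) := by
    refine hlow _ fun u v huv => ?_
    have h := dist_le_of_sup (s := A) (t := R)
      (v := fun u : Fin n → ι => ∑ i, cw (rayR σ ℓ 0) u i * w i) he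
      (fun u v h => by rw [Real.dist_eq]; exact hA u v h)
      (fun u v h => by rw [Real.dist_eq]; exact hR u v h) huv
    rw [Real.dist_eq] at h
    exact h.trans hcard
  have h2 := HW_sup_add_inf_le hp.1 A R
  linarith

end Step

section Main

variable {ι : Type*} [Fintype ι] [Nonempty ι] [MeasurableSpace ι] [DiscreteMeasurableSpace ι]

/-- constants: `K e^{-C₀ n} ≤ e^{-χ n}` and `k^n K e^{-C₀ n} ≤ e^{-χ n}` -/
lemma const_step {χ : ℝ} {k : ℕ} (hk : 1 ≤ k) {n : ℕ} {K x : ℝ} (hK : K ≤ Real.exp n)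
    (hx0 : 0 ≤ x) (hx : x ≤ Real.exp (-((χ + Real.log k + 1) * n))) :
    K * x ≤ Real.exp (-(χ * n)) ∧ ((k : ℝ) ^ n) * (K * x) ≤ Real.exp (-(χ * n)) := by
  have hk0 : (0 : ℝ) < k := by exact_mod_cast hk
  have hlog : 0 ≤ Real.log k := Real.log_nonneg (by exact_mod_cast hk)
  have e1 : (k : ℝ) ^ n = Real.exp (Real.log k * n) := by
    rw [mul_comm, Real.exp_nat_mul, Real.exp_log hk0]
  have h1 : (k : ℝ) ^ n * (K * x) ≤ Real.exp (-(χ * n)) := by
    calc (k : ℝ) ^ n * (K * x) ≤ (k : ℝ) ^ n * (Real.exp n * x) := by gcongr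
      _ ≤ (k : ℝ) ^ n * (Real.exp n * Real.exp (-((χ + Real.log k + 1) * n))) := by gcongr
      _ = Real.exp (-(χ * n)) := by
          rw [e1, ← Real.exp_add, ← Real.exp_add]; congr 1; ring
  refine ⟨?_, h1⟩
  rcases le_or_gt (K * x) 0 with h | h
  · exact h.trans (Real.exp_pos _).le
  · refine le_trans ?_ h1
    have : (1 : ℝ) ≤ (k : ℝ) ^ n := one_le_pow₀ (by exact_mod_cast hk)
    nlinarith

/-- the core of UNI -/
theorem uni_core {σ ℓ p t : ι → ℝ} (hσ : ∀ i, |σ i| ≤ 1) {ℓ0 : ℝ} (hℓ : ∀ i, ℓ0 ≤ ℓ i)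
    (h0 : 0 < ℓ0) (hp : (∀ i, 0 ≤ p i) ∧ ∑ i, p i = 1) {α χ : ℝ} (hχ : 0 ≤ χ) (J : ℕ)
    (hst : ∀ a ∈ VJ σ ℓ p t J, shT J a ∈ VJ σ ℓ p t J)
    (hR : SoftR σ ℓ p t α J) (hL : SoftL σ ℓ p t α χ) (hF : SoftF σ ℓ p t α χ (ℂ × EJ ι J))
    {m : ℕ → ℕ} (hm : Tendsto m atTop atTop) {s : ℕ → ℂ} (hs : Tendsto s atTop (𝓝 0))
    {τ : ℕ → ι → ℂ} (hτ : ∀ i, Tendsto (fun j => τ j i) atTop (𝓝 (t i : ℂ)))
    {η : ℕ → ℝ} {A : ∀ j, Setoid (Fin (m j) → ι)}
    (hH : ∀ κ > 0, ∀ᶠ j in atTop, HW p (A j) ≤ (α + κ) * m j)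
    (hty : ∀ j u v, A j u v → wtype u = wtype v)
    (hA : ∀ j u v, A j u v → ‖val σ ℓ (s j) (τ j) u - val σ ℓ (s j) (τ j) v‖ ≤ η j)
    {d : ℕ → ℝ} (hd0 : ∀ j, 0 < d j) (hdD : ∀ j, DJ σ ℓ p t 0 (s j) (τ j) ≤ d j)
    (hds : ∀ j, ‖s j‖ ≤ d j ^ 2) (hη : ∀ j, η j ≤ d j ^ (2 * J + 2))
    (hX : Tendsto (fun j => -Real.log (d j) / m j) atTop atTop)
    (hbad : ∀ j, d j ^ (2 * J + 1) ≤ DJ σ ℓ p t J (s j) (τ j)) : False := by
  classical
  set V := VJ σ ℓ p t J with hV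
  set P := V.starProjection with hP
  have hPN := proj_shJ hst
  set N : EJ ι J →L[ℝ] EJ ι J := shJ J with hN
  set D : ℕ → ℝ := fun j => DJ σ ℓ p t J (s j) (τ j) with hD
  have hDpos : ∀ j, 0 < D j := fun j => (pow_pos (hd0 j) _).trans_le (hbad j)
  set φ : ℕ → EJ ι J →L[ℝ] ℂ := fun j => (AJ J (s j) (τ j)).comp P with hφ
  set ξ : ℕ → EJ ι J →L[ℝ] ℂ := fun j => (D j)⁻¹ • (AJ J (s j) (τ j) - φ j) with hξ
  have hPP : ∀ v, P (P v) = P v := fun v =>
    Submodule.starProjection_eq_self_iff.2 (Submodule.starProjection_apply_mem _ _)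
  have hφP : ∀ j v, φ j (P v) = φ j v := by
    intro j v
    show AJ J (s j) (τ j) (P (P v)) = AJ J (s j) (τ j) (P v)
    rw [hPP]
  have hξ1 : ∀ j, ‖ξ j‖ = 1 := by
    intro j
    show ‖(D j)⁻¹ • (AJ J (s j) (τ j) - φ j)‖ = 1
    rw [norm_smul, Real.norm_of_nonneg (inv_nonneg.2 (hDpos j).le)]
    exact inv_mul_cancel₀ (hDpos j).ne'
  haveI : ProperSpace (EJ ι J →L[ℝ] ℂ) := FiniteDimensional.proper ℝ _
  obtain ⟨ξ', hξ', ψ, hψ, hlim⟩ := (isCompact_sphere (0 : EJ ι J →L[ℝ] ℂ) 1).tendsto_subseq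
    (x := ξ) (fun j => by simp [hξ1 j])
  have hψt := hψ.tendsto_atTop
  -- constants
  set C0 : ℝ := χ + Real.log (Fintype.card ι : ℕ) + 1 with hC0
  have hk : 1 ≤ Fintype.card ι := Fintype.card_pos
  have hlogk : 0 ≤ Real.log (Fintype.card ι : ℕ) := Real.log_nonneg (by exact_mod_cast hk)
  have hC0pos : 0 < C0 := by positivity
  obtain ⟨hnn, hup, hlo⟩ := nn_facts hd0 hm hX hC0pos
  set nb : ℕ → ℕ := fun j => ⌊-Real.log (d j) / (C0 * m j)⌋₊ with hnb
  -- `d → 0`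
  have hdlim : Tendsto d atTop (𝓝 0) := by
    have h1 : Tendsto (fun j => Real.exp (-(C0 * ((m j * nb j : ℕ) : ℝ)))) atTop (𝓝 0) := by
      have := (tendsto_natCast_atTop_atTop (R := ℝ)).comp hnn
      exact Real.tendsto_exp_neg_atTop_nhds_zero.comp (this.const_mul_atTop hC0pos)
    exact squeeze_zero' (Eventually.of_forall fun j => (hd0 j).le) hup h1
  have hd1 : ∀ᶠ j in atTop, d j ≤ 1 := by
    filter_upwards [hdlim.eventually (gt_mem_nhds (zero_lt_one))] with j hj using hj.le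
  set T : ℝ := ∑ i, |t i| + 1 with hT
  have hTpos : 0 ≤ T := by positivity
  have hτT : ∀ᶠ j in atTop, ∑ i, ‖τ j i‖ ≤ T := by
    have h1 : Tendsto (fun j => ∑ i, ‖τ j i‖) atTop (𝓝 (∑ i, |t i|)) := by
      refine tendsto_finsetSum _ fun i _ => ?_
      have := (hτ i).norm
      simpa using this
    filter_upwards [h1.eventually (gt_mem_nhds (lt_add_one _))] with j hj using hj.le
  have hs4 : ∀ᶠ j in atTop, ‖s j‖ ≤ 1 / 4 := by
    have h1 : Tendsto (fun j => ‖s j‖) atTop (𝓝 0) := by simpa using hs.norm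
    filter_upwards [h1.eventually (gt_mem_nhds (by norm_num : (0 : ℝ) < 1 / 4))] with j hj
      using hj.le
  -- the off-diagonal part
  set β : ℕ → EJ ι J →L[ℝ] ℂ := fun j => (D j)⁻¹ • (s j • φ j - (φ j).comp N) with hβ
  have hβv : ∀ j v, β j v = (D j)⁻¹ • (s j * φ j v - φ j (N v)) := fun j v => rfl
  have hβP : ∀ j v, β j (P v) = β j v := fun j v => beta_proj hPN (hφP j) (hβv j) v
  have hβeq : ∀ j, β j = (ξ j).comp N - s j • ξ j +
      (D j)⁻¹ • (s j • AJ J (s j) (τ j) - (AJ J (s j) (τ j)).comp N) := by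
    intro j
    refine ContinuousLinearMap.ext fun v => ?_
    show (D j)⁻¹ • (s j * φ j v - φ j (N v)) =
      (D j)⁻¹ • (AJ J (s j) (τ j) (N v) - φ j (N v)) -
        s j * ((D j)⁻¹ • (AJ J (s j) (τ j) v - φ j v)) +
        (D j)⁻¹ • (s j * AJ J (s j) (τ j) v - AJ J (s j) (τ j) (N v))
    simp only [Complex.real_smul]
    ring
  have hβlim : Tendsto (fun j => β (ψ j)) atTop (𝓝 (ξ'.comp N)) := by
    have h1 : Tendsto (fun j => (ξ (ψ j)).comp N) atTop (𝓝 (ξ'.comp N)) :=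
      ((((ContinuousLinearMap.compL ℝ (EJ ι J) (EJ ι J) ℂ).flip N).continuous.tendsto ξ').comp
        hlim)
    have h2 : Tendsto (fun j => s (ψ j) • ξ (ψ j)) atTop (𝓝 0) := by
      rw [tendsto_zero_iff_norm_tendsto_zero]
      have e1 : ∀ j, ‖s (ψ j) • ξ (ψ j)‖ = ‖s (ψ j)‖ := fun j => by
        rw [norm_smul, hξ1, mul_one]
      simp only [e1]
      simpa using (hs.comp hψt).norm
    have h3 : Tendsto (fun j => (D j)⁻¹ • (s j • AJ J (s j) (τ j) - (AJ J (s j) (τ j)).comp N))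
        atTop (𝓝 0) := by
      rw [tendsto_zero_iff_norm_tendsto_zero]
      have h4 : Tendsto (fun j => d j * T) atTop (𝓝 0) := by
        simpa using hdlim.mul_const T
      refine squeeze_zero' (Eventually.of_forall fun _ => norm_nonneg _) ?_ h4
      filter_upwards [hτT, hs4] with j hj hj4
      rw [norm_smul, Real.norm_of_nonneg (inv_nonneg.2 (hDpos j).le), norm_sub_rev]
      have h5 := norm_AJ_comp_shJ_le J (s := s j) (by linarith) (τ j)
      have h6 : ‖s j‖ ^ (J + 1) ≤ d j ^ (2 * J + 2) := by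
        calc ‖s j‖ ^ (J + 1) ≤ (d j ^ 2) ^ (J + 1) := pow_le_pow_left₀ (norm_nonneg _) (hds j) _
          _ = _ := by rw [← pow_mul]; congr 1
      have h7 : ‖s j‖ ^ (J + 1) * ∑ i, ‖τ j i‖ ≤ D j * (d j * T) := by
        calc ‖s j‖ ^ (J + 1) * ∑ i, ‖τ j i‖ ≤ d j ^ (2 * J + 2) * T := by
              have := (hd0 j).le
              gcongr
          _ = d j ^ (2 * J + 1) * (d j * T) := by ring
          _ ≤ D j * (d j * T) := by
              have := (hd0 j).le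
              have := hbad j
              gcongr
      rw [inv_mul_le_iff₀ (hDpos j)]
      exact h5.trans h7
    have h4 := (h1.sub h2).add (h3.comp hψt)
    simp only [sub_zero, add_zero] at h4
    refine h4.congr fun j => ?_
    exact (hβeq (ψ j)).symm
  have hβ'P : ∀ v, (ξ'.comp N) (P v) = ξ' (N v) := by
    intro v
    have h1 : Tendsto (fun j => β (ψ j) (P v)) atTop (𝓝 ((ξ'.comp N) (P v))) :=
      ((ContinuousLinearMap.apply ℝ ℂ (P v)).continuous.tendsto _).comp hβlim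
    have h2 : Tendsto (fun j => β (ψ j) v) atTop (𝓝 ((ξ'.comp N) v)) :=
      ((ContinuousLinearMap.apply ℝ ℂ v).continuous.tendsto _).comp hβlim
    refine tendsto_nhds_unique h1 (h2.congr fun j => ?_)
    exact (hβP (ψ j) v).symm
  -- finite word values
  have hpf : ∀ (j : ℕ) {n : ℕ} (u : Fin n → ι),
      pfin (gen σ ℓ (LJ P N (s j) (β j))) (fun a => TJ P (D j) (φ j) (τ j a, bJ J a)) u =
        TJ P (D j) (φ j) (val σ ℓ (s j) (τ j) u, jf σ ℓ J u) := by
    intro j n u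
    rw [pfin_comp (T := TJ P (D j) (φ j))
      (fun a => comp_gen σ ℓ (TJ_comp hPN (hφP j) (hβv j)) a), pfin_Lsrc]
    rfl
  -- entropy and closeness
  have hent : ∀ κ > 0, ∀ᶠ j in atTop, ∃ S : Setoid (Fin (m j * nb j) → ι),
      HW p S ≤ (α + κ) * ((m j * nb j : ℕ) : ℝ) ∧ ∀ u v, S u v →
        ‖pfin (gen σ ℓ (LJ P N (s j) (β j))) (fun a => TJ P (D j) (φ j) (τ j a, bJ J a)) u -
          pfin (gen σ ℓ (LJ P N (s j) (β j))) (fun a => TJ P (D j) (φ j) (τ j a, bJ J a)) v‖ ≤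
          Real.exp (-(χ * ((m j * nb j : ℕ) : ℝ))) := by
    intro κ hκ
    set q : ℝ := 2 * C0 * (2 * J + 1) + C0 with hq
    have hqpos : 0 < q := by positivity
    obtain ⟨ε, hε, hLn⟩ := hL (κ / 3) (by positivity)
    have hw : ∀ᶠ j in atTop, ∀ i,
        |wv ((AJ 0 (s j) (τ j)).comp (VJ σ ℓ p t 0).starProjection) i - t i| < ε := by
      rw [eventually_all]
      intro i
      have h1 := tendsto_wv (s := s) hσ hℓ h0 p t hτ i
      have h2 := (tendsto_iff_dist_tendsto_zero.1 h1).eventually (gt_mem_nhds hε)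
      filter_upwards [h2] with j hj
      rwa [Real.dist_eq] at hj
    set q0 : ℝ := Real.exp (-ℓ0 / 2) with hq0
    have hq01 : q0 < 1 := exp_half_lt_one h0
    have h1q : 0 < 1 - q0 := by linarith
    set K1 : ℝ := 1 / (1 - q0) + 8 * jK ℓ0 * T + 2 * K0 ι ℓ0 + T with hK1
    set K2 : ℝ := 1 / (1 - q0) + (J + 1) * T + 1 with hK2
    have hjK := jK_pos h0
    have hK0 : 0 ≤ K0 ι ℓ0 := Real.sqrt_nonneg _
    filter_upwards [hm.eventually_ge_atTop 1,
      hH (κ / 3) (by positivity), hnn.eventually (hR q hqpos (κ / 3) (by positivity)),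
      hnn.eventually hLn, hw, hup, hlo, hd1, hτT, hs4, ev_le_exp hnn K1, ev_le_exp hnn K2]
      with j hm1 hHj hRj' hLj' hwj hupj hloj hd1j hTj hs4j hK1j hK2j
    have hRj : ∃ R : Setoid (Fin (m j * nb j) → ι),
        HW p R ≤ (α + κ / 3) * ((m j * nb j : ℕ) : ℝ) ∧ ∀ u v, R u v → wtype u = wtype v ∧
          ‖P (jf σ ℓ J u - jf σ ℓ J v)‖ ≤ Real.exp (-(q * ((m j * nb j : ℕ) : ℝ))) := hRj'
    have hLj : ∀ w : ι → ℝ, (∀ i, |w i - t i| < ε) → ∀ S : Setoid (Fin (m j * nb j) → ι),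
        (∀ u v, S u v →
          |∑ i, cw (rayR σ ℓ 0) u i * w i - ∑ i, cw (rayR σ ℓ 0) v i * w i| ≤
          Real.exp (-(χ * ((m j * nb j : ℕ) : ℝ)))) →
        (α - κ / 3) * ((m j * nb j : ℕ) : ℝ) ≤ HW p S := hLj'
    set n : ℕ := m j * nb j with hn
    obtain ⟨R, hR1, hR2⟩ := hRj
    set B : Setoid (Fin n → ι) := blk (A j) (nb j) with hB
    have hBty : ∀ u v, B u v → wtype u = wtype v := blk_wtype (hty j) (nb j)
    have hs1 : ‖s j‖ ≤ 1 := by linarith
    have hη0 : 0 ≤ η j := by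
      obtain ⟨i0⟩ := ‹Nonempty ι›
      exact (norm_nonneg _).trans (hA j (fun _ => i0) (fun _ => i0) ((A j).refl _))
    have hBval : ∀ u v, B u v →
        ‖val σ ℓ (s j) (τ j) u - val σ ℓ (s j) (τ j) v‖ ≤ η j / (1 - q0) := by
      intro u v huv
      exact norm_blk_le (fun i => norm_rayC_le hσ hℓ h0.le (s := s j) (by linarith) i) hq01 (τ j)
        hm1 (hty j) (hA j) (nb j) u v huv
    have hdj0 := hd0 j
    have hT0 : 0 ≤ ∑ i, ‖τ j i‖ := Finset.sum_nonneg fun _ _ => norm_nonneg _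
    set e' : ℝ := Real.exp (-(q * n)) with he'
    set x : ℝ := Real.exp (-(C0 * n)) with hx
    have hx0 : 0 ≤ x := (Real.exp_pos _).le
    have hdx : d j ≤ x := hupj
    have he'x : e' ≤ x := by
      refine Real.exp_le_exp.2 ?_
      have : C0 * n ≤ q * n := by
        refine mul_le_mul_of_nonneg_right ?_ (Nat.cast_nonneg _)
        have : 0 ≤ 2 * C0 * (2 * (J : ℝ) + 1) := by positivity
        linarith
      linarith
    have hpow1 : d j ^ (2 * J + 2) ≤ d j := by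
      calc d j ^ (2 * J + 2) ≤ d j ^ 1 := pow_le_pow_of_le_one hdj0.le hd1j (by omega)
        _ = d j := pow_one _
    have hηd : η j / (1 - q0) ≤ 1 / (1 - q0) * d j := by
      rw [div_eq_mul_one_div, mul_comm]
      exact mul_le_mul_of_nonneg_left ((hη j).trans hpow1) (by positivity)
    -- base values
    have hbA : ∀ u v, B u v →
        |∑ i, cw (rayR σ ℓ 0) u i *
            wv ((AJ 0 (s j) (τ j)).comp (VJ σ ℓ p t 0).starProjection) i -
          ∑ i, cw (rayR σ ℓ 0) v i *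
            wv ((AJ 0 (s j) (τ j)).comp (VJ σ ℓ p t 0).starProjection) i| ≤ K1 * x := by
      intro u v huv
      refine (base_A hσ hℓ h0 hs4j (τ j) u v (hBval u v huv)).trans ?_
      have h1 : ‖s j‖ ≤ d j := (hds j).trans (by nlinarith)
      have h2 : 8 * jK ℓ0 * (∑ i, ‖τ j i‖) * ‖s j‖ ≤ 8 * jK ℓ0 * T * d j := by gcongr
      have h3 : 2 * K0 ι ℓ0 * DJ σ ℓ p t 0 (s j) (τ j) ≤ 2 * K0 ι ℓ0 * d j :=
        mul_le_mul_of_nonneg_left (hdD j) (by positivity)
      have h4 : (1 / (1 - q0) + 8 * jK ℓ0 * T + 2 * K0 ι ℓ0) * d j ≤ K1 * x := by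
        refine mul_le_mul ?_ hdx hdj0.le (by positivity)
        rw [hK1]; linarith
      nlinarith
    have hbR : ∀ u v, R u v →
        |∑ i, cw (rayR σ ℓ 0) u i *
            wv ((AJ 0 (s j) (τ j)).comp (VJ σ ℓ p t 0).starProjection) i -
          ∑ i, cw (rayR σ ℓ 0) v i *
            wv ((AJ 0 (s j) (τ j)).comp (VJ σ ℓ p t 0).starProjection) i| ≤ K1 * x := by
      intro u v huv
      refine (base_R hs1 (τ j) u v (hR2 u v huv).2).trans ?_
      have : T ≤ K1 := by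
        rw [hK1]
        have : 0 ≤ 1 / (1 - q0) + 8 * jK ℓ0 * T + 2 * K0 ι ℓ0 := by positivity
        linarith
      calc (∑ i, ‖τ j i‖) * Real.exp (-(q * n)) ≤ T * x := by
            refine mul_le_mul hTj he'x (Real.exp_pos _).le hTpos
        _ ≤ K1 * x := mul_le_mul_of_nonneg_right this hx0
    have hcs := const_step (χ := χ) (k := Fintype.card ι) hk (n := n) (K := K1) (x := x) hK1j hx0
      (le_refl _)
    have hcs2 := const_step (χ := χ) (k := Fintype.card ι) hk (n := n) (K := K2) (x := x) hK2j hx0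
      (le_refl _)
    have hK1x : 0 ≤ K1 * x := by positivity
    have hHB : HW p B ≤ (α + κ / 3) * n := by
      rw [hB, HW_blk hp]
      have : (nb j : ℝ) * HW p (A j) ≤ nb j * ((α + κ / 3) * m j) :=
        mul_le_mul_of_nonneg_left hHj (Nat.cast_nonneg _)
      rw [hn]
      push_cast
      linarith
    have hfin := join_step (σ := σ) (ℓ := ℓ) hp hK1x hbA hbR
      (by rw [Fintype.card_fun, Fintype.card_fin]; push_cast; exact hcs.2)
      (fun S hS => hLj _ hwj S hS) hHB hR1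
    refine ⟨B ⊓ R, ?_, ?_⟩
    · refine hfin.trans (le_of_eq ?_)
      ring
    · intro u v huv
      have huB : B u v := huv.1
      have huR : R u v := huv.2
      rw [hpf, hpf]
      refine (close_TJ hs1 (τ j) u v (hDpos j) (hBval u v huB) (hR2 u v huR).2).trans ?_
      refine le_trans ?_ hcs2.1
      have hDinv : (D j)⁻¹ ≤ (d j ^ (2 * J + 1))⁻¹ :=
        inv_anti₀ (pow_pos hdj0 _) (hbad j)
      have hDi0 : 0 ≤ (D j)⁻¹ := (inv_pos.2 (hDpos j)).le
      -- first error term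
      have e1 : (D j)⁻¹ * (η j / (1 - q0)) ≤ 1 / (1 - q0) * x := by
        calc (D j)⁻¹ * (η j / (1 - q0))
            ≤ (d j ^ (2 * J + 1))⁻¹ * (d j ^ (2 * J + 2) / (1 - q0)) := by
              have := hη j
              gcongr
          _ = 1 / (1 - q0) * d j := by
              have h9 : d j ^ (2 * J + 1) ≠ 0 := (pow_pos hdj0 _).ne'
              have h10 : (d j ^ (2 * J + 1))⁻¹ * (d j ^ (2 * J + 2) / (1 - q0)) =
                  ((d j ^ (2 * J + 1))⁻¹ * d j ^ (2 * J + 1)) * (1 / (1 - q0) * d j) := by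
                rw [show 2 * J + 2 = (2 * J + 1) + 1 from rfl, pow_succ (d j) (2 * J + 1)]; ring
              rw [h10, inv_mul_cancel₀ h9, one_mul]
          _ ≤ 1 / (1 - q0) * x := by gcongr
      have e2 : (D j)⁻¹ * e' ≤ x := by
        have h1 : (d j ^ (2 * J + 1))⁻¹ ≤ Real.exp (2 * C0 * n * (2 * J + 1)) := by
          have h2 : Real.exp (-(2 * C0 * n)) ^ (2 * J + 1) ≤ d j ^ (2 * J + 1) :=
            pow_le_pow_left₀ (Real.exp_pos _).le hloj _
          have h3 : Real.exp (-(2 * C0 * n)) ^ (2 * J + 1) =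
              (Real.exp (2 * C0 * n * (2 * J + 1)))⁻¹ := by
            rw [← Real.exp_nat_mul, ← Real.exp_neg]
            congr 1; push_cast; ring
          rw [h3] at h2
          have := inv_anti₀ (by positivity) h2
          rwa [inv_inv] at this
        calc (D j)⁻¹ * e' ≤ Real.exp (2 * C0 * n * (2 * J + 1)) * e' :=
              mul_le_mul_of_nonneg_right (hDinv.trans h1) (Real.exp_pos _).le
          _ = x := by
              rw [he', hx, ← Real.exp_add]; congr 1; rw [hq]; ring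
      have e3 : (D j)⁻¹ * (η j / (1 - q0) + (J + 1) * (∑ i, ‖τ j i‖) * e') + e' ≤
          1 / (1 - q0) * x + (J + 1) * T * x + x := by
        have e4 : (D j)⁻¹ * ((J + 1) * (∑ i, ‖τ j i‖) * e') ≤ (J + 1) * T * x := by
          calc (D j)⁻¹ * ((J + 1) * (∑ i, ‖τ j i‖) * e')
              = (J + 1) * (∑ i, ‖τ j i‖) * ((D j)⁻¹ * e') := by ring
            _ ≤ (J + 1) * T * x := by
                have : 0 ≤ (D j)⁻¹ * e' := mul_nonneg hDi0 (Real.exp_pos _).le
                gcongr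
        rw [mul_add]
        linarith
      refine e3.trans (le_of_eq ?_)
      rw [hK2]; ring
  -- the limit process
  have hTI : ∀ a, (TI P ξ').comp (GJ σ ℓ J a) =
      (gen σ ℓ (LJ P N 0 (ξ'.comp N)) a).comp (TI P ξ') := fun a =>
    comp_gen σ ℓ (TI_comp hPN hβ'P) a
  have hproc : IsProc (gen σ ℓ (LJ P N 0 (ξ'.comp N))) (fun a => TI P ξ' (bJ J a))
      (fun w => TI P ξ' (ji σ ℓ J w)) := (isProc_ji hσ hℓ h0 J).comp hTI
  set φ0 : (ℂ × EJ ι J) →L[ℝ] ℝ :=
    (innerSL ℝ (lift0 J (at0 t))).comp (ContinuousLinearMap.snd ℝ ℂ (EJ ι J)) with hφ0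
  have hφ0w : ∀ w, φ0 (TI P ξ' (ji σ ℓ J w)) = Pi (rayR σ ℓ 0) t w := by
    intro w
    show inner ℝ (lift0 J (at0 t)) (P (ji σ ℓ J w)) = _
    have h := Submodule.starProjection_inner_eq_zero (K := V) (ji σ ℓ J w) (lift0 J (at0 t))
      (lift0_mem (at0_mem hσ hℓ h0 p t))
    rw [inner_sub_left, sub_eq_zero] at h
    rw [real_inner_comm, hP, ← h, real_inner_comm, inner_lift0, res0_ji, inner_at0_ji hσ hℓ h0]
  have hconc := hF (fun j => LJ P N (s (ψ j)) (β (ψ j))) (LJ P N 0 (ξ'.comp N))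
    (fun j a => TJ P (D (ψ j)) (φ (ψ j)) (τ (ψ j) a, bJ J a)) (fun a => TI P ξ' (bJ J a))
    (fun w => TI P ξ' (ji σ ℓ J w)) (fun j => m (ψ j) * nb (ψ j)) φ0
    (tendsto_LJ (hs.comp hψt) hβlim) ⟨J + 2, LJ_nilpotent hPN (shJ_nilpotent J) _⟩
    (by
      intro a
      have h1 : ∀ j, TJ P (D (ψ j)) (φ (ψ j)) (τ (ψ j) a, bJ J a) =
          (ξ (ψ j) (bJ J a), P (bJ J a)) := by
        intro j
        rw [TJ_apply]
        refine Prod.ext ?_ rfl
        show (D (ψ j))⁻¹ • (τ (ψ j) a - φ (ψ j) (bJ J a)) =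
          (D (ψ j))⁻¹ • (AJ J (s (ψ j)) (τ (ψ j)) (bJ J a) - φ (ψ j) (bJ J a))
        rw [AJ_bJ]
      simp only [h1]
      exact (((ContinuousLinearMap.apply ℝ ℂ (bJ J a)).continuous.tendsto _).comp
        hlim).prodMk_nhds tendsto_const_nhds)
    (hnn.comp hψt) hproc hφ0w (fun κ hκ => hψt.eventually (hent κ hκ))
  have hξ0 : ξ' = 0 := by
    refine xi_zero (σ := σ) (ℓ := ℓ) (p := p) (t := t) ?_ ?_
    · intro v
      have h1 : Tendsto (fun j => ξ (ψ j) (P v)) atTop (𝓝 (ξ' (P v))) :=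
        ((ContinuousLinearMap.apply ℝ ℂ (P v)).continuous.tendsto _).comp hlim
      refine tendsto_nhds_unique h1 ?_
      refine tendsto_const_nhds.congr fun j => ?_
      show (0 : ℂ) = (D (ψ j))⁻¹ • (AJ J (s (ψ j)) (τ (ψ j)) (P v) - φ (ψ j) (P v))
      have : φ (ψ j) (P v) = AJ J (s (ψ j)) (τ (ψ j)) (P v) := hφP (ψ j) v
      rw [this, sub_self, smul_zero]
    · intro φ1
      exact hconc (φ1.comp (ContinuousLinearMap.fst ℝ ℂ (EJ ι J)))
  rw [mem_sphere_zero_iff_norm, hξ0, norm_zero] at hξ'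
  exact zero_ne_one hξ'

end Main

end Crest.Agent.R98
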