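import Crest.Agent.R98.CoreMk
import Crest.Agent.R98.FDF3
import Crest.Agent.R98.GenFlow2
import Crest.Agent.R98.F4

/-!
# Row 98: (UNI-ENT), the entropy half of (UNI) (helper582)

From the data of `UniP` and the exponential collapse at `ω = (0, t)` to partitions of words of
length `nj j` with entropy `≤ (α + κ) nj j` on the classes of which the value functional at
`(s_j, τ_j)` and the projected jets are `≤ c exp (-χ nj j) d_j ^ (2 J + 1)`.
-/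

set_option autoImplicit false
set_option linter.unusedSectionVars false
set_option linter.unusedVariables false

open Filter Topology Finset MeasureTheory

namespace Crest.Agent.R98.UniEnt

open Crest.Agent.R98 Crest.Agent.R98.Part
open Crest.Agent.R098.Upper (pw pw_nonneg sum_pw)

section Alg

variable {A : Type*} [Ring A]

theorem isNilpotent_mul_of {π N : A} (h : π * N = π * N * π) (hN : IsNilpotent N) :
    IsNilpotent (π * N) := by
  obtain ⟨k, hk⟩ := hN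
  have key : ∀ n : ℕ, (π * N) ^ (n + 1) = π * N ^ (n + 1) := by
    intro n
    induction n with
    | zero => simp
    | succ n ih =>
      rw [pow_succ' (π * N) (n + 1), ih, ← mul_assoc, ← h, mul_assoc, ← pow_succ']
  refine ⟨k + 1, ?_⟩
  rw [key, pow_succ, hk, zero_mul, mul_zero]

end Alg

section Proc

variable {ι : Type*} [Fintype ι]

theorem isNilpotent_shJ (J : ℕ) : IsNilpotent (shJ J : EJ ι J →L[ℝ] EJ ι J) := by
  refine ⟨J + 1, ?_⟩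
  refine ContinuousLinearMap.ext fun v => ?_
  ext x
  rw [shJ_pow_apply, dif_neg (by have := x.1.isLt; omega)]
  rfl

variable [MeasurableSpace ι] {σ ℓ p t : ι → ℝ} {J : ℕ}

/-- stability of `V_J` under the transposed shift -/
def Stab (σ ℓ p t : ι → ℝ) (J : ℕ) : Prop :=
  (VJ σ ℓ p t J).starProjection.comp (shJ J) =
    ((VJ σ ℓ p t J).starProjection.comp (shJ J)).comp (VJ σ ℓ p t J).starProjection

/-- the generator of the projected jets -/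
noncomputable def Lpi (σ ℓ p t : ι → ℝ) (J : ℕ) : EJ ι J →L[ℝ] EJ ι J :=
  ContinuousLinearMap.id ℝ (EJ ι J) + (VJ σ ℓ p t J).starProjection.comp (shJ J)

theorem comp_Lpi (hst : Stab σ ℓ p t J) :
    (VJ σ ℓ p t J).starProjection.comp (ContinuousLinearMap.id ℝ (EJ ι J) + shJ J) =
      (Lpi σ ℓ p t J).comp (VJ σ ℓ p t J).starProjection := by
  unfold Lpi
  rw [ContinuousLinearMap.comp_add, ContinuousLinearMap.add_comp, ← hst]
  rfl

theorem isNilpotent_Lpi (hst : Stab σ ℓ p t J) : IsNilpotent (Lpi σ ℓ p t J - 1) := by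
  have e : Lpi σ ℓ p t J - 1 = (VJ σ ℓ p t J).starProjection * shJ J := by
    unfold Lpi
    have : (ContinuousLinearMap.id ℝ (EJ ι J)) = 1 := rfl
    rw [this, add_sub_cancel_left]
    rfl
  rw [e]
  exact isNilpotent_mul_of hst (isNilpotent_shJ J)

theorem comp_GJ (hst : Stab σ ℓ p t J) (a : ι) :
    (VJ σ ℓ p t J).starProjection.comp (GJ σ ℓ J a) =
      (gen σ ℓ (Lpi σ ℓ p t J) a).comp (VJ σ ℓ p t J).starProjection :=
  comp_gen σ ℓ (comp_Lpi hst) a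

theorem isProc_pi [DiscreteMeasurableSpace ι] (hst : Stab σ ℓ p t J) (hσ : ∀ i, |σ i| ≤ 1)
    {ℓ0 : ℝ} (hℓ : ∀ i, ℓ0 ≤ ℓ i) (h0 : 0 < ℓ0) :
    IsProc (gen σ ℓ (Lpi σ ℓ p t J)) (fun a => (VJ σ ℓ p t J).starProjection (bJ J a))
      (fun w => (VJ σ ℓ p t J).starProjection (ji σ ℓ J w)) :=
  IsProc.comp (comp_GJ hst) (isProc_ji hσ hℓ h0 J)

theorem pfin_pi (hst : Stab σ ℓ p t J) {n : ℕ} (u : Fin n → ι) :
    pfin (gen σ ℓ (Lpi σ ℓ p t J)) (fun a => (VJ σ ℓ p t J).starProjection (bJ J a)) u =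
      (VJ σ ℓ p t J).starProjection (jf σ ℓ J u) := by
  rw [pfin_comp (comp_GJ hst), jf_eq_pfin]

theorem fac_pi (φ : EJ ι J →L[ℝ] ℝ) : Fac p (Pi (rayR σ ℓ 0) t)
    (fun w => φ ((VJ σ ℓ p t J).starProjection (ji σ ℓ J w))) := by
  set a : EJ ι J := (InnerProductSpace.toDual ℝ (EJ ι J)).symm φ with ha
  have h1 : (VJ σ ℓ p t J).starProjection a ∈ VJ σ ℓ p t J :=
    (VJ σ ℓ p t J).starProjection_apply_mem _
  refine Fac.congr ((mem_VJ σ ℓ p t J _).1 h1) (Eventually.of_forall fun w => ?_)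
  show inner ℝ ((VJ σ ℓ p t J).starProjection a) (ji σ ℓ J w) = _
  rw [Submodule.inner_starProjection_left_eq_right, ha, InnerProductSpace.toDual_symm_apply]

end Proc

section Coll

variable {ι : Type*} [Fintype ι] [Nonempty ι] [MeasurableSpace ι] [DiscreteMeasurableSpace ι]
  {σ ℓ p t : ι → ℝ} {J : ℕ}

/-- exponential collapse at `ω = (0, t)` -/
def Coll (p σ ℓ t : ι → ℝ) : Prop :=
  ∀ q > 0, ∀ η > 0, ∀ᶠ n : ℕ in atTop, ∃ S : Setoid (Fin n → ι),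
    HS (pw p) S ≤ (F.alpha p (Pi (rayR σ ℓ 0) t) + η) * n ∧
    ∀ u v, S u v → wtype u = wtype v ∧
      |∑ i, (cw (rayR σ ℓ 0) u i - cw (rayR σ ℓ 0) v i) * t i| ≤ Real.exp (-q * n)

/-- (F3) for an abstract process on jets -/
theorem coll_abs (hp : (∀ i, 0 ≤ p i) ∧ ∑ i, p i = 1) (hσ : ∀ i, |σ i| = 1) (hℓ : ∀ i, 0 < ℓ i)
    (hcol : Coll p σ ℓ t) (L : EJ ι J →L[ℝ] EJ ι J) (hN : IsNilpotent (L - 1)) (b : ι → EJ ι J)
    (Φ : (ℕ → ι) → EJ ι J) (hpr : IsProc (gen σ ℓ L) b Φ)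
    (hfac : ∀ φ : EJ ι J →L[ℝ] ℝ, Fac p (Pi (rayR σ ℓ 0) t) (fun w => φ (Φ w)))
    {q : ℝ} (hq : 0 < q) {η : ℝ} (hη : 0 < η) :
    ∀ᶠ n : ℕ in atTop, ∃ S : Setoid (Fin n → ι),
      HS (pw p) S ≤ (F.alpha p (Pi (rayR σ ℓ 0) t) + η) * n ∧
      ∀ u v, S u v → wtype u = wtype v ∧
        ‖pfin (gen σ ℓ L) b u - pfin (gen σ ℓ L) b v‖ ≤ Real.exp (-q * n) := by
  obtain ⟨C, δ, hC, hδ, hGB⟩ := GF.exists_GB hN (d := 1 / 2) (by norm_num) le_rfl
  have h0' : ‖L - L‖ ≤ δ := by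
    rw [sub_self, norm_zero]
    exact hδ.le
  exact FD.F3 (E := EJ ι J) hσ hℓ hp t (hGB L h0') hpr hfac hcol hq hη

/-- (F3) for the projected jets -/
theorem coll_pi (hp : (∀ i, 0 ≤ p i) ∧ ∑ i, p i = 1) (hσ : ∀ i, |σ i| = 1) (hℓ : ∀ i, 0 < ℓ i)
    (hcol : Coll p σ ℓ t) (hst : Stab σ ℓ p t J) {q : ℝ} (hq : 0 < q) {η : ℝ} (hη : 0 < η) :
    ∀ᶠ n : ℕ in atTop, ∃ S : Setoid (Fin n → ι),
      HS (pw p) S ≤ (F.alpha p (Pi (rayR σ ℓ 0) t) + η) * n ∧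
      ∀ u v, S u v → wtype u = wtype v ∧
        ‖(VJ σ ℓ p t J).starProjection (jf σ ℓ J u - jf σ ℓ J v)‖ ≤ Real.exp (-q * n) := by
  obtain ⟨ℓ0, M, h0, hal, hM⟩ := FD.exists_bounds hℓ
  have hN := isNilpotent_Lpi (J := J) hst
  have hpr := isProc_pi (J := J) hst (fun i => (hσ i).le) hal h0
  have h2 := coll_abs hp hσ hℓ hcol _ hN _ _ hpr (fun φ => fac_pi φ) hq hη
  refine h2.mono fun n hn => ?_
  obtain ⟨S, hS, hS'⟩ := hn
  refine ⟨S, hS, fun u v huv => ⟨(hS' u v huv).1, ?_⟩⟩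
  have h3 := (hS' u v huv).2
  have h6 : (VJ σ ℓ p t J).starProjection (jf σ ℓ J u - jf σ ℓ J v) =
      (VJ σ ℓ p t J).starProjection (jf σ ℓ J u) - (VJ σ ℓ p t J).starProjection (jf σ ℓ J v) :=
    map_sub _ _ _
  rw [h6, ← pfin_pi hst u, ← pfin_pi hst v]
  exact h3

end Coll

section Real0

variable {ι : Type*} [Fintype ι] [MeasurableSpace ι] {σ ℓ p t : ι → ℝ} {J : ℕ}

/-- a real parameter as a jet functional -/
noncomputable def lift0 (J : ℕ) (t' : ι → ℝ) : EJ ι J :=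
  WithLp.toLp 2 fun x : Fin (J + 1) × ι => if (x.1 : ℕ) = 0 then t' x.2 else 0

theorem sum_lift0 (J : ℕ) (t' : ι → ℝ) (g : Fin (J + 1) × ι → ℝ) :
    ∑ x : Fin (J + 1) × ι, (lift0 J t' x) * g x = ∑ i, t' i * g (0, i) := by
  rw [Fintype.sum_prod_type]
  rw [Finset.sum_eq_single (0 : Fin (J + 1))]
  · refine Finset.sum_congr rfl fun i _ => ?_
    simp [lift0]
  · intro l _ hl
    refine Finset.sum_eq_zero fun i _ => ?_
    simp [lift0, hl]
  · simp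

theorem inner_lift0 (t' : ι → ℝ) (v : EJ ι J) :
    inner ℝ (lift0 J t') v = ∑ i, t' i * v (0, i) := by
  rw [PiLp.inner_apply, ← sum_lift0]
  refine Finset.sum_congr rfl fun x _ => ?_
  simp [mul_comm]

theorem inner_lift0_jf (t' : ι → ℝ) {n : ℕ} (u : Fin n → ι) :
    inner ℝ (lift0 J t') (jf σ ℓ J u) = ∑ i, cw (rayR σ ℓ 0) u i * t' i := by
  rw [inner_lift0]
  refine Finset.sum_congr rfl fun i _ => ?_
  rw [jf_apply, mul_comm]
  congr 1
  exact jetw_zero_eq σ ℓ u i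

theorem inner_lift0_ji (hσ : ∀ i, |σ i| ≤ 1) {ℓ0 : ℝ} (hℓ : ∀ i, ℓ0 ≤ ℓ i) (h0 : 0 < ℓ0)
    (t' : ι → ℝ) (w : ℕ → ι) :
    inner ℝ (lift0 J t') (ji σ ℓ J w) = Pi (rayR σ ℓ 0) t' w := by
  rw [inner_lift0]
  unfold Pi
  refine Finset.sum_congr rfl fun i _ => ?_
  rw [ji_apply, mul_comm]
  congr 1
  exact jetinf_zero_eq hσ hℓ h0 w i

theorem lift0_mem (hσ : ∀ i, |σ i| ≤ 1) {ℓ0 : ℝ} (hℓ : ∀ i, ℓ0 ≤ ℓ i) (h0 : 0 < ℓ0)
    {t' : ι → ℝ} (h : Fac p (Pi (rayR σ ℓ 0) t) (Pi (rayR σ ℓ 0) t')) :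
    lift0 J t' ∈ VJ σ ℓ p t J := by
  rw [mem_VJ]
  refine h.congr (Eventually.of_forall fun w => ?_)
  exact (inner_lift0_ji hσ hℓ h0 t' w).symm

theorem norm_lift0_le (t' : ι → ℝ) : ‖lift0 J t'‖ ≤ ∑ i, |t' i| := by
  have h1 : ‖lift0 J t'‖ ^ 2 = ∑ i, t' i * t' i := by
    rw [← real_inner_self_eq_norm_sq, inner_lift0]
    refine Finset.sum_congr rfl fun i _ => ?_
    simp [lift0]
  have h2 : ∑ i, t' i * t' i ≤ (∑ i, |t' i|) ^ 2 := by
    rw [sq, Finset.sum_mul]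
    refine Finset.sum_le_sum fun i _ => ?_
    rw [← abs_mul_abs_self]
    refine mul_le_mul_of_nonneg_left ?_ (abs_nonneg _)
    exact Finset.single_le_sum (f := fun i => |t' i|) (fun _ _ => abs_nonneg _) (Finset.mem_univ i)
  have h3 : 0 ≤ ∑ i, |t' i| := Finset.sum_nonneg fun _ _ => abs_nonneg _
  exact abs_le_of_sq_le_sq' (by rw [h1]; exact h2) h3 |>.2

/-- the value functional at a real parameter which factors through the projection is controlled by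
the projected jets -/
theorem abs_val_le (hσ : ∀ i, |σ i| ≤ 1) {ℓ0 : ℝ} (hℓ : ∀ i, ℓ0 ≤ ℓ i) (h0 : 0 < ℓ0)
    {t' : ι → ℝ} (h : Fac p (Pi (rayR σ ℓ 0) t) (Pi (rayR σ ℓ 0) t')) {n : ℕ} (u v : Fin n → ι) :
    |∑ i, (cw (rayR σ ℓ 0) u i - cw (rayR σ ℓ 0) v i) * t' i| ≤
      (∑ i, |t' i|) * ‖(VJ σ ℓ p t J).starProjection (jf σ ℓ J u - jf σ ℓ J v)‖ := by
  have e : ∑ i, (cw (rayR σ ℓ 0) u i - cw (rayR σ ℓ 0) v i) * t' i =
      inner ℝ (lift0 J t') ((VJ σ ℓ p t J).starProjection (jf σ ℓ J u - jf σ ℓ J v)) := by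
    rw [← Submodule.inner_starProjection_left_eq_right,
      Submodule.starProjection_eq_self_iff.mpr (lift0_mem hσ hℓ h0 h), inner_sub_right,
      inner_lift0_jf, inner_lift0_jf, ← Finset.sum_sub_distrib]
    exact Finset.sum_congr rfl fun i _ => by ring
  rw [e]
  refine (abs_real_inner_le_norm _ _).trans ?_
  exact mul_le_mul_of_nonneg_right (norm_lift0_le t') (norm_nonneg _)

end Real0

section Est

variable {ι : Type*} [Fintype ι] {σ ℓ : ι → ℝ}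

/-- value functional at `s` versus at `0` -/
theorem norm_val_zero_le (hσ : ∀ i, |σ i| ≤ 1) {ℓ0 : ℝ} (hℓ : ∀ i, ℓ0 ≤ ℓ i) (h0 : 0 < ℓ0)
    {s : ℂ} (hs : ‖s‖ ≤ 1 / 4) (τ : ι → ℂ) {n : ℕ} (u : Fin n → ι) :
    ‖∑ i, cw (rayC σ ℓ s) u i * τ i - ∑ i, ((cw (rayR σ ℓ 0) u i : ℝ) : ℂ) * τ i‖ ≤
      4 * ‖s‖ * jK ℓ0 * ∑ i, ‖τ i‖ := by
  have h := norm_val_sub_AJ_le hσ hℓ h0 hs 0 τ u
  have e : AJ 0 s τ (jf σ ℓ 0 u) = ∑ i, ((cw (rayR σ ℓ 0) u i : ℝ) : ℂ) * τ i := by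
    rw [AJ_apply, Fintype.sum_prod_type]
    rw [Fin.sum_univ_succ]
    simp only [Finset.univ_eq_empty, Finset.sum_empty, add_zero, Fin.val_zero, pow_zero, one_mul]
    refine Finset.sum_congr rfl fun i _ => ?_
    rw [jf_apply, mul_comm]
    congr 2
    exact jetw_zero_eq σ ℓ u i
  rw [e] at h
  refine h.trans (le_of_eq ?_)
  ring

/-- value functional at a real parameter close to `τ` -/
theorem abs_val_real_le (hσ : ∀ i, |σ i| ≤ 1) {ℓ0 : ℝ} (hℓ : ∀ i, ℓ0 ≤ ℓ i) (h0 : 0 < ℓ0)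
    {s : ℂ} (hs : ‖s‖ ≤ 1 / 4) (τ : ι → ℂ) {t' b : ι → ℝ} {δ : ℝ}
    (hδ : ∀ i, ‖τ i - (t' i + b i * Complex.I)‖ ≤ δ) {n : ℕ} {u v : Fin n → ι} {η' : ℝ}
    (hη : ‖∑ i, cw (rayC σ ℓ s) u i * τ i - ∑ i, cw (rayC σ ℓ s) v i * τ i‖ ≤ η') :
    |∑ i, cw (rayR σ ℓ 0) u i * t' i - ∑ i, cw (rayR σ ℓ 0) v i * t' i| ≤
      η' + 8 * ‖s‖ * jK ℓ0 * (∑ i, ‖τ i‖) +
        2 * Fintype.card ι * (1 / (1 - Real.exp (-ℓ0 / 2))) * δ := by
  have hu := norm_val_zero_le hσ hℓ h0 hs τ u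
  have hv := norm_val_zero_le hσ hℓ h0 hs τ v
  set Zu : ℂ := ∑ i, ((cw (rayR σ ℓ 0) u i : ℝ) : ℂ) * τ i with hZu
  set Zv : ℂ := ∑ i, ((cw (rayR σ ℓ 0) v i : ℝ) : ℂ) * τ i with hZv
  have h1 : ‖Zu - Zv‖ ≤ η' + 8 * ‖s‖ * jK ℓ0 * (∑ i, ‖τ i‖) := by
    have e : Zu - Zv = (∑ i, cw (rayC σ ℓ s) u i * τ i - ∑ i, cw (rayC σ ℓ s) v i * τ i) -
        (∑ i, cw (rayC σ ℓ s) u i * τ i - Zu) + (∑ i, cw (rayC σ ℓ s) v i * τ i - Zv) := by ring
    rw [e]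
    refine (norm_add_le _ _).trans ?_
    have := norm_sub_le (∑ i, cw (rayC σ ℓ s) u i * τ i - ∑ i, cw (rayC σ ℓ s) v i * τ i)
      (∑ i, cw (rayC σ ℓ s) u i * τ i - Zu)
    linarith
  have hr : ∀ i, ‖rayR σ ℓ 0 i‖ ≤ Real.exp (-ℓ0 / 2) := fun i => by
    rw [Real.norm_eq_abs]
    exact abs_rayR_le hσ hℓ h0.le (by simp) i
  have hq := exp_half_lt_one h0
  set K : ℝ := 1 / (1 - Real.exp (-ℓ0 / 2)) with hK
  have hK0 : 0 < K := by
    rw [hK]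
    exact one_div_pos.2 (by linarith)
  have hcu : ∀ i, |cw (rayR σ ℓ 0) u i| ≤ K := fun i => by
    have := norm_cw_le hr hq u i
    rwa [Real.norm_eq_abs] at this
  have hcv : ∀ i, |cw (rayR σ ℓ 0) v i| ≤ K := fun i => by
    have := norm_cw_le hr hq v i
    rwa [Real.norm_eq_abs] at this
  have hre : ∀ i, |t' i - (τ i).re| ≤ δ := by
    intro i
    have h2 := Complex.abs_re_le_norm (τ i - (t' i + b i * Complex.I))
    have h3 : (τ i - (t' i + b i * Complex.I)).re = (τ i).re - t' i := by simp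
    rw [h3] at h2
    rw [abs_sub_comm]
    exact h2.trans (hδ i)
  have hZre : ∀ w : Fin n → ι, (∑ i, ((cw (rayR σ ℓ 0) w i : ℝ) : ℂ) * τ i).re =
      ∑ i, cw (rayR σ ℓ 0) w i * (τ i).re := by
    intro w
    rw [Complex.re_sum]
    refine Finset.sum_congr rfl fun i _ => ?_
    rw [Complex.re_ofReal_mul]
  have e2 : ∑ i, cw (rayR σ ℓ 0) u i * t' i - ∑ i, cw (rayR σ ℓ 0) v i * t' i =
      (Zu - Zv).re +
        ∑ i, (cw (rayR σ ℓ 0) u i - cw (rayR σ ℓ 0) v i) * (t' i - (τ i).re) := by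
    rw [Complex.sub_re, hZu, hZv, hZre, hZre, ← Finset.sum_sub_distrib, ← Finset.sum_sub_distrib,
      ← Finset.sum_add_distrib]
    exact Finset.sum_congr rfl fun i _ => by ring
  rw [e2]
  refine (abs_add_le _ _).trans (add_le_add ((Complex.abs_re_le_norm _).trans h1) ?_)
  refine (Finset.abs_sum_le_sum_abs _ _).trans ?_
  calc ∑ i, |(cw (rayR σ ℓ 0) u i - cw (rayR σ ℓ 0) v i) * (t' i - (τ i).re)|
      ≤ ∑ _i : ι, 2 * K * δ := by
        refine Finset.sum_le_sum fun i _ => ?_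
        rw [abs_mul]
        have h4 : |cw (rayR σ ℓ 0) u i - cw (rayR σ ℓ 0) v i| ≤ 2 * K :=
          (abs_sub _ _).trans (by linarith [hcu i, hcv i])
        exact mul_le_mul h4 (hre i) (abs_nonneg _) (by positivity)
    _ = 2 * Fintype.card ι * K * δ := by
        rw [Finset.sum_const, Finset.card_univ, nsmul_eq_mul]
        ring

end Est

section Seq

/-- the block numbers -/
theorem exists_blocks {m : ℕ → ℕ} {d : ℕ → ℝ} (hm : Tendsto m atTop atTop) (hd : ∀ j, 0 < d j)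
    (hlog : Tendsto (fun j => -Real.log (d j) / m j) atTop atTop) {C0 : ℝ} (hC : 0 < C0) :
    Tendsto d atTop (𝓝 0) ∧ ∃ N : ℕ → ℕ, Tendsto (fun j => m j * N j) atTop atTop ∧
      (∀ᶠ j in atTop, 0 < m j ∧ d j ≤ Real.exp (-(C0 * (m j * N j : ℕ))) ∧
        Real.exp (-(2 * C0 * (m j * N j : ℕ))) ≤ d j) := by
  have hm' : Tendsto (fun j => (m j : ℝ)) atTop atTop := tendsto_natCast_atTop_atTop.comp hm
  have hmpos : ∀ᶠ j in atTop, 0 < m j := hm.eventually_gt_atTop 0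
  have hD : Tendsto (fun j => -Real.log (d j)) atTop atTop := by
    have h1 := hlog.atTop_mul_atTop₀ hm'
    refine h1.congr' ?_
    filter_upwards [hmpos] with j hj
    have : (m j : ℝ) ≠ 0 := by exact_mod_cast hj.ne'
    field_simp
  have hd0 : Tendsto d atTop (𝓝 0) := by
    have h1 : Tendsto (fun j => Real.log (d j)) atTop atBot := by
      have := tendsto_neg_atTop_atBot.comp hD
      refine this.congr fun j => ?_
      simp
    have h2 := Real.tendsto_exp_atBot.comp h1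
    refine h2.congr fun j => ?_
    simp only [Function.comp]
    exact Real.exp_log (hd j)
  refine ⟨hd0, fun j => ⌊-Real.log (d j) / m j / C0⌋₊, ?_, ?_⟩
  · have h1 : Tendsto (fun j => ⌊-Real.log (d j) / m j / C0⌋₊) atTop atTop :=
      tendsto_nat_floor_atTop.comp (hlog.atTop_div_const hC)
    exact hm.atTop_mul_atTop₀ h1
  · have h2 : ∀ᶠ j in atTop, C0 ≤ -Real.log (d j) / m j := hlog.eventually_ge_atTop C0
    filter_upwards [hmpos, h2] with j hj h2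
    have hmj : (0 : ℝ) < m j := by exact_mod_cast hj
    set x : ℝ := -Real.log (d j) / m j / C0 with hx
    have hx1 : 1 ≤ x := by
      rw [hx, le_div_iff₀ hC, one_mul]
      exact h2
    have hDx : -Real.log (d j) = C0 * (m j * x) := by
      rw [hx]
      field_simp
    have hfl : (⌊x⌋₊ : ℝ) ≤ x := Nat.floor_le (by linarith)
    have hfl2 : x < ⌊x⌋₊ + 1 := Nat.lt_floor_add_one x
    have hfl3 : (1 : ℝ) ≤ ⌊x⌋₊ := by
      have : 1 ≤ ⌊x⌋₊ := Nat.le_floor (by simpa using hx1)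
      exact_mod_cast this
    refine ⟨hj, ?_, ?_⟩
    · rw [← Real.exp_log (hd j), Real.exp_le_exp]
      push_cast
      have h3 : C0 * (m j * (⌊x⌋₊ : ℝ)) ≤ C0 * (m j * x) := by gcongr
      linarith
    · rw [← Real.exp_log (hd j), Real.exp_le_exp]
      push_cast
      have h3 : C0 * (m j * x) ≤ C0 * (m j * (2 * (⌊x⌋₊ : ℝ))) := by
        gcongr
        linarith
      linarith

end Seq

section Main

variable {ι : Type*} [Fintype ι] [Nonempty ι] [MeasurableSpace ι] [DiscreteMeasurableSpace ι]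
  {σ ℓ p t : ι → ℝ}

/-- one step: the common refinement of the blockwise partition and of `R` -/
theorem join_step (hp : (∀ i, 0 ≤ p i) ∧ ∑ i, p i = 1) {n : ℕ} (S R : Setoid (Fin n → ι))
    {a b c : ℝ} (hS : HS (pw p) S ≤ a) (hR : HS (pw p) R ≤ b) (hSR : c ≤ HS (pw p) (S ⊔ R)) :
    HS (pw p) (S ⊓ R) ≤ a + b - c := by
  have := HW_sup_add_inf_le hp.1 S R
  unfold HW at this
  linarith

/-- chains in the join -/
theorem sup_val_le {n : ℕ} {S R : Setoid (Fin n → ι)} {f : (Fin n → ι) → ℝ} {K C0 χ : ℝ}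
    (hK : 0 ≤ K) (hC0 : χ + Real.log (Fintype.card ι) ≤ C0)
    (hS : ∀ u v, S u v → |f u - f v| ≤ K * Real.exp (-(C0 * n)))
    (hR : ∀ u v, R u v → |f u - f v| ≤ K * Real.exp (-(C0 * n))) {u v : Fin n → ι}
    (h : (S ⊔ R) u v) : |f u - f v| ≤ K * Real.exp (-(χ * n)) := by
  have h1 := dist_le_of_sup (v := f) (ε := K * Real.exp (-(C0 * n))) (by positivity)
    (fun a b hab => by rw [Real.dist_eq]; exact hS a b hab)
    (fun a b hab => by rw [Real.dist_eq]; exact hR a b hab) h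
  rw [Real.dist_eq] at h1
  refine h1.trans ?_
  have hc : 0 < (Fintype.card ι : ℝ) := by exact_mod_cast Fintype.card_pos
  have e : ((Fintype.card (Fin n → ι) : ℕ) : ℝ) = Real.exp (n * Real.log (Fintype.card ι)) := by
    rw [Fintype.card_fun, Fintype.card_fin, Real.exp_nat_mul, Real.exp_log hc]
    push_cast
    rfl
  rw [e]
  calc Real.exp (n * Real.log (Fintype.card ι)) * (K * Real.exp (-(C0 * n)))
      = K * Real.exp (n * Real.log (Fintype.card ι) + -(C0 * n)) := by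
        rw [Real.exp_add]; ring
    _ ≤ K * Real.exp (-(χ * n)) := by
        refine mul_le_mul_of_nonneg_left (Real.exp_le_exp.2 ?_) hK
        have : (0 : ℝ) ≤ n := Nat.cast_nonneg n
        nlinarith

/-- the estimates on the classes, for one index -/
theorem step {ℓ0 : ℝ} (hp : (∀ i, 0 ≤ p i) ∧ ∑ i, p i = 1) (hσ1 : ∀ i, |σ i| ≤ 1)
    (hal : ∀ i, ℓ0 ≤ ℓ i) (h0 : 0 < ℓ0) {J m N n : ℕ} (hn : n = m * N) (hm : 0 < m)
    (A : Setoid (Fin m → ι)) (B R : Setoid (Fin n → ι)) (hB : HEq B (blk A N)) {s : ℂ}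
    {τ : ι → ℂ} {T b : ι → ℝ} {η d α κ χ C0 Q c K1 Mt : ℝ}
    (hχ0 : 0 ≤ χ) (hC0 : C0 = χ + Real.log (Fintype.card ι) + 1)
    (hQ : Q = χ + 2 * C0 * (2 * J + 1) + 1 + C0)
    (hMt : 0 < Mt)
    (hK1 : K1 = 1 / (1 - Real.exp (-ℓ0 / 2)) + 8 * jK ℓ0 * Mt +
      2 * Fintype.card ι * (1 / (1 - Real.exp (-ℓ0 / 2))) + Mt)
    (hκ : 0 < κ) (hη0 : 0 ≤ η) (hd0 : 0 < d) (hd1 : d ≤ 1) (hηd : η ≤ d ^ (2 * J + 2))
    (hAj : HS (pw p) A ≤ (α + κ / 4) * m)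
    (hcl : ∀ u v, A u v → wtype u = wtype v ∧
      ‖∑ i, (cw (rayC σ ℓ s) u i - cw (rayC σ ℓ s) v i) * τ i‖ ≤ η)
    (hsq : √‖s‖ ≤ d) (hsb : ‖s‖ ≤ 1 / 4) (hτb : ∑ i, ‖τ i‖ ≤ Mt) (hTb : ∑ i, |T i| ≤ Mt)
    (hTd : ∀ i, ‖τ i - (T i + b i * Complex.I)‖ ≤ d)
    (hTfac : Fac p (Pi (rayR σ ℓ 0) t) (Pi (rayR σ ℓ 0) T))
    (hdu : d ≤ Real.exp (-(C0 * n))) (hdl : Real.exp (-(2 * C0 * n)) ≤ d)
    (hexp : Real.exp (-(n : ℝ)) * (1 / (1 - Real.exp (-ℓ0 / 2)) + 1) ≤ c)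
    (hR1 : HS (pw p) R ≤ (α + κ / 4) * n)
    (hR2 : ∀ u v, R u v → wtype u = wtype v ∧
      ‖(VJ σ ℓ p t J).starProjection (jf σ ℓ J u - jf σ ℓ J v)‖ ≤ Real.exp (-Q * n))
    (hF4 : ∀ S : Setoid (Fin n → ι),
      (∀ u v, S u v → |∑ i, (cw (rayR σ ℓ 0) u i - cw (rayR σ ℓ 0) v i) * T i| ≤
        K1 * Real.exp (-(χ * n))) → (α - κ / 4) * n ≤ HS (pw p) S) :
    HS (pw p) (B ⊓ R) ≤ (α + κ) * n ∧ ∀ u v, (B ⊓ R) u v →
      ‖∑ i, (cw (rayC σ ℓ s) u i - cw (rayC σ ℓ s) v i) * τ i‖ ≤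
        c * Real.exp (-(χ * n)) * d ^ (2 * J + 1) ∧
      ‖(VJ σ ℓ p t J).starProjection (jf σ ℓ J u - jf σ ℓ J v)‖ ≤
        c * Real.exp (-(χ * n)) * d ^ (2 * J + 1) := by
  subst hn
  have hB' : B = blk A N := eq_of_heq hB
  clear hB
  set q : ℝ := Real.exp (-ℓ0 / 2) with hq
  have hq1 : q < 1 := exp_half_lt_one h0
  have h1q : 0 < 1 - q := by linarith
  have hjK := jK_pos h0
  have hlc : 0 ≤ Real.log (Fintype.card ι) :=
    Real.log_nonneg (by exact_mod_cast Fintype.card_pos (α := ι))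
  have hC0pos : 0 < C0 := by rw [hC0]; linarith
  have hK10 : 0 < K1 := by rw [hK1]; positivity
  have hnn : (0 : ℝ) ≤ ((m * N : ℕ) : ℝ) := Nat.cast_nonneg _
  -- the blockwise partition
  have hBent : HS (pw p) B ≤ (α + κ / 4) * ((m * N : ℕ) : ℝ) := by
    have h1 := HW_blk hp A N
    have h2 : HW p (blk A N) = HS (pw p) B := by rw [hB']; rfl
    rw [← h2, h1]
    push_cast
    calc (N : ℝ) * HW p A ≤ N * ((α + κ / 4) * m) :=
          mul_le_mul_of_nonneg_left hAj (Nat.cast_nonneg _)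
      _ = _ := by ring
  have hrq : ∀ i, ‖rayC σ ℓ s i‖ ≤ q := fun i =>
    norm_rayC_le hσ1 hal h0.le (hsb.trans (by norm_num)) i
  have hBval : ∀ u v : Fin (m * N) → ι, B u v →
      ‖∑ i, cw (rayC σ ℓ s) u i * τ i - ∑ i, cw (rayC σ ℓ s) v i * τ i‖ ≤ η / (1 - q) := by
    intro u v huv
    rw [hB'] at huv
    refine norm_blk_le hrq hq1 τ hm (fun u v h => (hcl u v h).1) (fun u v h => ?_) N u v huv
    have := (hcl u v h).2
    rw [← Finset.sum_sub_distrib]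
    simpa only [sub_mul] using this
  have hsd : ‖s‖ ≤ d := by
    have h2 : ‖s‖ ≤ d ^ 2 := (Real.sqrt_le_left hd0.le).1 hsq
    have h3 : d ^ 2 ≤ d := by
      rw [sq]
      exact mul_le_of_le_one_left hd0.le hd1
    exact h2.trans h3
  have hηd1 : η ≤ d := by
    refine hηd.trans ?_
    calc d ^ (2 * J + 2) ≤ d ^ 1 := pow_le_pow_of_le_one hd0.le hd1 (by omega)
      _ = d := pow_one _
  set f : (Fin (m * N) → ι) → ℝ := fun u => ∑ i, cw (rayR σ ℓ 0) u i * T i with hf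
  have hfe : ∀ u v : Fin (m * N) → ι,
      ∑ i, (cw (rayR σ ℓ 0) u i - cw (rayR σ ℓ 0) v i) * T i = f u - f v := by
    intro u v
    rw [hf, ← Finset.sum_sub_distrib]
    exact Finset.sum_congr rfl fun i _ => by ring
  have hBf : ∀ u v, B u v → |f u - f v| ≤ K1 * Real.exp (-(C0 * ((m * N : ℕ) : ℝ))) := by
    intro u v huv
    have h1 := abs_val_real_le hσ1 hal h0 hsb τ hTd (hBval u v huv)
    refine h1.trans ?_
    have e1 : η / (1 - q) ≤ 1 / (1 - q) * d := by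
      rw [div_eq_mul_one_div, mul_comm]
      exact mul_le_mul_of_nonneg_left hηd1 (by positivity)
    have e2 : 8 * ‖s‖ * jK ℓ0 * (∑ i, ‖τ i‖) ≤ 8 * jK ℓ0 * Mt * d := by
      calc 8 * ‖s‖ * jK ℓ0 * (∑ i, ‖τ i‖) ≤ 8 * d * jK ℓ0 * Mt := by gcongr
        _ = _ := by ring
    have e3 : 0 ≤ Mt * d := by positivity
    have e4 : K1 * d = 1 / (1 - q) * d + 8 * jK ℓ0 * Mt * d +
        2 * Fintype.card ι * (1 / (1 - q)) * d + Mt * d := by rw [hK1]; ring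
    have h2 : η / (1 - q) + 8 * ‖s‖ * jK ℓ0 * (∑ i, ‖τ i‖) +
        2 * Fintype.card ι * (1 / (1 - q)) * d ≤ K1 * d := by
      linarith
    exact h2.trans (mul_le_mul_of_nonneg_left hdu hK10.le)
  have hRf : ∀ u v, R u v → |f u - f v| ≤ K1 * Real.exp (-(C0 * ((m * N : ℕ) : ℝ))) := by
    intro u v huv
    have h1 := abs_val_le (J := J) hσ1 hal h0 hTfac u v
    rw [hfe] at h1
    refine h1.trans ?_
    refine mul_le_mul (hTb.trans ?_) ((hR2 u v huv).2.trans (Real.exp_le_exp.2 ?_))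
      (norm_nonneg _) hK10.le
    · rw [hK1]
      have : 0 ≤ 1 / (1 - q) + 8 * jK ℓ0 * Mt + 2 * Fintype.card ι * (1 / (1 - q)) := by
        positivity
      linarith
    · have h2 : C0 ≤ Q := by
        rw [hQ]
        have : 0 ≤ χ + 2 * C0 * (2 * J + 1) + 1 := by positivity
        linarith
      have h3 := mul_le_mul_of_nonneg_right h2 hnn
      linarith
  have hsup : (α - κ / 4) * ((m * N : ℕ) : ℝ) ≤ HS (pw p) (B ⊔ R) := by
    refine hF4 (B ⊔ R) fun u v huv => ?_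
    have h1 := sup_val_le (χ := χ) (C0 := C0) hK10.le (by rw [hC0]; linarith) hBf hRf huv
    rw [hfe]
    exact h1
  refine ⟨?_, fun u v huv => ⟨?_, ?_⟩⟩
  · refine (join_step hp B R hBent hR1 hsup).trans ?_
    have : 0 ≤ κ * ((m * N : ℕ) : ℝ) := by positivity
    linarith
  · have h1 := hBval u v huv.1
    rw [← Finset.sum_sub_distrib] at h1
    have e : ∑ i, (cw (rayC σ ℓ s) u i - cw (rayC σ ℓ s) v i) * τ i =
        ∑ i, (cw (rayC σ ℓ s) u i * τ i - cw (rayC σ ℓ s) v i * τ i) :=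
      Finset.sum_congr rfl fun i _ => by ring
    rw [e]
    refine h1.trans ?_
    have h2 : η / (1 - q) ≤ (d * (1 / (1 - q))) * d ^ (2 * J + 1) := by
      calc η / (1 - q) ≤ d ^ (2 * J + 2) / (1 - q) := div_le_div_of_nonneg_right hηd h1q.le
        _ = (d * (1 / (1 - q))) * d ^ (2 * J + 1) := by ring
    refine h2.trans (mul_le_mul_of_nonneg_right ?_ (pow_pos hd0 _).le)
    have h3 : d ≤ Real.exp (-((m * N : ℕ) : ℝ)) * Real.exp (-(χ * ((m * N : ℕ) : ℝ))) := by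
      refine hdu.trans ?_
      rw [← Real.exp_add, Real.exp_le_exp]
      have h4 : 0 ≤ Real.log (Fintype.card ι) * ((m * N : ℕ) : ℝ) := mul_nonneg hlc hnn
      have h5 : C0 * ((m * N : ℕ) : ℝ) = χ * ((m * N : ℕ) : ℝ) +
          Real.log (Fintype.card ι) * ((m * N : ℕ) : ℝ) + ((m * N : ℕ) : ℝ) := by rw [hC0]; ring
      linarith
    have h5 : 0 ≤ Real.exp (-(χ * ((m * N : ℕ) : ℝ))) := (Real.exp_pos _).le
    have h6 : 0 ≤ Real.exp (-((m * N : ℕ) : ℝ)) := (Real.exp_pos _).le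
    have h7 : 0 < 1 / (1 - q) := by positivity
    calc d * (1 / (1 - q)) ≤ Real.exp (-((m * N : ℕ) : ℝ)) *
          Real.exp (-(χ * ((m * N : ℕ) : ℝ))) * (1 / (1 - q)) :=
          mul_le_mul_of_nonneg_right h3 h7.le
      _ = (Real.exp (-((m * N : ℕ) : ℝ)) * (1 / (1 - q))) *
          Real.exp (-(χ * ((m * N : ℕ) : ℝ))) := by ring
      _ ≤ (Real.exp (-((m * N : ℕ) : ℝ)) * (1 / (1 - q) + 1)) *
          Real.exp (-(χ * ((m * N : ℕ) : ℝ))) := by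
          refine mul_le_mul_of_nonneg_right (mul_le_mul_of_nonneg_left ?_ h6) h5
          linarith
      _ ≤ c * Real.exp (-(χ * ((m * N : ℕ) : ℝ))) := mul_le_mul_of_nonneg_right hexp h5
  · refine (hR2 u v huv.2).2.trans ?_
    have h1 : Real.exp (-(2 * C0 * ((m * N : ℕ) : ℝ))) ^ (2 * J + 1) ≤ d ^ (2 * J + 1) :=
      pow_le_pow_left₀ (Real.exp_pos _).le hdl _
    have h5 : 0 ≤ Real.exp (-(χ * ((m * N : ℕ) : ℝ))) := (Real.exp_pos _).le
    have h7 : 0 < 1 / (1 - q) := by positivity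
    have h6 : 0 ≤ Real.exp (-((m * N : ℕ) : ℝ)) := (Real.exp_pos _).le
    have h8 : Real.exp (-((m * N : ℕ) : ℝ)) ≤ c := by
      refine le_trans ?_ hexp
      exact le_mul_of_one_le_right h6 (by linarith)
    calc Real.exp (-Q * ((m * N : ℕ) : ℝ)) ≤ Real.exp (-((m * N : ℕ) : ℝ)) *
          Real.exp (-(χ * ((m * N : ℕ) : ℝ))) *
          Real.exp (-(2 * C0 * ((m * N : ℕ) : ℝ))) ^ (2 * J + 1) := by
          rw [← Real.exp_nat_mul, ← Real.exp_add, ← Real.exp_add, Real.exp_le_exp, hQ]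
          have h9 : 0 ≤ C0 * ((m * N : ℕ) : ℝ) := by positivity
          have h10 : ((2 * J + 1 : ℕ) : ℝ) = 2 * J + 1 := by push_cast; ring
          rw [h10]
          have h11 : -(χ + 2 * C0 * (2 * J + 1) + 1 + C0) * ((m * N : ℕ) : ℝ) =
            -((m * N : ℕ) : ℝ) + -(χ * ((m * N : ℕ) : ℝ)) +
              (2 * J + 1) * -(2 * C0 * ((m * N : ℕ) : ℝ)) - C0 * ((m * N : ℕ) : ℝ) := by ring
          rw [h11]
          linarith
      _ ≤ c * Real.exp (-(χ * ((m * N : ℕ) : ℝ))) * d ^ (2 * J + 1) := by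
          refine mul_le_mul (mul_le_mul_of_nonneg_right h8 h5) h1 (by positivity) ?_
          exact mul_nonneg (h6.trans h8) h5

/-- **(UNI-ENT)** -/
theorem uni_ent (hp : (∀ i, 0 ≤ p i) ∧ ∑ i, p i = 1) (hσ : ∀ i, |σ i| = 1) (hℓ : ∀ i, 0 < ℓ i)
    (hcol : Coll p σ ℓ t) {J : ℕ} (hst : Stab σ ℓ p t J)
    {m : ℕ → ℕ} {s : ℕ → ℂ} {τ : ℕ → ι → ℂ} {η d : ℕ → ℝ} {A : ∀ j, Setoid (Fin (m j) → ι)}
    (hm : Tendsto m atTop atTop) (hs : Tendsto s atTop (𝓝 0))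
    (hτ : Tendsto τ atTop (𝓝 fun i => (t i : ℂ))) (hη0 : ∀ j, 0 ≤ η j)
    (hA : ∀ κ > 0, ∀ᶠ j in atTop, HW p (A j) ≤ (F.alpha p (Pi (rayR σ ℓ 0) t) + κ) * m j)
    (hcl : ∀ j u v, A j u v → wtype u = wtype v ∧
      ‖∑ i, (cw (rayC σ ℓ (s j)) u i - cw (rayC σ ℓ (s j)) v i) * τ j i‖ ≤ η j)
    (hd : ∀ j, d j = max (DJ σ ℓ p t 0 (s j) (τ j)) (√‖s j‖))
    (hd0 : ∀ j, 0 < d j) (hηd : ∀ j, η j ≤ d j ^ (2 * J + 2))
    (hlog : Tendsto (fun j => -Real.log (d j) / m j) atTop atTop) :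
    ∃ nj : ℕ → ℕ, Tendsto nj atTop atTop ∧ ∀ κ > 0, ∀ c > 0, ∀ᶠ j in atTop,
      ∃ S : Setoid (Fin (nj j) → ι),
        HS (pw p) S ≤ (F.alpha p (Pi (rayR σ ℓ 0) t) + κ) * nj j ∧
        ∀ u v, S u v →
          ‖∑ i, (cw (rayC σ ℓ (s j)) u i - cw (rayC σ ℓ (s j)) v i) * τ j i‖ ≤
            c * Real.exp (-((∑ i, p i * ℓ i) * nj j)) * d j ^ (2 * J + 1) ∧
          ‖(VJ σ ℓ p t J).starProjection (jf σ ℓ J u - jf σ ℓ J v)‖ ≤
            c * Real.exp (-((∑ i, p i * ℓ i) * nj j)) * d j ^ (2 * J + 1) := by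
  classical
  obtain ⟨ℓ0, M, h0, hal, hM⟩ := FD.exists_bounds hℓ
  have hσ1 : ∀ i, |σ i| ≤ 1 := fun i => (hσ i).le
  have hχ0 : 0 ≤ ∑ i, p i * ℓ i := Finset.sum_nonneg fun i _ => mul_nonneg (hp.1 i) (hℓ i).le
  obtain ⟨C0, hC0⟩ : ∃ C0 : ℝ, C0 = ∑ i, p i * ℓ i + Real.log (Fintype.card ι) + 1 := ⟨_, rfl⟩
  have hlc : 0 ≤ Real.log (Fintype.card ι) :=
    Real.log_nonneg (by exact_mod_cast Fintype.card_pos (α := ι))
  have hC0pos : 0 < C0 := by linarith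
  obtain ⟨hdt, N, hN, hNd⟩ := exists_blocks hm hd0 hlog hC0pos
  refine ⟨fun j => m j * N j, hN, fun κ hκ c hc => ?_⟩
  -- real parameters
  choose a b ha hb hab using fun j => exists_close_of_DJ σ ℓ p t 0 (s j) (τ j)
  obtain ⟨T, hT⟩ : ∃ T : ℕ → ι → ℝ, T = fun j i => a j (0, i) := ⟨_, rfl⟩
  have hTfac : ∀ j, Fac p (Pi (rayR σ ℓ 0) t) (Pi (rayR σ ℓ 0) (T j)) := fun j => by
    have := ha j
    rw [jpair_zero hσ1 hal h0] at this
    rw [hT]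
    exact this
  have hdDJ : ∀ j, DJ σ ℓ p t 0 (s j) (τ j) ≤ d j := fun j => by rw [hd j]; exact le_max_left _ _
  have hTd : ∀ j i, ‖τ j i - (T j i + (b j (0, i) : ℝ) * Complex.I)‖ ≤ d j := fun j i => by
    have := (hab j (0, i)).trans (hdDJ j)
    rw [hT]
    simpa using this
  have hTt : Tendsto T atTop (𝓝 t) := by
    rw [tendsto_pi_nhds]
    intro i
    rw [tendsto_iff_norm_sub_tendsto_zero]
    have h1 : Tendsto (fun j => d j + ‖τ j i - (t i : ℂ)‖) atTop (𝓝 (0 + 0)) := by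
      refine hdt.add ?_
      exact tendsto_iff_norm_sub_tendsto_zero.1 ((tendsto_pi_nhds.1 hτ) i)
    rw [add_zero] at h1
    refine squeeze_zero (fun j => norm_nonneg _) (fun j => ?_) h1
    have h2 := Complex.abs_re_le_norm (τ j i - (T j i + (b j (0, i) : ℝ) * Complex.I))
    have h3 : (τ j i - (T j i + (b j (0, i) : ℝ) * Complex.I)).re = (τ j i).re - T j i := by simp
    have h4 := Complex.abs_re_le_norm (τ j i - (t i : ℂ))
    have h5 : (τ j i - (t i : ℂ)).re = (τ j i).re - t i := by simp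
    rw [h3] at h2
    rw [h5] at h4
    have h6 : T j i - t i = -((τ j i).re - T j i) + ((τ j i).re - t i) := by ring
    rw [Real.norm_eq_abs, h6]
    refine (abs_add_le _ _).trans ?_
    rw [abs_neg]
    exact add_le_add (h2.trans (hTd j i)) h4
  -- bounds
  obtain ⟨Mt, hMt⟩ : ∃ Mt : ℝ, Mt = (∑ i, |t i|) + 1 := ⟨_, rfl⟩
  have hMt0 : 0 < Mt := by rw [hMt]; positivity
  have hτb : ∀ᶠ j in atTop, ∑ i, ‖τ j i‖ ≤ Mt := by
    have h1 : Tendsto (fun j => ∑ i, ‖τ j i‖) atTop (𝓝 (∑ i, ‖(t i : ℂ)‖)) :=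
      tendsto_finsetSum _ fun i _ => ((tendsto_pi_nhds.1 hτ) i).norm
    have h2 : ∑ i, ‖(t i : ℂ)‖ = ∑ i, |t i| :=
      Finset.sum_congr rfl fun i _ => by rw [Complex.norm_real, Real.norm_eq_abs]
    rw [h2] at h1
    rw [hMt]
    exact (h1.eventually (eventually_lt_nhds (lt_add_one _))).mono fun j hj => hj.le
  have hTb : ∀ᶠ j in atTop, ∑ i, |T j i| ≤ Mt := by
    have h1 : Tendsto (fun j => ∑ i, |T j i|) atTop (𝓝 (∑ i, |t i|)) :=
      tendsto_finsetSum _ fun i _ => ((tendsto_pi_nhds.1 hTt) i).abs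
    rw [hMt]
    exact (h1.eventually (eventually_lt_nhds (lt_add_one _))).mono fun j hj => hj.le
  have hsb : ∀ᶠ j in atTop, ‖s j‖ ≤ 1 / 4 := by
    have h1 : Tendsto (fun j => ‖s j‖) atTop (𝓝 0) := by simpa using hs.norm
    exact (h1.eventually (eventually_lt_nhds (by norm_num : (0:ℝ) < 1 / 4))).mono fun j hj => hj.le
  have hd1 : ∀ᶠ j in atTop, d j ≤ 1 :=
    (hdt.eventually (eventually_lt_nhds one_pos)).mono fun j hj => hj.le
  have hq1 : Real.exp (-ℓ0 / 2) < 1 := exp_half_lt_one h0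
  have h1q : 0 < 1 - Real.exp (-ℓ0 / 2) := by linarith
  obtain ⟨K1, hK1⟩ : ∃ K1 : ℝ, K1 = 1 / (1 - Real.exp (-ℓ0 / 2)) + 8 * jK ℓ0 * Mt +
      2 * Fintype.card ι * (1 / (1 - Real.exp (-ℓ0 / 2))) + Mt := ⟨_, rfl⟩
  have hjK := jK_pos h0
  have hK10 : 0 < K1 := by rw [hK1]; positivity
  obtain ⟨Q, hQ⟩ : ∃ Q : ℝ, Q = ∑ i, p i * ℓ i + 2 * C0 * (2 * J + 1) + 1 + C0 := ⟨_, rfl⟩
  have hQ0 : 0 < Q := by rw [hQ]; positivity
  have hκ4 : 0 < κ / 4 := by linarith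
  -- inputs
  have hR := hN.eventually (coll_pi hp hσ hℓ hcol hst hQ0 hκ4)
  have hF4 := FD.F4_ray (N := fun j => m j * N j) hp hσ hℓ (r := rayR σ ℓ 0)
    (fun i => FD.rayR0_eq σ ℓ i) (t := t) hκ4 (K := K1) hK10.le (ξ := ∑ i, p i * ℓ i) le_rfl
    hTt hN
  have hexp : ∀ᶠ j in atTop, Real.exp (-((m j * N j : ℕ) : ℝ)) *
      (1 / (1 - Real.exp (-ℓ0 / 2)) + 1) ≤ c := by
    have h1 : Tendsto (fun j => Real.exp (-((m j * N j : ℕ) : ℝ)) *
        (1 / (1 - Real.exp (-ℓ0 / 2)) + 1)) atTop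
        (𝓝 (0 * (1 / (1 - Real.exp (-ℓ0 / 2)) + 1))) := by
      refine Tendsto.mul_const _ ?_
      exact Real.tendsto_exp_neg_atTop_nhds_zero.comp (tendsto_natCast_atTop_atTop.comp hN)
    rw [zero_mul] at h1
    exact (h1.eventually (eventually_lt_nhds hc)).mono fun j hj => hj.le
  filter_upwards [hR, hF4, hexp, hA (κ / 4) hκ4, hτb, hTb, hsb, hd1, hNd]
    with j hR hF4 hexp hAj hτb hTb hsb hd1 hNd
  obtain ⟨R, hR1, hR2⟩ := hR
  obtain ⟨hmj, hdu, hdl⟩ := hNd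
  have hsq : √‖s j‖ ≤ d j := by rw [hd j]; exact le_max_right _ _
  exact ⟨blk (A j) (N j) ⊓ R, step hp hσ1 hal h0 rfl hmj (A j) (blk (A j) (N j)) R HEq.rfl hχ0
    hC0 hQ hMt0 hK1 hκ (hη0 j) (hd0 j) hd1 (hηd j) hAj (hcl j) hsq hsb hτb hTb (hTd j) (hTfac j)
    hdu hdl hexp hR1 hR2 hF4⟩

end Main

end Crest.Agent.R98.UniEnt
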