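import Crest.Agent.R98.Word2

/-!
Row 98 (S0129). Module WORDS, part 3: translation vector of an infinite word, the coding map,
uniqueness of the self-similar measure. (helper430)
-/

set_option autoImplicit false

namespace Crest.Agent.R98

open Finset Crest.AnalysisR Crest.Agent.R098.Upper MeasureTheory Filter
open scoped ENNReal NNReal Topology

section Cterm

variable {ι R : Type*} [CommRing R]

open Classical in
/-- the `j`-th term of the translation vector of an infinite word -/
noncomputable def cterm (r : ι → R) (w : ℕ → ι) (i : ι) (j : ℕ) : R :=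
  (∏ k ∈ range j, r (w k)) * (if w j = i then 1 else 0)

lemma prod_pre (r : ι → R) (w : ℕ → ι) (j : ℕ) : ∏ k ∈ range j, r (w k) = rho r (pre j w) := by
  rw [Finset.prod_range]; rfl

lemma sum_cterm (r : ι → R) (w : ℕ → ι) (i : ι) (n : ℕ) :
    ∑ j ∈ range n, cterm r w i j = cw r (pre n w) i := by
  classical
  induction n generalizing w with
  | zero => simp
  | succ n ih =>
    have h : w = scons (w 0) (sh 1 w) := (scons_sh w).symm
    conv_rhs => rw [h]
    rw [pre_succ_scons, cw_cons, ← ih, Finset.sum_range_succ', add_comm, Finset.mul_sum]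
    congr 1
    · simp [cterm]
    · refine Finset.sum_congr rfl fun j _ => ?_
      by_cases h : w (j + 1) = i
      · simp only [cterm, Finset.prod_range_succ', sh, h, if_true]
        ring
      · simp [cterm, sh, h]

end Cterm

section Cinf

variable {ι 𝕜 : Type*} [NormedField 𝕜]

/-- translation vector of an infinite word -/
noncomputable def cinf (r : ι → 𝕜) (w : ℕ → ι) (i : ι) : 𝕜 := ∑' j, cterm r w i j

lemma norm_cterm_le {r : ι → 𝕜} {q : ℝ} (hr : ∀ i, ‖r i‖ ≤ q) (w : ℕ → ι) (i : ι) (j : ℕ) :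
    ‖cterm r w i j‖ ≤ q ^ j := by
  classical
  have hq0 : 0 ≤ q := (norm_nonneg _).trans (hr (w 0))
  unfold cterm
  rw [norm_mul, norm_prod]
  have h1 : ‖(if w j = i then (1:𝕜) else 0)‖ ≤ 1 := by split_ifs <;> simp
  calc (∏ k ∈ range j, ‖r (w k)‖) * ‖(if w j = i then (1:𝕜) else 0)‖
      ≤ (∏ _k ∈ range j, q) * 1 := by
        refine mul_le_mul (Finset.prod_le_prod (fun _ _ => norm_nonneg _) fun k _ => hr _) h1
          (norm_nonneg _) (Finset.prod_nonneg fun _ _ => hq0)
    _ = q ^ j := by simp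

variable [CompleteSpace 𝕜]

lemma summable_cterm {r : ι → 𝕜} {q : ℝ} (hr : ∀ i, ‖r i‖ ≤ q) (hq : q < 1) (w : ℕ → ι) (i : ι) :
    Summable (cterm r w i) := by
  have hq0 : 0 ≤ q := (norm_nonneg _).trans (hr (w 0))
  exact Summable.of_norm_bounded (summable_geometric_of_lt_one hq0 hq)
    fun j => norm_cterm_le hr w i j

omit [CompleteSpace 𝕜] in
lemma norm_cinf_le {r : ι → 𝕜} {q : ℝ} (hr : ∀ i, ‖r i‖ ≤ q) (hq : q < 1) (w : ℕ → ι) (i : ι) :
    ‖cinf r w i‖ ≤ 1 / (1 - q) := by
  have hq0 : 0 ≤ q := (norm_nonneg _).trans (hr (w 0))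
  rw [one_div]
  exact tsum_of_norm_bounded (hasSum_geometric_of_lt_one hq0 hq) fun j => norm_cterm_le hr w i j

open Classical in
lemma cinf_scons {r : ι → 𝕜} {q : ℝ} (hr : ∀ i, ‖r i‖ ≤ q) (hq : q < 1) (a : ι) (w : ℕ → ι)
    (i : ι) : cinf r (scons a w) i = (if a = i then 1 else 0) + r a * cinf r w i := by
  unfold cinf
  rw [(summable_cterm hr hq (scons a w) i).tsum_eq_zero_add, ← tsum_mul_left]
  congr 1
  · by_cases h : a = i <;> simp [cterm, h]
  · refine tsum_congr fun j => ?_
    by_cases h : w j = i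
    · simp only [cterm, Finset.prod_range_succ', scons_zero, scons_succ, h, if_true]
      ring
    · simp [cterm, h]

lemma cinf_cat {r : ι → 𝕜} {q : ℝ} (hr : ∀ i, ‖r i‖ ≤ q) (hq : q < 1) {n : ℕ} (u : Fin n → ι)
    (w : ℕ → ι) (i : ι) : cinf r (cat u w) i = cw r u i + rho r u * cinf r w i := by
  classical
  induction n with
  | zero => simp
  | succ n ih =>
    obtain ⟨a, u, rfl⟩ := exists_cons u
    rw [cat_cons, cinf_scons hr hq, ih, cw_cons, rho_cons]
    ring

/-- an infinite word decomposed at level `n` -/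
lemma cinf_eq {r : ι → 𝕜} {q : ℝ} (hr : ∀ i, ‖r i‖ ≤ q) (hq : q < 1) (n : ℕ)
    (w : ℕ → ι) (i : ι) : cinf r w i = cw r (pre n w) i + rho r (pre n w) * cinf r (sh n w) i := by
  conv_lhs => rw [← cat_pre_sh n w]
  rw [cinf_cat hr hq]

lemma tendsto_cw_cinf {r : ι → 𝕜} {q : ℝ} (hr : ∀ i, ‖r i‖ ≤ q) (hq : q < 1) (w : ℕ → ι) (i : ι) :
    Tendsto (fun n => cw r (pre n w) i) atTop (𝓝 (cinf r w i)) := by
  have := (summable_cterm hr hq w i).hasSum.tendsto_sum_nat
  simp only [sum_cterm] at this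
  exact this

lemma norm_cinf_sub_le {r : ι → 𝕜} {q : ℝ} (hr : ∀ i, ‖r i‖ ≤ q) (hq : q < 1) (n : ℕ)
    (w : ℕ → ι) (i : ι) : ‖cinf r w i - cw r (pre n w) i‖ ≤ ‖rho r (pre n w)‖ / (1 - q) := by
  rw [cinf_eq hr hq n w i, add_sub_cancel_left, norm_mul, div_eq_mul_one_div]
  exact mul_le_mul_of_nonneg_left (norm_cinf_le hr hq _ _) (norm_nonneg _)

variable [MeasurableSpace ι] [DiscreteMeasurableSpace ι] [Finite ι]
  [MeasurableSpace 𝕜] [BorelSpace 𝕜]

omit [CompleteSpace 𝕜] [BorelSpace 𝕜] in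
lemma measurable_cw_pre (r : ι → 𝕜) (n : ℕ) (i : ι) :
    Measurable fun w : ℕ → ι => cw r (pre n w) i := by
  have : (fun w : ℕ → ι => cw r (pre n w) i) = (fun u : Fin n → ι => cw r u i) ∘ pre n := rfl
  rw [this]
  exact (measurable_of_countable _).comp (measurable_pre n)

lemma measurable_cinf {r : ι → 𝕜} {q : ℝ} (hr : ∀ i, ‖r i‖ ≤ q) (hq : q < 1) (i : ι) :
    Measurable fun w : ℕ → ι => cinf r w i :=
  measurable_of_tendsto_metrizable (fun n => measurable_cw_pre r n i)
    (tendsto_pi_nhds.2 fun w => tendsto_cw_cinf hr hq w i)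

end Cinf

section Pi

variable {ι : Type*} [Fintype ι]

/-- the coding map -/
noncomputable def Pi (r t : ι → ℝ) (w : ℕ → ι) : ℝ := ∑ i, cinf r w i * t i

lemma Pi_scons {r : ι → ℝ} {q : ℝ} (hr : ∀ i, |r i| ≤ q) (hq : q < 1) (t : ι → ℝ) (a : ι)
    (w : ℕ → ι) : Pi r t (scons a w) = r a * Pi r t w + t a := by
  classical
  unfold Pi
  simp only [cinf_scons (𝕜 := ℝ) (r := r) hr hq, add_mul, Finset.sum_add_distrib, ite_mul, one_mul,
    zero_mul, Finset.sum_ite_eq, mem_univ, if_true, mul_assoc, ← Finset.mul_sum]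
  ring

lemma Pi_cat {r : ι → ℝ} {q : ℝ} (hr : ∀ i, |r i| ≤ q) (hq : q < 1) (t : ι → ℝ) {n : ℕ}
    (u : Fin n → ι) (w : ℕ → ι) : Pi r t (cat u w) = fw r t u (Pi r t w) := by
  rw [fw_eq]
  unfold Pi
  simp only [cinf_cat (𝕜 := ℝ) (r := r) hr hq, add_mul, Finset.sum_add_distrib, mul_assoc,
    ← Finset.mul_sum]
  ring

lemma abs_Pi_le {r : ι → ℝ} {q : ℝ} (hr : ∀ i, |r i| ≤ q) (hq : q < 1) (t : ι → ℝ)
    (w : ℕ → ι) : |Pi r t w| ≤ (∑ i, |t i|) / (1 - q) := by
  unfold Pi
  refine (Finset.abs_sum_le_sum_abs _ _).trans ?_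
  rw [Finset.sum_div]
  refine Finset.sum_le_sum fun i _ => ?_
  rw [abs_mul, div_eq_mul_one_div, mul_comm]
  exact mul_le_mul_of_nonneg_left (norm_cinf_le (𝕜 := ℝ) (r := r) hr hq w i) (abs_nonneg _)

variable [MeasurableSpace ι] [DiscreteMeasurableSpace ι]

lemma measurable_Pi {r : ι → ℝ} {q : ℝ} (hr : ∀ i, |r i| ≤ q) (hq : q < 1) (t : ι → ℝ) :
    Measurable (Pi r t) := by
  unfold Pi
  exact Finset.measurable_sum _ fun i _ => (measurable_cinf (𝕜 := ℝ) (r := r) hr hq i).mul_const _

/-- the law of the coding map is self-similar -/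
lemma isSelfSimilar_law {r p : ι → ℝ} {q : ℝ} (hr : ∀ i, |r i| ≤ q) (hq : q < 1) (t : ι → ℝ)
    (hp : (∀ i, 0 ≤ p i) ∧ ∑ i, p i = 1) :
    IsSelfSimilarMeasure r t p ((PP p).map (Pi r t)) := by
  have hPm := measurable_Pi hr hq t
  have := isProb_PP hp
  refine ⟨Measure.isProbabilityMeasure_map hPm.aemeasurable, ?_⟩
  conv_lhs => rw [PP_cons hp]
  rw [Measure.map_finset_sum' hPm.aemeasurable]
  refine Finset.sum_congr rfl fun a _ => ?_
  have hm : Measurable fun x : ℝ => r a * x + t a := by fun_prop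
  rw [Measure.map_smul, Measure.map_map hPm (measurable_scons a), Measure.map_map hm hPm]
  congr 2
  funext w
  exact Pi_scons hr hq t a w

end Pi

section Uniq

variable {ι : Type*} [Fintype ι]

lemma charFun_selfSimilar {r t p : ι → ℝ} (hp : ∀ i, 0 ≤ p i) {μ : Measure ℝ}
    (hμ : IsSelfSimilarMeasure r t p μ) (ξ : ℝ) :
    charFun μ ξ = ∑ i, (p i : ℂ) * (charFun μ (r i * ξ) * Complex.exp (t i * ξ * Complex.I)) := by
  have hμ1 := hμ.1
  have h := hμ.2
  have hint : ∀ i, Integrable (fun x : ℝ => Complex.exp (ξ * x * Complex.I))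
      (μ.map (fun x : ℝ => r i * x + t i)) := by
    intro i
    have : IsProbabilityMeasure (μ.map (fun x : ℝ => r i * x + t i)) :=
      Measure.isProbabilityMeasure_map (by fun_prop)
    refine Integrable.of_bound (C := 1) (by fun_prop) (ae_of_all _ fun x => ?_)
    have : (ξ : ℂ) * x * Complex.I = ((ξ * x : ℝ) : ℂ) * Complex.I := by push_cast; ring
    rw [this, Complex.norm_exp_ofReal_mul_I]
  rw [charFun_apply_real]
  conv_lhs => rw [h]
  rw [integral_finsetSum_measure fun i _ => (hint i).smul_measure ENNReal.ofReal_ne_top]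
  refine Finset.sum_congr rfl fun i _ => ?_
  rw [integral_smul_measure, ENNReal.toReal_ofReal (hp i), ← charFun_apply_real, Complex.real_smul]
  congr 1
  have h2 : (μ.map (fun x : ℝ => r i * x + t i)) = (μ.map (r i * ·)).map (· + t i) := by
    rw [Measure.map_map (by fun_prop) (by fun_prop)]
    rfl
  rw [h2, charFun_map_add_const, charFun_map_mul]
  congr 2
  simp [mul_comm]

/-- uniqueness of the self-similar measure -/
theorem selfSimilar_unique {r t p : ι → ℝ} {q : ℝ} (hr : ∀ i, |r i| ≤ q) (hq : q < 1)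
    (hp : (∀ i, 0 ≤ p i) ∧ ∑ i, p i = 1) {μ ν : Measure ℝ}
    (hμ : IsSelfSimilarMeasure r t p μ) (hν : IsSelfSimilarMeasure r t p ν) : μ = ν := by
  have hμ1 := hμ.1
  have hν1 := hν.1
  refine Measure.ext_of_charFun ?_
  funext ξ
  -- it is enough to bound the difference by every `ε`
  have key : ∀ ε > 0, ‖charFun μ ξ - charFun ν ξ‖ ≤ ε := by
    intro ε hε
    have hc : Continuous fun η : ℝ => charFun μ η - charFun ν η := by fun_prop
    have h0 : charFun μ 0 - charFun ν 0 = 0 := by simp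
    obtain ⟨δ, hδ, hδ2⟩ : ∃ δ > 0, ∀ η : ℝ, |η| ≤ δ → ‖charFun μ η - charFun ν η‖ ≤ ε := by
      have := Metric.continuousAt_iff.1 (hc.continuousAt (x := 0)) ε hε
      obtain ⟨δ, hδ, h⟩ := this
      refine ⟨δ/2, by positivity, fun η hη => ?_⟩
      have := h (x := η) (by rw [Real.dist_eq, sub_zero]; linarith)
      rw [h0, dist_zero_right] at this
      exact this.le
    have step : ∀ n : ℕ, ∀ η : ℝ, q ^ n * |η| ≤ δ → ‖charFun μ η - charFun ν η‖ ≤ ε := by
      intro n
      induction n with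
      | zero => intro η hη; exact hδ2 η (by simpa using hη)
      | succ n ih =>
        intro η hη
        rw [charFun_selfSimilar hp.1 hμ η, charFun_selfSimilar hp.1 hν η, ← Finset.sum_sub_distrib]
        refine (norm_sum_le _ _).trans ?_
        calc ∑ i, ‖(p i : ℂ) * (charFun μ (r i * η) * Complex.exp (t i * η * Complex.I)) -
              (p i : ℂ) * (charFun ν (r i * η) * Complex.exp (t i * η * Complex.I))‖
            ≤ ∑ i, p i * ε := by
              refine Finset.sum_le_sum fun i _ => ?_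
              have e1 : (p i : ℂ) * (charFun μ (r i * η) * Complex.exp (t i * η * Complex.I)) -
                  (p i : ℂ) * (charFun ν (r i * η) * Complex.exp (t i * η * Complex.I)) =
                  (p i : ℂ) * ((charFun μ (r i * η) - charFun ν (r i * η)) *
                    Complex.exp (t i * η * Complex.I)) := by ring
              have e2 : ‖Complex.exp (t i * η * Complex.I)‖ = 1 := by
                have : (t i : ℂ) * η * Complex.I = ((t i * η : ℝ) : ℂ) * Complex.I := by
                  push_cast; ring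
                rw [this, Complex.norm_exp_ofReal_mul_I]
              rw [e1, norm_mul, norm_mul, e2, mul_one, Complex.norm_real, Real.norm_eq_abs,
                abs_of_nonneg (hp.1 i)]
              refine mul_le_mul_of_nonneg_left (ih _ ?_) (hp.1 i)
              have hq0 : 0 ≤ q := (abs_nonneg _).trans (hr i)
              calc q ^ n * |r i * η| = q ^ n * (|r i| * |η|) := by rw [abs_mul]
                _ ≤ q ^ n * (q * |η|) := by
                    refine mul_le_mul_of_nonneg_left ?_ (by positivity)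
                    exact mul_le_mul_of_nonneg_right (hr i) (abs_nonneg _)
                _ = q ^ (n+1) * |η| := by ring
                _ ≤ δ := hη
          _ = ε := by rw [← Finset.sum_mul, hp.2, one_mul]
    -- choose `n` with `q^n |ξ| ≤ δ`
    rcases isEmpty_or_nonempty ι with hι | ⟨⟨i0⟩⟩
    · exfalso
      have := hp.2
      simp at this
    have hq0 : 0 ≤ q := (abs_nonneg _).trans (hr i0)
    have hlim : Tendsto (fun n : ℕ => q ^ n * |ξ|) atTop (𝓝 (0 * |ξ|)) :=
      (tendsto_pow_atTop_nhds_zero_of_lt_one hq0 hq).mul_const _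
    rw [zero_mul] at hlim
    obtain ⟨n, hn⟩ := (hlim.eventually (gt_mem_nhds hδ)).exists
    exact step n ξ hn.le
  have : ‖charFun μ ξ - charFun ν ξ‖ ≤ 0 := le_of_forall_pos_le_add fun ε hε => by
    simpa using key ε hε
  exact sub_eq_zero.1 (norm_le_zero_iff.1 this)

variable [MeasurableSpace ι] [DiscreteMeasurableSpace ι]

/-- every self-similar measure is the law of the coding map -/
theorem selfSimilar_eq_law {r t p : ι → ℝ} {q : ℝ} (hr : ∀ i, |r i| ≤ q) (hq : q < 1)
    (hp : (∀ i, 0 ≤ p i) ∧ ∑ i, p i = 1) {μ : Measure ℝ}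
    (hμ : IsSelfSimilarMeasure r t p μ) : μ = (PP p).map (Pi r t) :=
  selfSimilar_unique hr hq hp hμ (isSelfSimilar_law hr hq t hp)

end Uniq

end Crest.Agent.R98
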