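import Mathlib

/-!
# R98, module X (one-variable exactness), part 1: the `ℓ¹` norm of integer polynomials
-/

set_option autoImplicit false

namespace Crest.Agent.R98.X

open Polynomial

/-- `ℓ¹` norm of the coefficients of an integer polynomial. -/
noncomputable def l1 (p : ℤ[X]) : ℝ := ∑ i ∈ p.support, |(p.coeff i : ℝ)|

lemma l1_eq_sum_range {p : ℤ[X]} {n : ℕ} (hn : p.natDegree < n) :
    l1 p = ∑ i ∈ Finset.range n, |(p.coeff i : ℝ)| := by
  unfold l1
  apply Finset.sum_subset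
  · intro i hi
    have := le_natDegree_of_mem_supp i hi
    simp; omega
  · intro i _ hi
    simp [notMem_support_iff.mp hi]

lemma l1_nonneg (p : ℤ[X]) : 0 ≤ l1 p := Finset.sum_nonneg fun _ _ => abs_nonneg _

@[simp] lemma l1_zero : l1 0 = 0 := by simp [l1]

@[simp] lemma l1_one : l1 1 = 1 := by
  rw [l1_eq_sum_range (n := 1) (by simp)]
  simp

lemma l1_neg (p : ℤ[X]) : l1 (-p) = l1 p := by
  unfold l1; simp

lemma l1_add (p q : ℤ[X]) : l1 (p + q) ≤ l1 p + l1 q := by
  set n := max p.natDegree q.natDegree + 1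
  have h1 : (p + q).natDegree < n := lt_of_le_of_lt (natDegree_add_le _ _) (Nat.lt_succ_self _)
  have h2 : p.natDegree < n := Nat.lt_succ_of_le (le_max_left _ _)
  have h3 : q.natDegree < n := Nat.lt_succ_of_le (le_max_right _ _)
  rw [l1_eq_sum_range h1, l1_eq_sum_range h2, l1_eq_sum_range h3, ← Finset.sum_add_distrib]
  apply Finset.sum_le_sum
  intro i _
  rw [coeff_add]; push_cast
  exact abs_add_le _ _

lemma l1_sum {ι : Type*} (s : Finset ι) (f : ι → ℤ[X]) :
    l1 (∑ i ∈ s, f i) ≤ ∑ i ∈ s, l1 (f i) := by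
  classical
  induction s using Finset.induction_on with
  | empty => simp
  | insert a s ha ih =>
    rw [Finset.sum_insert ha, Finset.sum_insert ha]
    exact (l1_add _ _).trans (by linarith)

lemma l1_monomial (n : ℕ) (a : ℤ) : l1 (monomial n a) = |(a : ℝ)| := by
  rw [l1_eq_sum_range (n := n + 1) (Nat.lt_succ_of_le (natDegree_monomial_le _))]
  rw [Finset.sum_eq_single n]
  · simp
  · intro b _ hb
    simp [coeff_monomial, hb.symm]
  · intro h; simp at h

lemma l1_monomial_mul (n : ℕ) (a : ℤ) (q : ℤ[X]) :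
    l1 (monomial n a * q) ≤ |(a : ℝ)| * l1 q := by
  have hdeg : (monomial n a * q).natDegree < n + (q.natDegree + 1) := by
    have := natDegree_mul_le (p := monomial n a) (q := q)
    have := natDegree_monomial_le (m := n) a
    omega
  rw [l1_eq_sum_range hdeg, l1_eq_sum_range (Nat.lt_succ_self q.natDegree), Finset.sum_range_add,
    Finset.mul_sum]
  have h0 : ∑ x ∈ Finset.range n, |((monomial n a * q).coeff x : ℝ)| = 0 := by
    apply Finset.sum_eq_zero
    intro i hi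
    have hi' : i < n := Finset.mem_range.mp hi
    have : (monomial n a * q).coeff i = 0 := by
      rw [show (monomial n a : ℤ[X]) = C a * X ^ n from (C_mul_X_pow_eq_monomial).symm, mul_assoc,
        coeff_C_mul, coeff_X_pow_mul', if_neg (by omega), mul_zero]
    simp [this]
  rw [h0, zero_add]
  apply Finset.sum_le_sum
  intro i _
  have : (monomial n a * q).coeff (n + i) = a * q.coeff i := by
    rw [show (monomial n a : ℤ[X]) = C a * X ^ n from (C_mul_X_pow_eq_monomial).symm, mul_assoc,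
      coeff_C_mul, coeff_X_pow_mul', if_pos (by omega), Nat.add_sub_cancel_left]
  rw [this]; push_cast; rw [abs_mul]

lemma l1_mul (p q : ℤ[X]) : l1 (p * q) ≤ l1 p * l1 q := by
  conv_lhs => rw [p.as_sum_support, Finset.sum_mul]
  refine (l1_sum _ _).trans ?_
  unfold l1 at *
  rw [Finset.sum_mul]
  apply Finset.sum_le_sum
  intro i _
  exact l1_monomial_mul i _ q

lemma l1_prod {ι : Type*} (s : Finset ι) (f : ι → ℤ[X]) :
    l1 (∏ i ∈ s, f i) ≤ ∏ i ∈ s, l1 (f i) := by
  classical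
  induction s using Finset.induction_on with
  | empty => simp
  | insert a s ha ih =>
    rw [Finset.prod_insert ha, Finset.prod_insert ha]
    exact (l1_mul _ _).trans (mul_le_mul_of_nonneg_left ih (l1_nonneg _))

lemma one_le_l1 {p : ℤ[X]} (hp : p ≠ 0) : 1 ≤ l1 p := by
  have h : p.natDegree ∈ p.support := natDegree_mem_support_of_nonzero hp
  have h1 : (1 : ℝ) ≤ |(p.coeff p.natDegree : ℝ)| := by
    have : (1 : ℤ) ≤ |p.coeff p.natDegree| := Int.one_le_abs (mem_support_iff.mp h)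
    exact_mod_cast this
  exact h1.trans (Finset.single_le_sum (f := fun i => |(p.coeff i : ℝ)|)
    (fun _ _ => abs_nonneg _) h)

/-- complexification -/
noncomputable abbrev toC (p : ℤ[X]) : ℂ[X] := p.map (Int.castRingHom ℂ)

/-- evaluation at a complex point -/
noncomputable abbrev ev (z : ℂ) (p : ℤ[X]) : ℂ := eval₂ (Int.castRingHom ℂ) z p

lemma ev_eq (z : ℂ) (p : ℤ[X]) : ev z p = (toC p).eval z := (eval_map _ _).symm

lemma ev_eq_sum (z : ℂ) (p : ℤ[X]) {n : ℕ} (hn : p.natDegree < n) :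
    ev z p = ∑ i ∈ Finset.range n, (p.coeff i : ℂ) * z ^ i := by
  rw [ev, eval₂_eq_sum_range' _ hn]; simp

lemma norm_ev_le (z : ℂ) (p : ℤ[X]) {n : ℕ} (hn : p.natDegree ≤ n) :
    ‖ev z p‖ ≤ l1 p * (max 1 ‖z‖) ^ n := by
  rw [ev_eq_sum z p (Nat.lt_succ_of_le hn), l1_eq_sum_range (Nat.lt_succ_of_le hn), Finset.sum_mul]
  refine (norm_sum_le _ _).trans (Finset.sum_le_sum fun i hi => ?_)
  rw [norm_mul, norm_pow]
  have h1 : ‖(p.coeff i : ℂ)‖ = |(p.coeff i : ℝ)| := by
    rw [Complex.norm_intCast]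
  rw [h1]
  apply mul_le_mul_of_nonneg_left _ (abs_nonneg _)
  have hi' : i ≤ n := Nat.lt_succ_iff.mp (Finset.mem_range.mp hi)
  calc ‖z‖ ^ i ≤ (max 1 ‖z‖) ^ i := pow_le_pow_left₀ (norm_nonneg _) (le_max_right _ _) _
    _ ≤ (max 1 ‖z‖) ^ n := pow_le_pow_right₀ (le_max_left _ _) hi'

lemma norm_ev_le' {z : ℂ} (hz : ‖z‖ ≤ 1) (p : ℤ[X]) : ‖ev z p‖ ≤ l1 p := by
  have := norm_ev_le z p le_rfl
  rwa [max_eq_left hz, one_pow, mul_one] at this

lemma norm_pow_sub_pow_le {z w : ℂ} (hz : ‖z‖ ≤ 1) (hw : ‖w‖ ≤ 1) (i : ℕ) :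
    ‖z ^ i - w ^ i‖ ≤ i * ‖z - w‖ := by
  induction i with
  | zero => simp
  | succ i ih =>
    have : z ^ (i + 1) - w ^ (i + 1) = z ^ i * (z - w) + (z ^ i - w ^ i) * w := by ring
    rw [this]
    refine (norm_add_le _ _).trans ?_
    rw [norm_mul, norm_mul, norm_pow]
    have h1 : ‖z‖ ^ i ≤ 1 := pow_le_one₀ (norm_nonneg _) hz
    push_cast
    nlinarith [norm_nonneg (z - w), norm_nonneg (z ^ i - w ^ i), norm_nonneg w,
      mul_le_mul_of_nonneg_left hw (norm_nonneg (z ^ i - w ^ i))]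

lemma norm_ev_sub_le {z w : ℂ} (hz : ‖z‖ ≤ 1) (hw : ‖w‖ ≤ 1) (p : ℤ[X]) {n : ℕ}
    (hn : p.natDegree ≤ n) : ‖ev z p - ev w p‖ ≤ n * l1 p * ‖z - w‖ := by
  rw [ev_eq_sum z p (Nat.lt_succ_of_le hn), ev_eq_sum w p (Nat.lt_succ_of_le hn),
    l1_eq_sum_range (Nat.lt_succ_of_le hn), ← Finset.sum_sub_distrib]
  rw [mul_assoc, mul_comm, mul_assoc, Finset.sum_mul]
  refine (norm_sum_le _ _).trans (Finset.sum_le_sum fun i hi => ?_)
  rw [← mul_sub, norm_mul, Complex.norm_intCast]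
  apply mul_le_mul_of_nonneg_left _ (abs_nonneg _)
  have hi' : i ≤ n := Nat.lt_succ_iff.mp (Finset.mem_range.mp hi)
  calc ‖z ^ i - w ^ i‖ ≤ i * ‖z - w‖ := norm_pow_sub_pow_le hz hw i
    _ ≤ n * ‖z - w‖ := by
        apply mul_le_mul_of_nonneg_right _ (norm_nonneg _); exact_mod_cast hi'
    _ = ‖z - w‖ * n := mul_comm _ _

lemma mahler_le_l1 (p : ℤ[X]) : (toC p).mahlerMeasure ≤ l1 p := by
  refine (mahlerMeasure_le_sum_norm_coeff _).trans ?_
  rw [Polynomial.sum_def, l1]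
  apply le_of_eq
  have hs : (toC p).support = p.support := by
    apply support_map_of_injective
    exact (Int.castRingHom ℂ).injective_int
  rw [hs]
  apply Finset.sum_congr rfl
  intro i _
  rw [coeff_map]; simp

end Crest.Agent.R98.X
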