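import Mathlib
import Crest.Agent.R98.XL1

/-!
# R98, module X, part 2: Liouville inequality at an algebraic point
-/

set_option autoImplicit false

namespace Crest.Agent.R98.X

open Polynomial

lemma toC_ne_zero {p : ℤ[X]} (hp : p ≠ 0) : toC p ≠ 0 := by
  rw [Ne, Polynomial.map_eq_zero_iff (Int.castRingHom ℂ).injective_int]; exact hp

lemma natDegree_toC (p : ℤ[X]) : (toC p).natDegree = p.natDegree :=
  natDegree_map_eq_of_injective (Int.castRingHom ℂ).injective_int p

lemma one_le_mahler {p : ℤ[X]} (hp : p ≠ 0) : 1 ≤ (toC p).mahlerMeasure :=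
  one_le_mahlerMeasure_of_ne_zero hp

lemma mahler_le_of_dvd {p q : ℤ[X]} (hq : q ≠ 0) (h : p ∣ q) :
    (toC p).mahlerMeasure ≤ (toC q).mahlerMeasure := by
  obtain ⟨r, rfl⟩ := h
  have hr : r ≠ 0 := right_ne_zero_of_mul hq
  rw [show toC (p * r) = toC p * toC r from Polynomial.map_mul _, mahlerMeasure_mul]
  exact le_mul_of_one_le_right (mahlerMeasure_nonneg _) (one_le_mahler hr)

/-- An irreducible factor vanishing at a given root. -/
lemma exists_irreducible_factor {D : ℤ[X]} (hD : D ≠ 0) {z : ℂ} (hz : ev z D = 0) :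
    ∃ π : ℤ[X], Irreducible π ∧ π ∣ D ∧ ev z π = 0 := by
  induction D using WfDvdMonoid.induction_on_irreducible with
  | zero => exact absurd rfl hD
  | unit u hu =>
    exfalso
    have : IsUnit (ev z u) := hu.map (eval₂RingHom (Int.castRingHom ℂ) z)
    rw [hz] at this
    exact not_isUnit_zero this
  | mul a i ha hi ih =>
    have h : ev z i * ev z a = 0 := by
      rw [← hz]; exact (eval₂_mul _ _).symm
    rcases mul_eq_zero.mp h with h | h
    · exact ⟨i, hi, dvd_mul_right _ _, h⟩
    · obtain ⟨π, h1, h2, h3⟩ := ih ha h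
      exact ⟨π, h1, h2.mul_left _, h3⟩

lemma natDegree_pos_of_irreducible_root {π : ℤ[X]} (hπ : Irreducible π) {z : ℂ}
    (hz : ev z π = 0) : 0 < π.natDegree := by
  rcases Nat.eq_zero_or_pos π.natDegree with h | h
  · exfalso
    rw [natDegree_eq_zero] at h
    obtain ⟨a, rfl⟩ := h
    have : a = 0 := by
      have h1 : ((a : ℤ) : ℂ) = 0 := by rw [← hz, ev, eval₂_C]; rfl
      exact_mod_cast h1
    subst this
    exact hπ.ne_zero (by simp)
  · exact h

/-- Coprimality over `ℚ` of an irreducible integer polynomial with root `z` and a polynomial not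
vanishing at `z`. -/
lemma isCoprime_map_of_irreducible {π D : ℤ[X]} (hπ : Irreducible π) {z : ℂ}
    (hz : ev z π = 0) (hDz : ev z D ≠ 0) :
    IsCoprime (π.map (Int.castRingHom ℚ)) (D.map (Int.castRingHom ℚ)) := by
  have hprim : π.IsPrimitive := by
    apply hπ.isPrimitive
    exact (natDegree_pos_of_irreducible_root hπ hz).ne'
  have hirr : Irreducible (π.map (Int.castRingHom ℚ)) :=
    (IsPrimitive.Int.irreducible_iff_irreducible_map_cast hprim).mp hπ
  rcases hirr.isCoprime_or_dvd (D.map (Int.castRingHom ℚ)) with h | h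
  · exact h
  · exfalso
    apply hDz
    obtain ⟨r, hr⟩ := h
    have e1 : (D.map (Int.castRingHom ℚ)).eval₂ (algebraMap ℚ ℂ) z = ev z D := by
      rw [eval₂_map]
      congr 1
    have e2 : (π.map (Int.castRingHom ℚ)).eval₂ (algebraMap ℚ ℂ) z = ev z π := by
      rw [eval₂_map]
      congr 1
    rw [← e1, hr, eval₂_mul, e2, hz, zero_mul]

/-- Liouville's inequality, irreducible version. -/
lemma liouville_irreducible {π D : ℤ[X]} (hπ : Irreducible π) {z : ℂ}
    (hz : ev z π = 0) (hDz : ev z D ≠ 0) :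
    1 ≤ ‖ev z D‖ * l1 D ^ (π.natDegree - 1) * (toC π).mahlerMeasure ^ D.natDegree := by
  have hD : D ≠ 0 := by rintro rfl; simp [ev] at hDz
  have hcop := isCoprime_map_of_irreducible hπ hz hDz
  have hres : resultant π D ≠ 0 := by
    have h := resultant_ne_zero _ _ hcop
    rw [natDegree_map_eq_of_injective (Int.castRingHom ℚ).injective_int,
      natDegree_map_eq_of_injective (Int.castRingHom ℚ).injective_int, resultant_map_map] at h
    intro h0
    exact h (by rw [h0]; simp)
  have hresC : ((resultant π D : ℤ) : ℂ) =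
      (toC π).leadingCoeff ^ D.natDegree * ((toC π).roots.map (toC D).eval).prod := by
    have h := resultant_eq_prod_eval (toC π) (toC D) D.natDegree (natDegree_toC D).le
      (IsAlgClosed.splits _)
    rw [← h, natDegree_toC, toC, toC, resultant_map_map]
    rfl
  have h1 : (1 : ℝ) ≤ ‖((resultant π D : ℤ) : ℂ)‖ := by
    rw [Complex.norm_intCast]
    have : (1 : ℤ) ≤ |resultant π D| := Int.one_le_abs hres
    exact_mod_cast this
  rw [hresC] at h1
  have hroot : z ∈ (toC π).roots := by
    rw [mem_roots (toC_ne_zero hπ.ne_zero), IsRoot, ← ev_eq, hz]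
  obtain ⟨s, hs⟩ := Multiset.exists_cons_of_mem hroot
  have hcard : Multiset.card (toC π).roots = π.natDegree := by
    rw [← natDegree_toC]; exact (IsAlgClosed.splits (toC π)).natDegree_eq_card_roots.symm
  have hcards : Multiset.card s = π.natDegree - 1 := by
    rw [hs, Multiset.card_cons] at hcard; omega
  have hbound : ∀ s : Multiset ℂ, ‖(s.map (toC D).eval).prod‖ ≤
      l1 D ^ (Multiset.card s) * ((s.map (fun a => max 1 ‖a‖)).prod) ^ D.natDegree := by
    intro s
    induction s using Multiset.induction_on with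
    | empty => simp
    | cons a s ih =>
      rw [Multiset.map_cons, Multiset.prod_cons, Multiset.map_cons, Multiset.prod_cons,
        Multiset.card_cons, norm_mul, mul_pow, pow_succ]
      have ha : ‖(toC D).eval a‖ ≤ l1 D * (max 1 ‖a‖) ^ D.natDegree := by
        rw [← ev_eq]; exact norm_ev_le a D le_rfl
      calc ‖(toC D).eval a‖ * ‖(s.map (toC D).eval).prod‖
          ≤ (l1 D * (max 1 ‖a‖) ^ D.natDegree) *
            (l1 D ^ (Multiset.card s) * ((s.map (fun a => max 1 ‖a‖)).prod) ^ D.natDegree) := by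
              apply mul_le_mul ha ih (norm_nonneg _)
              exact mul_nonneg (l1_nonneg _) (by positivity)
        _ = _ := by ring
  have hM := mahlerMeasure_eq_leadingCoeff_mul_prod_roots (toC π)
  rw [hs] at hM h1
  rw [Multiset.map_cons, Multiset.prod_cons] at hM h1
  have hP : 0 ≤ (s.map (fun a => max 1 ‖a‖)).prod := by
    apply Multiset.prod_nonneg
    intro x hx
    obtain ⟨a, _, rfl⟩ := Multiset.mem_map.mp hx
    positivity
  rw [norm_mul, norm_mul, norm_pow] at h1
  calc (1 : ℝ) ≤ ‖(toC π).leadingCoeff‖ ^ D.natDegree *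
        (‖(toC D).eval z‖ * ‖(s.map (toC D).eval).prod‖) := h1
    _ ≤ ‖(toC π).leadingCoeff‖ ^ D.natDegree *
        (‖(toC D).eval z‖ *
          (l1 D ^ (Multiset.card s) * ((s.map (fun a => max 1 ‖a‖)).prod) ^ D.natDegree)) := by
        apply mul_le_mul_of_nonneg_left _ (by positivity)
        exact mul_le_mul_of_nonneg_left (hbound s) (norm_nonneg _)
    _ = ‖ev z D‖ * l1 D ^ (π.natDegree - 1) *
          (‖(toC π).leadingCoeff‖ * (1 * (s.map (fun a => max 1 ‖a‖)).prod)) ^ D.natDegree := by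
        rw [← ev_eq, hcards]; ring
    _ ≤ ‖ev z D‖ * l1 D ^ (π.natDegree - 1) * (toC π).mahlerMeasure ^ D.natDegree := by
        apply mul_le_mul_of_nonneg_left _ (mul_nonneg (norm_nonneg _) (pow_nonneg (l1_nonneg _) _))
        apply pow_le_pow_left₀ (mul_nonneg (norm_nonneg _) (by simpa using hP))
        rw [hM]
        apply mul_le_mul_of_nonneg_left _ (norm_nonneg _)
        exact mul_le_mul_of_nonneg_right (le_max_left _ _) hP

/-- **Liouville's inequality.** If `z` is a root of the nonzero integer polynomial `D₁` and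
`D(z) ≠ 0`, both of degree `≤ n` and `ℓ¹` norm `≤ B`, then `|D(z)| ≥ B^(-2n)`. -/
theorem liouville {D₁ D : ℤ[X]} {n : ℕ} {B : ℝ} (hD₁ : D₁ ≠ 0) {z : ℂ}
    (hz : ev z D₁ = 0) (hDz : ev z D ≠ 0) (hn₁ : D₁.natDegree ≤ n) (hn : D.natDegree ≤ n)
    (hB₁ : l1 D₁ ≤ B) (hB : l1 D ≤ B) :
    1 ≤ ‖ev z D‖ * B ^ (2 * n) := by
  obtain ⟨π, hπ, hdvd, hzπ⟩ := exists_irreducible_factor hD₁ hz
  have hD : D ≠ 0 := by rintro rfl; simp [ev] at hDz
  have h := liouville_irreducible hπ hzπ hDz
  have hB1 : 1 ≤ B := (one_le_l1 hD).trans hB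
  have hM : (toC π).mahlerMeasure ≤ B :=
    (mahler_le_of_dvd hD₁ hdvd).trans ((mahler_le_l1 _).trans hB₁)
  have hdeg : π.natDegree ≤ n := (natDegree_le_of_dvd hdvd hD₁).trans hn₁
  have e1 : l1 D ^ (π.natDegree - 1) ≤ B ^ n :=
    (pow_le_pow_left₀ (l1_nonneg _) hB _).trans (pow_le_pow_right₀ hB1 (by omega))
  have e2 : (toC π).mahlerMeasure ^ D.natDegree ≤ B ^ n :=
    (pow_le_pow_left₀ (mahlerMeasure_nonneg _) hM _).trans (pow_le_pow_right₀ hB1 hn)
  calc (1 : ℝ) ≤ ‖ev z D‖ * l1 D ^ (π.natDegree - 1) * (toC π).mahlerMeasure ^ D.natDegree := h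
    _ ≤ ‖ev z D‖ * B ^ n * B ^ n := by
        apply mul_le_mul _ e2 (pow_nonneg (mahlerMeasure_nonneg _) _) (by positivity)
        exact mul_le_mul_of_nonneg_left e1 (norm_nonneg _)
    _ = ‖ev z D‖ * B ^ (2 * n) := by rw [two_mul, pow_add, mul_assoc]

end Crest.Agent.R98.X
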