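import Mathlib
import Crest.Agent.R98.XL1
import Crest.Agent.R98.XLiouville

/-!
# R98, module X, part 3: minors, Cramer's rule with thresholds
-/

set_option autoImplicit false

namespace Crest.Agent.R98.X

open Polynomial
open scoped Nat

/-! ### determinants of matrices of integer polynomials -/

lemma natDegree_det_le {d : ℕ} (A : Matrix (Fin d) (Fin d) ℤ[X]) {n : ℕ}
    (h : ∀ i j, (A i j).natDegree ≤ n) : A.det.natDegree ≤ d * n := by
  rw [Matrix.det_apply]
  apply natDegree_sum_le_of_forall_le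
  intro σ _
  have h1 : (∏ i, A (σ i) i).natDegree ≤ d * n := by
    refine (natDegree_prod_le _ _).trans ?_
    calc ∑ i, (A (σ i) i).natDegree ≤ ∑ _i : Fin d, n := Finset.sum_le_sum fun i _ => h _ _
      _ = d * n := by simp
  rcases Int.units_eq_one_or (Equiv.Perm.sign σ) with hs | hs <;> rw [hs] <;> simpa using h1

lemma l1_det_le {d : ℕ} (A : Matrix (Fin d) (Fin d) ℤ[X]) {B : ℝ}
    (h : ∀ i j, l1 (A i j) ≤ B) : l1 A.det ≤ d ! * B ^ d := by
  rw [Matrix.det_apply]
  refine (l1_sum _ _).trans ?_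
  calc ∑ σ : Equiv.Perm (Fin d), l1 (Equiv.Perm.sign σ • ∏ i, A (σ i) i)
      ≤ ∑ _σ : Equiv.Perm (Fin d), B ^ d := by
        apply Finset.sum_le_sum
        intro σ _
        have h1 : l1 (∏ i, A (σ i) i) ≤ B ^ d := by
          refine (l1_prod _ _).trans ?_
          calc ∏ i, l1 (A (σ i) i) ≤ ∏ _i : Fin d, B :=
                Finset.prod_le_prod (fun i _ => l1_nonneg _) fun i _ => h _ _
            _ = B ^ d := by simp
        rcases Int.units_eq_one_or (Equiv.Perm.sign σ) with hs | hs <;> rw [hs]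
        · simpa using h1
        · simpa [l1_neg] using h1
    _ = d ! * B ^ d := by simp [Fintype.card_perm]

lemma norm_det_le {d : ℕ} (A : Matrix (Fin d) (Fin d) ℂ) {B : ℝ}
    (h : ∀ i j, ‖A i j‖ ≤ B) : ‖A.det‖ ≤ d ! * B ^ d := by
  rw [Matrix.det_apply]
  refine (norm_sum_le _ _).trans ?_
  calc ∑ σ : Equiv.Perm (Fin d), ‖Equiv.Perm.sign σ • ∏ i, A (σ i) i‖
      ≤ ∑ _σ : Equiv.Perm (Fin d), B ^ d := by
        apply Finset.sum_le_sum
        intro σ _
        have h1 : ‖∏ i, A (σ i) i‖ ≤ B ^ d := by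
          rw [norm_prod]
          calc ∏ i, ‖A (σ i) i‖ ≤ ∏ _i : Fin d, B :=
                Finset.prod_le_prod (fun i _ => norm_nonneg _) fun i _ => h _ _
            _ = B ^ d := by simp
        rcases Int.units_eq_one_or (Equiv.Perm.sign σ) with hs | hs <;> rw [hs]
        · simpa using h1
        · simpa using h1
    _ = d ! * B ^ d := by simp [Fintype.card_perm]

variable {κ : Type*}

/-- the minor with rows `r` and columns `c` -/
noncomputable def minor {d : ℕ} (r : Fin d → κ → ℤ[X]) (c : Fin d → κ) : ℤ[X] :=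
  Matrix.det (Matrix.of fun i j => r i (c j))

lemma ev_minor {d : ℕ} (z : ℂ) (r : Fin d → κ → ℤ[X]) (c : Fin d → κ) :
    ev z (minor r c) = Matrix.det (Matrix.of fun i j => ev z (r i (c j))) := by
  have := RingHom.map_det (eval₂RingHom (Int.castRingHom ℂ) z) (Matrix.of fun i j => r i (c j))
  simp only [coe_eval₂RingHom] at this
  rw [minor, ev, this]
  rfl

lemma minor_eq_zero_of_not_injective {d : ℕ} (r : Fin d → κ → ℤ[X]) (c : Fin d → κ)
    (hc : ¬ Function.Injective c) : minor r c = 0 := by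
  simp only [Function.Injective, not_forall] at hc
  obtain ⟨i, j, hij, hne⟩ := hc
  exact Matrix.det_zero_of_column_eq hne (fun k => by simp [hij])

section main

variable [Fintype κ]

lemma minor_natDegree_le {n : ℕ} {PP : Set (κ → ℤ[X])}
    (hdeg : ∀ P ∈ PP, ∀ j, (P j).natDegree ≤ n) {d : ℕ} (hd : d ≤ Fintype.card κ)
    {r : Fin d → κ → ℤ[X]} (hr : ∀ i, r i ∈ PP) (c : Fin d → κ) :
    (minor r c).natDegree ≤ Fintype.card κ * n :=
  (natDegree_det_le _ fun i j => hdeg _ (hr i) _).trans (Nat.mul_le_mul_right n hd)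

lemma fact_mul_pow_le {d k : ℕ} (hd : d ≤ k) {B : ℝ} (hB : 1 ≤ B) :
    (d ! : ℝ) * B ^ d ≤ k ! * B ^ k := by
  have h1 : (d ! : ℝ) ≤ k ! := by exact_mod_cast Nat.factorial_le hd
  exact mul_le_mul h1 (pow_le_pow_right₀ hB hd) (by positivity) (by positivity)

lemma minor_l1_le {B : ℝ} {PP : Set (κ → ℤ[X])} (hB1 : 1 ≤ B)
    (hB : ∀ P ∈ PP, ∀ j, l1 (P j) ≤ B) {d : ℕ} (hd : d ≤ Fintype.card κ)
    {r : Fin d → κ → ℤ[X]} (hr : ∀ i, r i ∈ PP) (c : Fin d → κ) :
    l1 (minor r c) ≤ (Fintype.card κ) ! * B ^ (Fintype.card κ) :=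
  (l1_det_le _ fun i j => hB _ (hr i) _).trans (fact_mul_pow_le hd hB1)

/-- thresholds -/
noncomputable def Th (q S : ℝ) : ℕ → ℝ
  | 0 => 0
  | d + 1 => q * (Th q S d + S)

lemma Th_nonneg {q S : ℝ} (hq : 0 ≤ q) (hS : 0 ≤ S) (d : ℕ) : 0 ≤ Th q S d := by
  induction d with
  | zero => simp [Th]
  | succ d ih => simp only [Th]; positivity

lemma Th_add_le {q S : ℝ} (hq : 1 ≤ q) (hS : 0 ≤ S) (d : ℕ) : Th q S d + S ≤ Th q S (d + 1) := by
  simp only [Th]
  have := Th_nonneg (by linarith : 0 ≤ q) hS d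
  nlinarith

lemma Th_mono {q S : ℝ} (hq : 1 ≤ q) (hS : 0 ≤ S) {d e : ℕ} (h : d ≤ e) : Th q S d ≤ Th q S e := by
  induction h with
  | refl => exact le_rfl
  | @step m _ ih => have := Th_add_le hq hS m; simp only [Nat.succ_eq_add_one] at *; linarith

lemma Th_le {q S : ℝ} (hq : 1 ≤ q) (hS : 0 ≤ S) (d : ℕ) : Th q S d ≤ (2 * q) ^ d * S := by
  induction d with
  | zero => simp [Th, hS]
  | succ d ih =>
    simp only [Th]
    have h1 : S ≤ (2 * q) ^ d * S := le_mul_of_one_le_left hS (one_le_pow₀ (by linarith))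
    calc q * (Th q S d + S) ≤ q * ((2 * q) ^ d * S + (2 * q) ^ d * S) := by
          apply mul_le_mul_of_nonneg_left _ (by linarith); linarith
      _ = (2 * q) ^ (d + 1) * S := by ring

/-- Schur complement step in Laplace form: if all `(d+1)`-minors containing the rows `r` and
columns `c` vanish at `z` then every row is, up to the factor `D(z)`, a combination of the rows
`r` (coefficients independent of the column). -/
lemma row_relation {d : ℕ} (z : ℂ) (r : Fin d → κ → ℤ[X]) (c : Fin d → κ) (P : κ → ℤ[X])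
    (h : ∀ j, ev z (minor (Fin.cons P r : Fin (d + 1) → κ → ℤ[X]) (Fin.cons j c)) = 0) :
    ∃ μ : Fin d → ℂ, ∀ j, ev z (minor r c) * ev z (P j) = ∑ i, μ i * ev z (r i j) := by
  refine ⟨fun i => - ((-1) ^ ((i : ℕ) + 1) * Matrix.det
    (Matrix.of fun (a : Fin d) (b : Fin d) =>
      ev z ((Fin.cons P r : Fin (d + 1) → κ → ℤ[X]) (i.succ.succAbove a) (c b)))), fun j => ?_⟩
  have hj := h j
  rw [ev_minor, Matrix.det_succ_column_zero, Fin.sum_univ_succ] at hj
  simp only [Fin.val_zero, pow_zero, one_mul, Matrix.of_apply, Fin.cons_zero, Fin.val_succ] at hj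
  have e0 : (Matrix.of fun (i : Fin (d + 1)) (a : Fin (d + 1)) =>
      ev z ((Fin.cons P r : Fin (d + 1) → κ → ℤ[X]) i ((Fin.cons j c : Fin (d + 1) → κ) a))).submatrix
        (Fin.succAbove 0) Fin.succ = Matrix.of fun i a => ev z (r i (c a)) := by
    ext a b; simp
  have e1 : ∀ i : Fin d, (Matrix.of fun (i : Fin (d + 1)) (a : Fin (d + 1)) =>
      ev z ((Fin.cons P r : Fin (d + 1) → κ → ℤ[X]) i ((Fin.cons j c : Fin (d + 1) → κ) a))).submatrix
        (Fin.succAbove i.succ) Fin.succ =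
      Matrix.of fun (a : Fin d) (b : Fin d) =>
        ev z ((Fin.cons P r : Fin (d + 1) → κ → ℤ[X]) (i.succ.succAbove a) (c b)) := by
    intro i; ext a b; simp
  rw [e0] at hj
  rw [ev_minor]
  have : ∑ i : Fin d, -((-1 : ℂ) ^ ((i : ℕ) + 1) * Matrix.det
    (Matrix.of fun (a : Fin d) (b : Fin d) =>
      ev z ((Fin.cons P r : Fin (d + 1) → κ → ℤ[X]) (i.succ.succAbove a) (c b)))) * ev z (r i j) =
      - ∑ x : Fin d, (-1 : ℂ) ^ ((x : ℕ) + 1) *
        ev z ((Fin.cons P r : Fin (d + 1) → κ → ℤ[X]) x.succ j) *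
        ((Matrix.of fun (i : Fin (d + 1)) (a : Fin (d + 1)) =>
          ev z ((Fin.cons P r : Fin (d + 1) → κ → ℤ[X]) i ((Fin.cons j c : Fin (d + 1) → κ) a))).submatrix
          (Fin.succAbove x.succ) Fin.succ).det := by
    rw [← Finset.sum_neg_distrib]
    apply Finset.sum_congr rfl
    intro i _
    rw [e1 i, Fin.cons_succ]; ring
  rw [this]
  linear_combination hj

end main

end Crest.Agent.R98.X
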